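import Vale.Agent.Lib.P333.CertSound

namespace Vale.Agent.Lib.P333

/-- Certificate tree for families of five strings. -/
def tree5 : CTree :=
  CTree.cons CTree.nil (CTree.cons (CTree.cons CTree.nil (CTree.cons CTree.nil (CTree.cons CTree.nil (CTree.cons CTree.nil (CTree.cons CTree.nil (CTree.cons CTree.nil (CTree.cons CTree.nil (CTree.cons (CTree.leaf 1 10389515967080190639243526272) (CTree.cons (CTree.leaf 1 319314947846860031413321856) (CTree.cons (CTree.leaf 1 319163889113868862166270080) (CTree.cons (CTree.leaf 1 2783081337087620714152883791607693440) (CTree.cons CTree.nil (CTree.cons CTree.nil (CTree.cons (CTree.leaf 1 628799811748479797154087040) (CTree.cons (CTree.leaf 1 474017164994166190406500480) (CTree.cons (CTree.leaf 1 669848130184036010920426900293222528) (CTree.cons CTree.nil (CTree.cons (CTree.leaf 1 2783081339570716458029004717035159680) (CTree.cons CTree.nil (CTree.cons (CTree.leaf 1 474017164994166189869564032) (CTree.cons (CTree.leaf 1 669848130184036010920426900293222528) (CTree.cons CTree.nil (CTree.cons (CTree.leaf 1 2783081339570716458029004717035159680) (CTree.cons (CTree.leaf 1 2741542964702589043233395111615856768)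 (CTree.cons CTree.nil CTree.nil))))))))))))))))))))))))) (CTree.cons (CTree.cons CTree.nil (CTree.cons CTree.nil (CTree.cons CTree.nil (CTree.cons CTree.nil (CTree.cons CTree.nil (CTree.cons (CTree.leaf 1 10141694535026519834189840781442) (CTree.cons CTree.nil (CTree.cons CTree.nil (CTree.cons (CTree.leaf 1 7749216867332012683793338498) (CTree.cons (CTree.leaf 1 10379839448508472425193214082) (CTree.cons CTree.nil (CTree.cons (CTree.leaf 1 42471404030520671361763734323737) (CTree.cons CTree.nil (CTree.cons (CTree.leaf 1 154900890459546260180897922) (CTree.cons (CTree.leaf 1 154860748651932885303038082) (CTree.cons (CTree.leaf 1 2783092032564354075156915996676719129) (CTree.cons (CTree.leaf 1 10141692157316688781256850739330) (CTree.cons CTree.nil (CTree.cons CTree.nil (CTree.cons (CTree.leaf 1 154860748651932884766101634) (CTree.cons (CTree.leaf 1 2783092032564321314239340647151174169) (CTree.cons (CTree.leaf 1 10141692006256301561696577196162) (CTree.cons CTree.nil (CTree.cons (CTree.leaf 1 10141692157316688781256850739330) (CTree.cons CTree.nil CTree.nil))))))))))))))))))))))))) (CTree.cons (CTree.cons CTree.nil (CTree.cons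 CTree.nil (CTree.cons CTree.nil (CTree.cons CTree.nil (CTree.cons CTree.nil (CTree.cons (CTree.leaf 1 665294887376062646646224468213039624) (CTree.cons CTree.nil (CTree.cons (CTree.leaf 1 7739545460775095650395689090) (CTree.cons CTree.nil (CTree.cons (CTree.leaf 1 20916389804802632486379212898841) (CTree.cons (CTree.leaf 1 2741542892900739816592577470623711769) (CTree.cons (CTree.leaf 1 20916389804804395091474653184537) (CTree.cons CTree.nil (CTree.cons CTree.nil (CTree.cons (CTree.leaf 1 10389626589859712968374685826) (CTree.cons CTree.nil (CTree.cons (CTree.leaf 1 2741542882834132539473109156631478809) (CTree.cons (CTree.leaf 1 664635162201398250228867607861199385) (CTree.cons CTree.nil (CTree.cons (CTree.leaf 1 484897349757056140006985858) (CTree.cons (CTree.leaf 1 664635162201398247923869075142344849) (CTree.cons (CTree.leaf 1 664635162201398247888965026978988569) (CTree.cons (CTree.leaf 1 664635162201398250228867607861199385) (CTree.cons CTree.nil (CTree.cons CTree.nil CTree.nil))))))))))))))))))))))))) (CTree.cons (CTree.cons CTree.nil (CTree.cons CTree.nil (CTree.cons CTree.nil (CTree.cons CTree.nil (CTree.cons CTree.nil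 (CTree.cons (CTree.leaf 1 2788273554418174718603844845774176648) (CTree.cons CTree.nil (CTree.cons (CTree.leaf 1 649351403105723498034958466) (CTree.cons (CTree.leaf 1 42545842428938128910959416318218) (CTree.cons CTree.nil (CTree.cons (CTree.leaf 1 2788274901271550018885640967892894096) (CTree.cons (CTree.leaf 1 42548178075982301278747524468866) (CTree.cons CTree.nil (CTree.cons (CTree.leaf 1 649351403105723498026045570) (CTree.cons CTree.nil (CTree.cons (CTree.leaf 1 2788273554560827965355771504278708626) (CTree.cons (CTree.leaf 1 49343606892391979617822668452728163475858) (CTree.cons (CTree.leaf 1 42550661207255115075714223773962) (CTree.cons CTree.nil (CTree.cons CTree.nil (CTree.cons CTree.nil (CTree.cons (CTree.leaf 1 2788273554413303432098997617965531536) (CTree.cons (CTree.leaf 1 2788273554413303432098998167721351434) (CTree.cons (CTree.leaf 1 2788273554560794835508944180096344466) (CTree.cons CTree.nil CTree.nil))))))))))))))))))))))))) (CTree.cons (CTree.cons CTree.nil (CTree.cons CTree.nil (CTree.cons (CTree.leaf 1 10151594317791186301792282022018) (CTree.cons (CTree.leaf 1 507218851317356668551968090296450) (CTree.cons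 (CTree.leaf 1 42555893553936695167218912792706) (CTree.cons CTree.nil (CTree.cons CTree.nil (CTree.cons CTree.nil (CTree.cons CTree.nil (CTree.cons CTree.nil (CTree.cons CTree.nil (CTree.cons (CTree.leaf 1 2783101936084743897616122855654359577) (CTree.cons CTree.nil (CTree.cons (CTree.leaf 1 41832785339534091923141161583129) (CTree.cons (CTree.leaf 1 31691419826166659640360313627026) (CTree.cons CTree.nil (CTree.cons (CTree.leaf 1 2741542882998546450396062172352021017) (CTree.cons (CTree.leaf 1 2783101936084635598434205695145083417) (CTree.cons CTree.nil (CTree.cons (CTree.leaf 1 31691580537707027220261464768913) (CTree.cons CTree.nil (CTree.cons (CTree.leaf 1 2741542882998546450396062172352021017) (CTree.cons (CTree.leaf 1 2783101936084635598434205695145083417) (CTree.cons (CTree.leaf 1 2741542882998546450396062172352021017) (CTree.cons CTree.nil CTree.nil))))))))))))))))))))))))) (CTree.cons CTree.nil (CTree.cons (CTree.cons CTree.nil (CTree.cons (CTree.leaf 1 10389515967080190639243526272) (CTree.cons CTree.nil (CTree.cons (CTree.leaf 1 7739545460775095650395689090) (CTree.cons (CTree.leaf 1 649351403105723498034958466) (CTree.cons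 CTree.nil (CTree.cons CTree.nil (CTree.cons CTree.nil (CTree.cons CTree.nil (CTree.cons CTree.nil (CTree.cons (CTree.leaf 1 42466765382152464258058515251737) (CTree.cons CTree.nil (CTree.cons CTree.nil (CTree.cons (CTree.leaf 1 628643789799620286456594969) (CTree.cons (CTree.leaf 1 473901284276431243288584594) (CTree.cons (CTree.leaf 1 41198799257356441555931077673497) (CTree.cons (CTree.leaf 1 42466765382150811743685999985177) (CTree.cons CTree.nil (CTree.cons CTree.nil (CTree.cons (CTree.leaf 1 473901284276431243288576401) (CTree.cons (CTree.leaf 1 41198799257356441555931077673497) (CTree.cons (CTree.leaf 1 42466765382150811743685999985177) (CTree.cons CTree.nil (CTree.cons (CTree.leaf 1 41198799257356441555931077673497) (CTree.cons CTree.nil CTree.nil))))))))))))))))))))))))) (CTree.cons (CTree.cons CTree.nil (CTree.cons (CTree.leaf 1 319314947846860031413321856) (CTree.cons (CTree.leaf 1 7749216867332012683793338498) (CTree.cons CTree.nil (CTree.cons (CTree.leaf 1 42545832757918377194992471511170) (CTree.cons CTree.nil (CTree.cons CTree.nil (CTree.cons CTree.nil (CTree.cons CTree.nil (CTree.cons CTree.nil (CTree.cons (CTree.leaf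 1 42070473453854343762229899893002) (CTree.cons (CTree.leaf 1 42070469827076884935921676917002) (CTree.cons CTree.nil (CTree.cons CTree.nil (CTree.cons (CTree.leaf 1 319158777712692510807687301) (CTree.cons (CTree.leaf 1 42070309115537633387273638189322) (CTree.cons CTree.nil (CTree.cons (CTree.leaf 1 42070473453854343762229899893002) (CTree.cons CTree.nil (CTree.cons (CTree.leaf 1 319158777712657322140631173) (CTree.cons (CTree.leaf 1 42070473453854343762229899893002) (CTree.cons (CTree.leaf 1 42070469827076884935921676917002) (CTree.cons (CTree.leaf 1 42070473453854343762229899893002) (CTree.cons CTree.nil (CTree.cons CTree.nil CTree.nil))))))))))))))))))))))))) (CTree.cons (CTree.cons CTree.nil (CTree.cons (CTree.leaf 1 319163889113868862166270080) (CTree.cons (CTree.leaf 1 773836992306160469289348075924033666) (CTree.cons (CTree.leaf 1 20916389804802056025626909475353) (CTree.cons CTree.nil (CTree.cons CTree.nil (CTree.cons CTree.nil (CTree.cons CTree.nil (CTree.cons CTree.nil (CTree.cons CTree.nil (CTree.cons (CTree.leaf 1 31929104238208659941443620176136) (CTree.cons (CTree.leaf 1 31929265025249820250629987705226) (CTree.cons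 CTree.nil (CTree.cons (CTree.leaf 1 319158777598967239623123338) (CTree.cons CTree.nil (CTree.cons (CTree.leaf 1 31929104238208659941443620176136) (CTree.cons (CTree.leaf 1 31929265025249820250629987705226) (CTree.cons (CTree.leaf 1 31773312385592634270443882807833) (CTree.cons CTree.nil (CTree.cons CTree.nil (CTree.cons (CTree.leaf 1 10146313727155931095011802349971) (CTree.cons CTree.nil (CTree.cons (CTree.leaf 1 31929104238208659941443620176136) (CTree.cons (CTree.leaf 1 31929104238208659941443620176136) (CTree.cons CTree.nil CTree.nil))))))))))))))))))))))))) (CTree.cons (CTree.cons CTree.nil (CTree.cons (CTree.leaf 1 42466614309276837193810929582208) (CTree.cons CTree.nil (CTree.cons (CTree.leaf 1 665294887684192302732272798698111513) (CTree.cons (CTree.leaf 1 752925590165570049738431758255065490) (CTree.cons CTree.nil (CTree.cons CTree.nil (CTree.cons (CTree.leaf 1 42466765382152464266854608273945) (CTree.cons (CTree.leaf 1 179670460501983430219605607977018047398425) (CTree.cons (CTree.leaf 1 194188545481241257200485148467594) (CTree.cons CTree.nil (CTree.cons CTree.nil (CTree.cons CTree.nil (CTree.cons CTree.nil (CTree.cons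 CTree.nil (CTree.cons CTree.nil (CTree.cons (CTree.leaf 1 132372623997552262058839580333312536811650) (CTree.cons (CTree.leaf 1 5787500426213417133364052364780522504325) (CTree.cons CTree.nil (CTree.cons (CTree.leaf 1 31057594490802547795013184061841) (CTree.cons CTree.nil (CTree.cons (CTree.leaf 1 132372623997552262058839580333312536811650) (CTree.cons (CTree.leaf 1 5787500426213417133364052364780522504325) (CTree.cons (CTree.leaf 1 5787500426213417133364052364780522504325) (CTree.cons CTree.nil CTree.nil))))))))))))))))))))))))) (CTree.cons (CTree.cons CTree.nil (CTree.cons CTree.nil (CTree.cons (CTree.leaf 1 42466775053557945122055431721090) (CTree.cons (CTree.leaf 1 20916389804804395092505445335577) (CTree.cons (CTree.leaf 1 2788273554581384408208114618909462658) (CTree.cons (CTree.leaf 1 2050999725725894506848677566074126725) (CTree.cons CTree.nil (CTree.cons CTree.nil (CTree.cons (CTree.leaf 1 42466449895364754861708631677194) (CTree.cons (CTree.leaf 1 194188381142924546825528886763914) (CTree.cons CTree.nil (CTree.cons CTree.nil (CTree.cons CTree.nil (CTree.cons CTree.nil (CTree.cons CTree.nil (CTree.cons (CTree.leaf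 1 1994034993958902500848895019435229445) (CTree.cons CTree.nil (CTree.cons (CTree.leaf 1 2050999728361312579706488480111067525) (CTree.cons CTree.nil (CTree.cons (CTree.leaf 1 31691580537706489329788653207953) (CTree.cons (CTree.leaf 1 1994034993958902500848895019435229445) (CTree.cons CTree.nil (CTree.cons (CTree.leaf 1 2050999728361312579706488480111067525) (CTree.cons (CTree.leaf 1 2783101542734023671247400489478324485) (CTree.cons CTree.nil CTree.nil))))))))))))))))))))))))) (CTree.cons CTree.nil (CTree.cons (CTree.cons CTree.nil (CTree.cons (CTree.leaf 1 628799811748479797154087040) (CTree.cons (CTree.leaf 1 154900890459546260180897922) (CTree.cons CTree.nil (CTree.cons (CTree.leaf 1 649351403105723498026045570) (CTree.cons (CTree.leaf 1 41832785339534091923141027365401) (CTree.cons CTree.nil (CTree.cons (CTree.leaf 1 628643789799620286456594969) (CTree.cons CTree.nil (CTree.cons (CTree.leaf 1 319158777598967239623123338) (CTree.cons CTree.nil (CTree.cons CTree.nil (CTree.cons CTree.nil (CTree.cons CTree.nil (CTree.cons CTree.nil (CTree.cons (CTree.leaf 1 41198799254850063660538453623321) (CTree.cons (CTree.leaf 1 41832785339531748099770634338841)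 (CTree.cons CTree.nil (CTree.cons CTree.nil (CTree.cons (CTree.leaf 1 319158777712657321737912453) (CTree.cons (CTree.leaf 1 41198799254850063660538453623321) (CTree.cons (CTree.leaf 1 41832785339531748099770634338841) (CTree.cons (CTree.leaf 1 41198799254850063660538453623321) (CTree.cons CTree.nil (CTree.cons CTree.nil CTree.nil))))))))))))))))))))))))) (CTree.cons (CTree.cons CTree.nil (CTree.cons (CTree.leaf 1 474017164994166190406500480) (CTree.cons (CTree.leaf 1 154860748651932885303038082) (CTree.cons (CTree.leaf 1 10389626589859712968374685826) (CTree.cons CTree.nil (CTree.cons (CTree.leaf 1 31691580537707027211465371754898) (CTree.cons CTree.nil (CTree.cons (CTree.leaf 1 473901284276431243288584594) (CTree.cons (CTree.leaf 1 319158777712692510807687301) (CTree.cons CTree.nil (CTree.cons CTree.nil (CTree.cons CTree.nil (CTree.cons CTree.nil (CTree.cons CTree.nil (CTree.cons CTree.nil (CTree.cons (CTree.leaf 1 31691584164483333978273219158418) (CTree.cons (CTree.leaf 1 31691580537707027211465371754898) (CTree.cons (CTree.leaf 1 31057594450551752226754468061586) (CTree.cons CTree.nil (CTree.cons CTree.nil (CTree.cons (CTree.leaf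 1 30431199208524989036913860616594) (CTree.cons (CTree.leaf 1 31691580537707027211465371754898) (CTree.cons CTree.nil (CTree.cons (CTree.leaf 1 31057594450551752226754468061586) (CTree.cons CTree.nil CTree.nil))))))))))))))))))))))))) (CTree.cons (CTree.cons CTree.nil (CTree.cons (CTree.leaf 1 194188551681892916650728561901696) (CTree.cons (CTree.leaf 1 42466449857474642942635305144450) (CTree.cons CTree.nil (CTree.cons (CTree.leaf 1 42555893553936695176006281793666) (CTree.cons CTree.nil (CTree.cons CTree.nil (CTree.cons (CTree.leaf 1 41198799295135373418888239383065) (CTree.cons (CTree.leaf 1 8529002002971215542371251314468241080848) (CTree.cons (CTree.leaf 1 194188545481241257200485148467594) (CTree.cons CTree.nil (CTree.cons (CTree.leaf 1 44577120208885415691477677417781853225488) (CTree.cons CTree.nil (CTree.cons (CTree.leaf 1 41198799292628995523495615332889) (CTree.cons (CTree.leaf 1 31691584164483948156096876192146) (CTree.cons CTree.nil (CTree.cons CTree.nil (CTree.cons CTree.nil (CTree.cons CTree.nil (CTree.cons CTree.nil (CTree.cons CTree.nil (CTree.cons (CTree.leaf 1 8519785827444744056186747414141570384133) (CTree.cons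 (CTree.leaf 1 8509759361580924841071049224234668195973) (CTree.cons (CTree.leaf 1 8509759361580924841071049224234668195973) (CTree.cons CTree.nil CTree.nil))))))))))))))))))))))))) (CTree.cons (CTree.cons CTree.nil (CTree.cons CTree.nil (CTree.cons (CTree.leaf 1 10144168037395259541806648987778) (CTree.cons (CTree.leaf 1 2082618262068575084516597173189152898) (CTree.cons (CTree.leaf 1 2788274901271552214662645612951898628) (CTree.cons (CTree.leaf 1 1386383829147770037703447412024082693) (CTree.cons CTree.nil (CTree.cons (CTree.leaf 1 42466765382151388204438303408665) (CTree.cons CTree.nil (CTree.cons (CTree.leaf 1 194188381142924546825528886763914) (CTree.cons (CTree.leaf 1 1386840339339430790170456450525102469) (CTree.cons CTree.nil (CTree.cons CTree.nil (CTree.cons (CTree.leaf 1 41832785339532324560522937762329) (CTree.cons (CTree.leaf 1 31691419790916047754962155413906) (CTree.cons CTree.nil (CTree.cons CTree.nil (CTree.cons CTree.nil (CTree.cons CTree.nil (CTree.cons CTree.nil (CTree.cons (CTree.leaf 1 1386383829147770037742008899717824773) (CTree.cons CTree.nil (CTree.cons (CTree.leaf 1 1386840339339430790170456450525102469)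 (CTree.cons (CTree.leaf 1 1386383829147770037742008899717824773) (CTree.cons CTree.nil CTree.nil))))))))))))))))))))))))) (CTree.cons (CTree.cons CTree.nil (CTree.cons (CTree.leaf 1 42469258189701305098613222604928) (CTree.cons CTree.nil (CTree.cons (CTree.leaf 1 31778232713679079428317408465026) (CTree.cons (CTree.leaf 1 2788273557036674858163011224440281354) (CTree.cons (CTree.leaf 1 2715602084353735852718179516583313809) (CTree.cons CTree.nil (CTree.cons CTree.nil (CTree.cons (CTree.leaf 1 41198799297367429417236509563146) (CTree.cons (CTree.leaf 1 31770647917956757705610479600153) (CTree.cons (CTree.leaf 1 2783081257698671065879801067583635589) (CTree.cons (CTree.leaf 1 2715602076923722850289460491246966914) (CTree.cons CTree.nil (CTree.cons CTree.nil (CTree.cons (CTree.leaf 1 31057594490802547795013184070034) (CTree.cons CTree.nil (CTree.cons CTree.nil (CTree.cons CTree.nil (CTree.cons CTree.nil (CTree.cons CTree.nil (CTree.cons (CTree.leaf 1 2783102414262015883193692210905809029) (CTree.cons (CTree.leaf 1 2715602076923722850289460491246966914) (CTree.cons CTree.nil (CTree.cons (CTree.leaf 1 2783081260342551490347706479752708229)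 (CTree.cons CTree.nil CTree.nil))))))))))))))))))))))))) (CTree.cons CTree.nil (CTree.cons (CTree.cons CTree.nil (CTree.cons (CTree.leaf 1 474017164994166189869564032) (CTree.cons (CTree.leaf 1 154860748651932884766101634) (CTree.cons (CTree.leaf 1 484897349757056140006985858) (CTree.cons CTree.nil (CTree.cons (CTree.leaf 1 31691580537707027211465371746705) (CTree.cons CTree.nil (CTree.cons (CTree.leaf 1 473901284276431243288576401) (CTree.cons (CTree.leaf 1 319158777712657322140631173) (CTree.cons CTree.nil (CTree.cons (CTree.leaf 1 31057594453023615932056022352273) (CTree.cons (CTree.leaf 1 31691580537705912869036349784465) (CTree.cons CTree.nil (CTree.cons (CTree.leaf 1 319158777712657321737912453) (CTree.cons CTree.nil (CTree.cons CTree.nil (CTree.cons CTree.nil (CTree.cons CTree.nil (CTree.cons CTree.nil (CTree.cons CTree.nil (CTree.cons (CTree.leaf 1 30431199210996852742215414907281) (CTree.cons (CTree.leaf 1 31691580537705912869036349784465) (CTree.cons (CTree.leaf 1 31057594453023615932056022352273) (CTree.cons CTree.nil (CTree.cons CTree.nil CTree.nil))))))))))))))))))))))))) (CTree.cons (CTree.cons CTree.nil (CTree.cons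 (CTree.leaf 1 194188551681892916650728561901696) (CTree.cons (CTree.leaf 1 42466449857474642942635305144450) (CTree.cons (CTree.leaf 1 664655206926519063026015878207308313) (CTree.cons CTree.nil (CTree.cons CTree.nil (CTree.cons CTree.nil (CTree.cons (CTree.leaf 1 41198799295135373418888239383065) (CTree.cons (CTree.leaf 1 8508430122807961562223199901565810180624) (CTree.cons (CTree.leaf 1 194188381142924546825528886763914) (CTree.cons CTree.nil (CTree.cons (CTree.leaf 1 183072043394304661900237273734379039031824) (CTree.cons CTree.nil (CTree.cons (CTree.leaf 1 41198799292628995523495615332889) (CTree.cons (CTree.leaf 1 30431199248775784605172576625042) (CTree.cons CTree.nil (CTree.cons (CTree.leaf 1 2741716159611575236618249118928930842) (CTree.cons (CTree.leaf 1 21402831067039867117386999207592854032) (CTree.cons CTree.nil (CTree.cons (CTree.leaf 1 30431199248775784605172576616849) (CTree.cons CTree.nil (CTree.cons CTree.nil (CTree.cons CTree.nil (CTree.cons CTree.nil (CTree.cons CTree.nil CTree.nil))))))))))))))))))))))))) (CTree.cons (CTree.cons CTree.nil (CTree.cons CTree.nil (CTree.cons (CTree.leaf 1 10141684790590996201320947978370)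 (CTree.cons (CTree.leaf 1 664635162201402951843606118731940368) (CTree.cons (CTree.leaf 1 42555893553936695176006281793666) (CTree.cons (CTree.leaf 1 2741726929687612486058251948254167577) (CTree.cons CTree.nil (CTree.cons (CTree.leaf 1 42466765382151388204438303408665) (CTree.cons (CTree.leaf 1 42466449895364754861708631677194) (CTree.cons CTree.nil (CTree.cons (CTree.leaf 1 2783101938892965204544342614145106457) (CTree.cons CTree.nil (CTree.cons CTree.nil (CTree.cons (CTree.leaf 1 41832785339532324560522937762329) (CTree.cons (CTree.leaf 1 31691419790916047754962155413906) (CTree.cons (CTree.leaf 1 2741726929687458882365881123977953817) (CTree.cons CTree.nil (CTree.cons (CTree.leaf 1 2783101938892965202853548228912742937) (CTree.cons CTree.nil (CTree.cons (CTree.leaf 1 31691580537706489329788653207953) (CTree.cons CTree.nil (CTree.cons CTree.nil (CTree.cons CTree.nil (CTree.cons CTree.nil (CTree.cons CTree.nil CTree.nil))))))))))))))))))))))))) (CTree.cons (CTree.cons CTree.nil (CTree.cons (CTree.leaf 1 42466775096409116019508653916288) (CTree.cons CTree.nil (CTree.cons (CTree.leaf 1 664797421478189684660396228709777945) (CTree.cons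 (CTree.leaf 1 2788273557036670413145645938604316938) (CTree.cons (CTree.leaf 1 2092526461329556537222180888062198297) (CTree.cons CTree.nil (CTree.cons CTree.nil (CTree.cons (CTree.leaf 1 42466614266423936349415686084874) (CTree.cons (CTree.leaf 1 194188545481241257200485148467594) (CTree.cons (CTree.leaf 1 2783081257698671065879801067583635589) (CTree.cons (CTree.leaf 1 2092526454392740184273438683598231682) (CTree.cons CTree.nil (CTree.cons (CTree.leaf 1 41198799292628995523495615332889) (CTree.cons CTree.nil (CTree.cons (CTree.leaf 1 2783081260342551490347705869876658309) (CTree.cons (CTree.leaf 1 2092526454392740184273438683598231682) (CTree.cons CTree.nil (CTree.cons CTree.nil (CTree.cons (CTree.leaf 1 31057594490802547795013184061841) (CTree.cons CTree.nil (CTree.cons CTree.nil (CTree.cons CTree.nil (CTree.cons CTree.nil (CTree.cons CTree.nil CTree.nil))))))))))))))))))))))))) (CTree.cons (CTree.cons CTree.nil (CTree.cons (CTree.leaf 1 194188551681892916650728561901696) (CTree.cons (CTree.leaf 1 41594940220879236791142861836418) (CTree.cons CTree.nil (CTree.cons (CTree.leaf 1 2788274901271552214014690216563974546) (CTree.cons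 (CTree.leaf 1 2741553424965728088149875400572995987) (CTree.cons CTree.nil (CTree.cons (CTree.leaf 1 41198799295135373418888239383065) (CTree.cons CTree.nil (CTree.cons (CTree.leaf 1 194188545481241257200485148467594) (CTree.cons (CTree.leaf 1 2700004507965740601894672397390905477) (CTree.cons (CTree.leaf 1 2741553420011706247160620316830011522) (CTree.cons CTree.nil (CTree.cons CTree.nil (CTree.cons (CTree.leaf 1 31057594490802547795013184070034) (CTree.cons (CTree.leaf 1 2700004510605994304243965533288464517) (CTree.cons (CTree.leaf 1 2741553420011592931155608269915492482) (CTree.cons (CTree.leaf 1 2700004510605994304243965533288464517) (CTree.cons CTree.nil (CTree.cons CTree.nil (CTree.cons CTree.nil (CTree.cons CTree.nil (CTree.cons CTree.nil (CTree.cons CTree.nil (CTree.cons CTree.nil CTree.nil))))))))))))))))))))))))) (CTree.cons CTree.nil CTree.nil))))))))))))))))))))))))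

theorem tree5_ok : chk 5 (pk (goalL 5)) tree5 [] 0 0 0 0 (pk (goalR0 5)) 0 = true := by
  decide +kernel

end Vale.Agent.Lib.P333
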