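import Vale.Agent.Lib.P333.CertSound

namespace Vale.Agent.Lib.P333

def tree6_0_1 : CTree :=
  CTree.cons CTree.nil (CTree.cons CTree.nil (CTree.cons CTree.nil (CTree.cons CTree.nil (CTree.cons CTree.nil (CTree.cons CTree.nil (CTree.cons CTree.nil (CTree.cons CTree.nil (CTree.cons (CTree.cons CTree.nil (CTree.cons CTree.nil (CTree.cons CTree.nil (CTree.cons CTree.nil (CTree.cons CTree.nil (CTree.cons CTree.nil (CTree.cons CTree.nil (CTree.cons CTree.nil (CTree.cons CTree.nil (CTree.cons CTree.nil (CTree.cons CTree.nil (CTree.cons CTree.nil (CTree.cons CTree.nil (CTree.cons CTree.nil (CTree.cons CTree.nil (CTree.cons (CTree.leaf 1 853921789803773922834918855409792) (CTree.cons (CTree.leaf 1 20929264718590652852822577512576) (CTree.cons (CTree.leaf 1 20916889091165704687455155781760) (CTree.cons (CTree.leaf 1 228671085325987109213074705015012393812096) (CTree.cons CTree.nil (CTree.cons CTree.nil (CTree.cons CTree.nil (CTree.cons (CTree.leaf 1 853297699794594572534444016009344) (CTree.cons (CTree.leaf 1 680887318418567412058118370623616) (CTree.cons (CTree.leaf 1 1577264733274457813219035458082944088866944) (CTree.cons CTree.nil (CTree.cons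 CTree.nil (CTree.cons (CTree.leaf 1 43920491649746223295041608091254143320192) (CTree.cons CTree.nil (CTree.cons (CTree.leaf 1 680887318418567412014133610545280) (CTree.cons (CTree.leaf 1 225971558785363895016371703619746309144704) (CTree.cons CTree.nil (CTree.cons CTree.nil (CTree.cons (CTree.leaf 1 43899914577291063638230193709713203462272) (CTree.cons (CTree.leaf 1 43920492482661826664350943531093101904000) (CTree.cons CTree.nil CTree.nil)))))))))))))))))))))))))))))))))))) (CTree.cons (CTree.cons CTree.nil (CTree.cons CTree.nil (CTree.cons CTree.nil (CTree.cons CTree.nil (CTree.cons CTree.nil (CTree.cons CTree.nil (CTree.cons CTree.nil (CTree.cons CTree.nil (CTree.cons CTree.nil (CTree.cons CTree.nil (CTree.cons CTree.nil (CTree.cons CTree.nil (CTree.cons (CTree.leaf 1 1370809243478633000117350951352402048) (CTree.cons CTree.nil (CTree.cons CTree.nil (CTree.cons CTree.nil (CTree.cons (CTree.leaf 1 20929264718590652852822971383936) (CTree.cons (CTree.leaf 1 20916889091165704687455549653120) (CTree.cons CTree.nil (CTree.cons CTree.nil (CTree.cons (CTree.leaf 1 1370808599915584145104278520857231488) (CTree.cons CTree.nil (CTree.cons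 (CTree.leaf 1 20929255193374539308217613811840) (CTree.cons (CTree.leaf 1 20926624422091857318061122650240) (CTree.cons (CTree.leaf 1 1370809075277305675772616307072696448) (CTree.cons CTree.nil (CTree.cons (CTree.leaf 1 1370809087653079291164197473114259584) (CTree.cons CTree.nil (CTree.cons CTree.nil (CTree.cons (CTree.leaf 1 20926624422091857274076362571904) (CTree.cons (CTree.leaf 1 1370819612630024930872789145590825088) (CTree.cons CTree.nil (CTree.cons (CTree.leaf 1 1370809075277305675772334836390953088) (CTree.cons CTree.nil (CTree.cons (CTree.leaf 1 1370809087653079291164197473114259584) (CTree.cons CTree.nil CTree.nil)))))))))))))))))))))))))))))))))))) (CTree.cons (CTree.cons CTree.nil (CTree.cons CTree.nil (CTree.cons CTree.nil (CTree.cons CTree.nil (CTree.cons CTree.nil (CTree.cons CTree.nil (CTree.cons CTree.nil (CTree.cons CTree.nil (CTree.cons CTree.nil (CTree.cons CTree.nil (CTree.cons CTree.nil (CTree.cons CTree.nil (CTree.cons (CTree.leaf 1 89890507627441983110449149751238047367296) (CTree.cons CTree.nil (CTree.cons CTree.nil (CTree.cons (CTree.leaf 1 20929264718592267640744067072128) (CTree.cons CTree.nil (CTree.cons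 (CTree.leaf 1 2036234292500451441882214328189386880) (CTree.cons (CTree.leaf 1 89890507627429604919129690078640680796288) (CTree.cons CTree.nil (CTree.cons (CTree.leaf 1 1371620292588069512090936555732009088) (CTree.cons CTree.nil (CTree.cons CTree.nil (CTree.cons (CTree.leaf 1 20916724636966548040940631228544) (CTree.cons CTree.nil (CTree.cons CTree.nil (CTree.cons (CTree.leaf 1 89836638216685698691088576497632321536128) (CTree.cons (CTree.leaf 1 89836638216685698879927895580184116527232) (CTree.cons CTree.nil (CTree.cons (CTree.leaf 1 20916724636966547996955871150208) (CTree.cons (CTree.leaf 1 89836638216685698688801215135389449257088) (CTree.cons CTree.nil (CTree.cons (CTree.leaf 1 89836638216685698691088576497670975651968) (CTree.cons (CTree.leaf 1 89836638216685698879927895580184116527232) (CTree.cons CTree.nil (CTree.cons CTree.nil CTree.nil)))))))))))))))))))))))))))))))))))) (CTree.cons (CTree.cons CTree.nil (CTree.cons CTree.nil (CTree.cons CTree.nil (CTree.cons CTree.nil (CTree.cons CTree.nil (CTree.cons CTree.nil (CTree.cons CTree.nil (CTree.cons CTree.nil (CTree.cons CTree.nil (CTree.cons CTree.nil (CTree.cons CTree.nil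 (CTree.cons CTree.nil (CTree.cons (CTree.leaf 1 89836024856492998970314837867012224581760) (CTree.cons CTree.nil (CTree.cons CTree.nil (CTree.cons (CTree.leaf 1 20916889091019745513441262698624) (CTree.cons (CTree.leaf 1 2035565128965297797228383449610584192) (CTree.cons CTree.nil (CTree.cons (CTree.leaf 1 89836004087305564828735335618488322097280) (CTree.cons CTree.nil (CTree.cons (CTree.leaf 1 2035422604905530055002323771567767680) (CTree.cons CTree.nil (CTree.cons (CTree.leaf 1 20916724677108277923873502658688) (CTree.cons CTree.nil (CTree.cons (CTree.leaf 1 95620715903086130145849634928556515131520) (CTree.cons CTree.nil (CTree.cons (CTree.leaf 1 2700036912451038651526974801224728704) (CTree.cons (CTree.leaf 1 1370951765197954020839142474701209728) (CTree.cons CTree.nil (CTree.cons CTree.nil (CTree.cons CTree.nil (CTree.cons CTree.nil (CTree.cons (CTree.leaf 1 89836003934476771356625465020220050112640) (CTree.cons (CTree.leaf 1 89836003934476771358986686867127183474816) (CTree.cons (CTree.leaf 1 89836637405230858219993341246185326313600) (CTree.cons CTree.nil CTree.nil)))))))))))))))))))))))))))))))))))) (CTree.cons (CTree.cons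 CTree.nil (CTree.cons CTree.nil (CTree.cons CTree.nil (CTree.cons CTree.nil (CTree.cons CTree.nil (CTree.cons CTree.nil (CTree.cons CTree.nil (CTree.cons CTree.nil (CTree.cons CTree.nil (CTree.cons (CTree.leaf 1 43952387951210225048684368585303874207872) (CTree.cons (CTree.leaf 1 43919786330289554444634716961758222352512) (CTree.cons (CTree.leaf 1 43919785519240425851824582035825094164608) (CTree.cons CTree.nil (CTree.cons CTree.nil (CTree.cons CTree.nil (CTree.cons CTree.nil (CTree.cons CTree.nil (CTree.cons CTree.nil (CTree.cons CTree.nil (CTree.cons CTree.nil (CTree.cons (CTree.leaf 1 14986144672563910112323284795995629193969860736) (CTree.cons CTree.nil (CTree.cons (CTree.leaf 1 225948162295719506337729943211882498293888) (CTree.cons (CTree.leaf 1 43898487031109152522227198976221247045760) (CTree.cons CTree.nil (CTree.cons CTree.nil (CTree.cons (CTree.leaf 1 14807738711049168495407381085264251421456400512) (CTree.cons (CTree.leaf 1 14986144672636601159148497183094329832963637376) (CTree.cons CTree.nil (CTree.cons (CTree.leaf 1 182392018507376787002802539388688041312384) (CTree.cons CTree.nil (CTree.cons CTree.nil (CTree.cons (CTree.leaf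 1 14807738711049168495407381085264251421456400512) (CTree.cons (CTree.leaf 1 14986144672636601159148497183094329832963637376) (CTree.cons (CTree.leaf 1 14807738711049168495407381085264251421456400512) (CTree.cons CTree.nil CTree.nil)))))))))))))))))))))))))))))))))))) (CTree.cons CTree.nil (CTree.cons CTree.nil (CTree.cons (CTree.cons CTree.nil (CTree.cons CTree.nil (CTree.cons CTree.nil (CTree.cons CTree.nil (CTree.cons CTree.nil (CTree.cons CTree.nil (CTree.cons CTree.nil (CTree.cons CTree.nil (CTree.cons (CTree.leaf 1 853921789803773922834918855409792) (CTree.cons CTree.nil (CTree.cons (CTree.leaf 1 20929264718592267640744067072128) (CTree.cons (CTree.leaf 1 20916889091019745513441262698624) (CTree.cons CTree.nil (CTree.cons CTree.nil (CTree.cons CTree.nil (CTree.cons CTree.nil (CTree.cons CTree.nil (CTree.cons CTree.nil (CTree.cons (CTree.leaf 1 228670420418765787289700056543627770396800) (CTree.cons CTree.nil (CTree.cons CTree.nil (CTree.cons CTree.nil (CTree.cons (CTree.leaf 1 51352859927299532272420983472256) (CTree.cons (CTree.leaf 1 41209024462748371986875061764224) (CTree.cons (CTree.leaf 1 43920491650053539683182189889534486970496)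 (CTree.cons CTree.nil (CTree.cons (CTree.leaf 1 228670420744388566538207867927185363894400) (CTree.cons CTree.nil (CTree.cons CTree.nil (CTree.cons (CTree.leaf 1 41209024462748371986874390610048) (CTree.cons (CTree.leaf 1 43920491650053539683182189889534486970496) (CTree.cons CTree.nil (CTree.cons (CTree.leaf 1 228670420744388566538207867927185363894400) (CTree.cons CTree.nil (CTree.cons (CTree.leaf 1 223225902873653241678072356661539144532096) (CTree.cons CTree.nil CTree.nil)))))))))))))))))))))))))))))))))))) (CTree.cons (CTree.cons CTree.nil (CTree.cons CTree.nil (CTree.cons CTree.nil (CTree.cons CTree.nil (CTree.cons CTree.nil (CTree.cons CTree.nil (CTree.cons CTree.nil (CTree.cons CTree.nil (CTree.cons (CTree.leaf 1 20929264718590652852822577512576) (CTree.cons (CTree.leaf 1 20929264718590652852822971383936) (CTree.cons CTree.nil (CTree.cons (CTree.leaf 1 43919785498947979632662766489012981072000) (CTree.cons CTree.nil (CTree.cons CTree.nil (CTree.cons CTree.nil (CTree.cons CTree.nil (CTree.cons CTree.nil (CTree.cons CTree.nil (CTree.cons (CTree.leaf 1 228670420744388256899737967846749664968832) (CTree.cons CTree.nil (CTree.cons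 (CTree.leaf 1 43920491660201700450425705144081618829440) (CTree.cons CTree.nil (CTree.cons CTree.nil (CTree.cons (CTree.leaf 1 31065188925057713744458011508864) (CTree.cons (CTree.leaf 1 43920491681982175984213289749016011210880) (CTree.cons CTree.nil (CTree.cons CTree.nil (CTree.cons (CTree.leaf 1 228670420744388256899737967846749664968832) (CTree.cons CTree.nil (CTree.cons (CTree.leaf 1 31065188925057713700473251430528) (CTree.cons (CTree.leaf 1 228670420744388256899737967846749664968832) (CTree.cons CTree.nil (CTree.cons (CTree.leaf 1 43899914923513010506350993275277987152000) (CTree.cons (CTree.leaf 1 228670420744388256899737967846749664968832) (CTree.cons CTree.nil (CTree.cons CTree.nil CTree.nil)))))))))))))))))))))))))))))))))))) (CTree.cons (CTree.cons CTree.nil (CTree.cons CTree.nil (CTree.cons CTree.nil (CTree.cons CTree.nil (CTree.cons CTree.nil (CTree.cons CTree.nil (CTree.cons CTree.nil (CTree.cons CTree.nil (CTree.cons (CTree.leaf 1 20916889091165704687455155781760) (CTree.cons (CTree.leaf 1 89847359478914843932710168248580476240000) (CTree.cons (CTree.leaf 1 1371620292132304478096212565069725824) (CTree.cons CTree.nil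 (CTree.cons CTree.nil (CTree.cons CTree.nil (CTree.cons CTree.nil (CTree.cons CTree.nil (CTree.cons CTree.nil (CTree.cons CTree.nil (CTree.cons (CTree.leaf 1 43920491650063135942589908291571382485120) (CTree.cons CTree.nil (CTree.cons (CTree.leaf 1 43920492309634948579850480407707210547328) (CTree.cons CTree.nil (CTree.cons (CTree.leaf 1 31067829332329093691934833246336) (CTree.cons CTree.nil (CTree.cons (CTree.leaf 1 43920491650063135942589908291571382485120) (CTree.cons CTree.nil (CTree.cons (CTree.leaf 1 43920492309634948579850480407707210547328) (CTree.cons (CTree.leaf 1 2788304614661497162334202601135997056) (CTree.cons CTree.nil (CTree.cons CTree.nil (CTree.cons (CTree.leaf 1 43920492309634948579850480407707210547328) (CTree.cons CTree.nil (CTree.cons CTree.nil (CTree.cons (CTree.leaf 1 43920491650063135942589908291571382485120) (CTree.cons (CTree.leaf 1 43920491650063135942589908291571382485120) (CTree.cons CTree.nil CTree.nil)))))))))))))))))))))))))))))))))))) (CTree.cons (CTree.cons CTree.nil (CTree.cons CTree.nil (CTree.cons CTree.nil (CTree.cons CTree.nil (CTree.cons CTree.nil (CTree.cons CTree.nil (CTree.cons CTree.nil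 (CTree.cons CTree.nil (CTree.cons (CTree.leaf 1 228671085325987109213074781012654935965824) (CTree.cons CTree.nil (CTree.cons (CTree.leaf 1 2877019411806093297577161469765946678028861568) (CTree.cons (CTree.leaf 1 2878373022458928715917432311944164616184070272) (CTree.cons CTree.nil (CTree.cons CTree.nil (CTree.cons CTree.nil (CTree.cons (CTree.leaf 1 228670420418765787289700056552423863419008) (CTree.cons (CTree.leaf 1 228670420744388256937516899709706826678400) (CTree.cons (CTree.leaf 1 1577210168087291708663096229725392228843648) (CTree.cons CTree.nil (CTree.cons CTree.nil (CTree.cons CTree.nil (CTree.cons CTree.nil (CTree.cons CTree.nil (CTree.cons CTree.nil (CTree.cons CTree.nil (CTree.cons CTree.nil (CTree.cons (CTree.leaf 1 2877024824427511384075494548033244722660180096) (CTree.cons (CTree.leaf 1 14629332770727738846614149966170629376207683712) (CTree.cons CTree.nil (CTree.cons (CTree.leaf 1 43899167222000260840895037190531087663232) (CTree.cons CTree.nil (CTree.cons CTree.nil (CTree.cons (CTree.leaf 1 2877024824427511384075494548033244722660180096) (CTree.cons (CTree.leaf 1 14629332770727738846614149966170629376207683712)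 (CTree.cons (CTree.leaf 1 14629332770727738846614149966170629376207683712) (CTree.cons CTree.nil CTree.nil)))))))))))))))))))))))))))))))))))) (CTree.cons CTree.nil (CTree.cons (CTree.cons CTree.nil (CTree.cons CTree.nil (CTree.cons CTree.nil (CTree.cons CTree.nil (CTree.cons CTree.nil (CTree.cons CTree.nil (CTree.cons CTree.nil (CTree.cons CTree.nil (CTree.cons CTree.nil (CTree.cons (CTree.leaf 1 228670420744398321244965191462964918091904) (CTree.cons (CTree.leaf 1 1371620292588069512090937586524160128) (CTree.cons (CTree.leaf 1 2876939073270895347835339820878363498845962368) (CTree.cons (CTree.leaf 1 14807738764212283708554200585024981169533419648) (CTree.cons CTree.nil (CTree.cons CTree.nil (CTree.cons CTree.nil (CTree.cons (CTree.leaf 1 3364812139644697067215038752719241344) (CTree.cons (CTree.leaf 1 43920492309627679422215948625823631802496) (CTree.cons CTree.nil (CTree.cons CTree.nil (CTree.cons CTree.nil (CTree.cons CTree.nil (CTree.cons CTree.nil (CTree.cons CTree.nil (CTree.cons (CTree.leaf 1 14807738721605108008961010305645702287703736448) (CTree.cons CTree.nil (CTree.cons CTree.nil (CTree.cons (CTree.leaf 1 14807738721605108008963428157284368596099727488)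 (CTree.cons CTree.nil (CTree.cons (CTree.leaf 1 182392018832365750622602792988530680856704) (CTree.cons (CTree.leaf 1 14807738721605108008961010305645702287703736448) (CTree.cons CTree.nil (CTree.cons CTree.nil (CTree.cons (CTree.leaf 1 14807738721605108008963428157284368596099727488) (CTree.cons (CTree.leaf 1 14807738721605108008961010305645702287703736448) (CTree.cons CTree.nil CTree.nil)))))))))))))))))))))))))))))))))))) (CTree.cons CTree.nil (CTree.cons (CTree.cons CTree.nil (CTree.cons CTree.nil (CTree.cons CTree.nil (CTree.cons CTree.nil (CTree.cons CTree.nil (CTree.cons CTree.nil (CTree.cons CTree.nil (CTree.cons CTree.nil (CTree.cons (CTree.leaf 1 853297699794594572534444016009344) (CTree.cons (CTree.leaf 1 20929255193374539308217613811840) (CTree.cons CTree.nil (CTree.cons (CTree.leaf 1 20916724677108277923873502658688) (CTree.cons (CTree.leaf 1 225948162295719506337729943203086405271680) (CTree.cons CTree.nil (CTree.cons CTree.nil (CTree.cons (CTree.leaf 1 51352859927299532272420983472256) (CTree.cons CTree.nil (CTree.cons (CTree.leaf 1 31067829332329093691934833246336) (CTree.cons CTree.nil (CTree.cons CTree.nil (CTree.cons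 CTree.nil (CTree.cons CTree.nil (CTree.cons CTree.nil (CTree.cons CTree.nil (CTree.cons (CTree.leaf 1 43919785528354304875242132366635099553920) (CTree.cons CTree.nil (CTree.cons (CTree.leaf 1 225948161798258423693929042728329985196160) (CTree.cons CTree.nil (CTree.cons CTree.nil (CTree.cons (CTree.leaf 1 31065188925057713700472714494080) (CTree.cons (CTree.leaf 1 43899831836000784074983539041231307866240) (CTree.cons CTree.nil (CTree.cons (CTree.leaf 1 225948161798258423693929042728329985196160) (CTree.cons (CTree.leaf 1 223225902862890906466021721586207656312960) (CTree.cons CTree.nil (CTree.cons CTree.nil CTree.nil)))))))))))))))))))))))))))))))))))) (CTree.cons (CTree.cons CTree.nil (CTree.cons CTree.nil (CTree.cons CTree.nil (CTree.cons CTree.nil (CTree.cons CTree.nil (CTree.cons CTree.nil (CTree.cons CTree.nil (CTree.cons CTree.nil (CTree.cons (CTree.leaf 1 680887318418567412058118370623616) (CTree.cons (CTree.leaf 1 20926624422091857318061122650240) (CTree.cons (CTree.leaf 1 20916724636966548040940631228544) (CTree.cons CTree.nil (CTree.cons (CTree.leaf 1 182392018507376787002801962927936409043072) (CTree.cons CTree.nil (CTree.cons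 CTree.nil (CTree.cons (CTree.leaf 1 41209024462748371986875061764224) (CTree.cons (CTree.leaf 1 31065188925057713744458011508864) (CTree.cons CTree.nil (CTree.cons CTree.nil (CTree.cons CTree.nil (CTree.cons CTree.nil (CTree.cons CTree.nil (CTree.cons CTree.nil (CTree.cons CTree.nil (CTree.cons (CTree.leaf 1 43899208760365064812030418019963750056064) (CTree.cons CTree.nil (CTree.cons (CTree.leaf 1 182392018832365750622602216527779048587392) (CTree.cons (CTree.leaf 1 179669759897008152366557145427019612946560) (CTree.cons CTree.nil (CTree.cons CTree.nil (CTree.cons (CTree.leaf 1 43919786157254763829834705965207338483840) (CTree.cons CTree.nil (CTree.cons (CTree.leaf 1 182392018832365750622602216527779048587392) (CTree.cons CTree.nil (CTree.cons (CTree.leaf 1 179669759897008152366557145427019612946560) (CTree.cons CTree.nil CTree.nil)))))))))))))))))))))))))))))))))))) (CTree.cons (CTree.cons CTree.nil (CTree.cons CTree.nil (CTree.cons CTree.nil (CTree.cons CTree.nil (CTree.cons CTree.nil (CTree.cons CTree.nil (CTree.cons CTree.nil (CTree.cons CTree.nil (CTree.cons (CTree.leaf 1 43920491660828569785122139811052557238400) (CTree.cons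 (CTree.leaf 1 43899914598524211340750472782736928669824) (CTree.cons CTree.nil (CTree.cons (CTree.leaf 1 43920491660838156486442112270603890851968) (CTree.cons CTree.nil (CTree.cons CTree.nil (CTree.cons CTree.nil (CTree.cons (CTree.leaf 1 43920491650053539683182189898330579992704) (CTree.cons (CTree.leaf 1 43920491681982175984213866209768314634368) (CTree.cons (CTree.leaf 1 43920492309627524604171158832902501826688) (CTree.cons CTree.nil (CTree.cons CTree.nil (CTree.cons (CTree.leaf 1 2877022102168413294317096405885820622298876307) (CTree.cons CTree.nil (CTree.cons (CTree.leaf 1 43919785528354304875242132375431192576128) (CTree.cons (CTree.leaf 1 43899208760365064849809349882920911765632) (CTree.cons CTree.nil (CTree.cons CTree.nil (CTree.cons CTree.nil (CTree.cons CTree.nil (CTree.cons CTree.nil (CTree.cons CTree.nil (CTree.cons CTree.nil (CTree.cons CTree.nil (CTree.cons (CTree.leaf 1 2877022102169235751805436644488441750458794112) (CTree.cons (CTree.leaf 1 14629332770727738836557136215255474051007709312) (CTree.cons (CTree.leaf 1 14629332770727738846614149966170629376207683712) (CTree.cons CTree.nil CTree.nil))))))))))))))))))))))))))))))))))))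 (CTree.cons CTree.nil (CTree.cons (CTree.cons CTree.nil (CTree.cons CTree.nil (CTree.cons CTree.nil (CTree.cons CTree.nil (CTree.cons CTree.nil (CTree.cons CTree.nil (CTree.cons CTree.nil (CTree.cons CTree.nil (CTree.cons CTree.nil (CTree.cons (CTree.leaf 1 43920492482038070512148196664963836280960) (CTree.cons (CTree.leaf 1 176948933893032533523610450289138715984000) (CTree.cons (CTree.leaf 1 2878327085040363417909472933371577249409073280) (CTree.cons (CTree.leaf 1 14517829023452196033143465693086774950849216640) (CTree.cons CTree.nil (CTree.cons CTree.nil (CTree.cons (CTree.leaf 1 228670420744388566538207867935981456916608) (CTree.cons CTree.nil (CTree.cons (CTree.leaf 1 43920492309627679422215948625823631802496) (CTree.cons (CTree.leaf 1 2877017677791673399419644769357836947398656128) (CTree.cons CTree.nil (CTree.cons CTree.nil (CTree.cons CTree.nil (CTree.cons (CTree.leaf 1 225948161798258423693929042737126078218368) (CTree.cons (CTree.leaf 1 182392018832365750622602792988531352010880) (CTree.cons CTree.nil (CTree.cons CTree.nil (CTree.cons CTree.nil (CTree.cons CTree.nil (CTree.cons CTree.nil (CTree.cons CTree.nil (CTree.cons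 (CTree.leaf 1 14517829023452053503853960081030162050578972800) (CTree.cons CTree.nil (CTree.cons CTree.nil (CTree.cons (CTree.leaf 1 2877017668450873882379853027174804836698357888) (CTree.cons (CTree.leaf 1 14517829023452053503853960081030162050578972800) (CTree.cons CTree.nil CTree.nil)))))))))))))))))))))))))))))))))))) (CTree.cons (CTree.cons CTree.nil (CTree.cons CTree.nil (CTree.cons CTree.nil (CTree.cons CTree.nil (CTree.cons CTree.nil (CTree.cons CTree.nil (CTree.cons CTree.nil (CTree.cons CTree.nil (CTree.cons (CTree.leaf 1 43899914923512850968430607479447433183360) (CTree.cons CTree.nil (CTree.cons (CTree.leaf 1 1370818743742505785994563613081862272) (CTree.cons (CTree.leaf 1 2878327063746744414142197416322825656162451584) (CTree.cons (CTree.leaf 1 14986144693904228648365342390785376060965716096) (CTree.cons CTree.nil (CTree.cons CTree.nil (CTree.cons CTree.nil (CTree.cons (CTree.leaf 1 3364822280694676106294546882509275264) (CTree.cons (CTree.leaf 1 43920492309627524604171158832902501826688) (CTree.cons (CTree.leaf 1 2877019357240245611389551486836845843915669632) (CTree.cons CTree.nil (CTree.cons (CTree.leaf 1 14986144672564234625760769154113294630414123136)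 (CTree.cons CTree.nil (CTree.cons CTree.nil (CTree.cons (CTree.leaf 1 179669759897008152366557721887771916370048) (CTree.cons CTree.nil (CTree.cons CTree.nil (CTree.cons CTree.nil (CTree.cons CTree.nil (CTree.cons CTree.nil (CTree.cons CTree.nil (CTree.cons (CTree.leaf 1 2878373342787296999631113268543185516150063232) (CTree.cons CTree.nil (CTree.cons (CTree.leaf 1 14986144693904249086590977080946125077872836736) (CTree.cons CTree.nil (CTree.cons (CTree.leaf 1 14629332770727738846614149966170629376207683712) (CTree.cons CTree.nil CTree.nil)))))))))))))))))))))))))))))))))))) (CTree.cons CTree.nil (CTree.cons (CTree.cons CTree.nil (CTree.cons CTree.nil (CTree.cons CTree.nil (CTree.cons CTree.nil (CTree.cons CTree.nil (CTree.cons CTree.nil (CTree.cons CTree.nil (CTree.cons CTree.nil (CTree.cons (CTree.leaf 1 680887318418567412014133610545280) (CTree.cons (CTree.leaf 1 20926624422091857274076362571904) (CTree.cons (CTree.leaf 1 20916724636966547996955871150208) (CTree.cons CTree.nil (CTree.cons (CTree.leaf 1 182392018507376787002801962927935737888896) (CTree.cons CTree.nil (CTree.cons CTree.nil (CTree.cons (CTree.leaf 1 41209024462748371986874390610048)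 (CTree.cons (CTree.leaf 1 31065188925057713700473251430528) (CTree.cons CTree.nil (CTree.cons (CTree.leaf 1 43899167222000260840894460729778784239744) (CTree.cons CTree.nil (CTree.cons (CTree.leaf 1 182392018832365750622602216527778377433216) (CTree.cons CTree.nil (CTree.cons (CTree.leaf 1 31065188925057713700472714494080) (CTree.cons CTree.nil (CTree.cons CTree.nil (CTree.cons CTree.nil (CTree.cons CTree.nil (CTree.cons CTree.nil (CTree.cons CTree.nil (CTree.cons CTree.nil (CTree.cons (CTree.leaf 1 43919786157254763834649232703475938820224) (CTree.cons CTree.nil (CTree.cons (CTree.leaf 1 182392018832365750622602216527778377433216) (CTree.cons (CTree.leaf 1 179669759897008152366557145427018941792384) (CTree.cons CTree.nil (CTree.cons CTree.nil CTree.nil)))))))))))))))))))))))))))))))))))) (CTree.cons (CTree.cons CTree.nil (CTree.cons CTree.nil (CTree.cons CTree.nil (CTree.cons CTree.nil (CTree.cons CTree.nil (CTree.cons CTree.nil (CTree.cons CTree.nil (CTree.cons CTree.nil (CTree.cons (CTree.leaf 1 43920491660828569785122139811052557238400) (CTree.cons (CTree.leaf 1 228670420419399612589960592558680300978304) (CTree.cons (CTree.leaf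 1 2877019411806093297577161469765946678028861568) (CTree.cons CTree.nil (CTree.cons CTree.nil (CTree.cons CTree.nil (CTree.cons CTree.nil (CTree.cons (CTree.leaf 1 43920491650053539683182189898330579992704) (CTree.cons (CTree.leaf 1 228670420744388256937516899709706826678400) (CTree.cons (CTree.leaf 1 43920492309627679422215948625823631802496) (CTree.cons CTree.nil (CTree.cons CTree.nil (CTree.cons (CTree.leaf 1 2877022080163794976799232368436298618325633427) (CTree.cons CTree.nil (CTree.cons (CTree.leaf 1 43899831836000784074983539050027400888448) (CTree.cons (CTree.leaf 1 43919786157254763867613637828164500193408) (CTree.cons CTree.nil (CTree.cons CTree.nil (CTree.cons (CTree.leaf 1 2877022080163794976799232368436298618325633427) (CTree.cons (CTree.leaf 1 14629332748058516659543281388224478661407607187) (CTree.cons CTree.nil (CTree.cons (CTree.leaf 1 43919786157254763834649809164228242243712) (CTree.cons CTree.nil (CTree.cons CTree.nil (CTree.cons CTree.nil (CTree.cons CTree.nil (CTree.cons CTree.nil (CTree.cons CTree.nil CTree.nil)))))))))))))))))))))))))))))))))))) (CTree.cons CTree.nil (CTree.cons (CTree.cons CTree.nil (CTree.cons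 CTree.nil (CTree.cons CTree.nil (CTree.cons CTree.nil (CTree.cons CTree.nil (CTree.cons CTree.nil (CTree.cons CTree.nil (CTree.cons CTree.nil (CTree.cons CTree.nil (CTree.cons (CTree.leaf 1 43899914598524211340750472782736928669824) (CTree.cons (CTree.leaf 1 2876886308886223474757008382776041267785695360) (CTree.cons (CTree.leaf 1 43920491660838156486442112270603890851968) (CTree.cons (CTree.leaf 1 14807738764212273562397709401192410308887117952) (CTree.cons CTree.nil (CTree.cons CTree.nil (CTree.cons (CTree.leaf 1 228670420744388566538207867935981456916608) (CTree.cons (CTree.leaf 1 228670420744388411755561689511973662883968) (CTree.cons CTree.nil (CTree.cons (CTree.leaf 1 14986144672563899342234022539542954435325657216) (CTree.cons CTree.nil (CTree.cons CTree.nil (CTree.cons CTree.nil (CTree.cons (CTree.leaf 1 225948161798258423693929042737126078218368) (CTree.cons (CTree.leaf 1 182392018832365750622602792988531352010880) (CTree.cons (CTree.leaf 1 2877022080195435444003023407907484288222429312) (CTree.cons CTree.nil (CTree.cons CTree.nil (CTree.cons (CTree.leaf 1 14986144671930448791328600309111420295522746496) (CTree.cons CTree.nil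 (CTree.cons (CTree.leaf 1 182392018832365750622602792988530680856704) (CTree.cons CTree.nil (CTree.cons CTree.nil (CTree.cons CTree.nil (CTree.cons CTree.nil (CTree.cons CTree.nil (CTree.cons CTree.nil CTree.nil)))))))))))))))))))))))))))))))))))) (CTree.cons (CTree.cons CTree.nil (CTree.cons CTree.nil (CTree.cons CTree.nil (CTree.cons CTree.nil (CTree.cons CTree.nil (CTree.cons CTree.nil (CTree.cons CTree.nil (CTree.cons CTree.nil (CTree.cons (CTree.leaf 1 43899914577291063638230193710872961155200) (CTree.cons CTree.nil (CTree.cons (CTree.leaf 1 2878327116941825742357156376619860972856737920) (CTree.cons (CTree.leaf 1 2878327062495745514046852794043087094916710528) (CTree.cons (CTree.leaf 1 14986144693904228648365342390785376060965716096) (CTree.cons CTree.nil (CTree.cons CTree.nil (CTree.cons CTree.nil (CTree.cons (CTree.leaf 1 228670420744388256937516899709706826678400) (CTree.cons (CTree.leaf 1 43920492309627524604171158832902501826688) (CTree.cons (CTree.leaf 1 2877019357240245611389551486836845843915669632) (CTree.cons CTree.nil (CTree.cons (CTree.leaf 1 14986144672564234625760769154113294630414123136) (CTree.cons CTree.nil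 (CTree.cons (CTree.leaf 1 223225902862890906466021721595003749335168) (CTree.cons CTree.nil (CTree.cons (CTree.leaf 1 2877019379909467785595071634903059404403441792) (CTree.cons CTree.nil (CTree.cons (CTree.leaf 1 14986144693904249086590977080946125077872836736) (CTree.cons CTree.nil (CTree.cons CTree.nil (CTree.cons (CTree.leaf 1 179669759897008152366557721887771245215872) (CTree.cons CTree.nil (CTree.cons CTree.nil (CTree.cons CTree.nil (CTree.cons CTree.nil (CTree.cons CTree.nil (CTree.cons CTree.nil CTree.nil)))))))))))))))))))))))))))))))))))) (CTree.cons (CTree.cons CTree.nil (CTree.cons CTree.nil (CTree.cons CTree.nil (CTree.cons CTree.nil (CTree.cons CTree.nil (CTree.cons CTree.nil (CTree.cons CTree.nil (CTree.cons CTree.nil (CTree.cons (CTree.leaf 1 223225902873653406091983824259902997594240) (CTree.cons (CTree.leaf 1 43952347050859913941800630855441603756160) (CTree.cons CTree.nil (CTree.cons (CTree.leaf 1 2878327063762321304867671180625323748843192448) (CTree.cons (CTree.leaf 1 14807738764212609331185957912480394393626148992) (CTree.cons CTree.nil (CTree.cons CTree.nil (CTree.cons (CTree.leaf 1 223225902873653241678072356670335237554304)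 (CTree.cons CTree.nil (CTree.cons (CTree.leaf 1 43920492309627524604171158832902501826688) (CTree.cons (CTree.leaf 1 2877019357240245611389551486836845843915669632) (CTree.cons CTree.nil (CTree.cons (CTree.leaf 1 14807738764212273567513770152605316207955083392) (CTree.cons CTree.nil (CTree.cons CTree.nil (CTree.cons (CTree.leaf 1 179669759897008152366557721887771916370048) (CTree.cons (CTree.leaf 1 2877019379909467785595071634903059404403441792) (CTree.cons CTree.nil (CTree.cons (CTree.leaf 1 14807738732316816427965956985104237394899697792) (CTree.cons (CTree.leaf 1 14629332770727738846614149966170629376207683712) (CTree.cons CTree.nil (CTree.cons CTree.nil (CTree.cons CTree.nil (CTree.cons CTree.nil (CTree.cons CTree.nil (CTree.cons CTree.nil (CTree.cons CTree.nil (CTree.cons CTree.nil CTree.nil)))))))))))))))))))))))))))))))))))) (CTree.cons CTree.nil CTree.nil)))))))))))))))))))))))))))))))))))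

theorem tree6_0_1_ok : chk 6 (pk (goalL 6)) tree6_0_1 (stk [((0 : Fin 6), (1 : Fin 6))]) 1 (om [((0 : Fin 6), (1 : Fin 6))]) (im [((0 : Fin 6), (1 : Fin 6))])
    (cm [((0 : Fin 6), (1 : Fin 6))]) (pk (goalR [((0 : Fin 6), (1 : Fin 6))])) 0 = true := by
  decide +kernel

def tree6_0_2 : CTree :=
  CTree.cons CTree.nil (CTree.cons CTree.nil (CTree.cons CTree.nil (CTree.cons CTree.nil (CTree.cons CTree.nil (CTree.cons CTree.nil (CTree.cons (CTree.cons CTree.nil (CTree.cons CTree.nil (CTree.cons CTree.nil (CTree.cons CTree.nil (CTree.cons CTree.nil (CTree.cons CTree.nil (CTree.cons CTree.nil (CTree.cons CTree.nil (CTree.cons CTree.nil (CTree.cons CTree.nil (CTree.cons CTree.nil (CTree.cons CTree.nil (CTree.cons CTree.nil (CTree.cons CTree.nil (CTree.cons CTree.nil (CTree.cons (CTree.leaf 1 665467919682110613094030655405232258) (CTree.cons (CTree.leaf 1 665467919836926295121832402121527426) (CTree.cons (CTree.leaf 1 664656870718004891543823502390988930) (CTree.cons CTree.nil (CTree.cons (CTree.leaf 1 14986190948904469029435548139609576944970498721) (CTree.cons CTree.nil (CTree.cons CTree.nil (CTree.cons (CTree.leaf 1 665467919517769878743570299479396482)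 (CTree.cons (CTree.leaf 1 664646093047535782823652948260163714) (CTree.cons CTree.nil (CTree.cons (CTree.leaf 1 5887622681279688824349390366578966845769056929) (CTree.cons CTree.nil (CTree.cons (CTree.leaf 1 228671126539682491479465008622292263109281) (CTree.cons CTree.nil (CTree.cons (CTree.leaf 1 664646093047535782823608963500085378) (CTree.cons CTree.nil (CTree.cons (CTree.leaf 1 5887622681279688824349390366578966845769056929) (CTree.cons CTree.nil (CTree.cons (CTree.leaf 1 228671126539682491479465008622292263109281) (CTree.cons (CTree.leaf 1 1438034658576697790817282951471366325928609) (CTree.cons CTree.nil CTree.nil)))))))))))))))))))))))))))))))))))) (CTree.cons CTree.nil (CTree.cons CTree.nil (CTree.cons (CTree.cons CTree.nil (CTree.cons CTree.nil (CTree.cons CTree.nil (CTree.cons CTree.nil (CTree.cons CTree.nil (CTree.cons CTree.nil (CTree.cons CTree.nil (CTree.cons CTree.nil (CTree.cons CTree.nil (CTree.cons CTree.nil (CTree.cons CTree.nil (CTree.cons CTree.nil (CTree.cons CTree.nil (CTree.cons (CTree.leaf 1 33282633005067234324595243386224578690) (CTree.cons CTree.nil (CTree.cons CTree.nil (CTree.cons (CTree.leaf 1 507852676657758510583243127001218)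 (CTree.cons (CTree.leaf 1 507852676468921422189869021663362) (CTree.cons (CTree.leaf 1 33282633005057414331784345359606681730) (CTree.cons CTree.nil (CTree.cons CTree.nil (CTree.cons CTree.nil (CTree.cons (CTree.leaf 1 507852676657613167319791823818882) (CTree.cons (CTree.leaf 1 507852676617470783245664776753282) (CTree.cons (CTree.leaf 1 2181213476806299221692547992364361827029122) (CTree.cons (CTree.leaf 1 33282633005064667776021568692397609090) (CTree.cons CTree.nil (CTree.cons CTree.nil (CTree.cons CTree.nil (CTree.cons (CTree.leaf 1 507852676617470783245664105599106) (CTree.cons (CTree.leaf 1 2181213476806299221732689944943998847291522) (CTree.cons (CTree.leaf 1 33282633005064667776021568692397609090) (CTree.cons CTree.nil (CTree.cons CTree.nil (CTree.cons (CTree.leaf 1 33282633005064856615340651209832861826) (CTree.cons CTree.nil CTree.nil)))))))))))))))))))))))))))))))))))) (CTree.cons (CTree.cons CTree.nil (CTree.cons CTree.nil (CTree.cons CTree.nil (CTree.cons CTree.nil (CTree.cons CTree.nil (CTree.cons CTree.nil (CTree.cons CTree.nil (CTree.cons CTree.nil (CTree.cons CTree.nil (CTree.cons CTree.nil (CTree.cons CTree.nil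 (CTree.cons CTree.nil (CTree.cons CTree.nil (CTree.cons (CTree.leaf 1 44581070981614646669189773959381454978) (CTree.cons CTree.nil (CTree.cons (CTree.leaf 1 680253158288797709211434471198850) (CTree.cons CTree.nil (CTree.cons (CTree.leaf 1 44581070969092588456519710232670703746) (CTree.cons (CTree.leaf 1 14878264612863116139796302211931609114821595266) (CTree.cons (CTree.leaf 1 880311148692387320218421397788039107907714) (CTree.cons CTree.nil (CTree.cons CTree.nil (CTree.cons CTree.nil (CTree.cons (CTree.leaf 1 680253158097451248858047023026306) (CTree.cons (CTree.leaf 1 43558236315438375936153739420553783087234) (CTree.cons CTree.nil (CTree.cons CTree.nil (CTree.cons (CTree.leaf 1 43558236315448113838352989442882893058178) (CTree.cons CTree.nil (CTree.cons (CTree.leaf 1 680253158097451248858046351872130) (CTree.cons (CTree.leaf 1 15053140198765458446451602646731072792342237314) (CTree.cons (CTree.leaf 1 90175491879988564619184898315295991599234) (CTree.cons CTree.nil (CTree.cons (CTree.leaf 1 43558236315448113838352989442882893058178) (CTree.cons CTree.nil (CTree.cons CTree.nil CTree.nil)))))))))))))))))))))))))))))))))))) (CTree.cons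 (CTree.cons CTree.nil (CTree.cons CTree.nil (CTree.cons CTree.nil (CTree.cons CTree.nil (CTree.cons CTree.nil (CTree.cons CTree.nil (CTree.cons CTree.nil (CTree.cons CTree.nil (CTree.cons CTree.nil (CTree.cons CTree.nil (CTree.cons CTree.nil (CTree.cons CTree.nil (CTree.cons CTree.nil (CTree.cons (CTree.leaf 1 55879508933410653068946561237979828354) (CTree.cons CTree.nil (CTree.cons (CTree.leaf 1 852653639730999817169812045500546) (CTree.cons (CTree.leaf 1 664809533506510818600668352981635202) (CTree.cons CTree.nil (CTree.cons (CTree.leaf 1 982138087574135110988601223069581476838170952405122) (CTree.cons (CTree.leaf 1 43558235482510065587805154749354274852994) (CTree.cons CTree.nil (CTree.cons CTree.nil (CTree.cons (CTree.leaf 1 852653639728491059975787546480770) (CTree.cons CTree.nil (CTree.cons (CTree.leaf 1 3979677945739816996224358969675403966713733113909378) (CTree.cons (CTree.leaf 1 43558235482512703423692758301379242102914) (CTree.cons CTree.nil (CTree.cons (CTree.leaf 1 664656229486716869858570766061277314) (CTree.cons CTree.nil (CTree.cons CTree.nil (CTree.cons (CTree.leaf 1 43557518956479712044448499680794874876034) (CTree.cons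 CTree.nil (CTree.cons CTree.nil (CTree.cons (CTree.leaf 1 2854632520540251422383864354987479253463535746) (CTree.cons (CTree.leaf 1 2854632520540241281169391122595359626648817794) (CTree.cons CTree.nil CTree.nil)))))))))))))))))))))))))))))))))))) (CTree.cons CTree.nil (CTree.cons (CTree.cons CTree.nil (CTree.cons CTree.nil (CTree.cons CTree.nil (CTree.cons CTree.nil (CTree.cons CTree.nil (CTree.cons CTree.nil (CTree.cons CTree.nil (CTree.cons CTree.nil (CTree.cons CTree.nil (CTree.cons (CTree.leaf 1 33282633017442859388900608585597259906) (CTree.cons (CTree.leaf 1 44581070981614646669766234711684878466) (CTree.cons (CTree.leaf 1 55879508933410690847878424195141537922) (CTree.cons CTree.nil (CTree.cons CTree.nil (CTree.cons CTree.nil (CTree.cons CTree.nil (CTree.cons CTree.nil (CTree.cons CTree.nil (CTree.cons (CTree.leaf 1 183415685035469707351375604195942730433185) (CTree.cons CTree.nil (CTree.cons CTree.nil (CTree.cons CTree.nil (CTree.cons (CTree.leaf 1 3447695268301807811038146370915140257) (CTree.cons (CTree.leaf 1 664645454436063172528465274547605634) (CTree.cons (CTree.leaf 1 225949552987502291987407951928584106017441) (CTree.cons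 CTree.nil (CTree.cons CTree.nil (CTree.cons (CTree.leaf 1 183415685035469707351375604195942730433185) (CTree.cons CTree.nil (CTree.cons (CTree.leaf 1 2783405934544202718941008844952764953) (CTree.cons (CTree.leaf 1 225949552987502291987407951928584106017441) (CTree.cons CTree.nil (CTree.cons CTree.nil (CTree.cons (CTree.leaf 1 183415685035469707351375604195942730433185) (CTree.cons (CTree.leaf 1 183415643486953634391792307502677490270881) (CTree.cons CTree.nil CTree.nil)))))))))))))))))))))))))))))))))))) (CTree.cons CTree.nil (CTree.cons (CTree.cons CTree.nil (CTree.cons CTree.nil (CTree.cons CTree.nil (CTree.cons CTree.nil (CTree.cons CTree.nil (CTree.cons CTree.nil (CTree.cons (CTree.leaf 1 664656870708333484446474513047097474) (CTree.cons CTree.nil (CTree.cons CTree.nil (CTree.cons CTree.nil (CTree.cons (CTree.leaf 1 680253158288797709211434471198850) (CTree.cons (CTree.leaf 1 852653639730999817169812045500546) (CTree.cons CTree.nil (CTree.cons CTree.nil (CTree.cons CTree.nil (CTree.cons CTree.nil (CTree.cons CTree.nil (CTree.cons CTree.nil (CTree.cons CTree.nil (CTree.cons (CTree.leaf 1 228671121347383140207737340088929229603489)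 (CTree.cons CTree.nil (CTree.cons CTree.nil (CTree.cons (CTree.leaf 1 10154215419882076725427396743298) (CTree.cons (CTree.leaf 1 10151584757156823707799871164546) (CTree.cons (CTree.leaf 1 228671121347383157064410006212579024306849) (CTree.cons (CTree.leaf 1 664656714882671181171379904100503682) (CTree.cons CTree.nil (CTree.cons CTree.nil (CTree.cons CTree.nil (CTree.cons (CTree.leaf 1 10151584757156823707799200010370) (CTree.cons (CTree.leaf 1 228671121347383157064410006212579024306849) (CTree.cons (CTree.leaf 1 664656702506897565776421124237758594) (CTree.cons CTree.nil (CTree.cons CTree.nil (CTree.cons (CTree.leaf 1 664656714882671181171379904100503682) (CTree.cons CTree.nil CTree.nil)))))))))))))))))))))))))))))))))))) (CTree.cons (CTree.cons CTree.nil (CTree.cons CTree.nil (CTree.cons CTree.nil (CTree.cons CTree.nil (CTree.cons CTree.nil (CTree.cons CTree.nil (CTree.cons (CTree.leaf 1 665467919836926294545371649818103938) (CTree.cons CTree.nil (CTree.cons CTree.nil (CTree.cons (CTree.leaf 1 507852676657758510583243127001218) (CTree.cons CTree.nil (CTree.cons (CTree.leaf 1 664647274369914860490261208929276034) (CTree.cons CTree.nil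 (CTree.cons CTree.nil (CTree.cons CTree.nil (CTree.cons CTree.nil (CTree.cons CTree.nil (CTree.cons CTree.nil (CTree.cons (CTree.leaf 1 3463272158877341663033181024682119298) (CTree.cons (CTree.leaf 1 2050967401144619762764529406739353730) (CTree.cons CTree.nil (CTree.cons CTree.nil (CTree.cons CTree.nil (CTree.cons (CTree.leaf 1 10148954023653111861197231231106) (CTree.cons CTree.nil (CTree.cons (CTree.leaf 1 3463272158877341663033181024682119298) (CTree.cons CTree.nil (CTree.cons (CTree.leaf 1 664665655443964040789034803674615938) (CTree.cons CTree.nil (CTree.cons (CTree.leaf 1 10148954023653111817212471152770) (CTree.cons (CTree.leaf 1 3463272158877341663033181024682119298) (CTree.cons (CTree.leaf 1 665467919508098471686753707963322498) (CTree.cons CTree.nil (CTree.cons (CTree.leaf 1 2050967401144619762764529406739353730) (CTree.cons CTree.nil (CTree.cons CTree.nil CTree.nil)))))))))))))))))))))))))))))))))))) (CTree.cons (CTree.cons CTree.nil (CTree.cons CTree.nil (CTree.cons CTree.nil (CTree.cons CTree.nil (CTree.cons CTree.nil (CTree.cons CTree.nil (CTree.cons (CTree.leaf 1 664656870718004890967362750087565442) (CTree.cons CTree.nil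 (CTree.cons CTree.nil (CTree.cons (CTree.leaf 1 507852676468921422189869021663362) (CTree.cons (CTree.leaf 1 44581070971568468535090470782468952194) (CTree.cons CTree.nil (CTree.cons CTree.nil (CTree.cons CTree.nil (CTree.cons CTree.nil (CTree.cons CTree.nil (CTree.cons CTree.nil (CTree.cons CTree.nil (CTree.cons (CTree.leaf 1 2798658148435176001122984229254336642) (CTree.cons (CTree.leaf 1 43568957587486537728273974009223807307906) (CTree.cons CTree.nil (CTree.cons CTree.nil (CTree.cons (CTree.leaf 1 10151594428563344596036249325698) (CTree.cons CTree.nil (CTree.cons (CTree.leaf 1 2798658148435176001122984229254336642) (CTree.cons (CTree.leaf 1 664645461862602836943281676405051522) (CTree.cons CTree.nil (CTree.cons (CTree.leaf 1 664655593327129474801520651047866498) (CTree.cons CTree.nil (CTree.cons CTree.nil (CTree.cons CTree.nil (CTree.cons (CTree.leaf 1 2798658148435176001122984229254336642) (CTree.cons CTree.nil (CTree.cons (CTree.leaf 1 43558303156909013741250650172708433760386) (CTree.cons (CTree.leaf 1 664645461862602836943281676405051522) (CTree.cons CTree.nil CTree.nil)))))))))))))))))))))))))))))))))))) (CTree.cons (CTree.cons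 CTree.nil (CTree.cons CTree.nil (CTree.cons CTree.nil (CTree.cons CTree.nil (CTree.cons CTree.nil (CTree.cons CTree.nil (CTree.cons CTree.nil (CTree.cons CTree.nil (CTree.cons CTree.nil (CTree.cons (CTree.leaf 1 3489731341611872938529944647254478978) (CTree.cons (CTree.leaf 1 14986981097328286999440444288749972010890760322) (CTree.cons (CTree.leaf 1 9277252934615522957499704953815604733415592066) (CTree.cons CTree.nil (CTree.cons (CTree.leaf 1 15053046587099169520292927324707398580714668296) (CTree.cons CTree.nil (CTree.cons CTree.nil (CTree.cons (CTree.leaf 1 3489233633267704412712405936309932162) (CTree.cons (CTree.leaf 1 665294885201096798087366407751864450) (CTree.cons CTree.nil (CTree.cons CTree.nil (CTree.cons CTree.nil (CTree.cons CTree.nil (CTree.cons CTree.nil (CTree.cons CTree.nil (CTree.cons CTree.nil (CTree.cons (CTree.leaf 1 580231137001465786813706475227016151422853066523297) (CTree.cons CTree.nil (CTree.cons (CTree.leaf 1 15053181657915439032467464462841107785007039001) (CTree.cons CTree.nil (CTree.cons (CTree.leaf 1 182392719446139984587341149381712433709593) (CTree.cons CTree.nil (CTree.cons (CTree.leaf 1 580231137001465786813706475227016151422853066523297)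 (CTree.cons CTree.nil (CTree.cons (CTree.leaf 1 15053181657915439032467464462841107785007039001) (CTree.cons (CTree.leaf 1 214849594312169728881136112794703778222291366314657) (CTree.cons CTree.nil CTree.nil)))))))))))))))))))))))))))))))))))) (CTree.cons (CTree.cons CTree.nil (CTree.cons CTree.nil (CTree.cons CTree.nil (CTree.cons CTree.nil (CTree.cons CTree.nil (CTree.cons CTree.nil (CTree.cons (CTree.leaf 1 228670415389832283685362802744494668189826) (CTree.cons CTree.nil (CTree.cons CTree.nil (CTree.cons CTree.nil (CTree.cons (CTree.leaf 1 1572108024408368968905350934437337998893442) (CTree.cons (CTree.leaf 1 1615715851497176310135002856852764803861019) (CTree.cons CTree.nil (CTree.cons CTree.nil (CTree.cons CTree.nil (CTree.cons (CTree.leaf 1 228671121347383140207737916549681533026977) (CTree.cons (CTree.leaf 1 137134458534885093973547272668877166809218) (CTree.cons (CTree.leaf 1 43558323772155996342431218364653905186946) (CTree.cons CTree.nil (CTree.cons CTree.nil (CTree.cons CTree.nil (CTree.cons CTree.nil (CTree.cons CTree.nil (CTree.cons CTree.nil (CTree.cons (CTree.leaf 1 5887625402827301309982397266573371799191028385) (CTree.cons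 CTree.nil (CTree.cons CTree.nil (CTree.cons (CTree.leaf 1 43558235513263113598717101511631444185218) (CTree.cons CTree.nil (CTree.cons (CTree.leaf 1 664808196498735729331841131936813186) (CTree.cons (CTree.leaf 1 5887625402827301309982397266573371799191028385) (CTree.cons CTree.nil (CTree.cons CTree.nil (CTree.cons (CTree.leaf 1 43558235666478004127688935450459114639490) (CTree.cons (CTree.leaf 1 43558235513263113598717101511631444185218) (CTree.cons CTree.nil CTree.nil)))))))))))))))))))))))))))))))))))) (CTree.cons CTree.nil (CTree.cons CTree.nil (CTree.cons (CTree.cons CTree.nil (CTree.cons CTree.nil (CTree.cons CTree.nil (CTree.cons CTree.nil (CTree.cons CTree.nil (CTree.cons CTree.nil (CTree.cons (CTree.leaf 1 665467919517769878167109547175972994) (CTree.cons CTree.nil (CTree.cons CTree.nil (CTree.cons (CTree.leaf 1 507852676657613167319791823818882) (CTree.cons CTree.nil (CTree.cons (CTree.leaf 1 852653639728491059975787546480770) (CTree.cons CTree.nil (CTree.cons (CTree.leaf 1 3447695268301807811038137574822118049) (CTree.cons CTree.nil (CTree.cons (CTree.leaf 1 10154215419882076725427396743298) (CTree.cons CTree.nil (CTree.cons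 (CTree.leaf 1 10151594428563344596036249325698) (CTree.cons CTree.nil (CTree.cons CTree.nil (CTree.cons CTree.nil (CTree.cons CTree.nil (CTree.cons CTree.nil (CTree.cons CTree.nil (CTree.cons (CTree.leaf 1 225948156281443011498220655993558827401889) (CTree.cons (CTree.leaf 1 664645939852569241221467182123257986) (CTree.cons CTree.nil (CTree.cons CTree.nil (CTree.cons CTree.nil (CTree.cons (CTree.leaf 1 10148954023653111817211934216322) (CTree.cons (CTree.leaf 1 225948156281443011498220655993558827401889) (CTree.cons (CTree.leaf 1 664645939871760993948081688645013634) (CTree.cons CTree.nil (CTree.cons (CTree.leaf 1 664645939852569241221467182123257986) (CTree.cons CTree.nil (CTree.cons CTree.nil CTree.nil)))))))))))))))))))))))))))))))))))) (CTree.cons (CTree.cons CTree.nil (CTree.cons CTree.nil (CTree.cons CTree.nil (CTree.cons CTree.nil (CTree.cons CTree.nil (CTree.cons CTree.nil (CTree.cons (CTree.leaf 1 664646093047498003891789991098454146) (CTree.cons CTree.nil (CTree.cons CTree.nil (CTree.cons (CTree.leaf 1 507852676617470783245664776753282) (CTree.cons (CTree.leaf 1 680253158097451248858047023026306) (CTree.cons CTree.nil (CTree.cons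 CTree.nil (CTree.cons (CTree.leaf 1 2783081257859420420956684985329913986) (CTree.cons CTree.nil (CTree.cons (CTree.leaf 1 10151584757156823707799871164546) (CTree.cons (CTree.leaf 1 10148954023653111861197231231106) (CTree.cons CTree.nil (CTree.cons CTree.nil (CTree.cons CTree.nil (CTree.cons CTree.nil (CTree.cons CTree.nil (CTree.cons CTree.nil (CTree.cons CTree.nil (CTree.cons (CTree.leaf 1 2783081257859420420956684985329913986) (CTree.cons (CTree.leaf 1 664645451960291448479009681457156226) (CTree.cons CTree.nil (CTree.cons (CTree.leaf 1 664655603057733256183296019800920194) (CTree.cons CTree.nil (CTree.cons CTree.nil (CTree.cons (CTree.leaf 1 2783081257859420420956684985329913986) (CTree.cons (CTree.leaf 1 664655603057733256183296019800920194) (CTree.cons CTree.nil (CTree.cons CTree.nil (CTree.cons (CTree.leaf 1 664645451960291448479009681457156226) (CTree.cons CTree.nil CTree.nil)))))))))))))))))))))))))))))))))))) (CTree.cons (CTree.cons CTree.nil (CTree.cons CTree.nil (CTree.cons CTree.nil (CTree.cons CTree.nil (CTree.cons CTree.nil (CTree.cons CTree.nil (CTree.cons CTree.nil (CTree.cons CTree.nil (CTree.cons CTree.nil (CTree.cons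 (CTree.leaf 1 2181224110792524777848744586212422080073858) (CTree.cons (CTree.leaf 1 1572108024408373426255096997167301067350402) (CTree.cons (CTree.leaf 1 60725809486855927200152922365967346649661575298) (CTree.cons CTree.nil (CTree.cons (CTree.leaf 1 60725809488143788042877561575303117997925794056) (CTree.cons CTree.nil (CTree.cons (CTree.leaf 1 228671121347385632944488576973128822555297) (CTree.cons CTree.nil (CTree.cons (CTree.leaf 1 13432482124623916719773383859369021570) (CTree.cons CTree.nil (CTree.cons (CTree.leaf 1 60725019022870115142320437058066498637013844641) (CTree.cons CTree.nil (CTree.cons CTree.nil (CTree.cons (CTree.leaf 1 225948156443702288327434019385136837690017) (CTree.cons (CTree.leaf 1 664808186766771962818441298631594114) (CTree.cons CTree.nil (CTree.cons CTree.nil (CTree.cons CTree.nil (CTree.cons CTree.nil (CTree.cons CTree.nil (CTree.cons CTree.nil (CTree.cons CTree.nil (CTree.cons (CTree.leaf 1 580276875829855304240691122443032529270924347310753) (CTree.cons CTree.nil (CTree.cons (CTree.leaf 1 8988080626155721191631786451084100473614041760) (CTree.cons (CTree.leaf 1 580276875829855911416167388701033090531612248638113)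 (CTree.cons CTree.nil CTree.nil)))))))))))))))))))))))))))))))))))) (CTree.cons (CTree.cons CTree.nil (CTree.cons CTree.nil (CTree.cons CTree.nil (CTree.cons CTree.nil (CTree.cons CTree.nil (CTree.cons CTree.nil (CTree.cons (CTree.leaf 1 14807738423929907279907407863695818086121341601) (CTree.cons CTree.nil (CTree.cons CTree.nil (CTree.cons (CTree.leaf 1 3489731341611910827564122444509810818) (CTree.cons CTree.nil (CTree.cons (CTree.leaf 1 1615715851497183405212374234142789795973659) (CTree.cons CTree.nil (CTree.cons CTree.nil (CTree.cons CTree.nil (CTree.cons (CTree.leaf 1 664818974159500394534771482110791810) (CTree.cons (CTree.leaf 1 3489233633267704412712405936309932162) (CTree.cons (CTree.leaf 1 665294885201167318913881363402854530) (CTree.cons (CTree.leaf 1 8987426264560828636251569893915157939689751201) (CTree.cons CTree.nil (CTree.cons CTree.nil (CTree.cons CTree.nil (CTree.cons (CTree.leaf 1 664808199129398454584858760133546114) (CTree.cons (CTree.leaf 1 664808186598842192510739045682909314) (CTree.cons CTree.nil (CTree.cons CTree.nil (CTree.cons CTree.nil (CTree.cons CTree.nil (CTree.cons CTree.nil (CTree.cons CTree.nil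 (CTree.cons (CTree.leaf 1 14807829904588636295804763509458815365067440801) (CTree.cons CTree.nil (CTree.cons CTree.nil (CTree.cons (CTree.leaf 1 880311147890214698177557415290478732054658) (CTree.cons (CTree.leaf 1 135092764486586748687217661000842869805186) (CTree.cons CTree.nil CTree.nil)))))))))))))))))))))))))))))))))))) (CTree.cons CTree.nil (CTree.cons (CTree.cons CTree.nil (CTree.cons CTree.nil (CTree.cons CTree.nil (CTree.cons CTree.nil (CTree.cons CTree.nil (CTree.cons CTree.nil (CTree.cons (CTree.leaf 1 221524486160420769790502743299927316169237) (CTree.cons CTree.nil (CTree.cons CTree.nil (CTree.cons CTree.nil (CTree.cons (CTree.leaf 1 44581070969383981766750532437519437954) (CTree.cons (CTree.leaf 1 664656227152321012490153263463796866) (CTree.cons CTree.nil (CTree.cons (CTree.leaf 1 224246744629451313047827384701636190994957) (CTree.cons CTree.nil (CTree.cons CTree.nil (CTree.cons (CTree.leaf 1 14019211666998062972510640171010625666) (CTree.cons (CTree.leaf 1 664655593327129475911079109272342658) (CTree.cons (CTree.leaf 1 14696234663922699901605332770585305279862211097) (CTree.cons (CTree.leaf 1 222205050427297137514771329160752280440962)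 (CTree.cons CTree.nil (CTree.cons CTree.nil (CTree.cons CTree.nil (CTree.cons (CTree.leaf 1 664808196498735729331841132607967362) (CTree.cons CTree.nil (CTree.cons CTree.nil (CTree.cons CTree.nil (CTree.cons CTree.nil (CTree.cons CTree.nil (CTree.cons CTree.nil (CTree.cons (CTree.leaf 1 60390461575711753085460360347948497908210401817) (CTree.cons (CTree.leaf 1 43559564731115063050039531540657594765442) (CTree.cons CTree.nil (CTree.cons CTree.nil (CTree.cons (CTree.leaf 1 222205050427297137514771329160752280440962) (CTree.cons CTree.nil CTree.nil)))))))))))))))))))))))))))))))))))) (CTree.cons CTree.nil (CTree.cons (CTree.cons CTree.nil (CTree.cons CTree.nil (CTree.cons CTree.nil (CTree.cons CTree.nil (CTree.cons CTree.nil (CTree.cons CTree.nil (CTree.cons (CTree.leaf 1 664646093047498003891746006338375810) (CTree.cons CTree.nil (CTree.cons CTree.nil (CTree.cons (CTree.leaf 1 507852676617470783245664105599106) (CTree.cons (CTree.leaf 1 680253158097451248858046351872130) (CTree.cons CTree.nil (CTree.cons CTree.nil (CTree.cons (CTree.leaf 1 2783405934544202718364548092649341465) (CTree.cons CTree.nil (CTree.cons (CTree.leaf 1 10151584757156823707799200010370)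 (CTree.cons (CTree.leaf 1 10148954023653111817212471152770) (CTree.cons CTree.nil (CTree.cons (CTree.leaf 1 182392719446139984549562217518755272000025) (CTree.cons (CTree.leaf 1 664645937221906515968449553926525058) (CTree.cons CTree.nil (CTree.cons CTree.nil (CTree.cons (CTree.leaf 1 10148954023653111817211934216322) (CTree.cons CTree.nil (CTree.cons CTree.nil (CTree.cons CTree.nil (CTree.cons CTree.nil (CTree.cons CTree.nil (CTree.cons CTree.nil (CTree.cons CTree.nil (CTree.cons (CTree.leaf 1 182392719446135361687768360514656520962585) (CTree.cons (CTree.leaf 1 664645927322012979147347467001467010) (CTree.cons CTree.nil (CTree.cons (CTree.leaf 1 664645937221906515968449553926525058) (CTree.cons CTree.nil (CTree.cons CTree.nil CTree.nil)))))))))))))))))))))))))))))))))))) (CTree.cons (CTree.cons CTree.nil (CTree.cons CTree.nil (CTree.cons CTree.nil (CTree.cons CTree.nil (CTree.cons CTree.nil (CTree.cons CTree.nil (CTree.cons CTree.nil (CTree.cons CTree.nil (CTree.cons CTree.nil (CTree.cons (CTree.leaf 1 2181224110792524777888886538792059100336258) (CTree.cons (CTree.leaf 1 60728596752382085428326970741206609951065772162) (CTree.cons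 (CTree.leaf 1 1615715851497178948011139565741028430391834) (CTree.cons CTree.nil (CTree.cons (CTree.leaf 1 60725809488143788045508304579562185117991043336) (CTree.cons CTree.nil (CTree.cons (CTree.leaf 1 228671121347385632944488576973128822555297) (CTree.cons (CTree.leaf 1 3489233633267704412712405936309932162) (CTree.cons CTree.nil (CTree.cons CTree.nil (CTree.cons (CTree.leaf 1 60725019022870927464195320475749031217017264394) (CTree.cons CTree.nil (CTree.cons CTree.nil (CTree.cons (CTree.leaf 1 225948156443702288327434019385136837690017) (CTree.cons (CTree.leaf 1 664808186766771962818441298631594114) (CTree.cons CTree.nil (CTree.cons (CTree.leaf 1 14807784659095725458074373004844125253913417994) (CTree.cons CTree.nil (CTree.cons (CTree.leaf 1 8987378963915293584991229385707694055187612320) (CTree.cons CTree.nil (CTree.cons (CTree.leaf 1 182392719446137837567846931275206319211033) (CTree.cons CTree.nil (CTree.cons CTree.nil (CTree.cons CTree.nil (CTree.cons CTree.nil (CTree.cons CTree.nil (CTree.cons CTree.nil CTree.nil)))))))))))))))))))))))))))))))))))) (CTree.cons (CTree.cons CTree.nil (CTree.cons CTree.nil (CTree.cons CTree.nil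 (CTree.cons CTree.nil (CTree.cons CTree.nil (CTree.cons CTree.nil (CTree.cons (CTree.leaf 1 14807738423929907279907407863695818086121341601) (CTree.cons CTree.nil (CTree.cons CTree.nil (CTree.cons (CTree.leaf 1 3489731341611910827564122444509810818) (CTree.cons (CTree.leaf 1 1572108024408373426255096997167301067350402) (CTree.cons CTree.nil (CTree.cons CTree.nil (CTree.cons CTree.nil (CTree.cons CTree.nil (CTree.cons (CTree.leaf 1 664818961783726779139812702248046722) (CTree.cons (CTree.leaf 1 664818961628944132498932364349673602) (CTree.cons (CTree.leaf 1 13432482124623916719773383859369021570) (CTree.cons (CTree.leaf 1 8987426264560828636251569893915157939689751201) (CTree.cons CTree.nil (CTree.cons CTree.nil (CTree.cons CTree.nil (CTree.cons (CTree.leaf 1 664808199148590207311473266655301762) (CTree.cons (CTree.leaf 1 664808196498735729331841132607967362) (CTree.cons (CTree.leaf 1 8987426264560828626349452453403443062939189921) (CTree.cons CTree.nil (CTree.cons CTree.nil (CTree.cons (CTree.leaf 1 178648907452464222155940916315585075220610) (CTree.cons CTree.nil (CTree.cons (CTree.leaf 1 664808186598842192510739045011755138) (CTree.cons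 CTree.nil (CTree.cons CTree.nil (CTree.cons CTree.nil (CTree.cons CTree.nil (CTree.cons CTree.nil (CTree.cons CTree.nil CTree.nil)))))))))))))))))))))))))))))))))))) (CTree.cons CTree.nil (CTree.cons (CTree.cons CTree.nil (CTree.cons CTree.nil (CTree.cons CTree.nil (CTree.cons CTree.nil (CTree.cons CTree.nil (CTree.cons CTree.nil (CTree.cons (CTree.leaf 1 228682435362242361912155233143549574840853) (CTree.cons CTree.nil (CTree.cons CTree.nil (CTree.cons CTree.nil (CTree.cons (CTree.leaf 1 43612106384570470590264100225536437063810) (CTree.cons (CTree.leaf 1 43558910653660935816881113590864318435458) (CTree.cons CTree.nil (CTree.cons (CTree.leaf 1 183415685004018935167893353794514519654925) (CTree.cons CTree.nil (CTree.cons CTree.nil (CTree.cons (CTree.leaf 1 183412860578584961205213498264483199520898) (CTree.cons (CTree.leaf 1 183412860578572585431598103305703336775810) (CTree.cons (CTree.leaf 1 14986144342281905831399647879855372833634517665) (CTree.cons (CTree.leaf 1 43568869327075829275220576393862177689730) (CTree.cons CTree.nil (CTree.cons CTree.nil (CTree.cons (CTree.leaf 1 664808199129398454584858760133546114) (CTree.cons CTree.nil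 (CTree.cons (CTree.leaf 1 14986144342281906936118547726934885779313918625) (CTree.cons (CTree.leaf 1 43568869328197382399074197474143209853058) (CTree.cons CTree.nil (CTree.cons CTree.nil (CTree.cons CTree.nil (CTree.cons (CTree.leaf 1 664808196498735729331841131936813186) (CTree.cons CTree.nil (CTree.cons CTree.nil (CTree.cons CTree.nil (CTree.cons CTree.nil (CTree.cons CTree.nil (CTree.cons CTree.nil CTree.nil)))))))))))))))))))))))))))))))))))) (CTree.cons (CTree.cons CTree.nil (CTree.cons CTree.nil (CTree.cons CTree.nil (CTree.cons CTree.nil (CTree.cons CTree.nil (CTree.cons CTree.nil (CTree.cons (CTree.leaf 1 880313930919736106787561147026408724300181) (CTree.cons CTree.nil (CTree.cons CTree.nil (CTree.cons (CTree.leaf 1 33282633007540736693911411759631110274) (CTree.cons CTree.nil (CTree.cons (CTree.leaf 1 55879508933246279445168028651880517762) (CTree.cons CTree.nil (CTree.cons (CTree.leaf 1 137137241759215679267012260238821664293261) (CTree.cons CTree.nil (CTree.cons (CTree.leaf 1 664818974159500394534771482110791810) (CTree.cons CTree.nil (CTree.cons (CTree.leaf 1 665294885201167318913881363402854530) (CTree.cons (CTree.leaf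 1 8987426264560828636251569893915157939689751201) (CTree.cons (CTree.leaf 1 222205050418346976141978153423353011048578) (CTree.cons CTree.nil (CTree.cons CTree.nil (CTree.cons CTree.nil (CTree.cons (CTree.leaf 1 664808186598842192510739045682909314) (CTree.cons (CTree.leaf 1 14807829904588636295804763509458815365067440801) (CTree.cons (CTree.leaf 1 135092764486586748687217661000842869805186) (CTree.cons CTree.nil (CTree.cons (CTree.leaf 1 222205050418346976141978153423353011048578) (CTree.cons CTree.nil (CTree.cons CTree.nil (CTree.cons CTree.nil (CTree.cons CTree.nil (CTree.cons CTree.nil (CTree.cons CTree.nil (CTree.cons CTree.nil (CTree.cons CTree.nil CTree.nil)))))))))))))))))))))))))))))))))))) (CTree.cons CTree.nil CTree.nil)))))))))))))))))))))))))))))))))))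

theorem tree6_0_2_ok : chk 6 (pk (goalL 6)) tree6_0_2 (stk [((0 : Fin 6), (2 : Fin 6))]) 1 (om [((0 : Fin 6), (2 : Fin 6))]) (im [((0 : Fin 6), (2 : Fin 6))])
    (cm [((0 : Fin 6), (2 : Fin 6))]) (pk (goalR [((0 : Fin 6), (2 : Fin 6))])) 0 = true := by
  decide +kernel

def tree6_0_3 : CTree :=
  CTree.cons CTree.nil (CTree.cons CTree.nil (CTree.cons CTree.nil (CTree.cons CTree.nil (CTree.cons CTree.nil (CTree.cons CTree.nil (CTree.cons (CTree.cons CTree.nil (CTree.cons CTree.nil (CTree.cons CTree.nil (CTree.cons CTree.nil (CTree.cons CTree.nil (CTree.cons CTree.nil (CTree.cons CTree.nil (CTree.cons CTree.nil (CTree.cons CTree.nil (CTree.cons CTree.nil (CTree.cons CTree.nil (CTree.cons CTree.nil (CTree.cons CTree.nil (CTree.cons (CTree.leaf 1 43558952851778290645982356583512810193569) (CTree.cons CTree.nil (CTree.cons CTree.nil (CTree.cons (CTree.leaf 1 6211385173631210151470162767905030418063847584367265) (CTree.cons (CTree.leaf 1 94778346763655561808926275558024254681631500826) (CTree.cons CTree.nil (CTree.cons CTree.nil (CTree.cons (CTree.leaf 1 188548697497854457572713258328507139583009182384801) (CTree.cons CTree.nil (CTree.cons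 (CTree.leaf 1 43612064683938502939438920149973166260872) (CTree.cons (CTree.leaf 1 43600765901336918439820906601724866331144) (CTree.cons CTree.nil (CTree.cons (CTree.leaf 1 188548698893671427880689125592337547172179924943521) (CTree.cons (CTree.leaf 1 770028915526281915256964418343220141822851884796412053) (CTree.cons CTree.nil (CTree.cons CTree.nil (CTree.cons (CTree.leaf 1 43600765901336918439820906601724195176968) (CTree.cons CTree.nil (CTree.cons (CTree.leaf 1 188548698893671427880689125592337547172179924943521) (CTree.cons (CTree.leaf 1 770028915526281915256964418343220141822851884796412053) (CTree.cons CTree.nil (CTree.cons (CTree.leaf 1 63602346091027725107949192531505896670006508309601910933) (CTree.cons CTree.nil CTree.nil)))))))))))))))))))))))))))))))))))) (CTree.cons CTree.nil (CTree.cons (CTree.cons CTree.nil (CTree.cons CTree.nil (CTree.cons CTree.nil (CTree.cons CTree.nil (CTree.cons CTree.nil (CTree.cons CTree.nil (CTree.cons CTree.nil (CTree.cons CTree.nil (CTree.cons CTree.nil (CTree.cons CTree.nil (CTree.cons CTree.nil (CTree.cons CTree.nil (CTree.cons (CTree.leaf 1 33241094630198955703566999419885719682) (CTree.cons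 CTree.nil (CTree.cons CTree.nil (CTree.cons CTree.nil (CTree.cons (CTree.leaf 1 680894568193049107116500365414530) (CTree.cons (CTree.leaf 1 853295049824085424294753030180994) (CTree.cons CTree.nil (CTree.cons (CTree.leaf 1 33241094630189135710756101388972920962) (CTree.cons CTree.nil (CTree.cons CTree.nil (CTree.cons (CTree.leaf 1 507218851357499052619043472216194) (CTree.cons (CTree.leaf 1 507218851317356668544916425150594) (CTree.cons (CTree.leaf 1 33241094630196389154993324721763848322) (CTree.cons (CTree.leaf 1 33241094630196577994312407239199101058) (CTree.cons CTree.nil (CTree.cons CTree.nil (CTree.cons CTree.nil (CTree.cons (CTree.leaf 1 507218851317356668544915753996418) (CTree.cons (CTree.leaf 1 33241094630196389154993324721763848322) (CTree.cons (CTree.leaf 1 33241094630196389154993324721763848322) (CTree.cons CTree.nil (CTree.cons CTree.nil (CTree.cons (CTree.leaf 1 33241094630196577994312407239199101058) (CTree.cons CTree.nil CTree.nil)))))))))))))))))))))))))))))))))))) (CTree.cons CTree.nil (CTree.cons (CTree.cons CTree.nil (CTree.cons CTree.nil (CTree.cons CTree.nil (CTree.cons CTree.nil (CTree.cons CTree.nil (CTree.cons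 CTree.nil (CTree.cons CTree.nil (CTree.cons CTree.nil (CTree.cons CTree.nil (CTree.cons CTree.nil (CTree.cons CTree.nil (CTree.cons CTree.nil (CTree.cons (CTree.leaf 1 385851243617745654034289720944352822758060045697697) (CTree.cons (CTree.leaf 1 220503638563539112055077395538056010597025) (CTree.cons CTree.nil (CTree.cons CTree.nil (CTree.cons CTree.nil (CTree.cons (CTree.leaf 1 3664841756364946784731215148967016584511752) (CTree.cons CTree.nil (CTree.cons (CTree.leaf 1 89835209665888538791365338307668112376481) (CTree.cons (CTree.leaf 1 793539145126924089119937659465578032726664) (CTree.cons CTree.nil (CTree.cons CTree.nil (CTree.cons (CTree.leaf 1 1370776522247583101559211053709077018) (CTree.cons (CTree.leaf 1 970442974634529420469435876143600616915895093625505) (CTree.cons CTree.nil (CTree.cons (CTree.leaf 1 14740882411438234671561225327620444967662781089) (CTree.cons CTree.nil (CTree.cons CTree.nil (CTree.cons (CTree.leaf 1 1370776522247583101559211053709066777) (CTree.cons (CTree.leaf 1 970442974680072058998101962006942679111049640477345) (CTree.cons (CTree.leaf 1 5887440289318502800788645470405408176609755809) (CTree.cons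 (CTree.leaf 1 385851240000247665437218557344396468398124494291225) (CTree.cons CTree.nil (CTree.cons CTree.nil (CTree.cons CTree.nil CTree.nil)))))))))))))))))))))))))))))))))))) (CTree.cons (CTree.cons CTree.nil (CTree.cons CTree.nil (CTree.cons CTree.nil (CTree.cons CTree.nil (CTree.cons CTree.nil (CTree.cons CTree.nil (CTree.cons CTree.nil (CTree.cons CTree.nil (CTree.cons CTree.nil (CTree.cons CTree.nil (CTree.cons CTree.nil (CTree.cons CTree.nil (CTree.cons (CTree.leaf 1 385848389122360242114527604372413923767787280204449) (CTree.cons (CTree.leaf 1 176947496266809848411176132852089620333217) (CTree.cons CTree.nil (CTree.cons CTree.nil (CTree.cons (CTree.leaf 1 2924387477363075899770654449792785074688130) (CTree.cons CTree.nil (CTree.cons CTree.nil (CTree.cons (CTree.leaf 1 89835210335049601649003052869890042299041) (CTree.cons (CTree.leaf 1 793539145127557914420051197705574080905736) (CTree.cons CTree.nil (CTree.cons (CTree.leaf 1 1370776524878285929529969117810524833) (CTree.cons CTree.nil (CTree.cons (CTree.leaf 1 783370765056173846939364217555916390400502655156897) (CTree.cons (CTree.leaf 1 89835209666522373722744670388970563109401)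 (CTree.cons (CTree.leaf 1 796261403889885856300593882693323896979993) (CTree.cons CTree.nil (CTree.cons CTree.nil (CTree.cons CTree.nil (CTree.cons (CTree.leaf 1 783370765101716485468030303419258452595090274976417) (CTree.cons CTree.nil (CTree.cons (CTree.leaf 1 5887440289319171951648324881092482272635191969) (CTree.cons CTree.nil (CTree.cons (CTree.leaf 1 385848385504862253517456440772457569407851728797977) (CTree.cons CTree.nil CTree.nil)))))))))))))))))))))))))))))))))))) (CTree.cons (CTree.cons CTree.nil (CTree.cons CTree.nil (CTree.cons CTree.nil (CTree.cons CTree.nil (CTree.cons CTree.nil (CTree.cons CTree.nil (CTree.cons CTree.nil (CTree.cons CTree.nil (CTree.cons (CTree.leaf 1 220503638421641472992029966872323992191649) (CTree.cons CTree.nil (CTree.cons (CTree.leaf 1 3405302052256622411671552511172331110251585570144413) (CTree.cons (CTree.leaf 1 3405302052256622411671552511172331074222788551180445) (CTree.cons CTree.nil (CTree.cons CTree.nil (CTree.cons CTree.nil (CTree.cons CTree.nil (CTree.cons CTree.nil (CTree.cons CTree.nil (CTree.cons CTree.nil (CTree.cons (CTree.leaf 1 188548697495132198637345750620802448848554615308961)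 (CTree.cons CTree.nil (CTree.cons CTree.nil (CTree.cons (CTree.leaf 1 223225898167431224355319511848383066997409) (CTree.cons (CTree.leaf 1 179669755029145360538068659738302543374874) (CTree.cons CTree.nil (CTree.cons (CTree.leaf 1 188548342081746880796758614738369520952478505566881) (CTree.cons (CTree.leaf 1 188548698893671386342314257313718825053208869798561) (CTree.cons CTree.nil (CTree.cons CTree.nil (CTree.cons (CTree.leaf 1 179669755029145360538068659738302543364633) (CTree.cons CTree.nil (CTree.cons (CTree.leaf 1 188548342081746880796758614738369520952478505566881) (CTree.cons (CTree.leaf 1 188548698893671386342314257313718825053208869798561) (CTree.cons CTree.nil (CTree.cons (CTree.leaf 1 188548342081746880796758614738369520952478505566881) (CTree.cons CTree.nil CTree.nil)))))))))))))))))))))))))))))))))))) (CTree.cons (CTree.cons CTree.nil (CTree.cons CTree.nil (CTree.cons CTree.nil (CTree.cons CTree.nil (CTree.cons CTree.nil (CTree.cons CTree.nil (CTree.cons (CTree.leaf 1 89835209523998472397001878984234509599392) (CTree.cons CTree.nil (CTree.cons CTree.nil (CTree.cons CTree.nil (CTree.cons (CTree.leaf 1 1370776524887811146864535739459830433)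 (CTree.cons (CTree.leaf 1 1370776512512223862031465418307797665) (CTree.cons CTree.nil (CTree.cons CTree.nil (CTree.cons CTree.nil (CTree.cons CTree.nil (CTree.cons CTree.nil (CTree.cons CTree.nil (CTree.cons CTree.nil (CTree.cons CTree.nil (CTree.cons (CTree.leaf 1 5887440291281048954569310707446281482363738378) (CTree.cons CTree.nil (CTree.cons (CTree.leaf 1 1370776524878285931292583009218003617) (CTree.cons (CTree.leaf 1 1370776522247660837291343623414163994) (CTree.cons (CTree.leaf 1 191295882148205209138354497251308153976952461578) (CTree.cons CTree.nil (CTree.cons (CTree.leaf 1 89835209523842646697067351548441815483041) (CTree.cons CTree.nil (CTree.cons CTree.nil (CTree.cons (CTree.leaf 1 1370776522247660837291343623414153753) (CTree.cons (CTree.leaf 1 191295882148205209138354497251308153976952461578) (CTree.cons CTree.nil (CTree.cons (CTree.leaf 1 89835209523830261252044823211794648531617) (CTree.cons CTree.nil (CTree.cons (CTree.leaf 1 89835209523842646697067351548441815483041) (CTree.cons CTree.nil CTree.nil)))))))))))))))))))))))))))))))))))) (CTree.cons CTree.nil (CTree.cons CTree.nil (CTree.cons (CTree.cons CTree.nil (CTree.cons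 CTree.nil (CTree.cons CTree.nil (CTree.cons CTree.nil (CTree.cons CTree.nil (CTree.cons CTree.nil (CTree.cons (CTree.leaf 1 6211396234800828560503712724930913722479894820749985) (CTree.cons CTree.nil (CTree.cons (CTree.leaf 1 217813956767812756712576035022349289984130) (CTree.cons CTree.nil (CTree.cons CTree.nil (CTree.cons (CTree.leaf 1 105883991682917601092179051778379281268354977922) (CTree.cons CTree.nil (CTree.cons CTree.nil (CTree.cons CTree.nil (CTree.cons CTree.nil (CTree.cons CTree.nil (CTree.cons CTree.nil (CTree.cons CTree.nil (CTree.cons (CTree.leaf 1 2178491036951763771838141694264506696405122) (CTree.cons (CTree.leaf 1 105885384403348280584298815596125408938592114954) (CTree.cons CTree.nil (CTree.cons CTree.nil (CTree.cons (CTree.leaf 1 680894568193046149095987955241090) (CTree.cons (CTree.leaf 1 210471043561373199273147788232221623719766544941209) (CTree.cons (CTree.leaf 1 6939212628633423822146028215098364014084227216775434) (CTree.cons CTree.nil (CTree.cons CTree.nil (CTree.cons CTree.nil (CTree.cons (CTree.leaf 1 680894568193046149095987284086914) (CTree.cons (CTree.leaf 1 210471043561373199273147788232221623719766544941209)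 (CTree.cons (CTree.leaf 1 970443045154251643902867241671063257958186094494369) (CTree.cons (CTree.leaf 1 6939212628633423822268913561484384329063801907386634) (CTree.cons CTree.nil (CTree.cons CTree.nil (CTree.cons CTree.nil CTree.nil)))))))))))))))))))))))))))))))))))) (CTree.cons (CTree.cons CTree.nil (CTree.cons CTree.nil (CTree.cons CTree.nil (CTree.cons CTree.nil (CTree.cons CTree.nil (CTree.cons CTree.nil (CTree.cons (CTree.leaf 1 2855941596915836918756389880384646765233646106) (CTree.cons CTree.nil (CTree.cons (CTree.leaf 1 11953252862187854360626992872063981087218543130) (CTree.cons CTree.nil (CTree.cons (CTree.leaf 1 53468248073709625526265965074378055618690) (CTree.cons CTree.nil (CTree.cons CTree.nil (CTree.cons CTree.nil (CTree.cons CTree.nil (CTree.cons CTree.nil (CTree.cons CTree.nil (CTree.cons CTree.nil (CTree.cons CTree.nil (CTree.cons (CTree.leaf 1 43567587469048293421766080365147470244378) (CTree.cons (CTree.leaf 1 43578210402158156108955935106395065625114) (CTree.cons CTree.nil (CTree.cons (CTree.leaf 1 853295049824087690976984878354562) (CTree.cons CTree.nil (CTree.cons (CTree.leaf 1 2854586252247722061195528217469731887419884048)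 (CTree.cons (CTree.leaf 1 387301346089099408692595543920073958039547533928986) (CTree.cons (CTree.leaf 1 1448922983138607200211126055970823038632609) (CTree.cons CTree.nil (CTree.cons CTree.nil (CTree.cons CTree.nil (CTree.cons (CTree.leaf 1 2854586252248390820856410481684931105433190553) (CTree.cons (CTree.leaf 1 2854547450000576556190049034762315582752762394) (CTree.cons CTree.nil (CTree.cons CTree.nil (CTree.cons (CTree.leaf 1 2854586252248390820856410481684931105433190553) (CTree.cons CTree.nil CTree.nil)))))))))))))))))))))))))))))))))))) (CTree.cons CTree.nil (CTree.cons (CTree.cons CTree.nil (CTree.cons CTree.nil (CTree.cons CTree.nil (CTree.cons CTree.nil (CTree.cons CTree.nil (CTree.cons CTree.nil (CTree.cons CTree.nil (CTree.cons CTree.nil (CTree.cons (CTree.leaf 1 2876977504601263735461133787599835892802585249) (CTree.cons CTree.nil (CTree.cons (CTree.leaf 1 224927973967157788841575273052601969610882) (CTree.cons (CTree.leaf 1 11886340748476123943087575950618825947812528665) (CTree.cons (CTree.leaf 1 188548697495119529433010925641387758393855304204961) (CTree.cons CTree.nil (CTree.cons CTree.nil (CTree.cons CTree.nil (CTree.cons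 (CTree.leaf 1 14276144545583823517923192281677301746691080584) (CTree.cons (CTree.leaf 1 3214972173746454402173356177956344871850410657) (CTree.cons CTree.nil (CTree.cons CTree.nil (CTree.cons CTree.nil (CTree.cons CTree.nil (CTree.cons CTree.nil (CTree.cons CTree.nil (CTree.cons (CTree.leaf 1 188539710339394180355894194495066730518705647321761) (CTree.cons CTree.nil (CTree.cons (CTree.leaf 1 188545419335609522066150812280328358451428985602721) (CTree.cons CTree.nil (CTree.cons CTree.nil (CTree.cons (CTree.leaf 1 179669754531676986973901976943535776137753) (CTree.cons (CTree.leaf 1 188539710339394180355894194495066730518705647321761) (CTree.cons CTree.nil (CTree.cons (CTree.leaf 1 188545419335609522066150812280328358451428985602721) (CTree.cons CTree.nil (CTree.cons (CTree.leaf 1 188548342081746880117379751881379644258640800187041) (CTree.cons CTree.nil CTree.nil)))))))))))))))))))))))))))))))))))) (CTree.cons (CTree.cons CTree.nil (CTree.cons CTree.nil (CTree.cons CTree.nil (CTree.cons CTree.nil (CTree.cons CTree.nil (CTree.cons CTree.nil (CTree.cons (CTree.leaf 1 8741935676734668162427895579880891748301478154) (CTree.cons CTree.nil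 (CTree.cons CTree.nil (CTree.cons CTree.nil (CTree.cons (CTree.leaf 1 2877024824427998082507434495958544604698706593) (CTree.cons (CTree.leaf 1 2878373395302846988749307351138852434189419169) (CTree.cons CTree.nil (CTree.cons (CTree.leaf 1 2877024803087344339559108744789670444464276129) (CTree.cons CTree.nil (CTree.cons CTree.nil (CTree.cons (CTree.leaf 1 1615705300749972278470279566300834909985034) (CTree.cons (CTree.leaf 1 55921544385271299831918147654152949890) (CTree.cons CTree.nil (CTree.cons CTree.nil (CTree.cons CTree.nil (CTree.cons CTree.nil (CTree.cons CTree.nil (CTree.cons CTree.nil (CTree.cons (CTree.leaf 1 13888802113084244705187602617156204765458160162913845921) (CTree.cons (CTree.leaf 1 3233651623285347053497444533687233014192210593) (CTree.cons CTree.nil (CTree.cons CTree.nil (CTree.cons CTree.nil (CTree.cons (CTree.leaf 1 43568163813999590934060868765823612813849) (CTree.cons (CTree.leaf 1 13888802113084244705187602617156204765458160162913845921) (CTree.cons (CTree.leaf 1 3233651623284535360972485894972126404118839969) (CTree.cons CTree.nil (CTree.cons CTree.nil (CTree.cons (CTree.leaf 1 3233651623285347053497444533687233014192210593)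 (CTree.cons CTree.nil CTree.nil)))))))))))))))))))))))))))))))))))) (CTree.cons CTree.nil (CTree.cons (CTree.cons CTree.nil (CTree.cons CTree.nil (CTree.cons CTree.nil (CTree.cons CTree.nil (CTree.cons CTree.nil (CTree.cons CTree.nil (CTree.cons (CTree.leaf 1 43612064683938502939438920141177073238664) (CTree.cons CTree.nil (CTree.cons (CTree.leaf 1 507218851357499052619043472216194) (CTree.cons CTree.nil (CTree.cons CTree.nil (CTree.cons (CTree.leaf 1 1370776524878285929529969117810524833) (CTree.cons (CTree.leaf 1 223225898167431224355318935387630763573921) (CTree.cons (CTree.leaf 1 1370776524878285931292583009218003617) (CTree.cons CTree.nil (CTree.cons CTree.nil (CTree.cons CTree.nil (CTree.cons (CTree.leaf 1 853295049824087690976984878354562) (CTree.cons CTree.nil (CTree.cons CTree.nil (CTree.cons CTree.nil (CTree.cons CTree.nil (CTree.cons CTree.nil (CTree.cons CTree.nil (CTree.cons CTree.nil (CTree.cons (CTree.leaf 1 223225897335300464170828535222341741642401) (CTree.cons (CTree.leaf 1 43557530162439051987700390427115285185185) (CTree.cons CTree.nil (CTree.cons CTree.nil (CTree.cons (CTree.leaf 1 31778232713678431192081698984066)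 (CTree.cons (CTree.leaf 1 43557530162439051987697508967864631034001) (CTree.cons (CTree.leaf 1 43557530162439051987697474063232352125601) (CTree.cons (CTree.leaf 1 43557530162439051987700390427115285185185) (CTree.cons CTree.nil (CTree.cons CTree.nil (CTree.cons CTree.nil CTree.nil)))))))))))))))))))))))))))))))))))) (CTree.cons (CTree.cons CTree.nil (CTree.cons CTree.nil (CTree.cons CTree.nil (CTree.cons CTree.nil (CTree.cons CTree.nil (CTree.cons CTree.nil (CTree.cons (CTree.leaf 1 176947496093777852943680012849537490168346) (CTree.cons CTree.nil (CTree.cons (CTree.leaf 1 507218851317356668544916425150594) (CTree.cons CTree.nil (CTree.cons (CTree.leaf 1 1370776522247583101559211053709077018) (CTree.cons CTree.nil (CTree.cons (CTree.leaf 1 179669755029145360500289727875345381665306) (CTree.cons (CTree.leaf 1 1370776522247660837291343623414163994) (CTree.cons CTree.nil (CTree.cons CTree.nil (CTree.cons (CTree.leaf 1 680894568193046149095987955241090) (CTree.cons CTree.nil (CTree.cons CTree.nil (CTree.cons CTree.nil (CTree.cons CTree.nil (CTree.cons CTree.nil (CTree.cons CTree.nil (CTree.cons CTree.nil (CTree.cons (CTree.leaf 1 43557529350984211516602163334788155048081)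 (CTree.cons (CTree.leaf 1 43557529990033311453729782768644802030106) (CTree.cons (CTree.leaf 1 43557529990033311607077638309341370067482) (CTree.cons CTree.nil (CTree.cons CTree.nil (CTree.cons CTree.nil (CTree.cons CTree.nil (CTree.cons (CTree.leaf 1 179669754369417710144688613551957765859866) (CTree.cons (CTree.leaf 1 43557529990033311607077638309341370067482) (CTree.cons CTree.nil (CTree.cons (CTree.leaf 1 43557529990033311453729782768644802030106) (CTree.cons CTree.nil CTree.nil)))))))))))))))))))))))))))))))))))) (CTree.cons (CTree.cons CTree.nil (CTree.cons CTree.nil (CTree.cons CTree.nil (CTree.cons CTree.nil (CTree.cons CTree.nil (CTree.cons CTree.nil (CTree.cons CTree.nil (CTree.cons CTree.nil (CTree.cons (CTree.leaf 1 2876926802528938737741097727258923103696388769) (CTree.cons CTree.nil (CTree.cons (CTree.leaf 1 2877024824427998082507434495958544604698706593) (CTree.cons (CTree.leaf 1 2878373395302846988749307351138852434189419169) (CTree.cons CTree.nil (CTree.cons (CTree.leaf 1 2876926802528938737731579963595115400329364129) (CTree.cons CTree.nil (CTree.cons CTree.nil (CTree.cons (CTree.leaf 1 191652832917943280599220882200897869871163965569)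 (CTree.cons (CTree.leaf 1 3214972173746627592293900518120744983018144417) (CTree.cons CTree.nil (CTree.cons (CTree.leaf 1 57513665775456008802506096489122658990656913677) (CTree.cons (CTree.leaf 1 60726331830912469162373122989522076457318289538) (CTree.cons CTree.nil (CTree.cons CTree.nil (CTree.cons (CTree.leaf 1 43568163813999590787778116205981235544209) (CTree.cons CTree.nil (CTree.cons CTree.nil (CTree.cons CTree.nil (CTree.cons CTree.nil (CTree.cons CTree.nil (CTree.cons CTree.nil (CTree.cons CTree.nil (CTree.cons (CTree.leaf 1 958747952462413690165843663761498235262096742877331) (CTree.cons (CTree.leaf 1 561231616413049574334702576396026083423725478283411) (CTree.cons CTree.nil (CTree.cons (CTree.leaf 1 958848438086965923807970707342068807691495129811091) (CTree.cons CTree.nil CTree.nil)))))))))))))))))))))))))))))))))))) (CTree.cons (CTree.cons CTree.nil (CTree.cons CTree.nil (CTree.cons CTree.nil (CTree.cons CTree.nil (CTree.cons CTree.nil (CTree.cons CTree.nil (CTree.cons (CTree.leaf 1 188545597741548419973864147369337861352942681653921) (CTree.cons CTree.nil (CTree.cons (CTree.leaf 1 2877021058631311028647729493228708927026430625)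 (CTree.cons CTree.nil (CTree.cons CTree.nil (CTree.cons (CTree.leaf 1 181371831011416239617264102922456386834562) (CTree.cons (CTree.leaf 1 188548340596084067183690821264085189028960096944801) (CTree.cons CTree.nil (CTree.cons CTree.nil (CTree.cons CTree.nil (CTree.cons (CTree.leaf 1 2924387991378912804773490596720597288947842) (CTree.cons (CTree.leaf 1 2854675066522026132435598100346396374688400033) (CTree.cons CTree.nil (CTree.cons CTree.nil (CTree.cons (CTree.leaf 1 390223815540746382007372599642598705109355573871245) (CTree.cons CTree.nil (CTree.cons (CTree.leaf 1 223225897497559741000041898613919751930529) (CTree.cons (CTree.leaf 1 43558884682045015519603546169360179603994) (CTree.cons CTree.nil (CTree.cons CTree.nil (CTree.cons CTree.nil (CTree.cons CTree.nil (CTree.cons CTree.nil (CTree.cons CTree.nil (CTree.cons (CTree.leaf 1 188539710339394180355894194495066730518705647321761) (CTree.cons CTree.nil (CTree.cons (CTree.leaf 1 188548274349244979485883702266803479433720204296865) (CTree.cons CTree.nil (CTree.cons (CTree.leaf 1 188548342081746880117379751881379644258640800187041) (CTree.cons CTree.nil CTree.nil))))))))))))))))))))))))))))))))))))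 (CTree.cons (CTree.cons CTree.nil (CTree.cons CTree.nil (CTree.cons CTree.nil (CTree.cons CTree.nil (CTree.cons CTree.nil (CTree.cons CTree.nil (CTree.cons (CTree.leaf 1 2855414192425541752763039558791503239169770009) (CTree.cons CTree.nil (CTree.cons CTree.nil (CTree.cons CTree.nil (CTree.cons (CTree.leaf 1 224927309829630176327581873149374489494041) (CTree.cons (CTree.leaf 1 2878373395302846988749307351138852434189419169) (CTree.cons (CTree.leaf 1 14517828694406283955266441945563641207316349465) (CTree.cons (CTree.leaf 1 2877018359063198995083469506220066298401587873) (CTree.cons CTree.nil (CTree.cons CTree.nil (CTree.cons CTree.nil (CTree.cons (CTree.leaf 1 3534173327496469948895316411917200107569825) (CTree.cons CTree.nil (CTree.cons (CTree.leaf 1 14518703931256731547574905037726287432308032025) (CTree.cons CTree.nil (CTree.cons CTree.nil (CTree.cons (CTree.leaf 1 43568163986405331314683620883597527941793) (CTree.cons (CTree.leaf 1 43568163174712806356044905774805644552730) (CTree.cons CTree.nil (CTree.cons CTree.nil (CTree.cons CTree.nil (CTree.cons CTree.nil (CTree.cons CTree.nil (CTree.cons CTree.nil (CTree.cons (CTree.leaf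 1 14517834465851467125537788016873349686002516505) (CTree.cons (CTree.leaf 1 3233651623949788645649375511599225754355827225) (CTree.cons CTree.nil (CTree.cons CTree.nil (CTree.cons (CTree.leaf 1 3233651623949788645649521847386458560619676185) (CTree.cons CTree.nil CTree.nil)))))))))))))))))))))))))))))))))))) (CTree.cons CTree.nil (CTree.cons CTree.nil (CTree.cons (CTree.cons CTree.nil (CTree.cons CTree.nil (CTree.cons CTree.nil (CTree.cons CTree.nil (CTree.cons CTree.nil (CTree.cons CTree.nil (CTree.cons (CTree.leaf 1 43600765901336918439820330140971891753480) (CTree.cons CTree.nil (CTree.cons (CTree.leaf 1 507218851317356668544915753996418) (CTree.cons CTree.nil (CTree.cons (CTree.leaf 1 1370776522247583101559211053709066777) (CTree.cons CTree.nil (CTree.cons (CTree.leaf 1 179669755029145360500289727875345381655065) (CTree.cons (CTree.leaf 1 1370776522247660837291343623414153753) (CTree.cons CTree.nil (CTree.cons CTree.nil (CTree.cons (CTree.leaf 1 680894568193046149095987284086914) (CTree.cons CTree.nil (CTree.cons CTree.nil (CTree.cons (CTree.leaf 1 179669754369417710144688613551957765849625) (CTree.cons (CTree.leaf 1 43557529990033311607077638309341370057241)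 (CTree.cons CTree.nil (CTree.cons (CTree.leaf 1 31778232713678431192081698984066) (CTree.cons CTree.nil (CTree.cons CTree.nil (CTree.cons CTree.nil (CTree.cons CTree.nil (CTree.cons CTree.nil (CTree.cons CTree.nil (CTree.cons CTree.nil (CTree.cons (CTree.leaf 1 43557529990033311456017251936426515824785) (CTree.cons (CTree.leaf 1 43557529990033311453729782768644802019865) (CTree.cons (CTree.leaf 1 43557529990033311607077638309341370057241) (CTree.cons CTree.nil (CTree.cons CTree.nil (CTree.cons CTree.nil CTree.nil)))))))))))))))))))))))))))))))))))) (CTree.cons (CTree.cons CTree.nil (CTree.cons CTree.nil (CTree.cons CTree.nil (CTree.cons CTree.nil (CTree.cons CTree.nil (CTree.cons CTree.nil (CTree.cons CTree.nil (CTree.cons CTree.nil (CTree.cons (CTree.leaf 1 2876926802528938737741097727258923103696388769) (CTree.cons CTree.nil (CTree.cons (CTree.leaf 1 188548340595394099200238137835526450559769544164001) (CTree.cons (CTree.leaf 1 2878373395302846988749307351138852434189419169) (CTree.cons CTree.nil (CTree.cons (CTree.leaf 1 2876926823105685570111844532397853771028955809) (CTree.cons CTree.nil (CTree.cons CTree.nil (CTree.cons (CTree.leaf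 1 191652832917943280599220882200897869871163965569) (CTree.cons (CTree.leaf 1 240180603008965668430870882130353440525985579137) (CTree.cons CTree.nil (CTree.cons (CTree.leaf 1 8920341977234493338848053731809884026124765715) (CTree.cons (CTree.leaf 1 982137664519443462011076758517045235055651580871181) (CTree.cons CTree.nil (CTree.cons (CTree.leaf 1 43568163986405331314680739424346873790609) (CTree.cons CTree.nil (CTree.cons CTree.nil (CTree.cons (CTree.leaf 1 14986192333435759836219784771117897363392432659) (CTree.cons (CTree.leaf 1 983639552150264500810283881696814485949524031308301) (CTree.cons CTree.nil (CTree.cons CTree.nil (CTree.cons (CTree.leaf 1 43568163813999590783000482392908758581393) (CTree.cons CTree.nil (CTree.cons CTree.nil (CTree.cons CTree.nil (CTree.cons CTree.nil (CTree.cons CTree.nil (CTree.cons CTree.nil CTree.nil)))))))))))))))))))))))))))))))))))) (CTree.cons (CTree.cons CTree.nil (CTree.cons CTree.nil (CTree.cons CTree.nil (CTree.cons CTree.nil (CTree.cons CTree.nil (CTree.cons CTree.nil (CTree.cons (CTree.leaf 1 188545597741548419973864147369337861352942681653921) (CTree.cons CTree.nil (CTree.cons (CTree.leaf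 1 2876977504601609957248315291039190186399564449) (CTree.cons CTree.nil (CTree.cons (CTree.leaf 1 188637075260537806398472260028699191579489560363681) (CTree.cons CTree.nil (CTree.cons (CTree.leaf 1 188548340596084067183690821264085189028960096944801) (CTree.cons CTree.nil (CTree.cons CTree.nil (CTree.cons CTree.nil (CTree.cons (CTree.leaf 1 191653391990521770768649432729395803406945223329) (CTree.cons (CTree.leaf 1 982232464987283132886745674694012807182569068101761) (CTree.cons CTree.nil (CTree.cons CTree.nil (CTree.cons (CTree.leaf 1 390232645287250728481931477796686240475735575954081) (CTree.cons CTree.nil (CTree.cons (CTree.leaf 1 43568163986405331314680704519714594882209) (CTree.cons (CTree.leaf 1 179669754531676986973901976943535776147994) (CTree.cons (CTree.leaf 1 188539710339394180355894194495066730518705647321761) (CTree.cons CTree.nil (CTree.cons (CTree.leaf 1 390232645287274124614566199675832262017243790574241) (CTree.cons CTree.nil (CTree.cons CTree.nil (CTree.cons (CTree.leaf 1 43568163813999590780713013225127044776473) (CTree.cons CTree.nil (CTree.cons CTree.nil (CTree.cons CTree.nil (CTree.cons CTree.nil (CTree.cons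 CTree.nil (CTree.cons CTree.nil CTree.nil)))))))))))))))))))))))))))))))))))) (CTree.cons (CTree.cons CTree.nil (CTree.cons CTree.nil (CTree.cons CTree.nil (CTree.cons CTree.nil (CTree.cons CTree.nil (CTree.cons CTree.nil (CTree.cons (CTree.leaf 1 188548698104237635425825600220242996150912798098081) (CTree.cons CTree.nil (CTree.cons CTree.nil (CTree.cons CTree.nil (CTree.cons (CTree.leaf 1 2877024824427998082507434495958544604698706593) (CTree.cons (CTree.leaf 1 6774075075179531281491388202175858196615654505779330) (CTree.cons (CTree.leaf 1 188548698104237634756595236743231172605386285908641) (CTree.cons (CTree.leaf 1 2877024824427358800389316671622500891922989729) (CTree.cons CTree.nil (CTree.cons CTree.nil (CTree.cons (CTree.leaf 1 454768240389028476209147376004051210128175868267815049482) (CTree.cons CTree.nil (CTree.cons CTree.nil (CTree.cons (CTree.leaf 1 188585337490866649115760511369411013628543797691041) (CTree.cons CTree.nil (CTree.cons CTree.nil (CTree.cons (CTree.leaf 1 43568163986405331314683620883597527941793) (CTree.cons (CTree.leaf 1 43568163813999590934060868765823612824090) (CTree.cons (CTree.leaf 1 561219505759879101790350532863360920097726388830881)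 (CTree.cons (CTree.leaf 1 188637075957436109429444808806173273233523689194145) (CTree.cons CTree.nil (CTree.cons CTree.nil (CTree.cons CTree.nil (CTree.cons (CTree.leaf 1 43568163813999590934060868765823612813849) (CTree.cons CTree.nil (CTree.cons CTree.nil (CTree.cons CTree.nil (CTree.cons CTree.nil (CTree.cons CTree.nil (CTree.cons CTree.nil CTree.nil)))))))))))))))))))))))))))))))))))) (CTree.cons CTree.nil (CTree.cons (CTree.cons CTree.nil (CTree.cons CTree.nil (CTree.cons CTree.nil (CTree.cons CTree.nil (CTree.cons CTree.nil (CTree.cons CTree.nil (CTree.cons (CTree.leaf 1 188548341292314459108265742489563250226133931328161) (CTree.cons CTree.nil (CTree.cons (CTree.leaf 1 2877021058631311028647729493228708927026430625) (CTree.cons CTree.nil (CTree.cons CTree.nil (CTree.cons (CTree.leaf 1 783605235137766017501050197244387141063636645118105) (CTree.cons (CTree.leaf 1 188548342081801404933659682051278994736546958738081) (CTree.cons (CTree.leaf 1 2877018359063198995083469506220066298401587873) (CTree.cons CTree.nil (CTree.cons CTree.nil (CTree.cons CTree.nil (CTree.cons (CTree.leaf 1 2855283139902020936550256489650494884487495833)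 (CTree.cons CTree.nil (CTree.cons (CTree.leaf 1 188548340596096736388025646243498803429523673776801) (CTree.cons (CTree.leaf 1 188548275179565809341790257444126516138265990070945) (CTree.cons CTree.nil (CTree.cons CTree.nil (CTree.cons (CTree.leaf 1 43568163813999590780713013225127044786714) (CTree.cons (CTree.leaf 1 188542274925092011224962030100196057359722901865121) (CTree.cons (CTree.leaf 1 188548342081746880796758614667166175329650310054561) (CTree.cons (CTree.leaf 1 188548275179565809341790257444126516138265990070945) (CTree.cons CTree.nil (CTree.cons CTree.nil (CTree.cons CTree.nil (CTree.cons CTree.nil (CTree.cons CTree.nil (CTree.cons CTree.nil (CTree.cons CTree.nil (CTree.cons CTree.nil (CTree.cons CTree.nil CTree.nil)))))))))))))))))))))))))))))))))))) (CTree.cons CTree.nil CTree.nil)))))))))))))))))))))))))))))))))))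

theorem tree6_0_3_ok : chk 6 (pk (goalL 6)) tree6_0_3 (stk [((0 : Fin 6), (3 : Fin 6))]) 1 (om [((0 : Fin 6), (3 : Fin 6))]) (im [((0 : Fin 6), (3 : Fin 6))])
    (cm [((0 : Fin 6), (3 : Fin 6))]) (pk (goalR [((0 : Fin 6), (3 : Fin 6))])) 0 = true := by
  decide +kernel

def tree6_0_4 : CTree :=
  CTree.cons CTree.nil (CTree.cons CTree.nil (CTree.cons CTree.nil (CTree.cons CTree.nil (CTree.cons CTree.nil (CTree.cons CTree.nil (CTree.cons (CTree.cons CTree.nil (CTree.cons CTree.nil (CTree.cons CTree.nil (CTree.cons CTree.nil (CTree.cons CTree.nil (CTree.cons CTree.nil (CTree.cons CTree.nil (CTree.cons CTree.nil (CTree.cons CTree.nil (CTree.cons CTree.nil (CTree.cons CTree.nil (CTree.cons CTree.nil (CTree.cons CTree.nil (CTree.cons (CTree.leaf 1 8920526771230418025496820498366484539383030162) (CTree.cons CTree.nil (CTree.cons (CTree.leaf 1 43612105878312414426206787292129785414280) (CTree.cons CTree.nil (CTree.cons (CTree.leaf 1 2178542970304942846666556684232401902178434) (CTree.cons CTree.nil (CTree.cons (CTree.leaf 1 43612105573521673309371297551499072182538) (CTree.cons (CTree.leaf 1 14987546974245685541463049514928044157777813906)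 (CTree.cons CTree.nil (CTree.cons CTree.nil (CTree.cons (CTree.leaf 1 3667564015299682778604696203590991732146568) (CTree.cons CTree.nil (CTree.cons CTree.nil (CTree.cons (CTree.leaf 1 982140518317951994316541070848815382444282071818642) (CTree.cons (CTree.leaf 1 387301256921526646894401756372723861238565401930242) (CTree.cons CTree.nil (CTree.cons (CTree.leaf 1 182732295662351974276276848882253478625672) (CTree.cons CTree.nil (CTree.cons (CTree.leaf 1 982140518317951994316541070848815382444282071818642) (CTree.cons (CTree.leaf 1 223613073540465520055589055110566198373356426897922) (CTree.cons (CTree.leaf 1 387301256921526646894401756372723861238565401930242) (CTree.cons CTree.nil (CTree.cons CTree.nil CTree.nil)))))))))))))))))))))))))))))))))))) (CTree.cons CTree.nil (CTree.cons (CTree.cons CTree.nil (CTree.cons CTree.nil (CTree.cons CTree.nil (CTree.cons CTree.nil (CTree.cons CTree.nil (CTree.cons CTree.nil (CTree.cons CTree.nil (CTree.cons CTree.nil (CTree.cons CTree.nil (CTree.cons CTree.nil (CTree.cons CTree.nil (CTree.cons CTree.nil (CTree.cons (CTree.leaf 1 43612105878300046099412240258298597212808) (CTree.cons CTree.nil (CTree.cons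 CTree.nil (CTree.cons (CTree.leaf 1 679626917592820877715003662209154) (CTree.cons CTree.nil (CTree.cons (CTree.leaf 1 33241927647475324198339375873038291074) (CTree.cons (CTree.leaf 1 225948157103427308136377335679005029368481) (CTree.cons (CTree.leaf 1 33241136871185387200744397147551633538) (CTree.cons CTree.nil (CTree.cons CTree.nil (CTree.cons CTree.nil (CTree.cons (CTree.leaf 1 853931505862517776462702400573570) (CTree.cons CTree.nil (CTree.cons (CTree.leaf 1 43558236315435568881365145800670756012696) (CTree.cons CTree.nil (CTree.cons (CTree.leaf 1 43558236315440388986482604551697604084385) (CTree.cons CTree.nil (CTree.cons (CTree.leaf 1 42555893553936695167218805182594) (CTree.cons (CTree.leaf 1 52063866784830747425243697227302211945121) (CTree.cons (CTree.leaf 1 43558236315440388797643253944416569721496) (CTree.cons CTree.nil (CTree.cons (CTree.leaf 1 43558236315440388986482604551697604084385) (CTree.cons CTree.nil (CTree.cons CTree.nil CTree.nil)))))))))))))))))))))))))))))))))))) (CTree.cons (CTree.cons CTree.nil (CTree.cons CTree.nil (CTree.cons CTree.nil (CTree.cons CTree.nil (CTree.cons CTree.nil (CTree.cons CTree.nil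 (CTree.cons CTree.nil (CTree.cons CTree.nil (CTree.cons CTree.nil (CTree.cons CTree.nil (CTree.cons CTree.nil (CTree.cons CTree.nil (CTree.cons (CTree.leaf 1 14986275020052040798869946146850158996186339594) (CTree.cons (CTree.leaf 1 1370776524887811145640104253449181450) (CTree.cons CTree.nil (CTree.cons CTree.nil (CTree.cons CTree.nil (CTree.cons (CTree.leaf 1 1479814751025240871915867223218067722) (CTree.cons (CTree.leaf 1 3323039706990426435137144586227745497868802314) (CTree.cons CTree.nil (CTree.cons (CTree.leaf 1 22067271795118370503710956326214572298) (CTree.cons CTree.nil (CTree.cons CTree.nil (CTree.cons (CTree.leaf 1 55962596457678096739021278152242632970) (CTree.cons CTree.nil (CTree.cons (CTree.leaf 1 224928113964897632520507274318629347399946) (CTree.cons (CTree.leaf 1 3323039706990426435137144586227745497868802314) (CTree.cons CTree.nil (CTree.cons CTree.nil (CTree.cons (CTree.leaf 1 2788284329422926995240465244699629834) (CTree.cons (CTree.leaf 1 3322985281220524895844347638763611032982264074) (CTree.cons (CTree.leaf 1 224928113964897632520507274318629347399946) (CTree.cons (CTree.leaf 1 3323039706990426435137144586227745497868802314)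 (CTree.cons CTree.nil (CTree.cons CTree.nil (CTree.cons CTree.nil CTree.nil)))))))))))))))))))))))))))))))))))) (CTree.cons CTree.nil (CTree.cons (CTree.cons CTree.nil (CTree.cons CTree.nil (CTree.cons CTree.nil (CTree.cons CTree.nil (CTree.cons CTree.nil (CTree.cons CTree.nil (CTree.cons CTree.nil (CTree.cons CTree.nil (CTree.cons CTree.nil (CTree.cons CTree.nil (CTree.cons CTree.nil (CTree.cons CTree.nil (CTree.cons (CTree.leaf 1 572915064498364779004214908396371927268291664550154) (CTree.cons (CTree.leaf 1 94645158885379815076927067218291926709104091538) (CTree.cons CTree.nil (CTree.cons (CTree.leaf 1 1370776524887877239173774906606295306) (CTree.cons CTree.nil (CTree.cons CTree.nil (CTree.cons (CTree.leaf 1 748292250425451141290385005673164663333784856428693) (CTree.cons (CTree.leaf 1 1370776524887877239243580700830537994) (CTree.cons (CTree.leaf 1 94778303208197483616250710128038224103632609682) (CTree.cons CTree.nil (CTree.cons CTree.nil (CTree.cons CTree.nil (CTree.cons CTree.nil (CTree.cons (CTree.leaf 1 182733001813058641805699511912006479323538) (CTree.cons (CTree.leaf 1 182733666602306555560895768236522749434122) (CTree.cons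 (CTree.leaf 1 182765038284675801727325919007341352657298) (CTree.cons CTree.nil (CTree.cons CTree.nil (CTree.cons (CTree.leaf 1 223621168591172491981509075543519129306866109251733) (CTree.cons CTree.nil (CTree.cons (CTree.leaf 1 748295261018215061626837334718490771046784552739218) (CTree.cons (CTree.leaf 1 748295261018226448485327695238089754183472268837013) (CTree.cons CTree.nil (CTree.cons CTree.nil CTree.nil)))))))))))))))))))))))))))))))))))) (CTree.cons (CTree.cons CTree.nil (CTree.cons CTree.nil (CTree.cons CTree.nil (CTree.cons CTree.nil (CTree.cons CTree.nil (CTree.cons CTree.nil (CTree.cons CTree.nil (CTree.cons CTree.nil (CTree.cons (CTree.leaf 1 3233782300436503360314917675351452744526406034) (CTree.cons (CTree.leaf 1 14986275020052040801178994462462190577917755677) (CTree.cons CTree.nil (CTree.cons (CTree.leaf 1 3667585428340402622172326297124333731582082) (CTree.cons CTree.nil (CTree.cons CTree.nil (CTree.cons CTree.nil (CTree.cons CTree.nil (CTree.cons CTree.nil (CTree.cons CTree.nil (CTree.cons CTree.nil (CTree.cons (CTree.leaf 1 8920526751821612363328649660503439977223422221) (CTree.cons (CTree.leaf 1 94778302188513608838944361685482946262448341664)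 (CTree.cons CTree.nil (CTree.cons CTree.nil (CTree.cons (CTree.leaf 1 3667564103567065582283966223770054022005136) (CTree.cons CTree.nil (CTree.cons (CTree.leaf 1 223621169240111667255161118980618184854623346628874) (CTree.cons CTree.nil (CTree.cons (CTree.leaf 1 584615641207370549152228354383675273058564477886866) (CTree.cons CTree.nil (CTree.cons (CTree.leaf 1 182732383929734777955546869061315768484240) (CTree.cons CTree.nil (CTree.cons (CTree.leaf 1 584604067120612511758818524778392148551484546556306) (CTree.cons (CTree.leaf 1 223621169240111667255161118980618184854623346628874) (CTree.cons (CTree.leaf 1 584615641207370549152228354383675273058564477886866) (CTree.cons CTree.nil (CTree.cons CTree.nil CTree.nil)))))))))))))))))))))))))))))))))))) (CTree.cons (CTree.cons CTree.nil (CTree.cons CTree.nil (CTree.cons CTree.nil (CTree.cons CTree.nil (CTree.cons CTree.nil (CTree.cons CTree.nil (CTree.cons (CTree.leaf 1 14987546995508141177163097651671093888192485642) (CTree.cons CTree.nil (CTree.cons CTree.nil (CTree.cons (CTree.leaf 1 1370776524887811145640104253449181450) (CTree.cons CTree.nil (CTree.cons (CTree.leaf 1 94644504182687396439479266814912861997607557386)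 (CTree.cons CTree.nil (CTree.cons CTree.nil (CTree.cons CTree.nil (CTree.cons CTree.nil (CTree.cons CTree.nil (CTree.cons CTree.nil (CTree.cons (CTree.leaf 1 8854842065912219813240780236440339941640247562) (CTree.cons CTree.nil (CTree.cons (CTree.leaf 1 222226453714945688393368328308532883560714) (CTree.cons CTree.nil (CTree.cons CTree.nil (CTree.cons (CTree.leaf 1 2062195779104591210557628917190627458) (CTree.cons CTree.nil (CTree.cons CTree.nil (CTree.cons (CTree.leaf 1 8854842065912201665470247944001595552809752842) (CTree.cons (CTree.leaf 1 14563832816170184834956633956450141728529258762) (CTree.cons CTree.nil (CTree.cons (CTree.leaf 1 2788599657664405307737835431428493442) (CTree.cons (CTree.leaf 1 8854842065912219813240780236440339941640247562) (CTree.cons CTree.nil (CTree.cons (CTree.leaf 1 8854842065912219813240780236440339941640247562) (CTree.cons (CTree.leaf 1 14563832816170184834956633956450141728529258762) (CTree.cons CTree.nil (CTree.cons CTree.nil CTree.nil)))))))))))))))))))))))))))))))))))) (CTree.cons CTree.nil (CTree.cons (CTree.cons CTree.nil (CTree.cons CTree.nil (CTree.cons CTree.nil (CTree.cons CTree.nil (CTree.cons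 CTree.nil (CTree.cons CTree.nil (CTree.cons (CTree.leaf 1 43612105878312414426206210831377481990792) (CTree.cons CTree.nil (CTree.cons (CTree.leaf 1 679626917592820877715003662209154) (CTree.cons CTree.nil (CTree.cons CTree.nil (CTree.cons (CTree.leaf 1 1370776524887877239173774906606295306) (CTree.cons CTree.nil (CTree.cons CTree.nil (CTree.cons CTree.nil (CTree.cons CTree.nil (CTree.cons CTree.nil (CTree.cons CTree.nil (CTree.cons (CTree.leaf 1 223225898168059800426164502490277386977953) (CTree.cons (CTree.leaf 1 1370776524887994967447050482526263562) (CTree.cons CTree.nil (CTree.cons CTree.nil (CTree.cons CTree.nil (CTree.cons (CTree.leaf 1 853931505862517776462118285021314) (CTree.cons CTree.nil (CTree.cons (CTree.leaf 1 223225897335300473762141130248263620690593) (CTree.cons (CTree.leaf 1 43557530163067628249777659663898118265098) (CTree.cons CTree.nil (CTree.cons CTree.nil (CTree.cons (CTree.leaf 1 42555893553936695166634689630338) (CTree.cons (CTree.leaf 1 43557529361128056612568530587666605998233) (CTree.cons (CTree.leaf 1 43557530163067628249925092879497654436513) (CTree.cons (CTree.leaf 1 43557530163067628249777659663898118265098)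 (CTree.cons CTree.nil (CTree.cons CTree.nil (CTree.cons CTree.nil CTree.nil)))))))))))))))))))))))))))))))))))) (CTree.cons CTree.nil (CTree.cons (CTree.cons CTree.nil (CTree.cons CTree.nil (CTree.cons CTree.nil (CTree.cons CTree.nil (CTree.cons CTree.nil (CTree.cons CTree.nil (CTree.cons (CTree.leaf 1 2178542970304942846666556684223605809156226) (CTree.cons CTree.nil (CTree.cons (CTree.leaf 1 33241927647475324198339375873038291074) (CTree.cons (CTree.leaf 1 1479814751025240871915867223218067722) (CTree.cons CTree.nil (CTree.cons CTree.nil (CTree.cons CTree.nil (CTree.cons CTree.nil (CTree.cons CTree.nil (CTree.cons CTree.nil (CTree.cons CTree.nil (CTree.cons CTree.nil (CTree.cons (CTree.leaf 1 43611400242970270186439278684475621966497) (CTree.cons (CTree.leaf 1 33241927647475324198403270198830370946) (CTree.cons (CTree.leaf 1 22068104807908375141733585054066612490) (CTree.cons CTree.nil (CTree.cons CTree.nil (CTree.cons CTree.nil (CTree.cons CTree.nil (CTree.cons (CTree.leaf 1 182764872296285454633665520771364650356866) (CTree.cons (CTree.leaf 1 182743116407341386404800321549019456346378) (CTree.cons (CTree.leaf 1 182743116407343862284878856280772235630858)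 (CTree.cons CTree.nil (CTree.cons CTree.nil (CTree.cons (CTree.leaf 1 43611399410215600231162824296482163196577) (CTree.cons (CTree.leaf 1 3621286335969809647375890998734784208902410) (CTree.cons CTree.nil (CTree.cons (CTree.leaf 1 3621286335147592651862834523272926951441057) (CTree.cons CTree.nil (CTree.cons CTree.nil CTree.nil)))))))))))))))))))))))))))))))))))) (CTree.cons (CTree.cons CTree.nil (CTree.cons CTree.nil (CTree.cons CTree.nil (CTree.cons CTree.nil (CTree.cons CTree.nil (CTree.cons CTree.nil (CTree.cons CTree.nil (CTree.cons CTree.nil (CTree.cons (CTree.leaf 1 43612105878299743868105051008456656093857) (CTree.cons (CTree.leaf 1 3323039706990426588638155747166366431295183114) (CTree.cons CTree.nil (CTree.cons (CTree.leaf 1 426764902162123530013641533565947512088530710036992) (CTree.cons CTree.nil (CTree.cons (CTree.leaf 1 94644536869213657789669594669553347373401512202) (CTree.cons CTree.nil (CTree.cons (CTree.leaf 1 223225898168059800463943434353234548687521) (CTree.cons CTree.nil (CTree.cons (CTree.leaf 1 43611400242970270186439855145227925389985) (CTree.cons CTree.nil (CTree.cons CTree.nil (CTree.cons CTree.nil (CTree.cons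 CTree.nil (CTree.cons CTree.nil (CTree.cons CTree.nil (CTree.cons CTree.nil (CTree.cons (CTree.leaf 1 584604067120623192150488518836684148553724751643296) (CTree.cons (CTree.leaf 1 982132512474628785901890793337876042240610883674514) (CTree.cons CTree.nil (CTree.cons CTree.nil (CTree.cons (CTree.leaf 1 136115735041932422131172629591599496634770) (CTree.cons CTree.nil (CTree.cons (CTree.leaf 1 584604067120623192150488518836684148553724751643296) (CTree.cons (CTree.leaf 1 982132512474628785901890793337876042240610883674514) (CTree.cons (CTree.leaf 1 584615641207381229543898975874467653053346355478681) (CTree.cons CTree.nil (CTree.cons CTree.nil CTree.nil)))))))))))))))))))))))))))))))))))) (CTree.cons (CTree.cons CTree.nil (CTree.cons CTree.nil (CTree.cons CTree.nil (CTree.cons CTree.nil (CTree.cons CTree.nil (CTree.cons CTree.nil (CTree.cons (CTree.leaf 1 43612105573521673309370721090746768759050) (CTree.cons CTree.nil (CTree.cons (CTree.leaf 1 33241136871185387200744397147551633538) (CTree.cons CTree.nil (CTree.cons CTree.nil (CTree.cons (CTree.leaf 1 1370776524887877239243580700830537994) (CTree.cons (CTree.leaf 1 8920526751821612363328649659926979224919998733)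 (CTree.cons CTree.nil (CTree.cons CTree.nil (CTree.cons (CTree.leaf 1 1370776524887994967447050482526263562) (CTree.cons CTree.nil (CTree.cons (CTree.leaf 1 33241927647475324198403270198830370946) (CTree.cons CTree.nil (CTree.cons CTree.nil (CTree.cons CTree.nil (CTree.cons CTree.nil (CTree.cons CTree.nil (CTree.cons CTree.nil (CTree.cons CTree.nil (CTree.cons CTree.nil (CTree.cons (CTree.leaf 1 100331274908537488992849565170509768429567809802) (CTree.cons (CTree.leaf 1 8920526749915743741699251620348752953194184973) (CTree.cons CTree.nil (CTree.cons (CTree.leaf 1 2788770632193924707173687904323047554) (CTree.cons (CTree.leaf 1 11418210212151164659997050469279558964941553933) (CTree.cons CTree.nil (CTree.cons (CTree.leaf 1 14566054201351324586018912736128297344409082122) (CTree.cons (CTree.leaf 1 14986236887112566415925697028321988867886547213) (CTree.cons CTree.nil (CTree.cons CTree.nil CTree.nil)))))))))))))))))))))))))))))))))))) (CTree.cons (CTree.cons CTree.nil (CTree.cons CTree.nil (CTree.cons CTree.nil (CTree.cons CTree.nil (CTree.cons CTree.nil (CTree.cons CTree.nil (CTree.cons (CTree.leaf 1 14987546976130785609776168405843915826307143946)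 (CTree.cons CTree.nil (CTree.cons CTree.nil (CTree.cons (CTree.leaf 1 22067271795118370503710956326214572298) (CTree.cons CTree.nil (CTree.cons (CTree.leaf 1 94778341319101000982596623007506122725773154570) (CTree.cons (CTree.leaf 1 3233743146552075887907799784046607321449765130) (CTree.cons (CTree.leaf 1 918765781763606301889870719955686655135874) (CTree.cons CTree.nil (CTree.cons CTree.nil (CTree.cons CTree.nil (CTree.cons (CTree.leaf 1 22068104807908375141733585054066612490) (CTree.cons CTree.nil (CTree.cons CTree.nil (CTree.cons CTree.nil (CTree.cons CTree.nil (CTree.cons CTree.nil (CTree.cons CTree.nil (CTree.cons CTree.nil (CTree.cons (CTree.leaf 1 3233743146551273556548809604337147154114156810) (CTree.cons CTree.nil (CTree.cons (CTree.leaf 1 14562430184803518231203364668822498745372514570) (CTree.cons CTree.nil (CTree.cons (CTree.leaf 1 2788600132878709000533870326036109578) (CTree.cons (CTree.leaf 1 3233743146552075890384888787860240273142585610) (CTree.cons (CTree.leaf 1 8853439403340022451287845537905145294212962570) (CTree.cons CTree.nil (CTree.cons (CTree.leaf 1 14562430184803518231203364668822498745372514570) (CTree.cons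 CTree.nil (CTree.cons CTree.nil CTree.nil)))))))))))))))))))))))))))))))))))) (CTree.cons CTree.nil (CTree.cons CTree.nil (CTree.cons (CTree.cons CTree.nil (CTree.cons CTree.nil (CTree.cons CTree.nil (CTree.cons CTree.nil (CTree.cons CTree.nil (CTree.cons CTree.nil (CTree.cons (CTree.leaf 1 3667565386064384689870742917651412689230090) (CTree.cons CTree.nil (CTree.cons (CTree.leaf 1 853931505862517776462702400573570) (CTree.cons (CTree.leaf 1 55962596457678096739021278152242632970) (CTree.cons CTree.nil (CTree.cons CTree.nil (CTree.cons (CTree.leaf 1 3667564103567065582246187291907096860295568) (CTree.cons (CTree.leaf 1 55962911785919575051518648338971496578) (CTree.cons CTree.nil (CTree.cons (CTree.leaf 1 853931505862517776462118285021314) (CTree.cons CTree.nil (CTree.cons CTree.nil (CTree.cons CTree.nil (CTree.cons CTree.nil (CTree.cons CTree.nil (CTree.cons CTree.nil (CTree.cons CTree.nil (CTree.cons CTree.nil (CTree.cons CTree.nil (CTree.cons (CTree.leaf 1 749753573694942008434033811163972001686621847101842) (CTree.cons (CTree.leaf 1 43567628663414496988576658832484389749133) (CTree.cons (CTree.leaf 1 2145821270592693678897076806153829115101713)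 (CTree.cons CTree.nil (CTree.cons CTree.nil (CTree.cons (CTree.leaf 1 3667564015309026746430028450630317638812048) (CTree.cons (CTree.leaf 1 3667564015309026746359120285272274861367698) (CTree.cons (CTree.leaf 1 3667564015309026746430028486659114657782026) (CTree.cons CTree.nil (CTree.cons CTree.nil (CTree.cons CTree.nil CTree.nil)))))))))))))))))))))))))))))))))))) (CTree.cons CTree.nil (CTree.cons (CTree.cons CTree.nil (CTree.cons CTree.nil (CTree.cons CTree.nil (CTree.cons CTree.nil (CTree.cons CTree.nil (CTree.cons CTree.nil (CTree.cons CTree.nil (CTree.cons CTree.nil (CTree.cons (CTree.leaf 1 43556938241225755279575581985413633082017) (CTree.cons (CTree.leaf 1 224927309485629383951779283880629113067786) (CTree.cons CTree.nil (CTree.cons (CTree.leaf 1 43612105878299743679268540491412875057418) (CTree.cons (CTree.leaf 1 982140519014850282085871597945793242492237604067594) (CTree.cons CTree.nil (CTree.cons CTree.nil (CTree.cons (CTree.leaf 1 223225897497559750591354493639841630978721) (CTree.cons CTree.nil (CTree.cons (CTree.leaf 1 136168203374970139046340792591133259661465) (CTree.cons (CTree.leaf 1 584604067120612511758822842988094003752695451746976)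 (CTree.cons CTree.nil (CTree.cons (CTree.leaf 1 94778302189344080022991839961789120779279014154) (CTree.cons CTree.nil (CTree.cons CTree.nil (CTree.cons (CTree.leaf 1 3667564015471286023259241814021895649100176) (CTree.cons CTree.nil (CTree.cons CTree.nil (CTree.cons CTree.nil (CTree.cons CTree.nil (CTree.cons CTree.nil (CTree.cons CTree.nil (CTree.cons (CTree.leaf 1 584604067120612511758822842988094003752695451746976) (CTree.cons CTree.nil (CTree.cons (CTree.leaf 1 982132512435476894678704280109264517505098278115594) (CTree.cons (CTree.leaf 1 584604067175048951830560083062863553202420884570381) (CTree.cons CTree.nil (CTree.cons CTree.nil CTree.nil)))))))))))))))))))))))))))))))))))) (CTree.cons (CTree.cons CTree.nil (CTree.cons CTree.nil (CTree.cons CTree.nil (CTree.cons CTree.nil (CTree.cons CTree.nil (CTree.cons CTree.nil (CTree.cons (CTree.leaf 1 14807738368761904491684970313571232019038411018) (CTree.cons CTree.nil (CTree.cons CTree.nil (CTree.cons (CTree.leaf 1 3323039706990426588638155747166366431295183114) (CTree.cons CTree.nil (CTree.cons (CTree.leaf 1 182732295662350107656978096911577937682834) (CTree.cons CTree.nil (CTree.cons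 (CTree.leaf 1 94645150378902179455749749432351535184022214922) (CTree.cons CTree.nil (CTree.cons (CTree.leaf 1 43568163987033907576760890120380361021706) (CTree.cons CTree.nil (CTree.cons (CTree.leaf 1 3621285613570051246736610371063496271010058) (CTree.cons (CTree.leaf 1 14517967856539097700201385917282083597873447309) (CTree.cons (CTree.leaf 1 100331274908537488992849565170509777225660832010) (CTree.cons CTree.nil (CTree.cons CTree.nil (CTree.cons CTree.nil (CTree.cons (CTree.leaf 1 3667564015471286327908548322005550562941194) (CTree.cons CTree.nil (CTree.cons CTree.nil (CTree.cons CTree.nil (CTree.cons CTree.nil (CTree.cons CTree.nil (CTree.cons CTree.nil (CTree.cons (CTree.leaf 1 60212194768328344517208034860559969292756058509) (CTree.cons (CTree.leaf 1 11975543731134107255248472363707180373175304589) (CTree.cons CTree.nil (CTree.cons (CTree.leaf 1 11975722376661189293013345899482031435218557194) (CTree.cons CTree.nil (CTree.cons CTree.nil CTree.nil)))))))))))))))))))))))))))))))))))) (CTree.cons (CTree.cons CTree.nil (CTree.cons CTree.nil (CTree.cons CTree.nil (CTree.cons CTree.nil (CTree.cons CTree.nil (CTree.cons CTree.nil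 (CTree.cons (CTree.leaf 1 223661376872878350438986667514714795443489347805586) (CTree.cons CTree.nil (CTree.cons (CTree.leaf 1 43556938241225755279575509928919106781857) (CTree.cons CTree.nil (CTree.cons CTree.nil (CTree.cons (CTree.leaf 1 182732404709063416903785328613563772309634) (CTree.cons (CTree.leaf 1 982138020758692822965806752655786652294085750104466) (CTree.cons (CTree.leaf 1 182735021942637218991589764840828175522058) (CTree.cons CTree.nil (CTree.cons CTree.nil (CTree.cons CTree.nil (CTree.cons (CTree.leaf 1 3621296968971558931189817753729409194197665) (CTree.cons CTree.nil (CTree.cons (CTree.leaf 1 8920526749915743741699251620925213705497608461) (CTree.cons (CTree.leaf 1 222226452871175824308528681549498247354634) (CTree.cons CTree.nil (CTree.cons CTree.nil (CTree.cons (CTree.leaf 1 220899218717371731334268843078274226723082) (CTree.cons CTree.nil (CTree.cons CTree.nil (CTree.cons CTree.nil (CTree.cons CTree.nil (CTree.cons CTree.nil (CTree.cons CTree.nil (CTree.cons (CTree.leaf 1 223618670983954208418094324478175586844001390690976) (CTree.cons (CTree.leaf 1 982132512436497741779464618448447630120451158647186) (CTree.cons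 (CTree.leaf 1 2854547452005482438423458640099388222339094794) (CTree.cons CTree.nil (CTree.cons CTree.nil (CTree.cons CTree.nil CTree.nil)))))))))))))))))))))))))))))))))))) (CTree.cons CTree.nil (CTree.cons (CTree.cons CTree.nil (CTree.cons CTree.nil (CTree.cons CTree.nil (CTree.cons CTree.nil (CTree.cons CTree.nil (CTree.cons CTree.nil (CTree.cons (CTree.leaf 1 182732295662351974238497917019296316916104) (CTree.cons CTree.nil (CTree.cons (CTree.leaf 1 42555893553936695167218805182594) (CTree.cons (CTree.leaf 1 2788284329422926995240465244699629834) (CTree.cons CTree.nil (CTree.cons CTree.nil (CTree.cons (CTree.leaf 1 182732383929734777917767937198358606774672) (CTree.cons (CTree.leaf 1 2788599657664405307737835431428493442) (CTree.cons CTree.nil (CTree.cons (CTree.leaf 1 42555893553936695166634689630338) (CTree.cons CTree.nil (CTree.cons CTree.nil (CTree.cons (CTree.leaf 1 136115735041929946251094058831049698386322) (CTree.cons (CTree.leaf 1 2788770632193924707173687904323047554) (CTree.cons (CTree.leaf 1 2788600132878709000533870326036109578) (CTree.cons CTree.nil (CTree.cons CTree.nil (CTree.cons CTree.nil (CTree.cons CTree.nil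 (CTree.cons CTree.nil (CTree.cons CTree.nil (CTree.cons CTree.nil (CTree.cons CTree.nil (CTree.cons CTree.nil (CTree.cons CTree.nil (CTree.cons (CTree.leaf 1 182732295671695942101609095921579385291152) (CTree.cons (CTree.leaf 1 182732295671695942101609131950376404261130) (CTree.cons (CTree.leaf 1 182732383929729970022237865641230909645202) (CTree.cons CTree.nil (CTree.cons CTree.nil CTree.nil)))))))))))))))))))))))))))))))))))) (CTree.cons (CTree.cons CTree.nil (CTree.cons CTree.nil (CTree.cons CTree.nil (CTree.cons CTree.nil (CTree.cons CTree.nil (CTree.cons CTree.nil (CTree.cons CTree.nil (CTree.cons CTree.nil (CTree.cons (CTree.leaf 1 43556938241225755279575581985413633082017) (CTree.cons (CTree.leaf 1 3412064720937120619381063281879917607966087434) (CTree.cons CTree.nil (CTree.cons (CTree.leaf 1 223615706257498814470484661772701210412133432426896) (CTree.cons CTree.nil (CTree.cons (CTree.leaf 1 3413458185760605600961601702263255871851206922) (CTree.cons CTree.nil (CTree.cons (CTree.leaf 1 43568163185094335939551761044148848754841) (CTree.cons CTree.nil (CTree.cons (CTree.leaf 1 43611399572474877060376187688060173484705) (CTree.cons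 CTree.nil (CTree.cons (CTree.leaf 1 11418210212151164659997050469856019717244977421) (CTree.cons (CTree.leaf 1 94778302189344080022991839961789120779279014154) (CTree.cons CTree.nil (CTree.cons CTree.nil (CTree.cons (CTree.leaf 1 3667564015471290978575267095262910455292306) (CTree.cons CTree.nil (CTree.cons (CTree.leaf 1 983605588160584817740782318696634082697948750283021) (CTree.cons (CTree.leaf 1 982178050512933722476860431023947115716475397742994) (CTree.cons (CTree.leaf 1 3208005014330269368467110239372809886847141515624601) (CTree.cons CTree.nil (CTree.cons CTree.nil (CTree.cons CTree.nil (CTree.cons CTree.nil (CTree.cons CTree.nil (CTree.cons CTree.nil (CTree.cons CTree.nil (CTree.cons CTree.nil CTree.nil)))))))))))))))))))))))))))))))))))) (CTree.cons (CTree.cons CTree.nil (CTree.cons CTree.nil (CTree.cons CTree.nil (CTree.cons CTree.nil (CTree.cons CTree.nil (CTree.cons CTree.nil (CTree.cons (CTree.leaf 1 3412057583538370434990904447476244043352703649) (CTree.cons CTree.nil (CTree.cons (CTree.leaf 1 223225897326268463235514995763682076197537) (CTree.cons (CTree.leaf 1 224927309485629383951779283880629113067786) (CTree.cons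 CTree.nil (CTree.cons CTree.nil (CTree.cons (CTree.leaf 1 584615641207370549152233300023737686500972425191826) (CTree.cons CTree.nil (CTree.cons CTree.nil (CTree.cons (CTree.leaf 1 43568163987033907576908323335979897193121) (CTree.cons CTree.nil (CTree.cons (CTree.leaf 1 3621296969793775926702874229191266451659018) (CTree.cons (CTree.leaf 1 584604067120612511758822842988094003752695451746976) (CTree.cons CTree.nil (CTree.cons (CTree.leaf 1 94778302189344080022991839961789120779279014154) (CTree.cons CTree.nil (CTree.cons CTree.nil (CTree.cons (CTree.leaf 1 3667564015471286023188333648663852871655826) (CTree.cons CTree.nil (CTree.cons CTree.nil (CTree.cons (CTree.leaf 1 54659170039128720387532106424460980090969331978) (CTree.cons (CTree.leaf 1 393158926678901902821068347042636607031318653569171) (CTree.cons CTree.nil (CTree.cons (CTree.leaf 1 182732295833955218930822459313157395579280) (CTree.cons CTree.nil (CTree.cons CTree.nil (CTree.cons CTree.nil (CTree.cons CTree.nil (CTree.cons CTree.nil (CTree.cons CTree.nil CTree.nil)))))))))))))))))))))))))))))))))))) (CTree.cons (CTree.cons CTree.nil (CTree.cons CTree.nil (CTree.cons CTree.nil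 (CTree.cons CTree.nil (CTree.cons CTree.nil (CTree.cons CTree.nil (CTree.cons (CTree.leaf 1 982132513088138474433059302518583107288587176122634) (CTree.cons CTree.nil (CTree.cons CTree.nil (CTree.cons (CTree.leaf 1 3323039706990426588638155747166366431295183114) (CTree.cons CTree.nil (CTree.cons (CTree.leaf 1 43612105878299743679268540491412875057418) (CTree.cons (CTree.leaf 1 223624737400157897278757328958764163641585259118989) (CTree.cons (CTree.leaf 1 94645150378902179455749749432351535184022214922) (CTree.cons CTree.nil (CTree.cons (CTree.leaf 1 43568163987033907576760890120380361021706) (CTree.cons CTree.nil (CTree.cons CTree.nil (CTree.cons (CTree.leaf 1 214855727576172479769540172856083796653832659403149) (CTree.cons (CTree.leaf 1 14566054201351324586018912736128306140502104330) (CTree.cons CTree.nil (CTree.cons CTree.nil (CTree.cons CTree.nil (CTree.cons (CTree.leaf 1 3667564015471286023259241850050692668070154) (CTree.cons CTree.nil (CTree.cons (CTree.leaf 1 982180726561525525850277107683041213417537150261514) (CTree.cons CTree.nil (CTree.cons (CTree.leaf 1 14562430182804483940677127588921516078512806154) (CTree.cons CTree.nil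 (CTree.cons (CTree.leaf 1 182732295833955218930822495341954414549258) (CTree.cons CTree.nil (CTree.cons CTree.nil (CTree.cons CTree.nil (CTree.cons CTree.nil (CTree.cons CTree.nil (CTree.cons CTree.nil CTree.nil)))))))))))))))))))))))))))))))))))) (CTree.cons (CTree.cons CTree.nil (CTree.cons CTree.nil (CTree.cons CTree.nil (CTree.cons CTree.nil (CTree.cons CTree.nil (CTree.cons CTree.nil (CTree.cons (CTree.leaf 1 982132513088137892599502778961639634510248218272146) (CTree.cons CTree.nil (CTree.cons (CTree.leaf 1 43556938241225755279575509928919106781857) (CTree.cons CTree.nil (CTree.cons CTree.nil (CTree.cons (CTree.leaf 1 217778730897112687507190227839111199793435708096777) (CTree.cons (CTree.leaf 1 223624736748525903260778038437057646364943677784576) (CTree.cons (CTree.leaf 1 14562438733805405549662977318261361358539921674) (CTree.cons CTree.nil (CTree.cons CTree.nil (CTree.cons CTree.nil (CTree.cons (CTree.leaf 1 3621296968971558931189817753729409194197665) (CTree.cons (CTree.leaf 1 982132512436497741779467095464126754923439808651666) (CTree.cons (CTree.leaf 1 14986236887112566415925697028898449620189970701) (CTree.cons (CTree.leaf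 1 222226452871175824308528681549498247354634) (CTree.cons CTree.nil (CTree.cons CTree.nil (CTree.cons CTree.nil (CTree.cons CTree.nil (CTree.cons (CTree.leaf 1 982180728831559263452575376025760235040142917435545) (CTree.cons (CTree.leaf 1 3412243026795320317568409087098689599377840394) (CTree.cons CTree.nil (CTree.cons CTree.nil (CTree.cons (CTree.leaf 1 182732383929732445902316436401780707893650) (CTree.cons CTree.nil (CTree.cons CTree.nil (CTree.cons CTree.nil (CTree.cons CTree.nil (CTree.cons CTree.nil (CTree.cons CTree.nil CTree.nil)))))))))))))))))))))))))))))))))))) (CTree.cons CTree.nil (CTree.cons CTree.nil CTree.nil)))))))))))))))))))))))))))))))))))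

theorem tree6_0_4_ok : chk 6 (pk (goalL 6)) tree6_0_4 (stk [((0 : Fin 6), (4 : Fin 6))]) 1 (om [((0 : Fin 6), (4 : Fin 6))]) (im [((0 : Fin 6), (4 : Fin 6))])
    (cm [((0 : Fin 6), (4 : Fin 6))]) (pk (goalR [((0 : Fin 6), (4 : Fin 6))])) 0 = true := by
  decide +kernel

def tree6_0_5 : CTree :=
  CTree.cons CTree.nil (CTree.cons CTree.nil (CTree.cons CTree.nil (CTree.cons CTree.nil (CTree.cons CTree.nil (CTree.cons CTree.nil (CTree.cons (CTree.cons CTree.nil (CTree.cons CTree.nil (CTree.cons CTree.nil (CTree.cons CTree.nil (CTree.cons CTree.nil (CTree.cons CTree.nil (CTree.cons CTree.nil (CTree.cons CTree.nil (CTree.cons CTree.nil (CTree.cons CTree.nil (CTree.cons CTree.nil (CTree.cons CTree.nil (CTree.cons CTree.nil (CTree.cons (CTree.leaf 1 15008498521152953636833804725533180407334969746) (CTree.cons CTree.nil (CTree.cons (CTree.leaf 1 229010697564233440392135278146845590815240) (CTree.cons (CTree.leaf 1 229043274034719211698019403521144980115586) (CTree.cons CTree.nil (CTree.cons CTree.nil (CTree.cons (CTree.leaf 1 229054572967467934440598783049259690889346) (CTree.cons (CTree.leaf 1 983693966095474945020555300324653412972722482970773)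 (CTree.cons CTree.nil (CTree.cons (CTree.leaf 1 229012068328301516691365897570023481415946) (CTree.cons CTree.nil (CTree.cons CTree.nil (CTree.cons (CTree.leaf 1 36549315944880471978876523564992102153167593677202) (CTree.cons (CTree.leaf 1 936925914932728952733191370742963518766015026167957) (CTree.cons (CTree.leaf 1 6774074361723805202696982424986694548655345904523530) (CTree.cons CTree.nil (CTree.cons CTree.nil (CTree.cons CTree.nil (CTree.cons CTree.nil (CTree.cons (CTree.leaf 1 983593883754528899941781165367346736252209705193602) (CTree.cons (CTree.leaf 1 983593924778630046356115444161314729179491120917018) (CTree.cons (CTree.leaf 1 983593924824962328703079281870304972021513976418843) (CTree.cons CTree.nil CTree.nil)))))))))))))))))))))))))))))))))))) (CTree.cons CTree.nil (CTree.cons (CTree.cons CTree.nil (CTree.cons CTree.nil (CTree.cons CTree.nil (CTree.cons CTree.nil (CTree.cons CTree.nil (CTree.cons CTree.nil (CTree.cons CTree.nil (CTree.cons CTree.nil (CTree.cons CTree.nil (CTree.cons CTree.nil (CTree.cons CTree.nil (CTree.cons CTree.nil (CTree.cons (CTree.leaf 1 229010697564233440243548483733897086108168) (CTree.cons CTree.nil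 (CTree.cons CTree.nil (CTree.cons (CTree.leaf 1 53333554318602007590231095447682) (CTree.cons (CTree.leaf 1 3494923004954661264622354777100128386) (CTree.cons CTree.nil (CTree.cons (CTree.leaf 1 229010827401677391668064540827761092722953) (CTree.cons (CTree.leaf 1 3494923009630714982991497907561173122) (CTree.cons CTree.nil (CTree.cons CTree.nil (CTree.cons (CTree.leaf 1 53333554318602007590231086534786) (CTree.cons CTree.nil (CTree.cons (CTree.leaf 1 229010827401677391597064106285237698898458) (CTree.cons (CTree.leaf 1 11775011589144447456797453692916723345161593234) (CTree.cons CTree.nil (CTree.cons (CTree.leaf 1 3494425932148774645284131084728146186) (CTree.cons CTree.nil (CTree.cons CTree.nil (CTree.cons CTree.nil (CTree.cons (CTree.leaf 1 229012816019049150353371474092895915081993) (CTree.cons CTree.nil (CTree.cons (CTree.leaf 1 229010697563911874435464895065903706284434) (CTree.cons (CTree.leaf 1 229010827369352633748296945307688784701978) (CTree.cons CTree.nil CTree.nil)))))))))))))))))))))))))))))))))))) (CTree.cons (CTree.cons CTree.nil (CTree.cons CTree.nil (CTree.cons CTree.nil (CTree.cons CTree.nil (CTree.cons CTree.nil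 (CTree.cons CTree.nil (CTree.cons CTree.nil (CTree.cons CTree.nil (CTree.cons CTree.nil (CTree.cons CTree.nil (CTree.cons CTree.nil (CTree.cons CTree.nil (CTree.cons (CTree.leaf 1 229011512784466577452704375118898322872586) (CTree.cons (CTree.leaf 1 3494436702183595247416868863976020234) (CTree.cons CTree.nil (CTree.cons CTree.nil (CTree.cons (CTree.leaf 1 3494438365975196884451824079285131530) (CTree.cons CTree.nil (CTree.cons (CTree.leaf 1 183415690197976941119158893738455202928906) (CTree.cons CTree.nil (CTree.cons (CTree.leaf 1 3494752505639445558052342993037433098) (CTree.cons CTree.nil (CTree.cons (CTree.leaf 1 3494436702183783937325075553074682122) (CTree.cons CTree.nil (CTree.cons (CTree.leaf 1 183415690197976941119158893738455202928906) (CTree.cons (CTree.leaf 1 14294995475092185685450353181529575921913305354) (CTree.cons (CTree.leaf 1 94958150267437479400891975421588841435159992586) (CTree.cons CTree.nil (CTree.cons CTree.nil (CTree.cons CTree.nil (CTree.cons CTree.nil (CTree.cons (CTree.leaf 1 229012800454438909786418694958789069773066) (CTree.cons (CTree.leaf 1 183415690197976941119158893738455202928906) (CTree.cons CTree.nil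 (CTree.cons (CTree.leaf 1 229010806610939897445111085898731606907146) (CTree.cons CTree.nil CTree.nil)))))))))))))))))))))))))))))))))))) (CTree.cons (CTree.cons CTree.nil (CTree.cons CTree.nil (CTree.cons CTree.nil (CTree.cons CTree.nil (CTree.cons CTree.nil (CTree.cons CTree.nil (CTree.cons CTree.nil (CTree.cons CTree.nil (CTree.cons CTree.nil (CTree.cons CTree.nil (CTree.cons CTree.nil (CTree.cons CTree.nil (CTree.cons (CTree.leaf 1 229010848148691010655458430329130958590082) (CTree.cons (CTree.leaf 1 229032069552878248686569679840842283094146) (CTree.cons CTree.nil (CTree.cons (CTree.leaf 1 3494436702183741288455028970907902354) (CTree.cons CTree.nil (CTree.cons CTree.nil (CTree.cons (CTree.leaf 1 983593924830354913198924404138633425790147935021594) (CTree.cons (CTree.leaf 1 3494436702183741288455030036059791762) (CTree.cons (CTree.leaf 1 229010697563607340050273380087256195930378) (CTree.cons CTree.nil (CTree.cons CTree.nil (CTree.cons CTree.nil (CTree.cons (CTree.leaf 1 983593926311944339605613814434699101362091386867842) (CTree.cons CTree.nil (CTree.cons (CTree.leaf 1 3494753139464745821971640969273614738) (CTree.cons (CTree.leaf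 1 6399929943142511538100146049527892556783357443840266) (CTree.cons CTree.nil (CTree.cons CTree.nil (CTree.cons CTree.nil (CTree.cons (CTree.leaf 1 983596511838956753506397815789667909547882698189338) (CTree.cons (CTree.leaf 1 983593924952513629834396289228676932619200113617434) (CTree.cons (CTree.leaf 1 15008452222013030855802588143196725769743765634) (CTree.cons CTree.nil (CTree.cons CTree.nil CTree.nil)))))))))))))))))))))))))))))))))))) (CTree.cons CTree.nil (CTree.cons (CTree.cons CTree.nil (CTree.cons CTree.nil (CTree.cons CTree.nil (CTree.cons CTree.nil (CTree.cons CTree.nil (CTree.cons CTree.nil (CTree.cons CTree.nil (CTree.cons CTree.nil (CTree.cons (CTree.leaf 1 15008454945684299414063055230243630634250150290) (CTree.cons (CTree.leaf 1 229012816019054103393455446276451104063773) (CTree.cons (CTree.leaf 1 15008619343242722487943697849936845771554562450) (CTree.cons CTree.nil (CTree.cons CTree.nil (CTree.cons CTree.nil (CTree.cons CTree.nil (CTree.cons CTree.nil (CTree.cons CTree.nil (CTree.cons CTree.nil (CTree.cons CTree.nil (CTree.cons (CTree.leaf 1 15009848402558683644364294258568185623631495297) (CTree.cons (CTree.leaf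 1 229012816345627606013912395903402136705290) (CTree.cons CTree.nil (CTree.cons (CTree.leaf 1 229010785830990143729544055283749066768784) (CTree.cons CTree.nil (CTree.cons CTree.nil (CTree.cons (CTree.leaf 1 223624045507103197446688438935944842573250964365714) (CTree.cons (CTree.leaf 1 983596556440470452763031906357692247367518692972810) (CTree.cons (CTree.leaf 1 6774074362955320225478874088025884976613837687620225) (CTree.cons CTree.nil (CTree.cons CTree.nil (CTree.cons CTree.nil (CTree.cons (CTree.leaf 1 983599456066485342346572498483249567151574971193610) (CTree.cons CTree.nil (CTree.cons (CTree.leaf 1 983596601571099930426810381911310668161301525572122) (CTree.cons (CTree.leaf 1 983596601571099930426810381911310668161301525572122) (CTree.cons CTree.nil CTree.nil)))))))))))))))))))))))))))))))))))) (CTree.cons (CTree.cons CTree.nil (CTree.cons CTree.nil (CTree.cons CTree.nil (CTree.cons CTree.nil (CTree.cons CTree.nil (CTree.cons CTree.nil (CTree.cons (CTree.leaf 1 15008498521152953632171048840799783536393062803) (CTree.cons CTree.nil (CTree.cons CTree.nil (CTree.cons (CTree.leaf 1 3494436702183595247416868863976020234) (CTree.cons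 (CTree.leaf 1 416628654721672227207103889147036867805089688592786) (CTree.cons CTree.nil (CTree.cons CTree.nil (CTree.cons CTree.nil (CTree.cons CTree.nil (CTree.cons CTree.nil (CTree.cons CTree.nil (CTree.cons CTree.nil (CTree.cons (CTree.leaf 1 27106595189993738554988900163012992936671459906443417866) (CTree.cons CTree.nil (CTree.cons (CTree.leaf 1 6211396232669661467992665888256347351210846813036946) (CTree.cons CTree.nil (CTree.cons (CTree.leaf 1 3494752030595789392559315115112534146) (CTree.cons CTree.nil (CTree.cons (CTree.leaf 1 443945382305515508028459261832528316675857429956616919306) (CTree.cons CTree.nil (CTree.cons (CTree.leaf 1 94644580425398821777238069505416900328696715530) (CTree.cons (CTree.leaf 1 935456049244984665663959714459246437651327466742162) (CTree.cons CTree.nil (CTree.cons CTree.nil (CTree.cons CTree.nil (CTree.cons CTree.nil (CTree.cons (CTree.leaf 1 38031257003966096884507668865477999638585014679357757706) (CTree.cons (CTree.leaf 1 50291221322932585232470876215054688403374381186160402834) (CTree.cons (CTree.leaf 1 61300401945563838098622778256720476586600600301345577226) (CTree.cons CTree.nil CTree.nil))))))))))))))))))))))))))))))))))))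 (CTree.cons CTree.nil (CTree.cons (CTree.cons CTree.nil (CTree.cons CTree.nil (CTree.cons CTree.nil (CTree.cons CTree.nil (CTree.cons CTree.nil (CTree.cons CTree.nil (CTree.cons (CTree.leaf 1 229010697564233440392134701686093287391752) (CTree.cons CTree.nil (CTree.cons (CTree.leaf 1 53333554318602007590231095447682) (CTree.cons CTree.nil (CTree.cons (CTree.leaf 1 3494436702183741288455028970907902354) (CTree.cons CTree.nil (CTree.cons CTree.nil (CTree.cons CTree.nil (CTree.cons CTree.nil (CTree.cons CTree.nil (CTree.cons CTree.nil (CTree.cons CTree.nil (CTree.cons (CTree.leaf 1 229010827369357286898814469013483759469072) (CTree.cons (CTree.leaf 1 3494752664250444342707217189420798082) (CTree.cons CTree.nil (CTree.cons CTree.nil (CTree.cons (CTree.leaf 1 53333554318602007590231077621890) (CTree.cons CTree.nil (CTree.cons (CTree.leaf 1 229010697572948538115503569852175249179152) (CTree.cons (CTree.leaf 1 3412231818167711774163869129297137135055937938) (CTree.cons (CTree.leaf 1 3494425932148843357778632832351543698) (CTree.cons CTree.nil (CTree.cons CTree.nil (CTree.cons CTree.nil (CTree.cons CTree.nil (CTree.cons (CTree.leaf 1 229010697563911710095099475027385486803472)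 (CTree.cons (CTree.leaf 1 229010697563911710095101779981933613818258) (CTree.cons CTree.nil (CTree.cons (CTree.leaf 1 229010827369352469334239025989157318697362) (CTree.cons CTree.nil CTree.nil)))))))))))))))))))))))))))))))))))) (CTree.cons (CTree.cons CTree.nil (CTree.cons CTree.nil (CTree.cons CTree.nil (CTree.cons CTree.nil (CTree.cons CTree.nil (CTree.cons CTree.nil (CTree.cons (CTree.leaf 1 229043274034719211698018827060392676692098) (CTree.cons CTree.nil (CTree.cons (CTree.leaf 1 3494923004954661264622354777100128386) (CTree.cons (CTree.leaf 1 3494438365975196884451824079285131530) (CTree.cons CTree.nil (CTree.cons CTree.nil (CTree.cons CTree.nil (CTree.cons CTree.nil (CTree.cons CTree.nil (CTree.cons CTree.nil (CTree.cons CTree.nil (CTree.cons CTree.nil (CTree.cons (CTree.leaf 1 43559637413362322625522043601071348785554) (CTree.cons (CTree.leaf 1 3494923004954661264653879974491721858) (CTree.cons (CTree.leaf 1 3494752505639445558014062396204783882) (CTree.cons CTree.nil (CTree.cons CTree.nil (CTree.cons CTree.nil (CTree.cons (CTree.leaf 1 229010697572943881408859618213095848681874) (CTree.cons (CTree.leaf 1 3494458336467237867986897393683140738)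 (CTree.cons CTree.nil (CTree.cons (CTree.leaf 1 3494458336467349470712790812275644682) (CTree.cons CTree.nil (CTree.cons CTree.nil (CTree.cons CTree.nil (CTree.cons (CTree.leaf 1 136116441205315253536592964371220916207769) (CTree.cons (CTree.leaf 1 229010697572943582804182209474120599607562) (CTree.cons (CTree.leaf 1 229010697572943881408859618213095848681874) (CTree.cons CTree.nil (CTree.cons CTree.nil CTree.nil)))))))))))))))))))))))))))))))))))) (CTree.cons CTree.nil (CTree.cons (CTree.cons CTree.nil (CTree.cons CTree.nil (CTree.cons CTree.nil (CTree.cons CTree.nil (CTree.cons CTree.nil (CTree.cons CTree.nil (CTree.cons CTree.nil (CTree.cons CTree.nil (CTree.cons (CTree.leaf 1 229010697888667810352561510157814656016786) (CTree.cons (CTree.leaf 1 15008452221353954112142752016775660997922920714) (CTree.cons (CTree.leaf 1 983604874451327466048571842113820673371512125467162) (CTree.cons CTree.nil (CTree.cons CTree.nil (CTree.cons (CTree.leaf 1 15009845701042668482905398404336193748759877898) (CTree.cons CTree.nil (CTree.cons (CTree.leaf 1 229010827369357286936593400876440921178640) (CTree.cons (CTree.leaf 1 43559637413362322663300975464028510495122)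 (CTree.cons CTree.nil (CTree.cons CTree.nil (CTree.cons CTree.nil (CTree.cons CTree.nil (CTree.cons CTree.nil (CTree.cons CTree.nil (CTree.cons CTree.nil (CTree.cons CTree.nil (CTree.cons (CTree.leaf 1 936825961722815313490848908474555024804020174848269) (CTree.cons (CTree.leaf 1 6774074361723805202191195077327021394678216440551690) (CTree.cons (CTree.leaf 1 6774074362955320225478874087997219278398962664085770) (CTree.cons CTree.nil (CTree.cons CTree.nil (CTree.cons CTree.nil (CTree.cons (CTree.leaf 1 983639553636620532427648102193290996345827836832282) (CTree.cons (CTree.leaf 1 983639553636620533260566040038313730170559577849985) (CTree.cons CTree.nil (CTree.cons (CTree.leaf 1 983639553636620532427648102193290996345827836832282) (CTree.cons CTree.nil CTree.nil)))))))))))))))))))))))))))))))))))) (CTree.cons (CTree.cons CTree.nil (CTree.cons CTree.nil (CTree.cons CTree.nil (CTree.cons CTree.nil (CTree.cons CTree.nil (CTree.cons CTree.nil (CTree.cons (CTree.leaf 1 229054572967467934440598783040463597867138) (CTree.cons CTree.nil (CTree.cons (CTree.leaf 1 3494923009630714982991497907561173122) (CTree.cons CTree.nil (CTree.cons (CTree.leaf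 1 3494436702183741288455030036059791762) (CTree.cons CTree.nil (CTree.cons (CTree.leaf 1 15009848402558683641888414179997425073833246849) (CTree.cons CTree.nil (CTree.cons CTree.nil (CTree.cons (CTree.leaf 1 3494752664250444342707217189420798082) (CTree.cons (CTree.leaf 1 3494923004954661264653879974491721858) (CTree.cons CTree.nil (CTree.cons CTree.nil (CTree.cons CTree.nil (CTree.cons CTree.nil (CTree.cons CTree.nil (CTree.cons CTree.nil (CTree.cons CTree.nil (CTree.cons (CTree.leaf 1 15009848402558348353420827881817531347484410384) (CTree.cons CTree.nil (CTree.cons (CTree.leaf 1 94822986388227520082094753084547335114395885970) (CTree.cons (CTree.leaf 1 15009848402558348353420827881817531347484410384) (CTree.cons CTree.nil (CTree.cons CTree.nil (CTree.cons CTree.nil (CTree.cons CTree.nil (CTree.cons (CTree.leaf 1 15009848400621651172009100225756332813408407955) (CTree.cons (CTree.leaf 1 15009848400621651177291954997085887124286341249) (CTree.cons (CTree.leaf 1 15009932471057554073583860769411535705290187154) (CTree.cons CTree.nil CTree.nil)))))))))))))))))))))))))))))))))))) (CTree.cons (CTree.cons CTree.nil (CTree.cons CTree.nil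 (CTree.cons CTree.nil (CTree.cons CTree.nil (CTree.cons CTree.nil (CTree.cons CTree.nil (CTree.cons (CTree.leaf 1 983593480297037819575398086568457518234902043689355) (CTree.cons CTree.nil (CTree.cons CTree.nil (CTree.cons (CTree.leaf 1 3494752505639445558052342993037433098) (CTree.cons (CTree.leaf 1 229010697563607340050273380088286988081418) (CTree.cons CTree.nil (CTree.cons (CTree.leaf 1 3233837065881230141784182910110107338641381642) (CTree.cons (CTree.leaf 1 229043274358524882470232467996252386758786) (CTree.cons CTree.nil (CTree.cons CTree.nil (CTree.cons (CTree.leaf 1 3494752505639445558014062396204783882) (CTree.cons CTree.nil (CTree.cons CTree.nil (CTree.cons CTree.nil (CTree.cons CTree.nil (CTree.cons CTree.nil (CTree.cons CTree.nil (CTree.cons CTree.nil (CTree.cons (CTree.leaf 1 15008536611375594772415444841901240449842682122) (CTree.cons (CTree.leaf 1 94778384897830458197486610935096368121012427018) (CTree.cons CTree.nil (CTree.cons (CTree.leaf 1 229010697755564951955818919871999854647562) (CTree.cons CTree.nil (CTree.cons CTree.nil (CTree.cons CTree.nil (CTree.cons (CTree.leaf 1 3233837065881230141784034046686316584739936522)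 (CTree.cons CTree.nil (CTree.cons (CTree.leaf 1 15008580167519200016075520030204926958315897227) (CTree.cons (CTree.leaf 1 15008536611375432433910453114956649423267567882) (CTree.cons CTree.nil CTree.nil)))))))))))))))))))))))))))))))))))) (CTree.cons CTree.nil (CTree.cons (CTree.cons CTree.nil (CTree.cons CTree.nil (CTree.cons CTree.nil (CTree.cons CTree.nil (CTree.cons CTree.nil (CTree.cons CTree.nil (CTree.cons (CTree.leaf 1 229012068328301516691365897561227388393738) (CTree.cons CTree.nil (CTree.cons (CTree.leaf 1 53333554318602007590231086534786) (CTree.cons (CTree.leaf 1 3494436702183783937325075553074682122) (CTree.cons CTree.nil (CTree.cons CTree.nil (CTree.cons (CTree.leaf 1 229010785830990143729543478822996763345296) (CTree.cons (CTree.leaf 1 3494752030595789392559315115112534146) (CTree.cons CTree.nil (CTree.cons (CTree.leaf 1 53333554318602007590231077621890) (CTree.cons CTree.nil (CTree.cons CTree.nil (CTree.cons CTree.nil (CTree.cons CTree.nil (CTree.cons CTree.nil (CTree.cons CTree.nil (CTree.cons CTree.nil (CTree.cons CTree.nil (CTree.cons (CTree.leaf 1 229010697563277884912861173776099878709786) (CTree.cons (CTree.leaf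 1 14294995453726685030064798541383907226596092442) (CTree.cons (CTree.leaf 1 3494425932148843357779759316758823309) (CTree.cons CTree.nil (CTree.cons CTree.nil (CTree.cons CTree.nil (CTree.cons CTree.nil (CTree.cons (CTree.leaf 1 229010697572943573250651429977190974488976) (CTree.cons (CTree.leaf 1 229010697572943573250651429977740730308874) (CTree.cons (CTree.leaf 1 229010785830977601053258613145924849707546) (CTree.cons CTree.nil (CTree.cons CTree.nil CTree.nil)))))))))))))))))))))))))))))))))))) (CTree.cons CTree.nil (CTree.cons (CTree.cons CTree.nil (CTree.cons CTree.nil (CTree.cons CTree.nil (CTree.cons CTree.nil (CTree.cons CTree.nil (CTree.cons CTree.nil (CTree.cons CTree.nil (CTree.cons CTree.nil (CTree.cons (CTree.leaf 1 229010697593622133220405203801487219237266) (CTree.cons (CTree.leaf 1 15008452221353954112142752016775660997922920714) (CTree.cons (CTree.leaf 1 983693965928397003822450416965866399050297527446042) (CTree.cons CTree.nil (CTree.cons CTree.nil (CTree.cons (CTree.leaf 1 15009845688996520531046521461876139280054229258) (CTree.cons CTree.nil (CTree.cons (CTree.leaf 1 229010697735207814944716933243753259467280)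 (CTree.cons (CTree.leaf 1 229010697735203158238072981604673858970002) (CTree.cons CTree.nil (CTree.cons CTree.nil (CTree.cons (CTree.leaf 1 15009848402558510612697657095180922925494698512) (CTree.cons (CTree.leaf 1 229012816345627606051802515150677512689930) (CTree.cons CTree.nil (CTree.cons (CTree.leaf 1 229010697563280360792939744536649676958234) (CTree.cons CTree.nil (CTree.cons CTree.nil (CTree.cons CTree.nil (CTree.cons CTree.nil (CTree.cons CTree.nil (CTree.cons CTree.nil (CTree.cons CTree.nil (CTree.cons CTree.nil (CTree.cons (CTree.leaf 1 983693966095528824652135618377332627186279822000397) (CTree.cons (CTree.leaf 1 983693966095528824652135618377277286954058693351690) (CTree.cons (CTree.leaf 1 983693966095528824652135618377332627186279822000397) (CTree.cons CTree.nil (CTree.cons CTree.nil CTree.nil)))))))))))))))))))))))))))))))))))) (CTree.cons (CTree.cons CTree.nil (CTree.cons CTree.nil (CTree.cons CTree.nil (CTree.cons CTree.nil (CTree.cons CTree.nil (CTree.cons CTree.nil (CTree.cons (CTree.leaf 1 36549315944880471978876523564991525683619197231506) (CTree.cons CTree.nil (CTree.cons (CTree.leaf 1 11775011589144447456797453692916723345161593234)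 (CTree.cons (CTree.leaf 1 14294995475092185685450353181529575921913305354) (CTree.cons CTree.nil (CTree.cons CTree.nil (CTree.cons (CTree.leaf 1 223624045507103197446688438935944266112498660942226) (CTree.cons CTree.nil (CTree.cons CTree.nil (CTree.cons (CTree.leaf 1 3412231818167711774163869129297137135055937938) (CTree.cons (CTree.leaf 1 3494458336467237867986897393683140738) (CTree.cons CTree.nil (CTree.cons (CTree.leaf 1 936825961722815313490848908474554448343267871424781) (CTree.cons CTree.nil (CTree.cons (CTree.leaf 1 94778384897830458197486610935096368121012427018) (CTree.cons CTree.nil (CTree.cons (CTree.leaf 1 14294995453726685030064798541383907226596092442) (CTree.cons CTree.nil (CTree.cons CTree.nil (CTree.cons CTree.nil (CTree.cons CTree.nil (CTree.cons CTree.nil (CTree.cons CTree.nil (CTree.cons CTree.nil (CTree.cons CTree.nil (CTree.cons CTree.nil (CTree.cons (CTree.leaf 1 936922880799540457754719587476406703217106300311818) (CTree.cons (CTree.leaf 1 936922880799540416216344719195424491731700843946386) (CTree.cons (CTree.leaf 1 936922880799540416541096142263474318127737830252946) (CTree.cons CTree.nil CTree.nil))))))))))))))))))))))))))))))))))))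 (CTree.cons (CTree.cons CTree.nil (CTree.cons CTree.nil (CTree.cons CTree.nil (CTree.cons CTree.nil (CTree.cons CTree.nil (CTree.cons CTree.nil (CTree.cons (CTree.leaf 1 6774074362955287078199262514310412672064760108941707) (CTree.cons CTree.nil (CTree.cons CTree.nil (CTree.cons (CTree.leaf 1 94958150267437479400891975421588841435159992586) (CTree.cons (CTree.leaf 1 3494753139464745821971640969273614738) (CTree.cons CTree.nil (CTree.cons (CTree.leaf 1 580319514192166482316508253077413284215065629301002) (CTree.cons (CTree.leaf 1 94644580425398821777238069505416900328696715530) (CTree.cons CTree.nil (CTree.cons (CTree.leaf 1 3494425932148843357778632832351543698) (CTree.cons CTree.nil (CTree.cons CTree.nil (CTree.cons (CTree.leaf 1 580319514192166482316508253077413284215065629301002) (CTree.cons (CTree.leaf 1 94822986388227520082094753084547335114395885970) (CTree.cons CTree.nil (CTree.cons CTree.nil (CTree.cons (CTree.leaf 1 3494425932148843357779759316758823309) (CTree.cons CTree.nil (CTree.cons CTree.nil (CTree.cons CTree.nil (CTree.cons CTree.nil (CTree.cons CTree.nil (CTree.cons CTree.nil (CTree.cons CTree.nil (CTree.cons CTree.nil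 (CTree.cons (CTree.leaf 1 580319514192166482316508253077413284215065629301002) (CTree.cons CTree.nil (CTree.cons (CTree.leaf 1 229012758903784008772871557530464271540626) (CTree.cons (CTree.leaf 1 580319514192166482316508253077413284215065629301002) (CTree.cons CTree.nil CTree.nil)))))))))))))))))))))))))))))))))))) (CTree.cons (CTree.cons CTree.nil (CTree.cons CTree.nil (CTree.cons CTree.nil (CTree.cons CTree.nil (CTree.cons CTree.nil (CTree.cons CTree.nil (CTree.cons (CTree.leaf 1 6774074361723805202696982424986694548646549811501322) (CTree.cons CTree.nil (CTree.cons (CTree.leaf 1 3494425932148774645284131084728146186) (CTree.cons CTree.nil (CTree.cons (CTree.leaf 1 229010697889311675784042461110708891811989) (CTree.cons CTree.nil (CTree.cons (CTree.leaf 1 983599522265676825446278266944730539112515946359322) (CTree.cons (CTree.leaf 1 223624024438160815459901869491892119066900684218770) (CTree.cons CTree.nil (CTree.cons CTree.nil (CTree.cons (CTree.leaf 1 3494458336467349470712790812275644682) (CTree.cons CTree.nil (CTree.cons (CTree.leaf 1 983693966095474955405149017394309174428085223696922) (CTree.cons (CTree.leaf 1 15009848402558510612697657095180922925494698512)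 (CTree.cons (CTree.leaf 1 229032100209584526816967813585686050251154) (CTree.cons CTree.nil (CTree.cons CTree.nil (CTree.cons CTree.nil (CTree.cons CTree.nil (CTree.cons CTree.nil (CTree.cons CTree.nil (CTree.cons CTree.nil (CTree.cons CTree.nil (CTree.cons CTree.nil (CTree.cons CTree.nil (CTree.cons (CTree.leaf 1 983593478855942607687013184996337884319731389835802) (CTree.cons (CTree.leaf 1 15008580167518368987071007696060502894471422354) (CTree.cons CTree.nil (CTree.cons (CTree.leaf 1 983693965968550322326683571945638146698660132235802) (CTree.cons CTree.nil CTree.nil)))))))))))))))))))))))))))))))))))) (CTree.cons CTree.nil (CTree.cons CTree.nil (CTree.cons CTree.nil (CTree.cons (CTree.cons CTree.nil (CTree.cons CTree.nil (CTree.cons CTree.nil (CTree.cons CTree.nil (CTree.cons CTree.nil (CTree.cons CTree.nil (CTree.cons CTree.nil (CTree.cons CTree.nil (CTree.cons (CTree.leaf 1 229010697563916527593526590726865124204946) (CTree.cons (CTree.leaf 1 229010697563916527595887774012323218462986) (CTree.cons (CTree.leaf 1 229010827369362371714322081521773804396946) (CTree.cons CTree.nil (CTree.cons (CTree.leaf 1 983639553636620532427648102193291032374625535924490)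 (CTree.cons CTree.nil (CTree.cons CTree.nil (CTree.cons (CTree.leaf 1 229010697563914185975178045787935285051920) (CTree.cons (CTree.leaf 1 136116441367574530365806327762798926495897) (CTree.cons CTree.nil (CTree.cons (CTree.leaf 1 983639553636620532427648102193290996345827836832282) (CTree.cons CTree.nil (CTree.cons (CTree.leaf 1 983639553636618595722153016189927450166557991901450) (CTree.cons CTree.nil (CTree.cons (CTree.leaf 1 229010697735202850079864793368768984777104) (CTree.cons CTree.nil (CTree.cons (CTree.leaf 1 983639553636620532427648102193290996345827836832282) (CTree.cons CTree.nil (CTree.cons (CTree.leaf 1 6774074361723805202191195077327021394678216440551690) (CTree.cons (CTree.leaf 1 6774074362955276366490845849775131871209661834860810) (CTree.cons CTree.nil (CTree.cons CTree.nil (CTree.cons CTree.nil (CTree.cons CTree.nil (CTree.cons CTree.nil (CTree.cons CTree.nil (CTree.cons CTree.nil (CTree.cons CTree.nil CTree.nil)))))))))))))))))))))))))))))))))))) (CTree.cons (CTree.cons CTree.nil (CTree.cons CTree.nil (CTree.cons CTree.nil (CTree.cons CTree.nil (CTree.cons CTree.nil (CTree.cons CTree.nil (CTree.cons (CTree.leaf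 1 15008445075548680087576973533532035265913821450) (CTree.cons CTree.nil (CTree.cons CTree.nil (CTree.cons (CTree.leaf 1 15008452221353954112142752016775660997922920714) (CTree.cons (CTree.leaf 1 983593924778652736673964250054885071777774463228170) (CTree.cons CTree.nil (CTree.cons CTree.nil (CTree.cons (CTree.leaf 1 14272705959129011695122498271327235897193797898) (CTree.cons CTree.nil (CTree.cons (CTree.leaf 1 229010697563914185975180350742483412066706) (CTree.cons (CTree.leaf 1 229010697735202859633395572865698609895690) (CTree.cons CTree.nil (CTree.cons (CTree.leaf 1 983693966665501789570726458690267665733777829265805) (CTree.cons (CTree.leaf 1 15009848411255475138288427208986789295651164563) (CTree.cons CTree.nil (CTree.cons CTree.nil (CTree.cons (CTree.leaf 1 229010697735202850079864793369318740597002) (CTree.cons CTree.nil (CTree.cons (CTree.leaf 1 983593881710462639641610220607705240415329162232205) (CTree.cons (CTree.leaf 1 936922880799540457754719587476406703225902393334026) (CTree.cons CTree.nil (CTree.cons (CTree.leaf 1 15008580167518368989546920998401189351255581074) (CTree.cons CTree.nil (CTree.cons CTree.nil (CTree.cons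 CTree.nil (CTree.cons CTree.nil (CTree.cons CTree.nil (CTree.cons CTree.nil (CTree.cons CTree.nil (CTree.cons CTree.nil CTree.nil)))))))))))))))))))))))))))))))))))) (CTree.cons (CTree.cons CTree.nil (CTree.cons CTree.nil (CTree.cons CTree.nil (CTree.cons CTree.nil (CTree.cons CTree.nil (CTree.cons CTree.nil (CTree.cons (CTree.leaf 1 983593926311953035891397306433324183792416465824282) (CTree.cons CTree.nil (CTree.cons (CTree.leaf 1 229010697563916527595887773967750190997906) (CTree.cons CTree.nil (CTree.cons (CTree.leaf 1 983693966013806470807157926117979811827205326711322) (CTree.cons CTree.nil (CTree.cons (CTree.leaf 1 983693966013809124070852019653804168407058605615642) (CTree.cons (CTree.leaf 1 15008580167648174432647884922513471297275175314) (CTree.cons CTree.nil (CTree.cons CTree.nil (CTree.cons (CTree.leaf 1 229010697735203158238072981604673858970002) (CTree.cons CTree.nil (CTree.cons CTree.nil (CTree.cons (CTree.leaf 1 15009848411255475143571281980316343606529097857) (CTree.cons (CTree.leaf 1 229032100209582198494591434830563241501074) (CTree.cons CTree.nil (CTree.cons (CTree.leaf 1 229010785830980076933337183906474647955994)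 (CTree.cons CTree.nil (CTree.cons (CTree.leaf 1 983693966624614725750263141181400445405570619015297) (CTree.cons (CTree.leaf 1 936922880799540416216344719195424491740496936968594) (CTree.cons (CTree.leaf 1 229012821242799559220995488413605157282194) (CTree.cons CTree.nil (CTree.cons CTree.nil (CTree.cons CTree.nil (CTree.cons CTree.nil (CTree.cons CTree.nil (CTree.cons CTree.nil (CTree.cons CTree.nil (CTree.cons CTree.nil (CTree.cons CTree.nil CTree.nil)))))))))))))))))))))))))))))))))))) (CTree.cons (CTree.cons CTree.nil (CTree.cons CTree.nil (CTree.cons CTree.nil (CTree.cons CTree.nil (CTree.cons CTree.nil (CTree.cons CTree.nil (CTree.cons (CTree.leaf 1 983593926311953035891397306239395364240082734885402) (CTree.cons CTree.nil (CTree.cons (CTree.leaf 1 229010697563912025624738432689848752677266) (CTree.cons (CTree.leaf 1 15008452244750127252437663085797896445741897994) (CTree.cons CTree.nil (CTree.cons CTree.nil (CTree.cons (CTree.leaf 1 983596601571099930407796240475052230661432807205402) (CTree.cons (CTree.leaf 1 15009845688996539771104751909224216967369070858) (CTree.cons CTree.nil (CTree.cons (CTree.leaf 1 229010827369354945214317596749707116945810)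 (CTree.cons CTree.nil (CTree.cons CTree.nil (CTree.cons (CTree.leaf 1 983596601571099930407796240475052230661432807205402) (CTree.cons (CTree.leaf 1 15009932471057716332860689982774927283300475282) (CTree.cons (CTree.leaf 1 229032100209582043752084833329618915825930) (CTree.cons CTree.nil (CTree.cons CTree.nil (CTree.cons CTree.nil (CTree.cons CTree.nil (CTree.cons (CTree.leaf 1 936922880799540416541096142263474894588490133676434) (CTree.cons (CTree.leaf 1 6774074361723805202191195077327021394678216440551690) (CTree.cons (CTree.leaf 1 6774074384024210118191449581241350774986942642264330) (CTree.cons CTree.nil (CTree.cons CTree.nil (CTree.cons CTree.nil (CTree.cons CTree.nil (CTree.cons CTree.nil (CTree.cons CTree.nil (CTree.cons CTree.nil (CTree.cons CTree.nil CTree.nil)))))))))))))))))))))))))))))))))))) (CTree.cons CTree.nil CTree.nil)))))))))))))))))))))))))))))))))))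

theorem tree6_0_5_ok : chk 6 (pk (goalL 6)) tree6_0_5 (stk [((0 : Fin 6), (5 : Fin 6))]) 1 (om [((0 : Fin 6), (5 : Fin 6))]) (im [((0 : Fin 6), (5 : Fin 6))])
    (cm [((0 : Fin 6), (5 : Fin 6))]) (pk (goalR [((0 : Fin 6), (5 : Fin 6))])) 0 = true := by
  decide +kernel

end Vale.Agent.Lib.P333
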