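import Vale.Agent.Lib.P333.CertSound

namespace Vale.Agent.Lib.P333

def tree6_1_0 : CTree :=
  CTree.cons CTree.nil (CTree.cons CTree.nil (CTree.cons (CTree.cons CTree.nil (CTree.cons CTree.nil (CTree.cons CTree.nil (CTree.cons CTree.nil (CTree.cons CTree.nil (CTree.cons CTree.nil (CTree.cons CTree.nil (CTree.cons CTree.nil (CTree.cons CTree.nil (CTree.cons CTree.nil (CTree.cons CTree.nil (CTree.cons CTree.nil (CTree.cons CTree.nil (CTree.cons CTree.nil (CTree.cons CTree.nil (CTree.cons (CTree.leaf 1 664656873348667762211333632598020226) (CTree.cons (CTree.leaf 1 665467919836888534061660141249499266) (CTree.cons (CTree.leaf 1 664656870717967130483651241518960770) (CTree.cons CTree.nil (CTree.cons (CTree.leaf 1 228671126539680008421500064364323764506754) (CTree.cons CTree.nil (CTree.cons CTree.nil (CTree.cons (CTree.leaf 1 664665984587356902539506670997934210) (CTree.cons (CTree.leaf 1 665294885210800964406122536301629570) (CTree.cons CTree.nil (CTree.cons (CTree.leaf 1 90175492215282148339300852343237729390722) (CTree.cons CTree.nil (CTree.cons (CTree.leaf 1 228671126539684967359543579382841828511874) (CTree.cons CTree.nil (CTree.cons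 (CTree.leaf 1 665294885210800964406122535630475394) (CTree.cons CTree.nil (CTree.cons (CTree.leaf 1 90175492215282148339300852343237729390722) (CTree.cons CTree.nil (CTree.cons (CTree.leaf 1 228671126539684967359543579382841828511874) (CTree.cons (CTree.leaf 1 225948867604317459840821170559957755564162) (CTree.cons CTree.nil CTree.nil)))))))))))))))))))))))))))))))))))) (CTree.cons (CTree.cons CTree.nil (CTree.cons CTree.nil (CTree.cons CTree.nil (CTree.cons CTree.nil (CTree.cons CTree.nil (CTree.cons CTree.nil (CTree.cons CTree.nil (CTree.cons CTree.nil (CTree.cons CTree.nil (CTree.cons CTree.nil (CTree.cons CTree.nil (CTree.cons CTree.nil (CTree.cons CTree.nil (CTree.cons (CTree.leaf 1 2178488377684718760988967912624298649456770) (CTree.cons CTree.nil (CTree.cons CTree.nil (CTree.cons (CTree.leaf 1 44623106421099666283986983796003115138) (CTree.cons (CTree.leaf 1 55921544385271262366580950434138099842) (CTree.cons CTree.nil (CTree.cons CTree.nil (CTree.cons (CTree.leaf 1 2178491202261478827665923513151455355801730) (CTree.cons CTree.nil (CTree.cons (CTree.leaf 1 33241094642565057912441648843356967042) (CTree.cons (CTree.leaf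 1 33241094639934286630798242102516519042) (CTree.cons CTree.nil (CTree.cons (CTree.leaf 1 2178488377684550559661643567889654369751170) (CTree.cons (CTree.leaf 1 2178488377684562935435257920844000483414146) (CTree.cons CTree.nil (CTree.cons CTree.nil (CTree.cons (CTree.leaf 1 33241094639934286630798242101845364866) (CTree.cons CTree.nil (CTree.cons (CTree.leaf 1 2178488377684550559661643567889654369751170) (CTree.cons (CTree.leaf 1 2178488377684550559661642528981363760107650) (CTree.cons CTree.nil (CTree.cons (CTree.leaf 1 2178488377684562935435257920844000483414146) (CTree.cons CTree.nil CTree.nil)))))))))))))))))))))))))))))))))))) (CTree.cons (CTree.cons CTree.nil (CTree.cons CTree.nil (CTree.cons CTree.nil (CTree.cons CTree.nil (CTree.cons CTree.nil (CTree.cons CTree.nil (CTree.cons CTree.nil (CTree.cons CTree.nil (CTree.cons CTree.nil (CTree.cons CTree.nil (CTree.cons CTree.nil (CTree.cons CTree.nil (CTree.cons CTree.nil (CTree.cons (CTree.leaf 1 2858162960871873057571684228828563929802018946) (CTree.cons CTree.nil (CTree.cons (CTree.leaf 1 44540029671363109041930495854735593602) (CTree.cons CTree.nil (CTree.cons (CTree.leaf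 1 43611400242972605757944577861390895747202) (CTree.cons CTree.nil (CTree.cons (CTree.leaf 1 14807738423929897453324301379062009573404643458) (CTree.cons (CTree.leaf 1 136113612236307278822794190254067412635778) (CTree.cons CTree.nil (CTree.cons CTree.nil (CTree.cons (CTree.leaf 1 55963255168205964998259680372185960578) (CTree.cons CTree.nil (CTree.cons CTree.nil (CTree.cons (CTree.leaf 1 14807738370060649201567905693549543336995524738) (CTree.cons (CTree.leaf 1 14740836134465057334622958687169552319061758082) (CTree.cons CTree.nil (CTree.cons (CTree.leaf 1 2788943039950795254478867464642957442) (CTree.cons CTree.nil (CTree.cons (CTree.leaf 1 14807738370060649204047377002668414838899806338) (CTree.cons (CTree.leaf 1 2854591006850374103769141904951635048310837378) (CTree.cons (CTree.leaf 1 2854591006850374103769330744269873188060598402) (CTree.cons CTree.nil (CTree.cons CTree.nil CTree.nil)))))))))))))))))))))))))))))))))))) (CTree.cons (CTree.cons CTree.nil (CTree.cons CTree.nil (CTree.cons CTree.nil (CTree.cons CTree.nil (CTree.cons CTree.nil (CTree.cons CTree.nil (CTree.cons CTree.nil (CTree.cons CTree.nil (CTree.cons CTree.nil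 (CTree.cons CTree.nil (CTree.cons CTree.nil (CTree.cons CTree.nil (CTree.cons CTree.nil (CTree.cons (CTree.leaf 1 15008581199809290045414818208709553315357266050) (CTree.cons CTree.nil (CTree.cons (CTree.leaf 1 3495267815823901169433385071268270210) (CTree.cons (CTree.leaf 1 229032686960679457589768823845813350436994) (CTree.cons CTree.nil (CTree.cons CTree.nil (CTree.cons (CTree.leaf 1 15008497150064660573917783134790684081567436930) (CTree.cons (CTree.leaf 1 229022141384207377510867867695565556027522) (CTree.cons CTree.nil (CTree.cons (CTree.leaf 1 3495267815823901169433384487152717954) (CTree.cons CTree.nil (CTree.cons CTree.nil (CTree.cons (CTree.leaf 1 15008497150064660573756996038789532058115379330) (CTree.cons (CTree.leaf 1 229012821211346462235418382849513211695234) (CTree.cons (CTree.leaf 1 229010697737184023128314469812402362912898) (CTree.cons CTree.nil (CTree.cons CTree.nil (CTree.cons CTree.nil (CTree.cons CTree.nil (CTree.cons (CTree.leaf 1 15009195057755405264243666424681180663926886530) (CTree.cons (CTree.leaf 1 15009195057755405264243666370455053952691081346) (CTree.cons (CTree.leaf 1 15008497150064660573756998454198900204701880450)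 (CTree.cons CTree.nil CTree.nil)))))))))))))))))))))))))))))))))))) (CTree.cons CTree.nil (CTree.cons CTree.nil (CTree.cons CTree.nil (CTree.cons CTree.nil (CTree.cons CTree.nil (CTree.cons CTree.nil (CTree.cons CTree.nil (CTree.cons (CTree.cons CTree.nil (CTree.cons CTree.nil (CTree.cons CTree.nil (CTree.cons (CTree.leaf 1 2178488378495767725203283287422096075985026) (CTree.cons (CTree.leaf 1 2918975384542452714171956438171644588003458) (CTree.cons (CTree.leaf 1 229065871577835187039986324022425387995266) (CTree.cons CTree.nil (CTree.cons CTree.nil (CTree.cons CTree.nil (CTree.cons CTree.nil (CTree.cons CTree.nil (CTree.cons CTree.nil (CTree.cons CTree.nil (CTree.cons CTree.nil (CTree.cons CTree.nil (CTree.cons CTree.nil (CTree.cons CTree.nil (CTree.cons CTree.nil (CTree.cons CTree.nil (CTree.cons CTree.nil (CTree.cons (CTree.leaf 1 14986276700060933581132897068918016805670945441) (CTree.cons CTree.nil (CTree.cons (CTree.leaf 1 225949511449135344507673441624137438790305) (CTree.cons (CTree.leaf 1 182393368483249776111949159339917372893722) (CTree.cons CTree.nil (CTree.cons CTree.nil (CTree.cons (CTree.leaf 1 14807738423929917898955853420804080038786564769)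 (CTree.cons (CTree.leaf 1 14986276700060933581132901938245970927647654561) (CTree.cons CTree.nil (CTree.cons (CTree.leaf 1 182393368483249776111949159339917372883481) (CTree.cons CTree.nil (CTree.cons CTree.nil (CTree.cons (CTree.leaf 1 14807738423929917898955853420804080038786564769) (CTree.cons (CTree.leaf 1 14986276700060933581132901938245970927647654561) (CTree.cons (CTree.leaf 1 14807738423929917898955853420804080038786564769) (CTree.cons CTree.nil CTree.nil)))))))))))))))))))))))))))))))))))) (CTree.cons CTree.nil (CTree.cons (CTree.cons CTree.nil (CTree.cons CTree.nil (CTree.cons (CTree.leaf 1 664656873348667762211333632598020226) (CTree.cons CTree.nil (CTree.cons (CTree.leaf 1 44540029671363109041930495854735593602) (CTree.cons (CTree.leaf 1 3495267815823901169433385071268270210) (CTree.cons CTree.nil (CTree.cons CTree.nil (CTree.cons CTree.nil (CTree.cons CTree.nil (CTree.cons CTree.nil (CTree.cons CTree.nil (CTree.cons CTree.nil (CTree.cons CTree.nil (CTree.cons CTree.nil (CTree.cons CTree.nil (CTree.cons CTree.nil (CTree.cons CTree.nil (CTree.cons CTree.nil (CTree.cons (CTree.leaf 1 228672435667965842858871109071702013444769)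 (CTree.cons CTree.nil (CTree.cons CTree.nil (CTree.cons (CTree.leaf 1 3406167417904204326071477993841820321) (CTree.cons (CTree.leaf 1 2741542887620269858782790095556651546) (CTree.cons CTree.nil (CTree.cons (CTree.leaf 1 223225897356837819813411444447857414439585) (CTree.cons (CTree.leaf 1 228672435667965842753080646067969170539169) (CTree.cons CTree.nil (CTree.cons CTree.nil (CTree.cons (CTree.leaf 1 2741553420011706248274987961613877785) (CTree.cons CTree.nil (CTree.cons (CTree.leaf 1 223225897356837819813411444447857414439585) (CTree.cons (CTree.leaf 1 228672435667965842753080646067969170539169) (CTree.cons CTree.nil (CTree.cons (CTree.leaf 1 223225897356837819813411444447857414439585) (CTree.cons CTree.nil CTree.nil)))))))))))))))))))))))))))))))))))) (CTree.cons (CTree.cons CTree.nil (CTree.cons CTree.nil (CTree.cons (CTree.leaf 1 665467919836888534061660141249499266) (CTree.cons (CTree.leaf 1 44623106421099666283986983796003115138) (CTree.cons CTree.nil (CTree.cons (CTree.leaf 1 229032686951565743022671229830482596335746) (CTree.cons CTree.nil (CTree.cons CTree.nil (CTree.cons CTree.nil (CTree.cons CTree.nil (CTree.cons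 CTree.nil (CTree.cons CTree.nil (CTree.cons CTree.nil (CTree.cons CTree.nil (CTree.cons CTree.nil (CTree.cons CTree.nil (CTree.cons CTree.nil (CTree.cons CTree.nil (CTree.cons CTree.nil (CTree.cons (CTree.leaf 1 226969693935900267402348719835460962222480) (CTree.cons (CTree.leaf 1 226970359036821571733838538154271819506066) (CTree.cons CTree.nil (CTree.cons CTree.nil (CTree.cons (CTree.leaf 1 2076928889727658206767114850422890898) (CTree.cons CTree.nil (CTree.cons (CTree.leaf 1 226970359036821571733838538154271819506066) (CTree.cons CTree.nil (CTree.cons (CTree.leaf 1 226969693935900267402348719835460962222480) (CTree.cons CTree.nil (CTree.cons (CTree.leaf 1 2076928889727658206767114849751736722) (CTree.cons CTree.nil (CTree.cons (CTree.leaf 1 226969693935900267402348719835460962222480) (CTree.cons (CTree.leaf 1 226970359036821571733838538154271819506066) (CTree.cons (CTree.leaf 1 226969693935900267402348719835460962222480) (CTree.cons CTree.nil (CTree.cons CTree.nil CTree.nil)))))))))))))))))))))))))))))))))))) (CTree.cons (CTree.cons CTree.nil (CTree.cons CTree.nil (CTree.cons (CTree.leaf 1 664656870717967130483651241518960770)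 (CTree.cons (CTree.leaf 1 11953242995369991671076046685361175475643289730) (CTree.cons (CTree.leaf 1 1484707224153144522645257469556190286516354) (CTree.cons CTree.nil (CTree.cons CTree.nil (CTree.cons CTree.nil (CTree.cons CTree.nil (CTree.cons CTree.nil (CTree.cons CTree.nil (CTree.cons CTree.nil (CTree.cons CTree.nil (CTree.cons CTree.nil (CTree.cons CTree.nil (CTree.cons CTree.nil (CTree.cons CTree.nil (CTree.cons CTree.nil (CTree.cons CTree.nil (CTree.cons (CTree.leaf 1 183413550970012223277642033147805420355984) (CTree.cons (CTree.leaf 1 183414216070941448370238899346023827712530) (CTree.cons CTree.nil (CTree.cons (CTree.leaf 1 2076928889727811922330886565416479250) (CTree.cons CTree.nil (CTree.cons CTree.nil (CTree.cons (CTree.leaf 1 183413550970012223277642033147805420355984) (CTree.cons (CTree.leaf 1 183414216070941448370238899346023827712530) (CTree.cons (CTree.leaf 1 179691032423325354948413805950332347679393) (CTree.cons CTree.nil (CTree.cons CTree.nil (CTree.cons CTree.nil (CTree.cons (CTree.leaf 1 132370505843330835986422253970202976977435) (CTree.cons CTree.nil (CTree.cons (CTree.leaf 1 183413550970012223277642033147805420355984)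 (CTree.cons (CTree.leaf 1 183413550970012223277642033147805420355984) (CTree.cons CTree.nil CTree.nil)))))))))))))))))))))))))))))))))))) (CTree.cons CTree.nil (CTree.cons (CTree.cons CTree.nil (CTree.cons CTree.nil (CTree.cons (CTree.leaf 1 228671126539680008421500064373119857528962) (CTree.cons CTree.nil (CTree.cons (CTree.leaf 1 228714290600542010405332311672854184792194) (CTree.cons (CTree.leaf 1 15008497138620851291125753429035003165889204354) (CTree.cons CTree.nil (CTree.cons CTree.nil (CTree.cons CTree.nil (CTree.cons CTree.nil (CTree.cons CTree.nil (CTree.cons CTree.nil (CTree.cons CTree.nil (CTree.cons CTree.nil (CTree.cons CTree.nil (CTree.cons (CTree.leaf 1 880313972488917855299812276081006136197793) (CTree.cons (CTree.leaf 1 228670415552094036241011728962514321482130) (CTree.cons (CTree.leaf 1 43568869966367536367945691390576386249243) (CTree.cons CTree.nil (CTree.cons CTree.nil (CTree.cons CTree.nil (CTree.cons CTree.nil (CTree.cons CTree.nil (CTree.cons CTree.nil (CTree.cons CTree.nil (CTree.cons CTree.nil (CTree.cons (CTree.leaf 1 57692203797792724790757360590412840636821209761) (CTree.cons (CTree.leaf 1 14807783626187081351664956586786649453524812449)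 (CTree.cons CTree.nil (CTree.cons (CTree.leaf 1 179669754542452017002369693927636161593881) (CTree.cons CTree.nil (CTree.cons CTree.nil (CTree.cons (CTree.leaf 1 57692203797792724790757360590412840636821209761) (CTree.cons (CTree.leaf 1 14807783626187081351664956586786649453524812449) (CTree.cons (CTree.leaf 1 14807784988006767441558496557226030583265755809) (CTree.cons CTree.nil CTree.nil)))))))))))))))))))))))))))))))))))) (CTree.cons (CTree.cons CTree.nil (CTree.cons CTree.nil (CTree.cons CTree.nil (CTree.cons (CTree.leaf 1 228672518572315097717063088828469892681858) (CTree.cons (CTree.leaf 1 43612106384568000789919857846072502456450) (CTree.cons (CTree.leaf 1 15010580006988784496661709985631144809761738882) (CTree.cons CTree.nil (CTree.cons CTree.nil (CTree.cons CTree.nil (CTree.cons CTree.nil (CTree.cons CTree.nil (CTree.cons CTree.nil (CTree.cons CTree.nil (CTree.cons (CTree.leaf 1 14986276712709357713000669291729760936688026273) (CTree.cons CTree.nil (CTree.cons CTree.nil (CTree.cons (CTree.leaf 1 880312503038094564748360562775164852503200) (CTree.cons (CTree.leaf 1 880312503038097369453753887715950908746258) (CTree.cons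 CTree.nil (CTree.cons CTree.nil (CTree.cons CTree.nil (CTree.cons CTree.nil (CTree.cons CTree.nil (CTree.cons CTree.nil (CTree.cons CTree.nil (CTree.cons (CTree.leaf 1 14986144374178640911617306979168990621333522971) (CTree.cons CTree.nil (CTree.cons (CTree.leaf 1 14986276712709336167894643420610669418134569633) (CTree.cons CTree.nil (CTree.cons (CTree.leaf 1 182393368483245154459062675206374087000601) (CTree.cons CTree.nil (CTree.cons (CTree.leaf 1 14986144374178185911222848541125006248764312091) (CTree.cons CTree.nil (CTree.cons (CTree.leaf 1 14986276712709336163427811252002598239437783713) (CTree.cons (CTree.leaf 1 14986144332313335157530885885637631091134237211) (CTree.cons CTree.nil CTree.nil)))))))))))))))))))))))))))))))))))) (CTree.cons CTree.nil (CTree.cons (CTree.cons CTree.nil (CTree.cons CTree.nil (CTree.cons (CTree.leaf 1 664665984587356902539506670997934210) (CTree.cons (CTree.leaf 1 33241094642565057912441648843356967042) (CTree.cons CTree.nil (CTree.cons (CTree.leaf 1 3495267815823901169433384487152717954) (CTree.cons CTree.nil (CTree.cons CTree.nil (CTree.cons CTree.nil (CTree.cons CTree.nil (CTree.cons CTree.nil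 (CTree.cons CTree.nil (CTree.cons CTree.nil (CTree.cons (CTree.leaf 1 225949511449135344507672865163385135366817) (CTree.cons CTree.nil (CTree.cons (CTree.leaf 1 3406167417904204326071477993841820321) (CTree.cons CTree.nil (CTree.cons (CTree.leaf 1 2076928889727811922330886565416479250) (CTree.cons CTree.nil (CTree.cons CTree.nil (CTree.cons CTree.nil (CTree.cons CTree.nil (CTree.cons CTree.nil (CTree.cons CTree.nil (CTree.cons CTree.nil (CTree.cons (CTree.leaf 1 223225897346075494272767364037759510184609) (CTree.cons (CTree.leaf 1 225949511449122801985380151233273647530657) (CTree.cons CTree.nil (CTree.cons CTree.nil (CTree.cons (CTree.leaf 1 2076939422119167736483516691523371409) (CTree.cons CTree.nil (CTree.cons (CTree.leaf 1 223225897346075494272767364037759510184609) (CTree.cons (CTree.leaf 1 225949511449122801985380151233273647530657) (CTree.cons (CTree.leaf 1 223225897346075494272767364037759510184609) (CTree.cons CTree.nil (CTree.cons CTree.nil CTree.nil)))))))))))))))))))))))))))))))))))) (CTree.cons (CTree.cons CTree.nil (CTree.cons CTree.nil (CTree.cons (CTree.leaf 1 664655840751781433949704115747164290) (CTree.cons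 (CTree.leaf 1 33241094639934286630798242102516519042) (CTree.cons (CTree.leaf 1 55963255168205964998259680372185960578) (CTree.cons CTree.nil (CTree.cons CTree.nil (CTree.cons CTree.nil (CTree.cons CTree.nil (CTree.cons CTree.nil (CTree.cons CTree.nil (CTree.cons CTree.nil (CTree.cons CTree.nil (CTree.cons (CTree.leaf 1 182393368970178632828751494815973585791514) (CTree.cons CTree.nil (CTree.cons (CTree.leaf 1 2741542887620269858782790095556651546) (CTree.cons (CTree.leaf 1 2076928889727658206767114850422890898) (CTree.cons CTree.nil (CTree.cons CTree.nil (CTree.cons CTree.nil (CTree.cons CTree.nil (CTree.cons CTree.nil (CTree.cons CTree.nil (CTree.cons CTree.nil (CTree.cons CTree.nil (CTree.cons (CTree.leaf 1 179670444933881900028448822694775263144474) (CTree.cons (CTree.leaf 1 182393368970178632828751494815973585791514) (CTree.cons (CTree.leaf 1 179670444933881900179543797840995963447834) (CTree.cons CTree.nil (CTree.cons CTree.nil (CTree.cons CTree.nil (CTree.cons (CTree.leaf 1 136114301967997315839382091994111645133338) (CTree.cons (CTree.leaf 1 182393368970178632828751494815973585791514) (CTree.cons CTree.nil (CTree.cons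 (CTree.leaf 1 179670444933881900179543797840995963447834) (CTree.cons CTree.nil CTree.nil)))))))))))))))))))))))))))))))))))) (CTree.cons CTree.nil (CTree.cons (CTree.cons CTree.nil (CTree.cons CTree.nil (CTree.cons (CTree.leaf 1 90175492215282148339301355340142097797250) (CTree.cons (CTree.leaf 1 14986144332323059387318034019682126914507575426) (CTree.cons CTree.nil (CTree.cons (CTree.leaf 1 15008445098820392189638481253385349404122353794) (CTree.cons CTree.nil (CTree.cons CTree.nil (CTree.cons CTree.nil (CTree.cons CTree.nil (CTree.cons CTree.nil (CTree.cons CTree.nil (CTree.cons CTree.nil (CTree.cons CTree.nil (CTree.cons CTree.nil (CTree.cons (CTree.leaf 1 225948846835130025701510617040272025060001) (CTree.cons (CTree.leaf 1 228671770579312028777978663176046295196050) (CTree.cons (CTree.leaf 1 43568869306486244765419085302566812258843) (CTree.cons CTree.nil (CTree.cons CTree.nil (CTree.cons (CTree.leaf 1 14807827182330177099455886535239306668399067809) (CTree.cons CTree.nil (CTree.cons (CTree.leaf 1 223225897508334771101980727429337520472737) (CTree.cons (CTree.leaf 1 136115729849635727936784235722049335667226) (CTree.cons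 CTree.nil (CTree.cons CTree.nil (CTree.cons CTree.nil (CTree.cons CTree.nil (CTree.cons CTree.nil (CTree.cons CTree.nil (CTree.cons CTree.nil (CTree.cons CTree.nil (CTree.cons (CTree.leaf 1 57692160231015934956897310710947756406592307864) (CTree.cons (CTree.leaf 1 14807784988006767441558342954108422891109483169) (CTree.cons (CTree.leaf 1 14807783626187081351664802983669041761368539809) (CTree.cons CTree.nil CTree.nil)))))))))))))))))))))))))))))))))))) (CTree.cons (CTree.cons CTree.nil (CTree.cons CTree.nil (CTree.cons CTree.nil (CTree.cons (CTree.leaf 1 2178488377846822212264471284235578493702274) (CTree.cons (CTree.leaf 1 2918975384542440496762754010458052852650114) (CTree.cons (CTree.leaf 1 15008497138620870625112499854095399072043372674) (CTree.cons CTree.nil (CTree.cons CTree.nil (CTree.cons CTree.nil (CTree.cons CTree.nil (CTree.cons CTree.nil (CTree.cons CTree.nil (CTree.cons CTree.nil (CTree.cons (CTree.leaf 1 57692253776755825489807992371544402939777581729) (CTree.cons CTree.nil (CTree.cons (CTree.leaf 1 880313972488917855304681604018124095561858) (CTree.cons CTree.nil (CTree.cons (CTree.leaf 1 880312503038097369453753887715950908746258)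 (CTree.cons CTree.nil (CTree.cons (CTree.leaf 1 14986276700060922813200403485253529086353017371) (CTree.cons CTree.nil (CTree.cons CTree.nil (CTree.cons (CTree.leaf 1 225949511449125277865458721993823445779105) (CTree.cons (CTree.leaf 1 182393368483245154459062675206374087010842) (CTree.cons CTree.nil (CTree.cons CTree.nil (CTree.cons CTree.nil (CTree.cons CTree.nil (CTree.cons CTree.nil (CTree.cons CTree.nil (CTree.cons CTree.nil (CTree.cons (CTree.leaf 1 14807738423929907123925753989611361341308338849) (CTree.cons CTree.nil (CTree.cons (CTree.leaf 1 11529528825875846929991990112024779114558851611) (CTree.cons (CTree.leaf 1 57692253776755825489807992371544402939777581729) (CTree.cons CTree.nil CTree.nil)))))))))))))))))))))))))))))))))))) (CTree.cons (CTree.cons CTree.nil (CTree.cons CTree.nil (CTree.cons (CTree.leaf 1 228671126539684967359543579391637921534082) (CTree.cons CTree.nil (CTree.cons (CTree.leaf 1 182776171066215317840009909764593722658946) (CTree.cons (CTree.leaf 1 15008445087480437083599684447396043434809757826) (CTree.cons CTree.nil (CTree.cons CTree.nil (CTree.cons CTree.nil (CTree.cons CTree.nil (CTree.cons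 CTree.nil (CTree.cons CTree.nil (CTree.cons CTree.nil (CTree.cons (CTree.leaf 1 14699022916354025258301482441505221040844374533) (CTree.cons CTree.nil (CTree.cons CTree.nil (CTree.cons (CTree.leaf 1 228670415379062369603848454008331892236690) (CTree.cons (CTree.leaf 1 43568869306486244765419200441091644008978) (CTree.cons CTree.nil (CTree.cons (CTree.leaf 1 14986190949595369502570451817771771289063785121) (CTree.cons (CTree.leaf 1 14696367055025683376663215761878620897017922073) (CTree.cons CTree.nil (CTree.cons CTree.nil (CTree.cons (CTree.leaf 1 43558884692820045548071263153460565060122) (CTree.cons CTree.nil (CTree.cons CTree.nil (CTree.cons CTree.nil (CTree.cons CTree.nil (CTree.cons CTree.nil (CTree.cons CTree.nil (CTree.cons CTree.nil (CTree.cons (CTree.leaf 1 14986190949595369502570451817771771289063785121) (CTree.cons (CTree.leaf 1 14696367055025683376663215761878620897017922073) (CTree.cons CTree.nil (CTree.cons (CTree.leaf 1 14986189611176651196885105059383402600350220961) (CTree.cons CTree.nil CTree.nil)))))))))))))))))))))))))))))))))))) (CTree.cons CTree.nil (CTree.cons (CTree.cons CTree.nil (CTree.cons CTree.nil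 (CTree.cons (CTree.leaf 1 665294885210800964406122535630475394) (CTree.cons (CTree.leaf 1 33241094639934286630798242101845364866) (CTree.cons (CTree.leaf 1 2788943039950795254478867464642957442) (CTree.cons CTree.nil (CTree.cons CTree.nil (CTree.cons CTree.nil (CTree.cons CTree.nil (CTree.cons CTree.nil (CTree.cons CTree.nil (CTree.cons CTree.nil (CTree.cons CTree.nil (CTree.cons (CTree.leaf 1 182393368483249776074170227476960211173913) (CTree.cons CTree.nil (CTree.cons (CTree.leaf 1 2741553420011706248274987961613877785) (CTree.cons (CTree.leaf 1 2076928889727658206767114849751736722) (CTree.cons CTree.nil (CTree.cons CTree.nil (CTree.cons (CTree.leaf 1 179669754380192740173156330536058151305753) (CTree.cons (CTree.leaf 1 182393368483242678578984104445824288752153) (CTree.cons CTree.nil (CTree.cons (CTree.leaf 1 2076939422119167736483516691523371409) (CTree.cons CTree.nil (CTree.cons CTree.nil (CTree.cons CTree.nil (CTree.cons CTree.nil (CTree.cons CTree.nil (CTree.cons CTree.nil (CTree.cons CTree.nil (CTree.cons CTree.nil (CTree.cons (CTree.leaf 1 179669754380192740173156330536058151305753) (CTree.cons (CTree.leaf 1 182393368483242678578984104445824288752153)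 (CTree.cons (CTree.leaf 1 179669754380192740173156330536058151305753) (CTree.cons CTree.nil (CTree.cons CTree.nil CTree.nil)))))))))))))))))))))))))))))))))))) (CTree.cons CTree.nil (CTree.cons (CTree.cons CTree.nil (CTree.cons CTree.nil (CTree.cons (CTree.leaf 1 90175492215282148339301355340142097797250) (CTree.cons (CTree.leaf 1 228702991665500836731685325004935272665218) (CTree.cons (CTree.leaf 1 880355023254139167902369170003536518385794) (CTree.cons CTree.nil (CTree.cons CTree.nil (CTree.cons CTree.nil (CTree.cons CTree.nil (CTree.cons CTree.nil (CTree.cons CTree.nil (CTree.cons CTree.nil (CTree.cons CTree.nil (CTree.cons CTree.nil (CTree.cons CTree.nil (CTree.cons (CTree.leaf 1 225948846835130025701510617040272025060001) (CTree.cons (CTree.leaf 1 228670415379062369603848454008331892236690) (CTree.cons (CTree.leaf 1 880312503038097369453753887715950908746258) (CTree.cons CTree.nil (CTree.cons CTree.nil (CTree.cons (CTree.leaf 1 14807827182330177099455886535239306668399067809) (CTree.cons CTree.nil (CTree.cons (CTree.leaf 1 223225897508334771101980727429337520472737) (CTree.cons (CTree.leaf 1 136115729849635727936784235722049335667226)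 (CTree.cons CTree.nil (CTree.cons CTree.nil (CTree.cons (CTree.leaf 1 14807827182330177089553766531130902485842723489) (CTree.cons (CTree.leaf 1 14807784988006767438918089251759129755211924129) (CTree.cons CTree.nil (CTree.cons (CTree.leaf 1 179669754542452017002369693927636161593881) (CTree.cons CTree.nil (CTree.cons CTree.nil (CTree.cons CTree.nil (CTree.cons CTree.nil (CTree.cons CTree.nil (CTree.cons CTree.nil CTree.nil)))))))))))))))))))))))))))))))))))) (CTree.cons (CTree.cons CTree.nil (CTree.cons CTree.nil (CTree.cons CTree.nil (CTree.cons (CTree.leaf 1 2178488377684077673820190431404127342891138) (CTree.cons (CTree.leaf 1 2918975384542440173984485454019743656382594) (CTree.cons (CTree.leaf 1 5909926499622191923540908780883554649278910594) (CTree.cons CTree.nil (CTree.cons CTree.nil (CTree.cons CTree.nil (CTree.cons CTree.nil (CTree.cons CTree.nil (CTree.cons CTree.nil (CTree.cons CTree.nil (CTree.cons (CTree.leaf 1 14807738423929907119468512505837623341283476129) (CTree.cons CTree.nil (CTree.cons (CTree.leaf 1 880313972488917855304681604018124095561858) (CTree.cons (CTree.leaf 1 880312503038094564748360562775164852503200)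 (CTree.cons CTree.nil (CTree.cons CTree.nil (CTree.cons (CTree.leaf 1 14986276700060922813200403485253529086353017371) (CTree.cons CTree.nil (CTree.cons CTree.nil (CTree.cons (CTree.leaf 1 225949511449125277865458721993823445779105) (CTree.cons (CTree.leaf 1 182393368483245154459062675206374087010842) (CTree.cons CTree.nil (CTree.cons (CTree.leaf 1 14807738423929907123925824509819211366107515419) (CTree.cons CTree.nil (CTree.cons (CTree.leaf 1 14986276742606581474716606085211329348897933851) (CTree.cons CTree.nil (CTree.cons (CTree.leaf 1 182393368483245154459062675206374087000601) (CTree.cons CTree.nil (CTree.cons CTree.nil (CTree.cons CTree.nil (CTree.cons CTree.nil (CTree.cons CTree.nil (CTree.cons CTree.nil CTree.nil)))))))))))))))))))))))))))))))))))) (CTree.cons (CTree.cons CTree.nil (CTree.cons CTree.nil (CTree.cons (CTree.leaf 1 228671126539684967359543579391637921534082) (CTree.cons CTree.nil (CTree.cons (CTree.leaf 1 2855329473455841037242440658537418143019896962) (CTree.cons (CTree.leaf 1 15008445087480417994871345823936243587672576130) (CTree.cons CTree.nil (CTree.cons CTree.nil (CTree.cons CTree.nil (CTree.cons CTree.nil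 (CTree.cons CTree.nil (CTree.cons CTree.nil (CTree.cons CTree.nil (CTree.cons (CTree.leaf 1 12022933492530330119679430082852656119330177696) (CTree.cons CTree.nil (CTree.cons CTree.nil (CTree.cons (CTree.leaf 1 228693816876954124257344146375367532290450) (CTree.cons (CTree.leaf 1 43557519118746250888404959617078212563483) (CTree.cons CTree.nil (CTree.cons (CTree.leaf 1 14986190949595369502570451817771771289063785121) (CTree.cons (CTree.leaf 1 12020277631202008599368235633519857818400785056) (CTree.cons CTree.nil (CTree.cons (CTree.leaf 1 223225897508334771101980727429337520472737) (CTree.cons CTree.nil (CTree.cons CTree.nil (CTree.cons (CTree.leaf 1 14986190949595369502570451817771771289063785121) (CTree.cons (CTree.leaf 1 12020277631202008599368235633519857818400785056) (CTree.cons CTree.nil (CTree.cons CTree.nil (CTree.cons (CTree.leaf 1 179669754542452017002369693927636161593881) (CTree.cons CTree.nil (CTree.cons CTree.nil (CTree.cons CTree.nil (CTree.cons CTree.nil (CTree.cons CTree.nil (CTree.cons CTree.nil CTree.nil)))))))))))))))))))))))))))))))))))) (CTree.cons (CTree.cons CTree.nil (CTree.cons CTree.nil (CTree.cons (CTree.leaf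 1 225948867604317459840821170568753848586370) (CTree.cons (CTree.leaf 1 224959885629382889407203599282047289462914) (CTree.cons CTree.nil (CTree.cons (CTree.leaf 1 15008445087480417355933498418672120484561817730) (CTree.cons CTree.nil (CTree.cons CTree.nil (CTree.cons CTree.nil (CTree.cons CTree.nil (CTree.cons CTree.nil (CTree.cons CTree.nil (CTree.cons CTree.nil (CTree.cons (CTree.leaf 1 57694162760834251954588024411273111126126428824) (CTree.cons CTree.nil (CTree.cons (CTree.leaf 1 225948846835130025701510617040272025060001) (CTree.cons CTree.nil (CTree.cons (CTree.leaf 1 1577209435486736217457013238720862703659538) (CTree.cons CTree.nil (CTree.cons (CTree.leaf 1 14807783649588406214395684760881632293844812449) (CTree.cons (CTree.leaf 1 57692160231015934956897310710947756406592307864) (CTree.cons CTree.nil (CTree.cons CTree.nil (CTree.cons (CTree.leaf 1 179669754542452017002369693927636161604122) (CTree.cons CTree.nil (CTree.cons (CTree.leaf 1 14807784988007124517438166074474823303292912289) (CTree.cons (CTree.leaf 1 57692160231015934956897310710947756406592307864) (CTree.cons (CTree.leaf 1 14807783649588406214395490833181488861407216289)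 (CTree.cons CTree.nil (CTree.cons CTree.nil (CTree.cons CTree.nil (CTree.cons CTree.nil (CTree.cons CTree.nil (CTree.cons CTree.nil (CTree.cons CTree.nil (CTree.cons CTree.nil CTree.nil)))))))))))))))))))))))))))))))))))) (CTree.cons CTree.nil CTree.nil)))))))))))))))))))))))))))))))))))

theorem tree6_1_0_ok : chk 6 (pk (goalL 6)) tree6_1_0 (stk [((1 : Fin 6), (0 : Fin 6))]) 1 (om [((1 : Fin 6), (0 : Fin 6))]) (im [((1 : Fin 6), (0 : Fin 6))])
    (cm [((1 : Fin 6), (0 : Fin 6))]) (pk (goalR [((1 : Fin 6), (0 : Fin 6))])) 0 = true := by
  decide +kernel

def tree6_1_2 : CTree :=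
  CTree.cons CTree.nil (CTree.cons (CTree.cons CTree.nil (CTree.cons CTree.nil (CTree.cons CTree.nil (CTree.cons CTree.nil (CTree.cons CTree.nil (CTree.cons CTree.nil (CTree.cons CTree.nil (CTree.cons CTree.nil (CTree.cons CTree.nil (CTree.cons CTree.nil (CTree.cons CTree.nil (CTree.cons CTree.nil (CTree.cons CTree.nil (CTree.cons CTree.nil (CTree.cons CTree.nil (CTree.cons (CTree.leaf 1 853921789803773922834918855409792) (CTree.cons (CTree.leaf 1 20929264718590652852822577512576) (CTree.cons (CTree.leaf 1 20916889091165704687455155781760) (CTree.cons (CTree.leaf 1 87134228945517337597725269545877091451552) (CTree.cons CTree.nil (CTree.cons CTree.nil (CTree.cons CTree.nil (CTree.cons (CTree.leaf 1 853297699794594572534444016009344) (CTree.cons (CTree.leaf 1 680887318418567412058118370623616) (CTree.cons (CTree.leaf 1 1577264733588909768519556754566755375448320) (CTree.cons CTree.nil (CTree.cons CTree.nil (CTree.cons (CTree.leaf 1 89858611184072915862597180094542851866752) (CTree.cons CTree.nil (CTree.cons (CTree.leaf 1 680887318418567412014133610545280) (CTree.cons (CTree.leaf 1 1577264733588909768514779123286919705329920) (CTree.cons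 CTree.nil (CTree.cons CTree.nil (CTree.cons (CTree.leaf 1 228671121704464478411490159595371511742592) (CTree.cons (CTree.leaf 1 89858612016988686063706591276610416607360) (CTree.cons CTree.nil CTree.nil)))))))))))))))))))))))))))))))))))) (CTree.cons CTree.nil (CTree.cons (CTree.cons CTree.nil (CTree.cons CTree.nil (CTree.cons CTree.nil (CTree.cons CTree.nil (CTree.cons CTree.nil (CTree.cons CTree.nil (CTree.cons CTree.nil (CTree.cons CTree.nil (CTree.cons CTree.nil (CTree.cons CTree.nil (CTree.cons CTree.nil (CTree.cons CTree.nil (CTree.cons (CTree.leaf 1 33241094630198955703566999419885719682) (CTree.cons CTree.nil (CTree.cons CTree.nil (CTree.cons CTree.nil (CTree.cons (CTree.leaf 1 680894568193049107116500365414530) (CTree.cons (CTree.leaf 1 853295049824085424294753030180994) (CTree.cons CTree.nil (CTree.cons (CTree.leaf 1 228671785961381042269051024019071113959690) (CTree.cons CTree.nil (CTree.cons CTree.nil (CTree.cons (CTree.leaf 1 507218851357499052619043472216194) (CTree.cons (CTree.leaf 1 507218851317356668544916425150594) (CTree.cons (CTree.leaf 1 228671785961381049522495261242403904887050) (CTree.cons (CTree.leaf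 1 33241094630196577994312407239199101058) (CTree.cons CTree.nil (CTree.cons CTree.nil (CTree.cons CTree.nil (CTree.cons (CTree.leaf 1 507218851317356668544915753996418) (CTree.cons (CTree.leaf 1 228671785961381049522495261242403904887050) (CTree.cons (CTree.leaf 1 33241094630196389154993324721763848322) (CTree.cons CTree.nil (CTree.cons CTree.nil (CTree.cons (CTree.leaf 1 33241094630196577994312407239199101058) (CTree.cons CTree.nil CTree.nil)))))))))))))))))))))))))))))))))))) (CTree.cons (CTree.cons CTree.nil (CTree.cons CTree.nil (CTree.cons CTree.nil (CTree.cons CTree.nil (CTree.cons CTree.nil (CTree.cons CTree.nil (CTree.cons CTree.nil (CTree.cons CTree.nil (CTree.cons CTree.nil (CTree.cons CTree.nil (CTree.cons CTree.nil (CTree.cons CTree.nil (CTree.cons (CTree.leaf 1 43612105716040769270198876866720586924680) (CTree.cons CTree.nil (CTree.cons CTree.nil (CTree.cons (CTree.leaf 1 679626917592820877715003662209154) (CTree.cons CTree.nil (CTree.cons (CTree.leaf 1 33241927647475286419407512915876581506) (CTree.cons (CTree.leaf 1 225948157103424832256298764918455231120033) (CTree.cons (CTree.leaf 1 33241136871185387200744388351458611330)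 (CTree.cons CTree.nil (CTree.cons CTree.nil (CTree.cons CTree.nil (CTree.cons (CTree.leaf 1 853931505862517776462702400573570) (CTree.cons CTree.nil (CTree.cons (CTree.leaf 1 43558236315435568843586213937713594303128) (CTree.cons CTree.nil (CTree.cons (CTree.leaf 1 43558236315437913106404033791147805835937) (CTree.cons CTree.nil (CTree.cons (CTree.leaf 1 42555893553936695167218805182594) (CTree.cons (CTree.leaf 1 52063866784830747425243120766549908521633) (CTree.cons (CTree.leaf 1 43558236315437912917564683183866771473048) (CTree.cons CTree.nil (CTree.cons (CTree.leaf 1 43558236315437913106404033791147805835937) (CTree.cons CTree.nil (CTree.cons CTree.nil CTree.nil)))))))))))))))))))))))))))))))))))) (CTree.cons (CTree.cons CTree.nil (CTree.cons CTree.nil (CTree.cons CTree.nil (CTree.cons CTree.nil (CTree.cons CTree.nil (CTree.cons CTree.nil (CTree.cons CTree.nil (CTree.cons CTree.nil (CTree.cons CTree.nil (CTree.cons CTree.nil (CTree.cons CTree.nil (CTree.cons CTree.nil (CTree.cons (CTree.leaf 1 229010697564230964363469912973347287859720) (CTree.cons CTree.nil (CTree.cons CTree.nil (CTree.cons (CTree.leaf 1 53333554318602007590231095447682)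 (CTree.cons (CTree.leaf 1 3494923004954623485690491819938418818) (CTree.cons CTree.nil (CTree.cons (CTree.leaf 1 229010827401677391630285608964803931013385) (CTree.cons (CTree.leaf 1 3494923007154834904420737357762924674) (CTree.cons CTree.nil (CTree.cons CTree.nil (CTree.cons (CTree.leaf 1 53333554318602007590231086534786) (CTree.cons CTree.nil (CTree.cons (CTree.leaf 1 229010827401677391597063529824485395474970) (CTree.cons (CTree.leaf 1 3412232139695494120631922224219623786974226970) (CTree.cons CTree.nil (CTree.cons (CTree.leaf 1 3494425929672894566713370534929897738) (CTree.cons CTree.nil (CTree.cons CTree.nil (CTree.cons CTree.nil (CTree.cons (CTree.leaf 1 229012816019049150353370351859889736067610) (CTree.cons CTree.nil (CTree.cons (CTree.leaf 1 229010697563911874435464318605151402860946) (CTree.cons (CTree.leaf 1 229010827369352633748297491071145878301210) (CTree.cons CTree.nil CTree.nil)))))))))))))))))))))))))))))))))))) (CTree.cons CTree.nil (CTree.cons CTree.nil (CTree.cons CTree.nil (CTree.cons CTree.nil (CTree.cons CTree.nil (CTree.cons CTree.nil (CTree.cons (CTree.cons CTree.nil (CTree.cons CTree.nil (CTree.cons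 CTree.nil (CTree.cons (CTree.leaf 1 33241094642574580767872364614963499138) (CTree.cons (CTree.leaf 1 44540029671363109041930487642758123650) (CTree.cons (CTree.leaf 1 3495267815823901169433385071142965378) (CTree.cons CTree.nil (CTree.cons CTree.nil (CTree.cons CTree.nil (CTree.cons CTree.nil (CTree.cons CTree.nil (CTree.cons CTree.nil (CTree.cons CTree.nil (CTree.cons CTree.nil (CTree.cons CTree.nil (CTree.cons CTree.nil (CTree.cons CTree.nil (CTree.cons CTree.nil (CTree.cons CTree.nil (CTree.cons (CTree.leaf 1 228672434998497775445711839604490350756513) (CTree.cons CTree.nil (CTree.cons CTree.nil (CTree.cons (CTree.leaf 1 3447715933977284919855856958376116897) (CTree.cons (CTree.leaf 1 2783081264964277203463108819912043034) (CTree.cons CTree.nil (CTree.cons (CTree.leaf 1 225948156292218041602467025103593688138401) (CTree.cons CTree.nil (CTree.cons (CTree.leaf 1 228672434998488366519628788071305052816033) (CTree.cons CTree.nil (CTree.cons (CTree.leaf 1 2783101936084743898192583607850172953) (CTree.cons CTree.nil (CTree.cons (CTree.leaf 1 225948156292218041602467025103593688138401) (CTree.cons CTree.nil (CTree.cons (CTree.leaf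 1 228672434998488366519628788071305052816033) (CTree.cons (CTree.leaf 1 225948156292218041602467025103593688138401) (CTree.cons CTree.nil CTree.nil)))))))))))))))))))))))))))))))))))) (CTree.cons CTree.nil (CTree.cons CTree.nil (CTree.cons (CTree.cons CTree.nil (CTree.cons (CTree.leaf 1 853921789803773922834918855409792) (CTree.cons CTree.nil (CTree.cons CTree.nil (CTree.cons (CTree.leaf 1 679626917592820877715003662209154) (CTree.cons (CTree.leaf 1 53333554318602007590231095447682) (CTree.cons CTree.nil (CTree.cons CTree.nil (CTree.cons CTree.nil (CTree.cons CTree.nil (CTree.cons CTree.nil (CTree.cons CTree.nil (CTree.cons CTree.nil (CTree.cons CTree.nil (CTree.cons CTree.nil (CTree.cons CTree.nil (CTree.cons CTree.nil (CTree.cons CTree.nil (CTree.cons (CTree.leaf 1 3489264450050320059901635230165500577) (CTree.cons CTree.nil (CTree.cons CTree.nil (CTree.cons CTree.nil (CTree.cons (CTree.leaf 1 51340004250274477926093823476385) (CTree.cons (CTree.leaf 1 41198799408307915093219416812058) (CTree.cons (CTree.leaf 1 3364618506186983602341491099866628769) (CTree.cons (CTree.leaf 1 3489264450050176491083229292464308897) (CTree.cons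 CTree.nil (CTree.cons CTree.nil (CTree.cons CTree.nil (CTree.cons (CTree.leaf 1 41198799408307915093219416801817) (CTree.cons (CTree.leaf 1 3364618506186983602341491099866628769) (CTree.cons (CTree.leaf 1 3489264450050176491083229292464308897) (CTree.cons CTree.nil (CTree.cons CTree.nil (CTree.cons (CTree.leaf 1 3364618506186983602341491099866628769) (CTree.cons CTree.nil CTree.nil)))))))))))))))))))))))))))))))))))) (CTree.cons (CTree.cons CTree.nil (CTree.cons (CTree.leaf 1 20929264718590652852822577512576) (CTree.cons CTree.nil (CTree.cons (CTree.leaf 1 680894568193049107116500365414530) (CTree.cons CTree.nil (CTree.cons (CTree.leaf 1 3494923004954585725205091461509550210) (CTree.cons CTree.nil (CTree.cons CTree.nil (CTree.cons CTree.nil (CTree.cons CTree.nil (CTree.cons CTree.nil (CTree.cons CTree.nil (CTree.cons CTree.nil (CTree.cons CTree.nil (CTree.cons CTree.nil (CTree.cons CTree.nil (CTree.cons CTree.nil (CTree.cons CTree.nil (CTree.cons (CTree.leaf 1 3463272158877336793092745565360488840) (CTree.cons (CTree.leaf 1 3463292824552889402741465450763329938) (CTree.cons CTree.nil (CTree.cons CTree.nil (CTree.cons CTree.nil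 (CTree.cons (CTree.leaf 1 31057594566340197960744938643858) (CTree.cons (CTree.leaf 1 665111088413882092300140834674836123) (CTree.cons CTree.nil (CTree.cons CTree.nil (CTree.cons (CTree.leaf 1 3463272158877336793092745565360488840) (CTree.cons CTree.nil (CTree.cons (CTree.leaf 1 31057594566340197960744267489682) (CTree.cons (CTree.leaf 1 3463272158877336793092745565360488840) (CTree.cons (CTree.leaf 1 3463292824552889402741465450763329938) (CTree.cons CTree.nil (CTree.cons (CTree.leaf 1 3463272158877336793092745565360488840) (CTree.cons CTree.nil (CTree.cons CTree.nil CTree.nil)))))))))))))))))))))))))))))))))))) (CTree.cons (CTree.cons CTree.nil (CTree.cons (CTree.leaf 1 20916889091165704687455155781760) (CTree.cons CTree.nil (CTree.cons (CTree.leaf 1 182392013479156212271047367836084199883144) (CTree.cons (CTree.leaf 1 33241114924984177319851881756895285378) (CTree.cons CTree.nil (CTree.cons CTree.nil (CTree.cons CTree.nil (CTree.cons CTree.nil (CTree.cons CTree.nil (CTree.cons CTree.nil (CTree.cons CTree.nil (CTree.cons CTree.nil (CTree.cons CTree.nil (CTree.cons CTree.nil (CTree.cons CTree.nil (CTree.cons CTree.nil (CTree.cons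 CTree.nil (CTree.cons (CTree.leaf 1 2798658148116019584744722127131902344) (CTree.cons (CTree.leaf 1 2798678826660348382807275878771403282) (CTree.cons CTree.nil (CTree.cons CTree.nil (CTree.cons (CTree.leaf 1 31057594450552366994487597148690) (CTree.cons CTree.nil (CTree.cons (CTree.leaf 1 2798658148116019584744722127131902344) (CTree.cons (CTree.leaf 1 2798678826660348382807275878771403282) (CTree.cons CTree.nil (CTree.cons (CTree.leaf 1 2788458948293032599380095597892207265) (CTree.cons CTree.nil (CTree.cons CTree.nil (CTree.cons (CTree.leaf 1 665111075854503107858883125665989147) (CTree.cons CTree.nil (CTree.cons CTree.nil (CTree.cons (CTree.leaf 1 2798658148116019584744722127131902344) (CTree.cons (CTree.leaf 1 2798658148116019584744722127131902344) (CTree.cons CTree.nil CTree.nil)))))))))))))))))))))))))))))))))))) (CTree.cons (CTree.cons CTree.nil (CTree.cons (CTree.leaf 1 87134228945517337635504086567645068198560) (CTree.cons CTree.nil (CTree.cons CTree.nil (CTree.cons (CTree.leaf 1 5712658358240861946121560472895017384537165954) (CTree.cons (CTree.leaf 1 90178321659976339545879414569694706076051) (CTree.cons CTree.nil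 (CTree.cons CTree.nil (CTree.cons CTree.nil (CTree.cons CTree.nil (CTree.cons CTree.nil (CTree.cons CTree.nil (CTree.cons CTree.nil (CTree.cons CTree.nil (CTree.cons CTree.nil (CTree.cons (CTree.leaf 1 3489264450050320062166655021531335195) (CTree.cons (CTree.leaf 1 36777899942243833203650024498906378046734894432520) (CTree.cons (CTree.leaf 1 87134228945509911317512505590726368821513) (CTree.cons CTree.nil (CTree.cons CTree.nil (CTree.cons CTree.nil (CTree.cons CTree.nil (CTree.cons CTree.nil (CTree.cons CTree.nil (CTree.cons CTree.nil (CTree.cons (CTree.leaf 1 11530365578253558241827166917591756702981554849) (CTree.cons CTree.nil (CTree.cons (CTree.leaf 1 970540454809278207800995158958810210179727252586760) (CTree.cons CTree.nil (CTree.cons (CTree.leaf 1 2700004510605991832380259656217461273) (CTree.cons CTree.nil (CTree.cons (CTree.leaf 1 11530365578253558241827166917591756702981554849) (CTree.cons CTree.nil (CTree.cons (CTree.leaf 1 970540454809278207800995158958810210179727252586760) (CTree.cons (CTree.leaf 1 970540454809278207617344278293541921325948582035720) (CTree.cons CTree.nil CTree.nil))))))))))))))))))))))))))))))))))))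 (CTree.cons (CTree.cons CTree.nil (CTree.cons CTree.nil (CTree.cons CTree.nil (CTree.cons (CTree.leaf 1 181383815125224645126384746968726817149058) (CTree.cons (CTree.leaf 1 33241114924984186635457638980376596610) (CTree.cons (CTree.leaf 1 3495267813193167574131789412210708610) (CTree.cons CTree.nil (CTree.cons CTree.nil (CTree.cons CTree.nil (CTree.cons CTree.nil (CTree.cons CTree.nil (CTree.cons CTree.nil (CTree.cons (CTree.leaf 1 180693426088941263532925156846675245204129) (CTree.cons CTree.nil (CTree.cons CTree.nil (CTree.cons CTree.nil (CTree.cons (CTree.leaf 1 664818968733690108143143635253330592) (CTree.cons (CTree.leaf 1 13432482121819360024533880176036096530) (CTree.cons CTree.nil (CTree.cons CTree.nil (CTree.cons CTree.nil (CTree.cons CTree.nil (CTree.cons CTree.nil (CTree.cons CTree.nil (CTree.cons (CTree.leaf 1 180693426261648887318344777890780829516449) (CTree.cons CTree.nil (CTree.cons CTree.nil (CTree.cons (CTree.leaf 1 180693426261648732575839867218246475514529) (CTree.cons CTree.nil (CTree.cons (CTree.leaf 1 2783101936084673377366068652199182873) (CTree.cons (CTree.leaf 1 180693426261648887318344777890780829516449)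 (CTree.cons CTree.nil (CTree.cons CTree.nil (CTree.cons (CTree.leaf 1 180693426261648732575839867218246475514529) (CTree.cons (CTree.leaf 1 180693426261648887318344777890780829516449) (CTree.cons CTree.nil CTree.nil)))))))))))))))))))))))))))))))))))) (CTree.cons CTree.nil (CTree.cons CTree.nil (CTree.cons (CTree.cons CTree.nil (CTree.cons (CTree.leaf 1 853297699794594572534444016009344) (CTree.cons CTree.nil (CTree.cons (CTree.leaf 1 507218851357499052619043472216194) (CTree.cons CTree.nil (CTree.cons (CTree.leaf 1 53333554318602007590231086534786) (CTree.cons CTree.nil (CTree.cons CTree.nil (CTree.cons CTree.nil (CTree.cons CTree.nil (CTree.cons CTree.nil (CTree.cons CTree.nil (CTree.cons (CTree.leaf 1 3447715933977284919855848162283094689) (CTree.cons CTree.nil (CTree.cons CTree.nil (CTree.cons (CTree.leaf 1 51340004250274477926093823476385) (CTree.cons CTree.nil (CTree.cons (CTree.leaf 1 31057594450552366994487597148690) (CTree.cons CTree.nil (CTree.cons CTree.nil (CTree.cons CTree.nil (CTree.cons CTree.nil (CTree.cons CTree.nil (CTree.cons CTree.nil (CTree.cons (CTree.leaf 1 3364618506022569690873901532106588833) (CTree.cons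 (CTree.leaf 1 3447715933977093536153871936542868129) (CTree.cons CTree.nil (CTree.cons CTree.nil (CTree.cons CTree.nil (CTree.cons (CTree.leaf 1 31057594566340197960744267481489) (CTree.cons (CTree.leaf 1 3364618506022569690873901532106588833) (CTree.cons (CTree.leaf 1 3447715933977093536153871936542868129) (CTree.cons CTree.nil (CTree.cons (CTree.leaf 1 3364618506022569690873901532106588833) (CTree.cons CTree.nil (CTree.cons CTree.nil CTree.nil)))))))))))))))))))))))))))))))))))) (CTree.cons (CTree.cons CTree.nil (CTree.cons (CTree.leaf 1 680887318418567412058118370623616) (CTree.cons CTree.nil (CTree.cons (CTree.leaf 1 507218851317356668544916425150594) (CTree.cons (CTree.leaf 1 853931505862517776462702400573570) (CTree.cons CTree.nil (CTree.cons CTree.nil (CTree.cons CTree.nil (CTree.cons CTree.nil (CTree.cons CTree.nil (CTree.cons CTree.nil (CTree.cons CTree.nil (CTree.cons (CTree.leaf 1 2783101936084743897616122855546759706) (CTree.cons CTree.nil (CTree.cons CTree.nil (CTree.cons (CTree.leaf 1 41198799408307915093219416812058) (CTree.cons (CTree.leaf 1 31057594566340197960744938643858) (CTree.cons CTree.nil (CTree.cons CTree.nil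 (CTree.cons CTree.nil (CTree.cons CTree.nil (CTree.cons CTree.nil (CTree.cons CTree.nil (CTree.cons CTree.nil (CTree.cons (CTree.leaf 1 2783081257540264004578422883207479688) (CTree.cons (CTree.leaf 1 2783101936084743897616122855546759706) (CTree.cons CTree.nil (CTree.cons (CTree.leaf 1 2700004507803706763134449130827491866) (CTree.cons CTree.nil (CTree.cons CTree.nil (CTree.cons (CTree.leaf 1 2659115328499070024088446659322784282) (CTree.cons (CTree.leaf 1 2783101936084743897616122855546759706) (CTree.cons CTree.nil (CTree.cons CTree.nil (CTree.cons (CTree.leaf 1 2700004507803706763134449130827491866) (CTree.cons CTree.nil CTree.nil)))))))))))))))))))))))))))))))))))) (CTree.cons (CTree.cons CTree.nil (CTree.cons (CTree.leaf 1 87113662257663321477258630544146673500833) (CTree.cons CTree.nil (CTree.cons (CTree.leaf 1 14986282144594705732703898399240140917733134466) (CTree.cons CTree.nil (CTree.cons (CTree.leaf 1 5909926491091432231989702845515522952432062594) (CTree.cons CTree.nil (CTree.cons CTree.nil (CTree.cons CTree.nil (CTree.cons CTree.nil (CTree.cons CTree.nil (CTree.cons CTree.nil (CTree.cons CTree.nil (CTree.cons CTree.nil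 (CTree.cons CTree.nil (CTree.cons (CTree.leaf 1 225948862412020601305993465477063854063881) (CTree.cons (CTree.leaf 1 738059535848746053153265633800479369813099160) (CTree.cons (CTree.leaf 1 87134228945509911317512505590726368821513) (CTree.cons CTree.nil (CTree.cons (CTree.leaf 1 14809829756121569255343829133519353600523567235) (CTree.cons CTree.nil (CTree.cons CTree.nil (CTree.cons (CTree.leaf 1 3364618508498449769444662081904837281) (CTree.cons (CTree.leaf 1 2783081260342549073824233408597459336) (CTree.cons CTree.nil (CTree.cons CTree.nil (CTree.cons CTree.nil (CTree.cons CTree.nil (CTree.cons CTree.nil (CTree.cons CTree.nil (CTree.cons CTree.nil (CTree.cons (CTree.leaf 1 14807706073719106848652647129826536206507248155) (CTree.cons CTree.nil (CTree.cons (CTree.leaf 1 970540451975759535622249483739531167621892947902728) (CTree.cons (CTree.leaf 1 970540451975759535622249483739531167621892947902728) (CTree.cons CTree.nil CTree.nil)))))))))))))))))))))))))))))))))))) (CTree.cons (CTree.cons CTree.nil (CTree.cons CTree.nil (CTree.cons CTree.nil (CTree.cons (CTree.leaf 1 33241094632672271595359850280438009986) (CTree.cons (CTree.leaf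 1 182776171066215782067228379799059635048578) (CTree.cons (CTree.leaf 1 229010827369352794570757122241421009029764) (CTree.cons CTree.nil (CTree.cons CTree.nil (CTree.cons CTree.nil (CTree.cons CTree.nil (CTree.cons CTree.nil (CTree.cons CTree.nil (CTree.cons (CTree.leaf 1 137136577437335121604393454793802819109504) (CTree.cons CTree.nil (CTree.cons CTree.nil (CTree.cons (CTree.leaf 1 3489264450050320062166655021531335195) (CTree.cons CTree.nil (CTree.cons (CTree.leaf 1 665111085773588102261790717259155995) (CTree.cons (CTree.leaf 1 217782807538327199595824629592198406021250) (CTree.cons CTree.nil (CTree.cons CTree.nil (CTree.cons CTree.nil (CTree.cons (CTree.leaf 1 3447715933977131315085734893704577697) (CTree.cons (CTree.leaf 1 2783081260342662353584853863744219674) (CTree.cons CTree.nil (CTree.cons CTree.nil (CTree.cons CTree.nil (CTree.cons CTree.nil (CTree.cons CTree.nil (CTree.cons CTree.nil (CTree.cons (CTree.leaf 1 137136577153544173850584457135432186528384) (CTree.cons CTree.nil (CTree.cons CTree.nil (CTree.cons (CTree.leaf 1 137177004214304206207085725100752263774745) (CTree.cons (CTree.leaf 1 137147771582994985459681148143565798965784)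 (CTree.cons CTree.nil CTree.nil)))))))))))))))))))))))))))))))))))) (CTree.cons CTree.nil (CTree.cons (CTree.cons CTree.nil (CTree.cons (CTree.leaf 1 89858611184072915900376111957500013576320) (CTree.cons CTree.nil (CTree.cons CTree.nil (CTree.cons (CTree.leaf 1 2788943039950795255127088436038668418) (CTree.cons (CTree.leaf 1 229010697745978349053599739834523721539986) (CTree.cons CTree.nil (CTree.cons CTree.nil (CTree.cons CTree.nil (CTree.cons CTree.nil (CTree.cons CTree.nil (CTree.cons CTree.nil (CTree.cons (CTree.leaf 1 224248764228518788659578717066277661778050) (CTree.cons CTree.nil (CTree.cons CTree.nil (CTree.cons CTree.nil (CTree.cons (CTree.leaf 1 3364618508809335050170066855064576402) (CTree.cons (CTree.leaf 1 2788273554866695642376120327641629345) (CTree.cons (CTree.leaf 1 14986190608622254065627162521752552481855963401) (CTree.cons (CTree.leaf 1 224248764228518788659578717099129875530265) (CTree.cons CTree.nil (CTree.cons CTree.nil (CTree.cons CTree.nil (CTree.cons (CTree.leaf 1 2700004510605991832380259656217471514) (CTree.cons CTree.nil (CTree.cons CTree.nil (CTree.cons CTree.nil (CTree.cons CTree.nil (CTree.cons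 CTree.nil (CTree.cons CTree.nil (CTree.cons (CTree.leaf 1 14986190608622427102255155543288266293279523081) (CTree.cons (CTree.leaf 1 921487334049519223207028897351643967848985) (CTree.cons CTree.nil (CTree.cons CTree.nil (CTree.cons (CTree.leaf 1 14986190608622427102255155543288266293279523081) (CTree.cons CTree.nil CTree.nil)))))))))))))))))))))))))))))))))))) (CTree.cons CTree.nil (CTree.cons (CTree.cons CTree.nil (CTree.cons (CTree.leaf 1 680887318418567412014133610545280) (CTree.cons CTree.nil (CTree.cons (CTree.leaf 1 507218851317356668544915753996418) (CTree.cons (CTree.leaf 1 42555893553936695167218805182594) (CTree.cons CTree.nil (CTree.cons CTree.nil (CTree.cons CTree.nil (CTree.cons CTree.nil (CTree.cons CTree.nil (CTree.cons CTree.nil (CTree.cons CTree.nil (CTree.cons (CTree.leaf 1 2783101936084743897616122855546749465) (CTree.cons CTree.nil (CTree.cons CTree.nil (CTree.cons (CTree.leaf 1 41198799408307915093219416801817) (CTree.cons (CTree.leaf 1 31057594566340197960744267489682) (CTree.cons CTree.nil (CTree.cons (CTree.leaf 1 2700004508130111753809499106419212825) (CTree.cons (CTree.leaf 1 2783101936084635598434205695037473305)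 (CTree.cons CTree.nil (CTree.cons CTree.nil (CTree.cons (CTree.leaf 1 31057594566340197960744267481489) (CTree.cons CTree.nil (CTree.cons CTree.nil (CTree.cons CTree.nil (CTree.cons CTree.nil (CTree.cons CTree.nil (CTree.cons CTree.nil (CTree.cons CTree.nil (CTree.cons (CTree.leaf 1 2659115328825475014763496634914505241) (CTree.cons (CTree.leaf 1 2783101936084635598434205695037473305) (CTree.cons CTree.nil (CTree.cons (CTree.leaf 1 2700004508130111753809499106419212825) (CTree.cons CTree.nil (CTree.cons CTree.nil CTree.nil)))))))))))))))))))))))))))))))))))) (CTree.cons (CTree.cons CTree.nil (CTree.cons (CTree.leaf 1 87136352248708048486660153529318302352033) (CTree.cons CTree.nil (CTree.cons (CTree.leaf 1 14986282144594705732703898399237607681597444226) (CTree.cons (CTree.leaf 1 5909923481065193402431415473376452449853968514) (CTree.cons CTree.nil (CTree.cons CTree.nil (CTree.cons CTree.nil (CTree.cons CTree.nil (CTree.cons CTree.nil (CTree.cons CTree.nil (CTree.cons CTree.nil (CTree.cons CTree.nil (CTree.cons CTree.nil (CTree.cons CTree.nil (CTree.cons (CTree.leaf 1 225948862412020601305993465477063854063881) (CTree.cons (CTree.leaf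 1 48284213992436976643271068900007898454607901819144) (CTree.cons (CTree.leaf 1 665111085773588102261790717259155995) (CTree.cons CTree.nil (CTree.cons (CTree.leaf 1 14808528876482981397776654674499872678720766626) (CTree.cons CTree.nil (CTree.cons CTree.nil (CTree.cons (CTree.leaf 1 3364618508498449769444662081904837281) (CTree.cons (CTree.leaf 1 2659115331301355093334257184712763930) (CTree.cons CTree.nil (CTree.cons (CTree.leaf 1 225960218452181715231514877707032683747594) (CTree.cons CTree.nil (CTree.cons (CTree.leaf 1 3582195173801736922215105035135405446451541926150409) (CTree.cons CTree.nil (CTree.cons (CTree.leaf 1 2659115331301355093334257184712753689) (CTree.cons CTree.nil (CTree.cons CTree.nil (CTree.cons CTree.nil (CTree.cons CTree.nil (CTree.cons CTree.nil (CTree.cons CTree.nil CTree.nil)))))))))))))))))))))))))))))))))))) (CTree.cons (CTree.cons CTree.nil (CTree.cons CTree.nil (CTree.cons CTree.nil (CTree.cons (CTree.leaf 1 48593552458678068920936596088015192578215448706) (CTree.cons (CTree.leaf 1 14807781980073208290535193929293830607415087234) (CTree.cons (CTree.leaf 1 15009978728711068527806171635695616741923754114)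 (CTree.cons CTree.nil (CTree.cons CTree.nil (CTree.cons CTree.nil (CTree.cons CTree.nil (CTree.cons CTree.nil (CTree.cons CTree.nil (CTree.cons (CTree.leaf 1 880311147891086227156819437385280859538081) (CTree.cons CTree.nil (CTree.cons CTree.nil (CTree.cons (CTree.leaf 1 3489264450050320062166655021531335195) (CTree.cons (CTree.leaf 1 664818968733690108143143635253330592) (CTree.cons CTree.nil (CTree.cons (CTree.leaf 1 880313972488917855299812276081005894369683) (CTree.cons CTree.nil (CTree.cons CTree.nil (CTree.cons CTree.nil (CTree.cons (CTree.leaf 1 3447715933977131315085734893704577697) (CTree.cons (CTree.leaf 1 2783081260342662353584853863744219674) (CTree.cons (CTree.leaf 1 132370505398863484504867993750067417776531) (CTree.cons CTree.nil (CTree.cons CTree.nil (CTree.cons (CTree.leaf 1 880313973107293663579668593503313376379283) (CTree.cons CTree.nil (CTree.cons (CTree.leaf 1 2783101936084673377366068652199182873) (CTree.cons CTree.nil (CTree.cons CTree.nil (CTree.cons CTree.nil (CTree.cons CTree.nil (CTree.cons CTree.nil (CTree.cons CTree.nil CTree.nil)))))))))))))))))))))))))))))))))))) (CTree.cons CTree.nil (CTree.cons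 (CTree.cons CTree.nil (CTree.cons (CTree.leaf 1 228693816887736580830918648046172429156480) (CTree.cons CTree.nil (CTree.cons CTree.nil (CTree.cons (CTree.leaf 1 43568870139401716553308693487080250344097) (CTree.cons (CTree.leaf 1 229010697745977903002787225712209914306962) (CTree.cons CTree.nil (CTree.cons CTree.nil (CTree.cons CTree.nil (CTree.cons CTree.nil (CTree.cons CTree.nil (CTree.cons CTree.nil (CTree.cons (CTree.leaf 1 183414880198005862350038123214768087106208) (CTree.cons CTree.nil (CTree.cons CTree.nil (CTree.cons CTree.nil (CTree.cons (CTree.leaf 1 228671121347385468606392075133966733148425) (CTree.cons (CTree.leaf 1 1577210141455064599384776304173880412602633) (CTree.cons (CTree.leaf 1 14986190608622254065627162521752552481855963401) (CTree.cons (CTree.leaf 1 183414880198005862350038123247619790668448) (CTree.cons CTree.nil (CTree.cons CTree.nil (CTree.cons (CTree.leaf 1 3364618508498449769444662081904837281) (CTree.cons CTree.nil (CTree.cons (CTree.leaf 1 14986190608622254070588518380013312110850277641) (CTree.cons (CTree.leaf 1 183414880198005862350038123247619790668448) (CTree.cons CTree.nil (CTree.cons CTree.nil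 (CTree.cons CTree.nil (CTree.cons (CTree.leaf 1 2700004510605991832380259656217461273) (CTree.cons CTree.nil (CTree.cons CTree.nil (CTree.cons CTree.nil (CTree.cons CTree.nil (CTree.cons CTree.nil (CTree.cons CTree.nil CTree.nil)))))))))))))))))))))))))))))))))))) (CTree.cons (CTree.cons CTree.nil (CTree.cons (CTree.leaf 1 89858612016991161948562793316995884974208) (CTree.cons CTree.nil (CTree.cons (CTree.leaf 1 3432615442342878561511285389193711746) (CTree.cons CTree.nil (CTree.cons (CTree.leaf 1 229010697745978352678366534256231001434650) (CTree.cons CTree.nil (CTree.cons CTree.nil (CTree.cons CTree.nil (CTree.cons CTree.nil (CTree.cons CTree.nil (CTree.cons CTree.nil (CTree.cons (CTree.leaf 1 880312503038100009639443091593471627231896) (CTree.cons CTree.nil (CTree.cons CTree.nil (CTree.cons (CTree.leaf 1 225948862412020601305993465477063854063881) (CTree.cons CTree.nil (CTree.cons (CTree.leaf 1 1577210141455064599384776304173880412602633) (CTree.cons (CTree.leaf 1 14807784647034009092882661581427191371402379529) (CTree.cons (CTree.leaf 1 880312503038100009639443091617527371989656) (CTree.cons CTree.nil (CTree.cons CTree.nil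 (CTree.cons CTree.nil (CTree.cons (CTree.leaf 1 2700004510605991832380259656217471514) (CTree.cons (CTree.leaf 1 14807784647034009085456421655313086986340860169) (CTree.cons (CTree.leaf 1 880312503038100009639443091617527371989656) (CTree.cons CTree.nil (CTree.cons (CTree.leaf 1 14807784647034009085456421655313086986340860169) (CTree.cons CTree.nil (CTree.cons CTree.nil (CTree.cons CTree.nil (CTree.cons CTree.nil (CTree.cons CTree.nil (CTree.cons CTree.nil (CTree.cons CTree.nil (CTree.cons CTree.nil CTree.nil)))))))))))))))))))))))))))))))))))) (CTree.cons CTree.nil CTree.nil)))))))))))))))))))))))))))))))))))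

theorem tree6_1_2_ok : chk 6 (pk (goalL 6)) tree6_1_2 (stk [((1 : Fin 6), (2 : Fin 6))]) 1 (om [((1 : Fin 6), (2 : Fin 6))]) (im [((1 : Fin 6), (2 : Fin 6))])
    (cm [((1 : Fin 6), (2 : Fin 6))]) (pk (goalR [((1 : Fin 6), (2 : Fin 6))])) 0 = true := by
  decide +kernel

def tree6_1_3 : CTree :=
  CTree.cons CTree.nil (CTree.cons (CTree.cons CTree.nil (CTree.cons CTree.nil (CTree.cons CTree.nil (CTree.cons CTree.nil (CTree.cons CTree.nil (CTree.cons CTree.nil (CTree.cons CTree.nil (CTree.cons CTree.nil (CTree.cons CTree.nil (CTree.cons CTree.nil (CTree.cons CTree.nil (CTree.cons CTree.nil (CTree.cons (CTree.leaf 1 1370809243478633000117350951352402048) (CTree.cons CTree.nil (CTree.cons CTree.nil (CTree.cons CTree.nil (CTree.cons (CTree.leaf 1 20929264718590652852822971383936) (CTree.cons (CTree.leaf 1 20916889091165704687455549653120) (CTree.cons CTree.nil (CTree.cons CTree.nil (CTree.cons (CTree.leaf 1 1370808599915584145104278520857231488) (CTree.cons CTree.nil (CTree.cons (CTree.leaf 1 20929255193374539308217613811840) (CTree.cons (CTree.leaf 1 20926624422091857318061122650240) (CTree.cons (CTree.leaf 1 1370809075277305675772616307072696448)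 (CTree.cons CTree.nil (CTree.cons (CTree.leaf 1 1370809087653079291164197473114259584) (CTree.cons CTree.nil (CTree.cons CTree.nil (CTree.cons (CTree.leaf 1 20926624422091857274076362571904) (CTree.cons (CTree.leaf 1 1370819612630024930872789145590825088) (CTree.cons CTree.nil (CTree.cons (CTree.leaf 1 1370809075277305675772334836390953088) (CTree.cons CTree.nil (CTree.cons (CTree.leaf 1 1370809087653079291164197473114259584) (CTree.cons CTree.nil CTree.nil)))))))))))))))))))))))))))))))))))) (CTree.cons (CTree.cons CTree.nil (CTree.cons CTree.nil (CTree.cons CTree.nil (CTree.cons CTree.nil (CTree.cons CTree.nil (CTree.cons CTree.nil (CTree.cons CTree.nil (CTree.cons CTree.nil (CTree.cons CTree.nil (CTree.cons CTree.nil (CTree.cons CTree.nil (CTree.cons CTree.nil (CTree.cons CTree.nil (CTree.cons (CTree.leaf 1 33282633005067234324595243390519480450) (CTree.cons CTree.nil (CTree.cons CTree.nil (CTree.cons (CTree.leaf 1 507852676657758510583243127001218) (CTree.cons (CTree.leaf 1 507852676468921422189869021663362) (CTree.cons (CTree.leaf 1 33282633005057414331784345363901583490) (CTree.cons CTree.nil (CTree.cons CTree.nil (CTree.cons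 CTree.nil (CTree.cons (CTree.leaf 1 507852676657613167319791823818882) (CTree.cons (CTree.leaf 1 507852676617470783245664776753282) (CTree.cons (CTree.leaf 1 2181213476806299221692547992364361827029122) (CTree.cons (CTree.leaf 1 33282633005064667776021568696692510850) (CTree.cons CTree.nil (CTree.cons CTree.nil (CTree.cons CTree.nil (CTree.cons (CTree.leaf 1 507852676617470783245664105599106) (CTree.cons (CTree.leaf 1 2181213476806299221732689944943998847291522) (CTree.cons (CTree.leaf 1 33282633005064667776021568696692510850) (CTree.cons CTree.nil (CTree.cons CTree.nil (CTree.cons (CTree.leaf 1 33282633005064856615340651209832861826) (CTree.cons CTree.nil CTree.nil)))))))))))))))))))))))))))))))))))) (CTree.cons CTree.nil (CTree.cons (CTree.cons CTree.nil (CTree.cons CTree.nil (CTree.cons CTree.nil (CTree.cons CTree.nil (CTree.cons CTree.nil (CTree.cons CTree.nil (CTree.cons CTree.nil (CTree.cons CTree.nil (CTree.cons CTree.nil (CTree.cons CTree.nil (CTree.cons CTree.nil (CTree.cons CTree.nil (CTree.cons (CTree.leaf 1 14987546976130460380355956379527376145105426698) (CTree.cons (CTree.leaf 1 1370776524887811145063643501145757962)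 (CTree.cons CTree.nil (CTree.cons CTree.nil (CTree.cons CTree.nil (CTree.cons (CTree.leaf 1 1479814751025203092984004266056358154) (CTree.cons (CTree.leaf 1 3324257238129740892977630561896869807816579338) (CTree.cons CTree.nil (CTree.cons (CTree.leaf 1 22067271792642490425140195776416323850) (CTree.cons CTree.nil (CTree.cons CTree.nil (CTree.cons (CTree.leaf 1 55962595823878146288334148567487352962) (CTree.cons CTree.nil (CTree.cons (CTree.leaf 1 224948711806530644335204311700674142411018) (CTree.cons (CTree.leaf 1 3324257238129722747682947744770973918697756938) (CTree.cons CTree.nil (CTree.cons CTree.nil (CTree.cons (CTree.leaf 1 2788283695622976544553335659944349826) (CTree.cons (CTree.leaf 1 3324257237299107449653360869605313773600643338) (CTree.cons (CTree.leaf 1 224948711806530644335204311700674142411018) (CTree.cons (CTree.leaf 1 3324257238129722747682947744770973918697756938) (CTree.cons CTree.nil (CTree.cons CTree.nil (CTree.cons CTree.nil CTree.nil)))))))))))))))))))))))))))))))))))) (CTree.cons (CTree.cons CTree.nil (CTree.cons CTree.nil (CTree.cons CTree.nil (CTree.cons CTree.nil (CTree.cons CTree.nil (CTree.cons CTree.nil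 (CTree.cons CTree.nil (CTree.cons CTree.nil (CTree.cons CTree.nil (CTree.cons CTree.nil (CTree.cons CTree.nil (CTree.cons CTree.nil (CTree.cons (CTree.leaf 1 229011512784471560607189627442742764378378) (CTree.cons (CTree.leaf 1 3494436702183595247416860067882998026) (CTree.cons CTree.nil (CTree.cons CTree.nil (CTree.cons (CTree.leaf 1 3494438365975196884451815283192109322) (CTree.cons CTree.nil (CTree.cons (CTree.leaf 1 229010806610306569013508256384417574555778) (CTree.cons CTree.nil (CTree.cons (CTree.leaf 1 3494425932136716209972420905851296010) (CTree.cons CTree.nil (CTree.cons (CTree.leaf 1 3494436068383871264845857535944167554) (CTree.cons CTree.nil (CTree.cons (CTree.leaf 1 229010806610318937375405883563481888329858) (CTree.cons (CTree.leaf 1 3494436702183595170748424505177282826) (CTree.cons (CTree.leaf 1 3324259970331934885794199860489172683959965962) (CTree.cons CTree.nil (CTree.cons CTree.nil (CTree.cons CTree.nil (CTree.cons CTree.nil (CTree.cons (CTree.leaf 1 229012800442158731980209186438559533504778) (CTree.cons (CTree.leaf 1 229010806610306569013508256384417574555778) (CTree.cons CTree.nil (CTree.cons (CTree.leaf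 1 229010806610306569013508256384417574555778) (CTree.cons CTree.nil CTree.nil)))))))))))))))))))))))))))))))))))) (CTree.cons CTree.nil (CTree.cons CTree.nil (CTree.cons CTree.nil (CTree.cons CTree.nil (CTree.cons CTree.nil (CTree.cons CTree.nil (CTree.cons (CTree.cons CTree.nil (CTree.cons (CTree.leaf 1 3489244405824495332613628928111280256) (CTree.cons CTree.nil (CTree.cons CTree.nil (CTree.cons (CTree.leaf 1 97002541844257628546311055223221046614282) (CTree.cons (CTree.leaf 1 1446203554034103849528006492277487447447818) (CTree.cons CTree.nil (CTree.cons CTree.nil (CTree.cons CTree.nil (CTree.cons CTree.nil (CTree.cons CTree.nil (CTree.cons CTree.nil (CTree.cons CTree.nil (CTree.cons CTree.nil (CTree.cons CTree.nil (CTree.cons CTree.nil (CTree.cons CTree.nil (CTree.cons CTree.nil (CTree.cons CTree.nil (CTree.cons CTree.nil (CTree.cons (CTree.leaf 1 180010742877689123658948959613560345925898) (CTree.cons CTree.nil (CTree.cons (CTree.leaf 1 3489244405325098013640253381260941578) (CTree.cons (CTree.leaf 1 13390954514551125256031955786032355594) (CTree.cons CTree.nil (CTree.cons (CTree.leaf 1 11618907731931895174685635367263985546497229473)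 (CTree.cons (CTree.leaf 1 14986190621389919209164229738099234532609360005) (CTree.cons CTree.nil (CTree.cons CTree.nil (CTree.cons (CTree.leaf 1 13390954514551125256031955785361201418) (CTree.cons CTree.nil (CTree.cons (CTree.leaf 1 416588695236060373823300388834720239294675596548362) (CTree.cons (CTree.leaf 1 14986190621389919209164229738099234532609360005) (CTree.cons CTree.nil (CTree.cons (CTree.leaf 1 14986190621389919209164229738099234532609360005) (CTree.cons CTree.nil CTree.nil)))))))))))))))))))))))))))))))))))) (CTree.cons (CTree.cons CTree.nil (CTree.cons CTree.nil (CTree.cons (CTree.leaf 1 3489731341611873087794691587803517058) (CTree.cons CTree.nil (CTree.cons (CTree.leaf 1 227649568938029678104999604750496117166210) (CTree.cons (CTree.leaf 1 229011528329428401796947595549186164658306) (CTree.cons CTree.nil (CTree.cons CTree.nil (CTree.cons CTree.nil (CTree.cons CTree.nil (CTree.cons CTree.nil (CTree.cons CTree.nil (CTree.cons CTree.nil (CTree.cons CTree.nil (CTree.cons CTree.nil (CTree.cons CTree.nil (CTree.cons CTree.nil (CTree.cons CTree.nil (CTree.cons (CTree.leaf 1 183415685014167566401026854345499585675781)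 (CTree.cons CTree.nil (CTree.cons CTree.nil (CTree.cons CTree.nil (CTree.cons (CTree.leaf 1 3489244167640610470847258179930233098) (CTree.cons (CTree.leaf 1 13390943744475201324898822219019983114) (CTree.cons (CTree.leaf 1 183415685034449976004678524769446836961541) (CTree.cons CTree.nil (CTree.cons (CTree.leaf 1 183415685014167566401026854345499585675781) (CTree.cons CTree.nil (CTree.cons CTree.nil (CTree.cons (CTree.leaf 1 13390954276866637714391020084406065418) (CTree.cons (CTree.leaf 1 183415685034449976004678524769446836961541) (CTree.cons CTree.nil (CTree.cons (CTree.leaf 1 183415685014167566401026854345499585675781) (CTree.cons CTree.nil (CTree.cons (CTree.leaf 1 183415685034449976004678524769446836961541) (CTree.cons CTree.nil CTree.nil)))))))))))))))))))))))))))))))))))) (CTree.cons CTree.nil (CTree.cons CTree.nil (CTree.cons (CTree.cons CTree.nil (CTree.cons (CTree.leaf 1 20929264718590652852822971383936) (CTree.cons (CTree.leaf 1 507852676657758510583243127001218) (CTree.cons CTree.nil (CTree.cons CTree.nil (CTree.cons (CTree.leaf 1 3494425940028621702348933834764065034) (CTree.cons CTree.nil (CTree.cons CTree.nil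 (CTree.cons CTree.nil (CTree.cons CTree.nil (CTree.cons CTree.nil (CTree.cons CTree.nil (CTree.cons CTree.nil (CTree.cons CTree.nil (CTree.cons CTree.nil (CTree.cons CTree.nil (CTree.cons CTree.nil (CTree.cons CTree.nil (CTree.cons (CTree.leaf 1 3463272158877412293885449626761435402) (CTree.cons CTree.nil (CTree.cons (CTree.leaf 1 3463282921032575117970703786081130762) (CTree.cons CTree.nil (CTree.cons CTree.nil (CTree.cons (CTree.leaf 1 20916389658688388333046849994885) (CTree.cons (CTree.leaf 1 3463282921032575117970703786081130762) (CTree.cons (CTree.leaf 1 3463282683348087576329768085125994762) (CTree.cons CTree.nil (CTree.cons CTree.nil (CTree.cons CTree.nil (CTree.cons (CTree.leaf 1 20916389658685505747810356166789) (CTree.cons (CTree.leaf 1 3463282921032575117970703786081130762) (CTree.cons (CTree.leaf 1 3463282683348087576329768085125994762) (CTree.cons (CTree.leaf 1 3463282921032575117970703786081130762) (CTree.cons CTree.nil (CTree.cons CTree.nil (CTree.cons CTree.nil CTree.nil)))))))))))))))))))))))))))))))))))) (CTree.cons (CTree.cons CTree.nil (CTree.cons (CTree.leaf 1 20916889091165704687455549653120) (CTree.cons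 (CTree.leaf 1 507852676468921422189869021663362) (CTree.cons CTree.nil (CTree.cons (CTree.leaf 1 664950717771741248100107640655452426) (CTree.cons CTree.nil (CTree.cons CTree.nil (CTree.cons CTree.nil (CTree.cons CTree.nil (CTree.cons CTree.nil (CTree.cons CTree.nil (CTree.cons CTree.nil (CTree.cons CTree.nil (CTree.cons CTree.nil (CTree.cons CTree.nil (CTree.cons CTree.nil (CTree.cons CTree.nil (CTree.cons CTree.nil (CTree.cons (CTree.leaf 1 2798658153064152962696609707410462986) (CTree.cons CTree.nil (CTree.cons (CTree.leaf 1 2798668923140076893829743274422835466) (CTree.cons CTree.nil (CTree.cons (CTree.leaf 1 20916389804802203845606396002437) (CTree.cons CTree.nil (CTree.cons (CTree.leaf 1 2798668923140076893829743274422835466) (CTree.cons (CTree.leaf 1 2798668685455589352188807573467699466) (CTree.cons (CTree.leaf 1 2798668923140076893829743274422835466) (CTree.cons CTree.nil (CTree.cons CTree.nil (CTree.cons CTree.nil (CTree.cons (CTree.leaf 1 2798668923140076893829743274422835466) (CTree.cons (CTree.leaf 1 2798668685455589352188807573467699466) (CTree.cons CTree.nil (CTree.cons CTree.nil (CTree.cons (CTree.leaf 1 2798668923140076893829743274422835466)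 (CTree.cons CTree.nil CTree.nil)))))))))))))))))))))))))))))))))))) (CTree.cons (CTree.cons CTree.nil (CTree.cons CTree.nil (CTree.cons (CTree.leaf 1 33282633005057452110716208321063293058) (CTree.cons CTree.nil (CTree.cons (CTree.leaf 1 3322899181146772309934530672602056246396850306) (CTree.cons (CTree.leaf 1 15008499521449138253607139125181002609007923330) (CTree.cons CTree.nil (CTree.cons CTree.nil (CTree.cons CTree.nil (CTree.cons CTree.nil (CTree.cons CTree.nil (CTree.cons CTree.nil (CTree.cons CTree.nil (CTree.cons (CTree.leaf 1 89847977392738736001853509078998063908995) (CTree.cons CTree.nil (CTree.cons CTree.nil (CTree.cons (CTree.leaf 1 3489233633267775043564674538389248266) (CTree.cons (CTree.leaf 1 13432482119343479945927066189653219594) (CTree.cons CTree.nil (CTree.cons CTree.nil (CTree.cons CTree.nil (CTree.cons CTree.nil (CTree.cons CTree.nil (CTree.cons CTree.nil (CTree.cons CTree.nil (CTree.cons (CTree.leaf 1 14986981097328295875605956352107465842447554826) (CTree.cons (CTree.leaf 1 180012721142792185533722153003549049559306) (CTree.cons CTree.nil (CTree.cons CTree.nil (CTree.cons (CTree.leaf 1 13390943744475201324898822218348828938)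 (CTree.cons CTree.nil (CTree.cons (CTree.leaf 1 14986981097328295875605956352107465842447554826) (CTree.cons (CTree.leaf 1 3323691358497094109635834287820942584888432906) (CTree.cons CTree.nil (CTree.cons (CTree.leaf 1 14986981097328295875605956352107465842447554826) (CTree.cons CTree.nil CTree.nil)))))))))))))))))))))))))))))))))))) (CTree.cons CTree.nil (CTree.cons (CTree.cons CTree.nil (CTree.cons (CTree.leaf 1 1370808602391464223675039070655479936) (CTree.cons CTree.nil (CTree.cons CTree.nil (CTree.cons (CTree.leaf 1 3432118377716501263184700820811288706) (CTree.cons (CTree.leaf 1 229010863718283014497795976339229772484738) (CTree.cons CTree.nil (CTree.cons CTree.nil (CTree.cons CTree.nil (CTree.cons CTree.nil (CTree.cons CTree.nil (CTree.cons CTree.nil (CTree.cons (CTree.leaf 1 1438035967228502972540981353637615899777290) (CTree.cons CTree.nil (CTree.cons CTree.nil (CTree.cons CTree.nil (CTree.cons (CTree.leaf 1 3489244405325098158832648512789944586) (CTree.cons (CTree.leaf 1 13432492889419403877060199756665592074) (CTree.cons CTree.nil (CTree.cons CTree.nil (CTree.cons CTree.nil (CTree.cons CTree.nil (CTree.cons CTree.nil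 (CTree.cons CTree.nil (CTree.cons (CTree.leaf 1 228671121347385632944600486604808299085957) (CTree.cons (CTree.leaf 1 1438035967228502972540981353637615899777290) (CTree.cons CTree.nil (CTree.cons CTree.nil (CTree.cons CTree.nil (CTree.cons (CTree.leaf 1 13390954514551125256031955785361201418) (CTree.cons (CTree.leaf 1 228671121347385632944600486604808299085957) (CTree.cons (CTree.leaf 1 1438035967228502972540981353637615899777290) (CTree.cons CTree.nil (CTree.cons CTree.nil (CTree.cons (CTree.leaf 1 228671121347385632944600486604808299085957) (CTree.cons CTree.nil CTree.nil)))))))))))))))))))))))))))))))))))) (CTree.cons CTree.nil (CTree.cons (CTree.cons CTree.nil (CTree.cons (CTree.leaf 1 20929255193374539308217613811840) (CTree.cons (CTree.leaf 1 507852676657613167319791823818882) (CTree.cons CTree.nil (CTree.cons CTree.nil (CTree.cons (CTree.leaf 1 3494436068383871264269396783640744066) (CTree.cons CTree.nil (CTree.cons CTree.nil (CTree.cons CTree.nil (CTree.cons CTree.nil (CTree.cons CTree.nil (CTree.cons CTree.nil (CTree.cons (CTree.leaf 1 3421744546164296351750064683918366986) (CTree.cons (CTree.leaf 1 3421744308479808808957069482587658506)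 (CTree.cons CTree.nil (CTree.cons CTree.nil (CTree.cons CTree.nil (CTree.cons (CTree.leaf 1 20916389804802203845606396002437) (CTree.cons CTree.nil (CTree.cons CTree.nil (CTree.cons CTree.nil (CTree.cons CTree.nil (CTree.cons CTree.nil (CTree.cons CTree.nil (CTree.cons (CTree.leaf 1 3421733776088372420580902869642844426) (CTree.cons CTree.nil (CTree.cons (CTree.leaf 1 3421744546164296351750064683918366986) (CTree.cons CTree.nil (CTree.cons CTree.nil (CTree.cons (CTree.leaf 1 20916389658685505712621689110661) (CTree.cons (CTree.leaf 1 3421744546164296351750064683918366986) (CTree.cons (CTree.leaf 1 3421744308479808808957069482587658506) (CTree.cons (CTree.leaf 1 3421744546164296351750064683918366986) (CTree.cons CTree.nil (CTree.cons CTree.nil (CTree.cons CTree.nil CTree.nil)))))))))))))))))))))))))))))))))))) (CTree.cons (CTree.cons CTree.nil (CTree.cons (CTree.leaf 1 20926624422091857318061122650240) (CTree.cons (CTree.leaf 1 507852676617470783245664776753282) (CTree.cons CTree.nil (CTree.cons (CTree.leaf 1 55962596457678021181157552237919213834) (CTree.cons CTree.nil (CTree.cons CTree.nil (CTree.cons CTree.nil (CTree.cons CTree.nil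 (CTree.cons CTree.nil (CTree.cons CTree.nil (CTree.cons CTree.nil (CTree.cons (CTree.leaf 1 2757130548271798272801499303789598986) (CTree.cons (CTree.leaf 1 2757130310587310731160563602834462986) (CTree.cons CTree.nil (CTree.cons CTree.nil (CTree.cons (CTree.leaf 1 20916389658688388333046849994885) (CTree.cons CTree.nil (CTree.cons CTree.nil (CTree.cons CTree.nil (CTree.cons CTree.nil (CTree.cons CTree.nil (CTree.cons CTree.nil (CTree.cons CTree.nil (CTree.cons (CTree.leaf 1 2757130548271798272801499303789598986) (CTree.cons (CTree.leaf 1 2757130310587310731160563602834462986) (CTree.cons (CTree.leaf 1 2757130548271798272801499303789598986) (CTree.cons CTree.nil (CTree.cons CTree.nil (CTree.cons CTree.nil (CTree.cons (CTree.leaf 1 2757119778195874341668365736777226506) (CTree.cons CTree.nil (CTree.cons (CTree.leaf 1 2757130548271798272801499303789598986) (CTree.cons CTree.nil (CTree.cons (CTree.leaf 1 2757130548271798272801499303789598986) (CTree.cons CTree.nil CTree.nil)))))))))))))))))))))))))))))))))))) (CTree.cons (CTree.cons CTree.nil (CTree.cons (CTree.leaf 1 1370971334554134889136007885082984576) (CTree.cons (CTree.leaf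 1 2181224110792524777848744586212422080073858) (CTree.cons CTree.nil (CTree.cons CTree.nil (CTree.cons (CTree.leaf 1 15008491367294805811234792634771025714238134538) (CTree.cons CTree.nil (CTree.cons CTree.nil (CTree.cons CTree.nil (CTree.cons CTree.nil (CTree.cons CTree.nil (CTree.cons CTree.nil (CTree.cons CTree.nil (CTree.cons (CTree.leaf 1 736804903390259340157544655724984101810411786) (CTree.cons CTree.nil (CTree.cons CTree.nil (CTree.cons (CTree.leaf 1 3489244405325098158832648512789944586) (CTree.cons (CTree.leaf 1 13432492889419403877060199756665592074) (CTree.cons CTree.nil (CTree.cons CTree.nil (CTree.cons (CTree.leaf 1 736014439487321830059617511881858571313551626) (CTree.cons CTree.nil (CTree.cons (CTree.leaf 1 3489233633258103639353286715875858698) (CTree.cons (CTree.leaf 1 44622620118638002484477287843338262794) (CTree.cons CTree.nil (CTree.cons CTree.nil (CTree.cons CTree.nil (CTree.cons CTree.nil (CTree.cons CTree.nil (CTree.cons CTree.nil (CTree.cons CTree.nil (CTree.cons (CTree.leaf 1 736804923978062442630869296211418607958753541) (CTree.cons (CTree.leaf 1 736014439529530551441661393836871126811803781) (CTree.cons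 CTree.nil (CTree.cons (CTree.leaf 1 736014439529530551441661393836871126811803781) (CTree.cons CTree.nil CTree.nil)))))))))))))))))))))))))))))))))))) (CTree.cons (CTree.cons CTree.nil (CTree.cons CTree.nil (CTree.cons (CTree.leaf 1 218834844595258505458989555583620122415234) (CTree.cons CTree.nil (CTree.cons (CTree.leaf 1 224927309353714493367484054511300182151298) (CTree.cons (CTree.leaf 1 3494436702183595096962576171830221066) (CTree.cons CTree.nil (CTree.cons CTree.nil (CTree.cons CTree.nil (CTree.cons CTree.nil (CTree.cons CTree.nil (CTree.cons CTree.nil (CTree.cons (CTree.leaf 1 219484883793929990089152634596684228794634) (CTree.cons CTree.nil (CTree.cons CTree.nil (CTree.cons CTree.nil (CTree.cons (CTree.leaf 1 3489233633267775043564674538389248266) (CTree.cons (CTree.leaf 1 13432482119343479945927066189653219594) (CTree.cons (CTree.leaf 1 180693260118300389463583670879330069250309) (CTree.cons CTree.nil (CTree.cons (CTree.leaf 1 219495517607747929532168538926051896662282) (CTree.cons CTree.nil (CTree.cons CTree.nil (CTree.cons (CTree.leaf 1 44622609348562078553344154276325890314) (CTree.cons CTree.nil (CTree.cons CTree.nil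 (CTree.cons CTree.nil (CTree.cons CTree.nil (CTree.cons CTree.nil (CTree.cons CTree.nil (CTree.cons (CTree.leaf 1 217783472152325101684879993265292919308549) (CTree.cons CTree.nil (CTree.cons (CTree.leaf 1 219484883986919714059289297719532365355274) (CTree.cons CTree.nil (CTree.cons (CTree.leaf 1 180703914548877913450606994715845442797829) (CTree.cons CTree.nil CTree.nil)))))))))))))))))))))))))))))))))))) (CTree.cons (CTree.cons CTree.nil (CTree.cons (CTree.leaf 1 1370971346929908504527589051124547712) (CTree.cons CTree.nil (CTree.cons CTree.nil (CTree.cons (CTree.leaf 1 89835209686089091874291761918300767518869) (CTree.cons (CTree.leaf 1 229011403714306571596937696443048448366858) (CTree.cons CTree.nil (CTree.cons CTree.nil (CTree.cons CTree.nil (CTree.cons CTree.nil (CTree.cons CTree.nil (CTree.cons CTree.nil (CTree.cons (CTree.leaf 1 224247450577413433108452829278907411333253) (CTree.cons (CTree.leaf 1 180012721345932570376795291045722283120906) (CTree.cons CTree.nil (CTree.cons CTree.nil (CTree.cons CTree.nil (CTree.cons (CTree.leaf 1 13432492889419403877060199756665592074) (CTree.cons (CTree.leaf 1 180012721345932570376795291030462497167626)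 (CTree.cons CTree.nil (CTree.cons CTree.nil (CTree.cons CTree.nil (CTree.cons (CTree.leaf 1 3489244405325098013640253381260941578) (CTree.cons (CTree.leaf 1 13390954514551125256031955786032355594) (CTree.cons CTree.nil (CTree.cons CTree.nil (CTree.cons CTree.nil (CTree.cons CTree.nil (CTree.cons CTree.nil (CTree.cons CTree.nil (CTree.cons (CTree.leaf 1 224247450577413433108452829278907411333253) (CTree.cons (CTree.leaf 1 180012721345932570376795291030462497167626) (CTree.cons CTree.nil (CTree.cons CTree.nil (CTree.cons (CTree.leaf 1 224247450577413433108452829278907411333253) (CTree.cons CTree.nil CTree.nil)))))))))))))))))))))))))))))))))))) (CTree.cons CTree.nil (CTree.cons CTree.nil (CTree.cons (CTree.cons CTree.nil (CTree.cons (CTree.leaf 1 20926624422091857274076362571904) (CTree.cons (CTree.leaf 1 507852676617470783245664105599106) (CTree.cons CTree.nil (CTree.cons (CTree.leaf 1 2788283695622938765621472702782640258) (CTree.cons CTree.nil (CTree.cons CTree.nil (CTree.cons CTree.nil (CTree.cons CTree.nil (CTree.cons CTree.nil (CTree.cons CTree.nil (CTree.cons CTree.nil (CTree.cons (CTree.leaf 1 2757130548271798272801499303118444810)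 (CTree.cons (CTree.leaf 1 2757130310587310731160563602163308810) (CTree.cons CTree.nil (CTree.cons CTree.nil (CTree.cons (CTree.leaf 1 20916389658685505747810356166789) (CTree.cons CTree.nil (CTree.cons (CTree.leaf 1 2757119778195874341668365736106072330) (CTree.cons CTree.nil (CTree.cons (CTree.leaf 1 2757130548271798272801499303118444810) (CTree.cons CTree.nil (CTree.cons (CTree.leaf 1 20916389658685505712621689110661) (CTree.cons CTree.nil (CTree.cons CTree.nil (CTree.cons CTree.nil (CTree.cons CTree.nil (CTree.cons CTree.nil (CTree.cons CTree.nil (CTree.cons CTree.nil (CTree.cons (CTree.leaf 1 2757130548271798272801499303118444810) (CTree.cons (CTree.leaf 1 2757130310587310731160563602163308810) (CTree.cons (CTree.leaf 1 2757130548271798272801499303118444810) (CTree.cons CTree.nil (CTree.cons CTree.nil (CTree.cons CTree.nil CTree.nil)))))))))))))))))))))))))))))))))))) (CTree.cons (CTree.cons CTree.nil (CTree.cons (CTree.leaf 1 1370971334554134889136007885082984576) (CTree.cons (CTree.leaf 1 2181224110792524777888886538792059100336258) (CTree.cons CTree.nil (CTree.cons (CTree.leaf 1 2921487456326246742533599288776471656833095946)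 (CTree.cons CTree.nil (CTree.cons CTree.nil (CTree.cons CTree.nil (CTree.cons CTree.nil (CTree.cons CTree.nil (CTree.cons CTree.nil (CTree.cons CTree.nil (CTree.cons CTree.nil (CTree.cons (CTree.leaf 1 736804905534363797787627542775356815456803082) (CTree.cons CTree.nil (CTree.cons CTree.nil (CTree.cons (CTree.leaf 1 3489244405325098158832648512789944586) (CTree.cons (CTree.leaf 1 13432492889419403877060199756665592074) (CTree.cons CTree.nil (CTree.cons CTree.nil (CTree.cons (CTree.leaf 1 735969181932715768346296133106696764197574922) (CTree.cons CTree.nil (CTree.cons (CTree.leaf 1 3489244405325098013640253381260941578) (CTree.cons (CTree.leaf 1 44622609348562078553344154276325890314) (CTree.cons CTree.nil (CTree.cons (CTree.leaf 1 228683141709432880013061767712144105806090) (CTree.cons (CTree.leaf 1 228683141709432880010700584470709417416970) (CTree.cons CTree.nil (CTree.cons CTree.nil (CTree.cons (CTree.leaf 1 13390954514551125256031955785361201418) (CTree.cons CTree.nil (CTree.cons CTree.nil (CTree.cons CTree.nil (CTree.cons CTree.nil (CTree.cons CTree.nil (CTree.cons CTree.nil CTree.nil))))))))))))))))))))))))))))))))))))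 (CTree.cons (CTree.cons CTree.nil (CTree.cons CTree.nil (CTree.cons (CTree.leaf 1 33282633007540547854592329246490759298) (CTree.cons CTree.nil (CTree.cons (CTree.leaf 1 43559575279079891404631395504711199756418) (CTree.cons (CTree.leaf 1 229010697756753379163047543613421620170882) (CTree.cons CTree.nil (CTree.cons CTree.nil (CTree.cons CTree.nil (CTree.cons CTree.nil (CTree.cons CTree.nil (CTree.cons CTree.nil (CTree.cons (CTree.leaf 1 6356638971131821234939711954487894752004540547) (CTree.cons CTree.nil (CTree.cons CTree.nil (CTree.cons CTree.nil (CTree.cons (CTree.leaf 1 3489233633267775043564674538389248266) (CTree.cons (CTree.leaf 1 13432482119343479945927066189653219594) (CTree.cons (CTree.leaf 1 228670415205550217971175031340870327802122) (CTree.cons CTree.nil (CTree.cons (CTree.leaf 1 175928066143983827651951586276768428857610) (CTree.cons CTree.nil (CTree.cons (CTree.leaf 1 3489244167640610470847258179930233098) (CTree.cons CTree.nil (CTree.cons (CTree.leaf 1 228670415389832112017897456955993189718282) (CTree.cons CTree.nil (CTree.cons (CTree.leaf 1 180012721183673293585360859517101434542346) (CTree.cons CTree.nil (CTree.cons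 CTree.nil (CTree.cons (CTree.leaf 1 13390954276866637714391020084406065418) (CTree.cons CTree.nil (CTree.cons CTree.nil (CTree.cons CTree.nil (CTree.cons CTree.nil (CTree.cons CTree.nil (CTree.cons CTree.nil CTree.nil)))))))))))))))))))))))))))))))))))) (CTree.cons (CTree.cons CTree.nil (CTree.cons (CTree.leaf 1 1370971334554134889135726414401241216) (CTree.cons CTree.nil (CTree.cons CTree.nil (CTree.cons (CTree.leaf 1 89835209686089082160439246887661834737930) (CTree.cons (CTree.leaf 1 229011403714306571401144602845742719697045) (CTree.cons CTree.nil (CTree.cons CTree.nil (CTree.cons CTree.nil (CTree.cons CTree.nil (CTree.cons CTree.nil (CTree.cons CTree.nil (CTree.cons (CTree.leaf 1 228671121347383147431041864742771941310597) (CTree.cons (CTree.leaf 1 175588385769596499346980089416151587625226) (CTree.cons CTree.nil (CTree.cons CTree.nil (CTree.cons (CTree.leaf 1 3489244405325098158832648512789944586) (CTree.cons CTree.nil (CTree.cons (CTree.leaf 1 5887447437283608701700830319366784409380329738) (CTree.cons CTree.nil (CTree.cons CTree.nil (CTree.cons CTree.nil (CTree.cons (CTree.leaf 1 3489244405325098013640253381260941578)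 (CTree.cons (CTree.leaf 1 13390954514551125256031955786032355594) (CTree.cons (CTree.leaf 1 228671121347385632944600486604808299085957) (CTree.cons (CTree.leaf 1 180012721153566591829940411216294712711434) (CTree.cons CTree.nil (CTree.cons CTree.nil (CTree.cons CTree.nil (CTree.cons (CTree.leaf 1 13390954514551125256031955785361201418) (CTree.cons CTree.nil (CTree.cons CTree.nil (CTree.cons CTree.nil (CTree.cons CTree.nil (CTree.cons CTree.nil (CTree.cons CTree.nil CTree.nil)))))))))))))))))))))))))))))))))))) (CTree.cons CTree.nil (CTree.cons (CTree.cons CTree.nil (CTree.cons (CTree.leaf 1 1370971346929908504527589051124547712) (CTree.cons (CTree.leaf 1 33282633007540736693911411759631110274) (CTree.cons CTree.nil (CTree.cons CTree.nil (CTree.cons (CTree.leaf 1 229011403714306571596937696443048448366858) (CTree.cons CTree.nil (CTree.cons CTree.nil (CTree.cons CTree.nil (CTree.cons CTree.nil (CTree.cons CTree.nil (CTree.cons CTree.nil (CTree.cons (CTree.leaf 1 224247450577423325708292391119442240211483) (CTree.cons (CTree.leaf 1 224247435000532750103809505545532553693723) (CTree.cons CTree.nil (CTree.cons CTree.nil (CTree.cons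 CTree.nil (CTree.cons (CTree.leaf 1 13432492889419403877060199756665592074) (CTree.cons (CTree.leaf 1 224246744749717682355350604589749745877253) (CTree.cons CTree.nil (CTree.cons (CTree.leaf 1 224247450577413433108452829278907411333253) (CTree.cons CTree.nil (CTree.cons CTree.nil (CTree.cons (CTree.leaf 1 13390954514551125256031955786032355594) (CTree.cons (CTree.leaf 1 224247450577413433108452829278907411333253) (CTree.cons (CTree.leaf 1 224247435000522857503969943687418423677058) (CTree.cons (CTree.leaf 1 224247450577413433108452829278907411333253) (CTree.cons CTree.nil (CTree.cons CTree.nil (CTree.cons CTree.nil (CTree.cons CTree.nil (CTree.cons CTree.nil (CTree.cons CTree.nil (CTree.cons CTree.nil (CTree.cons CTree.nil (CTree.cons CTree.nil CTree.nil)))))))))))))))))))))))))))))))))))) (CTree.cons CTree.nil CTree.nil)))))))))))))))))))))))))))))))))))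

theorem tree6_1_3_ok : chk 6 (pk (goalL 6)) tree6_1_3 (stk [((1 : Fin 6), (3 : Fin 6))]) 1 (om [((1 : Fin 6), (3 : Fin 6))]) (im [((1 : Fin 6), (3 : Fin 6))])
    (cm [((1 : Fin 6), (3 : Fin 6))]) (pk (goalR [((1 : Fin 6), (3 : Fin 6))])) 0 = true := by
  decide +kernel

def tree6_1_4 : CTree :=
  CTree.cons CTree.nil (CTree.cons (CTree.cons CTree.nil (CTree.cons CTree.nil (CTree.cons CTree.nil (CTree.cons CTree.nil (CTree.cons CTree.nil (CTree.cons CTree.nil (CTree.cons CTree.nil (CTree.cons CTree.nil (CTree.cons CTree.nil (CTree.cons CTree.nil (CTree.cons CTree.nil (CTree.cons CTree.nil (CTree.cons (CTree.leaf 1 89890507789701259939662513142816057655424) (CTree.cons CTree.nil (CTree.cons CTree.nil (CTree.cons (CTree.leaf 1 20929264718592267640744067072128) (CTree.cons CTree.nil (CTree.cons (CTree.leaf 1 2036234294976331520452974877987635328) (CTree.cons (CTree.leaf 1 89890507789688881748343053470218691084416) (CTree.cons CTree.nil (CTree.cons (CTree.leaf 1 1371620292588069512090945351825031296) (CTree.cons CTree.nil (CTree.cons CTree.nil (CTree.cons (CTree.leaf 1 20916724636966548040940631228544) (CTree.cons CTree.nil (CTree.cons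 CTree.nil (CTree.cons (CTree.leaf 1 89836638216688174571167147258182119784576) (CTree.cons (CTree.leaf 1 89836638216688174760006466340733914775680) (CTree.cons CTree.nil (CTree.cons (CTree.leaf 1 20916724636966547996955871150208) (CTree.cons (CTree.leaf 1 89836638216688174568879785895939247505536) (CTree.cons CTree.nil (CTree.cons (CTree.leaf 1 89836638216688174571167147258220773900416) (CTree.cons (CTree.leaf 1 89836638216688174760006466340733914775680) (CTree.cons CTree.nil (CTree.cons CTree.nil CTree.nil)))))))))))))))))))))))))))))))))))) (CTree.cons (CTree.cons CTree.nil (CTree.cons CTree.nil (CTree.cons CTree.nil (CTree.cons CTree.nil (CTree.cons CTree.nil (CTree.cons CTree.nil (CTree.cons CTree.nil (CTree.cons CTree.nil (CTree.cons CTree.nil (CTree.cons CTree.nil (CTree.cons CTree.nil (CTree.cons CTree.nil (CTree.cons CTree.nil (CTree.cons (CTree.leaf 1 833692464424223558629376674928208575595169) (CTree.cons CTree.nil (CTree.cons (CTree.leaf 1 53424997074511661936176825100208634856097) (CTree.cons CTree.nil (CTree.cons (CTree.leaf 1 133391353300932200850066908833343821972129) (CTree.cons (CTree.leaf 1 410684816075828641360290920868992620563594465050773)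 (CTree.cons (CTree.leaf 1 43612105888441546932557898361624899224225) (CTree.cons CTree.nil (CTree.cons CTree.nil (CTree.cons CTree.nil (CTree.cons (CTree.leaf 1 50703402246237632302094585190287603798146) (CTree.cons (CTree.leaf 1 214843595359997714301851862088490110635001031754400) (CTree.cons CTree.nil (CTree.cons CTree.nil (CTree.cons (CTree.leaf 1 187086661951703730922437583671457153652289603436693) (CTree.cons CTree.nil (CTree.cons (CTree.leaf 1 50724814951745287722408516721373385134210) (CTree.cons (CTree.leaf 1 410867547120198301234906162468098500114940508045461) (CTree.cons (CTree.leaf 1 214843595359997714301854186819656112585312097600160) (CTree.cons CTree.nil (CTree.cons (CTree.leaf 1 187086661951703730922437583671457153652289603436693) (CTree.cons CTree.nil (CTree.cons CTree.nil CTree.nil)))))))))))))))))))))))))))))))))))) (CTree.cons (CTree.cons CTree.nil (CTree.cons CTree.nil (CTree.cons CTree.nil (CTree.cons CTree.nil (CTree.cons CTree.nil (CTree.cons CTree.nil (CTree.cons CTree.nil (CTree.cons CTree.nil (CTree.cons CTree.nil (CTree.cons CTree.nil (CTree.cons CTree.nil (CTree.cons CTree.nil (CTree.cons (CTree.leaf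 1 385851243617756287858256000233556544890832857137309) (CTree.cons (CTree.leaf 1 220503638725798388884290182468881717461665) (CTree.cons CTree.nil (CTree.cons CTree.nil (CTree.cons CTree.nil (CTree.cons (CTree.leaf 1 3664841756364949260611293719718770289737992) (CTree.cons CTree.nil (CTree.cons (CTree.leaf 1 89835209828147815620578701690450029642401) (CTree.cons (CTree.leaf 1 220503638725798388884290182468881708548769) (CTree.cons CTree.nil (CTree.cons CTree.nil (CTree.cons (CTree.leaf 1 1329239811170679503488935736167239810) (CTree.cons (CTree.leaf 1 970440365447967165148715162474523685394746583548577) (CTree.cons CTree.nil (CTree.cons (CTree.leaf 1 14740842599107455791662528977819877448621818529) (CTree.cons CTree.nil (CTree.cons CTree.nil (CTree.cons (CTree.leaf 1 1370776522247545322627348096547357209) (CTree.cons (CTree.leaf 1 970440365447967165148715162474523685394746583548577) (CTree.cons (CTree.leaf 1 14740842599107455791662528977819877448621818529) (CTree.cons (CTree.leaf 1 214844063588515302613307724260981401582537503146657) (CTree.cons CTree.nil (CTree.cons CTree.nil (CTree.cons CTree.nil CTree.nil))))))))))))))))))))))))))))))))))))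 (CTree.cons CTree.nil (CTree.cons (CTree.cons CTree.nil (CTree.cons CTree.nil (CTree.cons CTree.nil (CTree.cons CTree.nil (CTree.cons CTree.nil (CTree.cons CTree.nil (CTree.cons CTree.nil (CTree.cons CTree.nil (CTree.cons CTree.nil (CTree.cons CTree.nil (CTree.cons CTree.nil (CTree.cons CTree.nil (CTree.cons (CTree.leaf 1 15008454944272290979546023968578820038465294466) (CTree.cons (CTree.leaf 1 229043274196270265859003677989646752157826) (CTree.cons CTree.nil (CTree.cons (CTree.leaf 1 229011362178231487479537336844489764507778) (CTree.cons CTree.nil (CTree.cons CTree.nil (CTree.cons (CTree.leaf 1 15008452243426063110446201968546157316313579784) (CTree.cons (CTree.leaf 1 229011403714308739045244699298246943910426) (CTree.cons (CTree.leaf 1 229043274052703720493553325763730026926210) (CTree.cons CTree.nil (CTree.cons CTree.nil (CTree.cons CTree.nil (CTree.cons (CTree.leaf 1 15008491353929651002338539953594569068868807194) (CTree.cons CTree.nil (CTree.cons (CTree.leaf 1 229011492310562504966462618770076037357970) (CTree.cons (CTree.leaf 1 3406774589847989100664109920650876609916373172885770) (CTree.cons CTree.nil (CTree.cons CTree.nil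 (CTree.cons CTree.nil (CTree.cons (CTree.leaf 1 15008497139326992180450147096823227901852789274) (CTree.cons (CTree.leaf 1 15008452243426883981059853868786876035947434114) (CTree.cons (CTree.leaf 1 15008452222142836932863076169987000840734386714) (CTree.cons CTree.nil (CTree.cons CTree.nil CTree.nil)))))))))))))))))))))))))))))))))))) (CTree.cons CTree.nil (CTree.cons CTree.nil (CTree.cons CTree.nil (CTree.cons CTree.nil (CTree.cons CTree.nil (CTree.cons CTree.nil (CTree.cons (CTree.cons CTree.nil (CTree.cons (CTree.leaf 1 89890507789701259929923208732649716712097) (CTree.cons CTree.nil (CTree.cons (CTree.leaf 1 62072470879917977834952332030750714534450737177059066529) (CTree.cons CTree.nil (CTree.cons (CTree.leaf 1 983594104631141369218650845758562211907894021138970) (CTree.cons CTree.nil (CTree.cons CTree.nil (CTree.cons CTree.nil (CTree.cons CTree.nil (CTree.cons CTree.nil (CTree.cons CTree.nil (CTree.cons CTree.nil (CTree.cons CTree.nil (CTree.cons CTree.nil (CTree.cons CTree.nil (CTree.cons CTree.nil (CTree.cons CTree.nil (CTree.cons CTree.nil (CTree.cons (CTree.leaf 1 568621817853266253238827182630989820543662290966658)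 (CTree.cons (CTree.leaf 1 1490437432581632461279604852437528866783880) (CTree.cons CTree.nil (CTree.cons CTree.nil (CTree.cons (CTree.leaf 1 12726329741634569721191195586052358408) (CTree.cons CTree.nil (CTree.cons CTree.nil (CTree.cons (CTree.leaf 1 6401429156681356853850172281539541476921043109085848) (CTree.cons (CTree.leaf 1 970534765285733910313348394551953395135948813041928) (CTree.cons CTree.nil (CTree.cons (CTree.leaf 1 12726329741634569721191151601292280072) (CTree.cons CTree.nil (CTree.cons (CTree.leaf 1 6401429155380477215262314714365084224796859845116568) (CTree.cons (CTree.leaf 1 970534765285733910313348394551953395135948813041928) (CTree.cons (CTree.leaf 1 970534765285733910313348394551953395135948813041928) (CTree.cons CTree.nil (CTree.cons CTree.nil CTree.nil)))))))))))))))))))))))))))))))))))) (CTree.cons (CTree.cons CTree.nil (CTree.cons CTree.nil (CTree.cons (CTree.leaf 1 44581070981614646669766234711684878466) (CTree.cons (CTree.leaf 1 2178488378495772366269504681288594515628162) (CTree.cons CTree.nil (CTree.cons (CTree.leaf 1 229065871577835187039987404595557955735682) (CTree.cons CTree.nil (CTree.cons CTree.nil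 (CTree.cons CTree.nil (CTree.cons CTree.nil (CTree.cons CTree.nil (CTree.cons CTree.nil (CTree.cons CTree.nil (CTree.cons CTree.nil (CTree.cons CTree.nil (CTree.cons CTree.nil (CTree.cons CTree.nil (CTree.cons CTree.nil (CTree.cons (CTree.leaf 1 14630779287668670423210831237961302696049838483) (CTree.cons CTree.nil (CTree.cons (CTree.leaf 1 225949511786000616541431720640995838788257) (CTree.cons CTree.nil (CTree.cons CTree.nil (CTree.cons (CTree.leaf 1 664634681551912916954429766691850643) (CTree.cons (CTree.leaf 1 6312601328616747979022931612514410936349557384) (CTree.cons CTree.nil (CTree.cons CTree.nil (CTree.cons (CTree.leaf 1 14630779287668670410661163395479728138271918483) (CTree.cons CTree.nil (CTree.cons (CTree.leaf 1 12726340278974099203175743940080509322) (CTree.cons (CTree.leaf 1 14630779287668670410661163395479728138271918483) (CTree.cons CTree.nil (CTree.cons (CTree.leaf 1 6312601328616747979022931612514410936349557384) (CTree.cons (CTree.leaf 1 14630779287668670410661163395479728138271918483) (CTree.cons CTree.nil (CTree.cons CTree.nil CTree.nil)))))))))))))))))))))))))))))))))))) (CTree.cons CTree.nil (CTree.cons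 (CTree.cons CTree.nil (CTree.cons (CTree.leaf 1 20929264718592267640744067072128) (CTree.cons (CTree.leaf 1 680253158288797709211434471198850) (CTree.cons CTree.nil (CTree.cons CTree.nil (CTree.cons (CTree.leaf 1 3494436068393500021956276580720447618) (CTree.cons CTree.nil (CTree.cons CTree.nil (CTree.cons CTree.nil (CTree.cons CTree.nil (CTree.cons CTree.nil (CTree.cons CTree.nil (CTree.cons CTree.nil (CTree.cons CTree.nil (CTree.cons CTree.nil (CTree.cons CTree.nil (CTree.cons CTree.nil (CTree.cons CTree.nil (CTree.cons (CTree.leaf 1 3463272158877336793092745565359964424) (CTree.cons (CTree.leaf 1 3463282683348087576329792724834263434) (CTree.cons CTree.nil (CTree.cons CTree.nil (CTree.cons CTree.nil (CTree.cons (CTree.leaf 1 10141524076486032465505020412037) (CTree.cons (CTree.leaf 1 664948829137050517753507821841416859) (CTree.cons CTree.nil (CTree.cons (CTree.leaf 1 3463272158877336793092745565359964424) (CTree.cons CTree.nil (CTree.cons CTree.nil (CTree.cons (CTree.leaf 1 20916389648725917016524599140746) (CTree.cons (CTree.leaf 1 3463272158877336793092745565359964424) (CTree.cons (CTree.leaf 1 3463282683348087576329792724834263434)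 (CTree.cons (CTree.leaf 1 3463272158877336793092745565359964424) (CTree.cons CTree.nil (CTree.cons CTree.nil (CTree.cons CTree.nil CTree.nil)))))))))))))))))))))))))))))))))))) (CTree.cons CTree.nil (CTree.cons (CTree.cons CTree.nil (CTree.cons (CTree.leaf 1 2036234294976331520452974877987635328) (CTree.cons (CTree.leaf 1 133391353300932200812287976970386660262561) (CTree.cons (CTree.leaf 1 3501260565127046962025388537450250975498535176) (CTree.cons CTree.nil (CTree.cons CTree.nil (CTree.cons CTree.nil (CTree.cons CTree.nil (CTree.cons CTree.nil (CTree.cons CTree.nil (CTree.cons CTree.nil (CTree.cons CTree.nil (CTree.cons CTree.nil (CTree.cons CTree.nil (CTree.cons CTree.nil (CTree.cons CTree.nil (CTree.cons CTree.nil (CTree.cons CTree.nil (CTree.cons (CTree.leaf 1 96301945229148365497671816049520590006674) (CTree.cons (CTree.leaf 1 96301265038259897435252553698940035344786) (CTree.cons (CTree.leaf 1 2035390522780259194675489511810607506) (CTree.cons CTree.nil (CTree.cons CTree.nil (CTree.cons CTree.nil (CTree.cons (CTree.leaf 1 96301265038259897435252553698940035344786) (CTree.cons CTree.nil (CTree.cons (CTree.leaf 1 133391352642541036088715701591753476866585)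 (CTree.cons (CTree.leaf 1 1370776514841627697797387102348452234) (CTree.cons CTree.nil (CTree.cons CTree.nil (CTree.cons (CTree.leaf 1 96301945229148365497671816049520590006674) (CTree.cons (CTree.leaf 1 96301265038259897435252553698940035344786) (CTree.cons CTree.nil (CTree.cons (CTree.leaf 1 96301945229148365497671816049520590006674) (CTree.cons CTree.nil (CTree.cons CTree.nil CTree.nil)))))))))))))))))))))))))))))))))))) (CTree.cons (CTree.cons CTree.nil (CTree.cons (CTree.leaf 1 89890507789689197273204842071144865529984) (CTree.cons (CTree.leaf 1 6267433323376218014303139849735581964481663106) (CTree.cons CTree.nil (CTree.cons CTree.nil (CTree.cons (CTree.leaf 1 15009278767217657356699288558253266182173368722) (CTree.cons CTree.nil (CTree.cons CTree.nil (CTree.cons CTree.nil (CTree.cons CTree.nil (CTree.cons CTree.nil (CTree.cons CTree.nil (CTree.cons CTree.nil (CTree.cons (CTree.leaf 1 381549605441380034277263585961085078640946598445081) (CTree.cons CTree.nil (CTree.cons (CTree.leaf 1 225970233905897756894187569574286261813512) (CTree.cons CTree.nil (CTree.cons (CTree.leaf 1 87113745302008739601749842654149918927250) (CTree.cons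 CTree.nil (CTree.cons CTree.nil (CTree.cons CTree.nil (CTree.cons CTree.nil (CTree.cons CTree.nil (CTree.cons CTree.nil (CTree.cons CTree.nil (CTree.cons CTree.nil (CTree.cons (CTree.leaf 1 970534765285733910313348394551953397387748626727176) (CTree.cons (CTree.leaf 1 6401391980038211414043557234418080932108622364737561) (CTree.cons CTree.nil (CTree.cons (CTree.leaf 1 12726329741634569721191151601292280072) (CTree.cons CTree.nil (CTree.cons (CTree.leaf 1 6401391980038211414043557234418080932108622364737561) (CTree.cons (CTree.leaf 1 970534765285733910313348394551953397387748626727176) (CTree.cons (CTree.leaf 1 970534765285733910313348394551953397387748626727176) (CTree.cons CTree.nil (CTree.cons CTree.nil CTree.nil)))))))))))))))))))))))))))))))))))) (CTree.cons (CTree.cons CTree.nil (CTree.cons CTree.nil (CTree.cons (CTree.leaf 1 225948157103427462878919755143453358493826) (CTree.cons (CTree.leaf 1 224959885629375164411358067717470628679810) (CTree.cons CTree.nil (CTree.cons (CTree.leaf 1 229065871577835187042348587837508165046402) (CTree.cons CTree.nil (CTree.cons CTree.nil (CTree.cons CTree.nil (CTree.cons CTree.nil (CTree.cons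 CTree.nil (CTree.cons CTree.nil (CTree.cons (CTree.leaf 1 97677489973018837482316451968212533652280574625) (CTree.cons CTree.nil (CTree.cons CTree.nil (CTree.cons (CTree.leaf 1 225948847172002724083493581857930128523937) (CTree.cons CTree.nil (CTree.cons (CTree.leaf 1 95620700304418020508326381789253732477330) (CTree.cons CTree.nil (CTree.cons CTree.nil (CTree.cons CTree.nil (CTree.cons CTree.nil (CTree.cons CTree.nil (CTree.cons CTree.nil (CTree.cons (CTree.leaf 1 14452373326080425425528723913057396572438528673) (CTree.cons CTree.nil (CTree.cons (CTree.leaf 1 8676480322444065155314911442676564060014641825) (CTree.cons CTree.nil (CTree.cons CTree.nil (CTree.cons (CTree.leaf 1 12726340278974099203175743940080509322) (CTree.cons (CTree.leaf 1 14452373326080425425528723913057396572438528673) (CTree.cons CTree.nil (CTree.cons (CTree.leaf 1 8676480322444065155314911442676564060014641825) (CTree.cons (CTree.leaf 1 14452373326080425425528723913057396572438528673) (CTree.cons CTree.nil (CTree.cons CTree.nil CTree.nil)))))))))))))))))))))))))))))))))))) (CTree.cons (CTree.cons CTree.nil (CTree.cons (CTree.leaf 1 1371620292588069512090945351825031296)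 (CTree.cons CTree.nil (CTree.cons (CTree.leaf 1 33241094634840062067452197899245523074) (CTree.cons CTree.nil (CTree.cons (CTree.leaf 1 229043274052703720493553325754933933904002) (CTree.cons CTree.nil (CTree.cons CTree.nil (CTree.cons CTree.nil (CTree.cons CTree.nil (CTree.cons CTree.nil (CTree.cons CTree.nil (CTree.cons (CTree.leaf 1 1490437432581642363402061911118003407224965) (CTree.cons (CTree.leaf 1 2134933590212465396570964497808217195807393) (CTree.cons CTree.nil (CTree.cons CTree.nil (CTree.cons CTree.nil (CTree.cons (CTree.leaf 1 2035390522780259194675489511810607506) (CTree.cons CTree.nil (CTree.cons CTree.nil (CTree.cons CTree.nil (CTree.cons CTree.nil (CTree.cons CTree.nil (CTree.cons CTree.nil (CTree.cons (CTree.leaf 1 1490437432224786650922948815667870268719493) (CTree.cons CTree.nil (CTree.cons CTree.nil (CTree.cons (CTree.leaf 1 1490437431779932751523211598200204056133765) (CTree.cons CTree.nil (CTree.cons (CTree.leaf 1 2082458059779028092911201881713345049) (CTree.cons (CTree.leaf 1 1490437431779932751523211598200204056133765) (CTree.cons (CTree.leaf 1 2134933590212465396384301932849823734170273) (CTree.cons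 CTree.nil (CTree.cons (CTree.leaf 1 1490437431779932751523211598200204056133765) (CTree.cons CTree.nil (CTree.cons CTree.nil CTree.nil)))))))))))))))))))))))))))))))))))) (CTree.cons CTree.nil (CTree.cons CTree.nil (CTree.cons (CTree.cons CTree.nil (CTree.cons (CTree.leaf 1 20916724636966548040940631228544) (CTree.cons (CTree.leaf 1 5709041485046498391749491556458105320774963330) (CTree.cons (CTree.leaf 1 1370776522247507543695485139385657882) (CTree.cons CTree.nil (CTree.cons CTree.nil (CTree.cons CTree.nil (CTree.cons CTree.nil (CTree.cons CTree.nil (CTree.cons CTree.nil (CTree.cons CTree.nil (CTree.cons CTree.nil (CTree.cons (CTree.leaf 1 2092505775355242737960739103809601800) (CTree.cons (CTree.leaf 1 2092516312694772219945287458508906890) (CTree.cons CTree.nil (CTree.cons (CTree.leaf 1 20916389648725917016525270294922) (CTree.cons CTree.nil (CTree.cons CTree.nil (CTree.cons CTree.nil (CTree.cons CTree.nil (CTree.cons CTree.nil (CTree.cons CTree.nil (CTree.cons CTree.nil (CTree.cons CTree.nil (CTree.cons (CTree.leaf 1 2092516312694772219945287458508906890) (CTree.cons CTree.nil (CTree.cons (CTree.leaf 1 133413430103392293920659675001581903880594)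 (CTree.cons (CTree.leaf 1 1490437431769620221227864267932711475347720) (CTree.cons CTree.nil (CTree.cons CTree.nil (CTree.cons (CTree.leaf 1 2092505775355242737960739103809601800) (CTree.cons (CTree.leaf 1 2092516312694772219945287458508906890) (CTree.cons (CTree.leaf 1 2092505775355242737960739103809601800) (CTree.cons CTree.nil (CTree.cons CTree.nil (CTree.cons CTree.nil CTree.nil)))))))))))))))))))))))))))))))))))) (CTree.cons (CTree.cons CTree.nil (CTree.cons CTree.nil (CTree.cons (CTree.leaf 1 43612105888441253128111219008011782066306) (CTree.cons (CTree.leaf 1 142770861211899468297698271702621314651376390274) (CTree.cons CTree.nil (CTree.cons (CTree.leaf 1 983651327686928086443620461989687439093620601393282) (CTree.cons CTree.nil (CTree.cons CTree.nil (CTree.cons CTree.nil (CTree.cons CTree.nil (CTree.cons CTree.nil (CTree.cons CTree.nil (CTree.cons CTree.nil (CTree.cons (CTree.leaf 1 97679398913237651044018193587555971711861129605) (CTree.cons CTree.nil (CTree.cons (CTree.leaf 1 225970233905889836205852316274918995329697) (CTree.cons CTree.nil (CTree.cons (CTree.leaf 1 43578086466330722223914105480277088872850) (CTree.cons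 CTree.nil (CTree.cons (CTree.leaf 1 54659960515056174026120076717692701725295252131) (CTree.cons (CTree.leaf 1 225970233905887690362524187178813499245217) (CTree.cons CTree.nil (CTree.cons CTree.nil (CTree.cons (CTree.leaf 1 664948816422891100280983490744945043) (CTree.cons CTree.nil (CTree.cons CTree.nil (CTree.cons CTree.nil (CTree.cons CTree.nil (CTree.cons CTree.nil (CTree.cons CTree.nil (CTree.cons CTree.nil (CTree.cons (CTree.leaf 1 6401380451156946386988236539214017605673195960142227) (CTree.cons (CTree.leaf 1 6401437896488584465211503687826838638694657060577682) (CTree.cons (CTree.leaf 1 6401380451156946386988236539214017605673195960142227) (CTree.cons CTree.nil (CTree.cons CTree.nil CTree.nil)))))))))))))))))))))))))))))))))))) (CTree.cons CTree.nil (CTree.cons (CTree.cons CTree.nil (CTree.cons (CTree.leaf 1 89837993406168252161178804516778535878784) (CTree.cons CTree.nil (CTree.cons (CTree.leaf 1 187078455277470672331792414461935407699898889478290) (CTree.cons CTree.nil (CTree.cons (CTree.leaf 2 21935138093840292942485594188457534402747679735114466687838947536666618250750454512294720835714) (CTree.cons CTree.nil (CTree.cons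 CTree.nil (CTree.cons CTree.nil (CTree.cons CTree.nil (CTree.cons CTree.nil (CTree.cons CTree.nil (CTree.cons (CTree.leaf 1 51983169450357885182599311603856661168993141400) (CTree.cons CTree.nil (CTree.cons CTree.nil (CTree.cons (CTree.leaf 1 225970233905897756894187569574286261813512) (CTree.cons CTree.nil (CTree.cons (CTree.leaf 1 95620009739710865478191737128384622307730) (CTree.cons (CTree.leaf 1 14809185249256915395638555538359116473292620040) (CTree.cons (CTree.leaf 1 51983169450357885182599311603856661168993141400) (CTree.cons CTree.nil (CTree.cons CTree.nil (CTree.cons CTree.nil (CTree.cons (CTree.leaf 1 133413430103392748469461284121584085311890) (CTree.cons CTree.nil (CTree.cons CTree.nil (CTree.cons CTree.nil (CTree.cons CTree.nil (CTree.cons CTree.nil (CTree.cons CTree.nil (CTree.cons (CTree.leaf 1 14809185249256255675598271849464939738824769800) (CTree.cons (CTree.leaf 1 51983169450357885182599311603856661168993141400) (CTree.cons CTree.nil (CTree.cons (CTree.leaf 1 14809185249256255675598271849464939738824769800) (CTree.cons CTree.nil (CTree.cons CTree.nil CTree.nil)))))))))))))))))))))))))))))))))))) (CTree.cons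 (CTree.cons CTree.nil (CTree.cons (CTree.leaf 1 89847272040654454086989696797216157532288) (CTree.cons (CTree.leaf 1 982131955615785713658300393303021417272308806255265) (CTree.cons CTree.nil (CTree.cons CTree.nil (CTree.cons (CTree.leaf 1 15008497150682880777892127921197378268795900034) (CTree.cons CTree.nil (CTree.cons CTree.nil (CTree.cons CTree.nil (CTree.cons CTree.nil (CTree.cons CTree.nil (CTree.cons CTree.nil (CTree.cons (CTree.leaf 1 14697681523264262279931028044276591216793026824) (CTree.cons (CTree.leaf 1 14696279922271717409828229563988982470303482529) (CTree.cons CTree.nil (CTree.cons CTree.nil (CTree.cons CTree.nil (CTree.cons (CTree.leaf 1 89835210335052077491282515904970434357650) (CTree.cons (CTree.leaf 1 14696279922271717409828229561683465436080439969) (CTree.cons CTree.nil (CTree.cons (CTree.leaf 1 1490437431921909618748625644313226170663560) (CTree.cons CTree.nil (CTree.cons CTree.nil (CTree.cons (CTree.leaf 1 180032114371570754886391771636145696407816) (CTree.cons CTree.nil (CTree.cons CTree.nil (CTree.cons CTree.nil (CTree.cons CTree.nil (CTree.cons CTree.nil (CTree.cons CTree.nil (CTree.cons (CTree.leaf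 1 14697681523263602559890593261018059641007964424) (CTree.cons (CTree.leaf 1 14696279922271717399761625125319237326945714849) (CTree.cons (CTree.leaf 1 14697681523263602559890593261018059641007964424) (CTree.cons CTree.nil (CTree.cons CTree.nil (CTree.cons CTree.nil CTree.nil)))))))))))))))))))))))))))))))))))) (CTree.cons CTree.nil (CTree.cons (CTree.cons CTree.nil (CTree.cons (CTree.leaf 1 20916724636966547996955871150208) (CTree.cons (CTree.leaf 1 50724814951742811842329945960823586885762) (CTree.cons (CTree.leaf 1 1370776522247507543695485139385647641) (CTree.cons CTree.nil (CTree.cons CTree.nil (CTree.cons CTree.nil (CTree.cons CTree.nil (CTree.cons CTree.nil (CTree.cons CTree.nil (CTree.cons CTree.nil (CTree.cons CTree.nil (CTree.cons (CTree.leaf 1 2092505775355242737960695119049523464) (CTree.cons (CTree.leaf 1 2092516312694772219945287457837752714) (CTree.cons CTree.nil (CTree.cons (CTree.leaf 1 20916389648725917016524599140746) (CTree.cons CTree.nil (CTree.cons CTree.nil (CTree.cons (CTree.leaf 1 2092505775355242737960695119049523464) (CTree.cons (CTree.leaf 1 2092516312694772219945287457837752714) (CTree.cons (CTree.leaf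 1 2082458059779028092911201881713345049) (CTree.cons CTree.nil (CTree.cons CTree.nil (CTree.cons CTree.nil (CTree.cons CTree.nil (CTree.cons CTree.nil (CTree.cons CTree.nil (CTree.cons CTree.nil (CTree.cons CTree.nil (CTree.cons CTree.nil (CTree.cons (CTree.leaf 1 664948816422891100280939505984864659) (CTree.cons CTree.nil (CTree.cons (CTree.leaf 1 2092505775355242737960695119049523464) (CTree.cons (CTree.leaf 1 2092505775355242737960695119049523464) (CTree.cons CTree.nil (CTree.cons CTree.nil CTree.nil)))))))))))))))))))))))))))))))))))) (CTree.cons (CTree.cons CTree.nil (CTree.cons (CTree.leaf 1 89837993406168252158890832363156280508544) (CTree.cons (CTree.leaf 1 223269026253735136762667945985741255222915159352941871762) (CTree.cons (CTree.leaf 1 456974420855185426877012528716135962296815455775600279701) (CTree.cons CTree.nil (CTree.cons CTree.nil (CTree.cons CTree.nil (CTree.cons CTree.nil (CTree.cons CTree.nil (CTree.cons CTree.nil (CTree.cons CTree.nil (CTree.cons CTree.nil (CTree.cons CTree.nil (CTree.cons (CTree.leaf 1 970534765285733909794246127980997413589113691635745) (CTree.cons CTree.nil (CTree.cons (CTree.leaf 1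 225970233905897756894187569574286261813512) (CTree.cons CTree.nil (CTree.cons (CTree.leaf 1 87113745302008739601749842654149918927250) (CTree.cons CTree.nil (CTree.cons (CTree.leaf 1 970534765285733909794246127980997371367953092902945) (CTree.cons (CTree.leaf 1 1490437431921909618748625644313226170663560) (CTree.cons CTree.nil (CTree.cons CTree.nil (CTree.cons (CTree.leaf 1 12726329741634569721191195586052358408) (CTree.cons CTree.nil (CTree.cons CTree.nil (CTree.cons (CTree.leaf 1 14809100200742171673405777765036921234215211138) (CTree.cons (CTree.leaf 1 6401431831469869141856980924703303074708595146817800) (CTree.cons CTree.nil (CTree.cons (CTree.leaf 1 664948816422891100280939505984866707) (CTree.cons CTree.nil (CTree.cons CTree.nil (CTree.cons CTree.nil (CTree.cons CTree.nil (CTree.cons CTree.nil (CTree.cons CTree.nil CTree.nil)))))))))))))))))))))))))))))))))))) (CTree.cons (CTree.cons CTree.nil (CTree.cons CTree.nil (CTree.cons (CTree.leaf 1 95620009771402130483896896277955586625666) (CTree.cons (CTree.leaf 1 48593419409036175275476200945216099522210500738) (CTree.cons CTree.nil (CTree.cons (CTree.leaf 1 15008627467432319893019661581412506399302881410)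 (CTree.cons CTree.nil (CTree.cons CTree.nil (CTree.cons CTree.nil (CTree.cons CTree.nil (CTree.cons CTree.nil (CTree.cons CTree.nil (CTree.cons (CTree.leaf 1 51983169450357885182599311603856661168993141400) (CTree.cons CTree.nil (CTree.cons CTree.nil (CTree.cons (CTree.leaf 1 225948847172002724083493581857930128523937) (CTree.cons CTree.nil (CTree.cons (CTree.leaf 1 95620700304418020508326381789253732477330) (CTree.cons (CTree.leaf 1 6401391982871730086719840422916316310036214865592993) (CTree.cons CTree.nil (CTree.cons (CTree.leaf 1 225949511786000616387826950518931167249057) (CTree.cons CTree.nil (CTree.cons CTree.nil (CTree.cons (CTree.leaf 1 664948816422891100280983490744945043) (CTree.cons (CTree.leaf 1 6401391979341302493284598912839015541488230068257441) (CTree.cons CTree.nil (CTree.cons (CTree.leaf 1 51983169450357885170056789311142731057505305240) (CTree.cons (CTree.leaf 1 14807783648264370512993423637001272245069351315) (CTree.cons CTree.nil (CTree.cons CTree.nil (CTree.cons CTree.nil (CTree.cons CTree.nil (CTree.cons CTree.nil (CTree.cons CTree.nil (CTree.cons CTree.nil (CTree.cons CTree.nil CTree.nil))))))))))))))))))))))))))))))))))))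 (CTree.cons (CTree.cons CTree.nil (CTree.cons (CTree.leaf 1 89847272040654453898150377714703016657024) (CTree.cons CTree.nil (CTree.cons (CTree.leaf 1 5887440290014939733167758543500030772988936856) (CTree.cons CTree.nil (CTree.cons (CTree.leaf 1 15008497150682545568521946716965349638421483650) (CTree.cons CTree.nil (CTree.cons CTree.nil (CTree.cons CTree.nil (CTree.cons CTree.nil (CTree.cons CTree.nil (CTree.cons CTree.nil (CTree.cons (CTree.leaf 1 14809185249256915395638515508958825266817335560) (CTree.cons (CTree.leaf 1 51983169450357885182599311603856661168993141400) (CTree.cons CTree.nil (CTree.cons (CTree.leaf 1 225970233905897756894187569574286261813512) (CTree.cons CTree.nil (CTree.cons CTree.nil (CTree.cons (CTree.leaf 1 14809185249256915395638555538359116473292620040) (CTree.cons (CTree.leaf 1 51983169450357885182599311603856661168993141400) (CTree.cons CTree.nil (CTree.cons CTree.nil (CTree.cons CTree.nil (CTree.cons (CTree.leaf 1 12726329741634569721191195586052358408) (CTree.cons (CTree.leaf 1 51983169450357885182599311603856661168993141400) (CTree.cons CTree.nil (CTree.cons CTree.nil (CTree.cons (CTree.leaf 1 97677307537810533411287549988752474792820998408)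 (CTree.cons CTree.nil (CTree.cons (CTree.leaf 1 12726329741634569721191151601292280072) (CTree.cons CTree.nil (CTree.cons CTree.nil (CTree.cons CTree.nil (CTree.cons CTree.nil (CTree.cons CTree.nil (CTree.cons CTree.nil CTree.nil)))))))))))))))))))))))))))))))))))) (CTree.cons (CTree.cons CTree.nil (CTree.cons (CTree.leaf 1 89847272040654454086989696797216157532288) (CTree.cons (CTree.leaf 1 982131955615785713658300393303021417272308806255265) (CTree.cons CTree.nil (CTree.cons CTree.nil (CTree.cons (CTree.leaf 1 15008497150682880777892127921197659739477643394) (CTree.cons CTree.nil (CTree.cons CTree.nil (CTree.cons CTree.nil (CTree.cons CTree.nil (CTree.cons CTree.nil (CTree.cons CTree.nil (CTree.cons (CTree.leaf 1 14697681523264262279931028044276591216793026824) (CTree.cons (CTree.leaf 1 14696279922271717409828229563988982470303482529) (CTree.cons CTree.nil (CTree.cons CTree.nil (CTree.cons CTree.nil (CTree.cons (CTree.leaf 1 89835210335052077491282515904970434357650) (CTree.cons (CTree.leaf 1 14697681523264262279930876949912236375475814664) (CTree.cons (CTree.leaf 1 14696279922271717409828229561683465436080439969) (CTree.cons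 (CTree.leaf 1 1490437431921909618748625644313226170663560) (CTree.cons CTree.nil (CTree.cons CTree.nil (CTree.cons CTree.nil (CTree.cons (CTree.leaf 1 14696279922271717399761625125319237326945714849) (CTree.cons CTree.nil (CTree.cons (CTree.leaf 1 6401474848816893215341176354717475672253347150172578) (CTree.cons CTree.nil (CTree.cons CTree.nil (CTree.cons (CTree.leaf 1 12726329741634569721191151601292280072) (CTree.cons CTree.nil (CTree.cons CTree.nil (CTree.cons CTree.nil (CTree.cons CTree.nil (CTree.cons CTree.nil (CTree.cons CTree.nil CTree.nil)))))))))))))))))))))))))))))))))))) (CTree.cons CTree.nil (CTree.cons CTree.nil CTree.nil)))))))))))))))))))))))))))))))))))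

theorem tree6_1_4_ok : chk 6 (pk (goalL 6)) tree6_1_4 (stk [((1 : Fin 6), (4 : Fin 6))]) 1 (om [((1 : Fin 6), (4 : Fin 6))]) (im [((1 : Fin 6), (4 : Fin 6))])
    (cm [((1 : Fin 6), (4 : Fin 6))]) (pk (goalR [((1 : Fin 6), (4 : Fin 6))])) 0 = true := by
  decide +kernel

def tree6_1_5 : CTree :=
  CTree.cons CTree.nil (CTree.cons (CTree.cons CTree.nil (CTree.cons CTree.nil (CTree.cons CTree.nil (CTree.cons CTree.nil (CTree.cons CTree.nil (CTree.cons CTree.nil (CTree.cons CTree.nil (CTree.cons CTree.nil (CTree.cons CTree.nil (CTree.cons CTree.nil (CTree.cons CTree.nil (CTree.cons CTree.nil (CTree.cons (CTree.leaf 1 89836025018752275799528201258590234869888) (CTree.cons CTree.nil (CTree.cons CTree.nil (CTree.cons (CTree.leaf 1 20916889091019745513441262698624) (CTree.cons (CTree.leaf 1 2035727388242127010591775027620872320) (CTree.cons CTree.nil (CTree.cons (CTree.leaf 1 89836004249564841657948699010066332385408) (CTree.cons CTree.nil (CTree.cons (CTree.leaf 1 2035422604905567833934186728729477248) (CTree.cons CTree.nil (CTree.cons (CTree.leaf 1 20916724677108277923873502658688) (CTree.cons CTree.nil (CTree.cons (CTree.leaf 1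 89836637709781743694053427081770499113088) (CTree.cons CTree.nil (CTree.cons (CTree.leaf 1 2700036912451076430458837758386438272) (CTree.cons (CTree.leaf 1 1371114024474783234202534052711497856) (CTree.cons CTree.nil (CTree.cons CTree.nil (CTree.cons CTree.nil (CTree.cons CTree.nil (CTree.cons (CTree.leaf 1 89836003934479247236704035780769848361088) (CTree.cons (CTree.leaf 1 89836003934479247239065257627676981723264) (CTree.cons (CTree.leaf 1 89836637405233334100071912006735124562048) (CTree.cons CTree.nil CTree.nil)))))))))))))))))))))))))))))))))))) (CTree.cons (CTree.cons CTree.nil (CTree.cons CTree.nil (CTree.cons CTree.nil (CTree.cons CTree.nil (CTree.cons CTree.nil (CTree.cons CTree.nil (CTree.cons CTree.nil (CTree.cons CTree.nil (CTree.cons CTree.nil (CTree.cons CTree.nil (CTree.cons CTree.nil (CTree.cons CTree.nil (CTree.cons CTree.nil (CTree.cons (CTree.leaf 1 833692463744921293229712551152916860316186) (CTree.cons CTree.nil (CTree.cons (CTree.leaf 1 53425702383101861313372898937019960009106) (CTree.cons (CTree.leaf 1 133391352794027786423461470396271168201106) (CTree.cons CTree.nil (CTree.cons (CTree.leaf 1 6774062943744634855727905490351048422854843862483093)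 (CTree.cons (CTree.leaf 1 43567587135176314544782577353602472421914) (CTree.cons CTree.nil (CTree.cons CTree.nil (CTree.cons (CTree.leaf 1 50703443447734353605666443071297863887386) (CTree.cons CTree.nil (CTree.cons (CTree.leaf 1 187086661211250624710574895187238477213946672185493) (CTree.cons (CTree.leaf 1 223615459682079504228875583355525927888993274962322) (CTree.cons CTree.nil (CTree.cons (CTree.leaf 1 6774062943744646195704246707763482702816202264750618) (CTree.cons CTree.nil (CTree.cons CTree.nil (CTree.cons (CTree.leaf 1 214843595403542558829767963538221869885292957215258) (CTree.cons CTree.nil (CTree.cons CTree.nil (CTree.cons (CTree.leaf 1 187175573752865180902396850781015679430863345025173) (CTree.cons (CTree.leaf 1 187175573752865180902396850781015679430863345025173) (CTree.cons CTree.nil CTree.nil)))))))))))))))))))))))))))))))))))) (CTree.cons (CTree.cons CTree.nil (CTree.cons CTree.nil (CTree.cons CTree.nil (CTree.cons CTree.nil (CTree.cons CTree.nil (CTree.cons CTree.nil (CTree.cons CTree.nil (CTree.cons CTree.nil (CTree.cons CTree.nil (CTree.cons CTree.nil (CTree.cons CTree.nil (CTree.cons CTree.nil (CTree.cons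 (CTree.leaf 1 385848389122370875938493883661617645900560091644061) (CTree.cons (CTree.leaf 1 176947496266812324291254127151887140585757) (CTree.cons CTree.nil (CTree.cons CTree.nil (CTree.cons (CTree.leaf 1 53468955059716017789201878924925478113410) (CTree.cons CTree.nil (CTree.cons CTree.nil (CTree.cons (CTree.leaf 1 89835210335052077529081623621643747525281) (CTree.cons (CTree.leaf 1 176947496266812324291254127151887140585621) (CTree.cons CTree.nil (CTree.cons (CTree.leaf 1 1370776524878285928953508365507101345) (CTree.cons CTree.nil (CTree.cons (CTree.leaf 1 783368155869611591618643503886839458878787218047649) (CTree.cons (CTree.leaf 1 89835209828781650551957457319796269974041) (CTree.cons (CTree.leaf 1 43578927445384857605228220208065292599833) (CTree.cons CTree.nil (CTree.cons CTree.nil (CTree.cons CTree.nil (CTree.cons (CTree.leaf 1 783368155869611591618643503886839458878787218047649) (CTree.cons CTree.nil (CTree.cons (CTree.leaf 1 11886347213695536037280546558120653631591613089) (CTree.cons CTree.nil (CTree.cons (CTree.leaf 1 214844063588514638830960118934171127715092745487009) (CTree.cons CTree.nil CTree.nil))))))))))))))))))))))))))))))))))))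 (CTree.cons (CTree.cons CTree.nil (CTree.cons CTree.nil (CTree.cons CTree.nil (CTree.cons CTree.nil (CTree.cons CTree.nil (CTree.cons CTree.nil (CTree.cons CTree.nil (CTree.cons CTree.nil (CTree.cons CTree.nil (CTree.cons CTree.nil (CTree.cons CTree.nil (CTree.cons CTree.nil (CTree.cons (CTree.leaf 1 229461644555686255531010026955558806734889117884818) (CTree.cons (CTree.leaf 1 2178489707043839795230938703583545283186818) (CTree.cons CTree.nil (CTree.cons (CTree.leaf 1 89835210335052077529079248817265248903570) (CTree.cons CTree.nil (CTree.cons CTree.nil (CTree.cons (CTree.leaf 1 3322900870585819319522144182736677625225355666) (CTree.cons (CTree.leaf 1 89835210335052077529079822737050475504018) (CTree.cons (CTree.leaf 1 2178489706881659746564240142428241310912642) (CTree.cons CTree.nil (CTree.cons CTree.nil (CTree.cons CTree.nil (CTree.cons CTree.nil (CTree.cons (CTree.leaf 1 182733001813061117685777506211803974148498) (CTree.cons (CTree.leaf 1 182732960276350040817336085870924405018754) (CTree.cons (CTree.leaf 1 182733001813061117761335369936618785939858) (CTree.cons CTree.nil (CTree.cons CTree.nil (CTree.cons (CTree.leaf 1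 3326478620674017879952716667325980521598624146) (CTree.cons CTree.nil (CTree.cons (CTree.leaf 1 5887492352521310857708963796129967177776308626) (CTree.cons (CTree.leaf 1 3322900870585819319522144182736677625225355666) (CTree.cons CTree.nil (CTree.cons CTree.nil CTree.nil)))))))))))))))))))))))))))))))))))) (CTree.cons CTree.nil (CTree.cons CTree.nil (CTree.cons CTree.nil (CTree.cons CTree.nil (CTree.cons CTree.nil (CTree.cons CTree.nil (CTree.cons CTree.nil (CTree.cons (CTree.cons CTree.nil (CTree.cons (CTree.leaf 1 89836025018754751679606772019140033118336) (CTree.cons CTree.nil (CTree.cons (CTree.leaf 1 385839357320565471015839028786335943714612837417117) (CTree.cons (CTree.leaf 1 385848389122370875918211350709439920058241462108317) (CTree.cons CTree.nil (CTree.cons CTree.nil (CTree.cons CTree.nil (CTree.cons CTree.nil (CTree.cons CTree.nil (CTree.cons CTree.nil (CTree.cons CTree.nil (CTree.cons CTree.nil (CTree.cons CTree.nil (CTree.cons CTree.nil (CTree.cons CTree.nil (CTree.cons CTree.nil (CTree.cons CTree.nil (CTree.cons CTree.nil (CTree.cons (CTree.leaf 1 568578796841403814449396547270352302798964969777690) (CTree.cons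 (CTree.leaf 1 176947495759908208351008755617363509979674) (CTree.cons CTree.nil (CTree.cons (CTree.leaf 1 12726329741634609862921078518923788552) (CTree.cons CTree.nil (CTree.cons CTree.nil (CTree.cons (CTree.leaf 1 568576120003358783548557747957215676918997001574530) (CTree.cons (CTree.leaf 1 6413081138028294415906044857098157325182319575236737) (CTree.cons (CTree.leaf 1 182754414845308188779228398907971992617224) (CTree.cons CTree.nil (CTree.cons CTree.nil (CTree.cons CTree.nil (CTree.cons CTree.nil (CTree.cons (CTree.leaf 1 3406900232327744384936096856521412035655969590084120) (CTree.cons (CTree.leaf 1 783365435962038735087916554237086533672404931707144) (CTree.cons (CTree.leaf 1 783419537569879108275971895863440150013192722514184) (CTree.cons CTree.nil CTree.nil)))))))))))))))))))))))))))))))))))) (CTree.cons (CTree.cons CTree.nil (CTree.cons CTree.nil (CTree.cons (CTree.leaf 1 55879508933410690847878424195141537922) (CTree.cons (CTree.leaf 1 2178488378495772366269504751938852299280514) (CTree.cons (CTree.leaf 1 2918975384542452714240411695746169201299586) (CTree.cons CTree.nil (CTree.cons CTree.nil (CTree.cons CTree.nil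 (CTree.cons CTree.nil (CTree.cons CTree.nil (CTree.cons CTree.nil (CTree.cons CTree.nil (CTree.cons CTree.nil (CTree.cons CTree.nil (CTree.cons CTree.nil (CTree.cons CTree.nil (CTree.cons CTree.nil (CTree.cons CTree.nil (CTree.cons (CTree.leaf 1 11774837022322671403392510783062680109076056467) (CTree.cons CTree.nil (CTree.cons (CTree.leaf 1 182393368483247486406446770960455444802074) (CTree.cons CTree.nil (CTree.cons (CTree.leaf 1 12726340278974099203788258129639189002) (CTree.cons CTree.nil (CTree.cons (CTree.leaf 1 11774837022322671403392510783062680109076056467) (CTree.cons CTree.nil (CTree.cons (CTree.leaf 1 182733651187675256792765707394976399884961) (CTree.cons (CTree.leaf 1 182392704206756425980163701359540653064729) (CTree.cons CTree.nil (CTree.cons CTree.nil (CTree.cons (CTree.leaf 1 2854591687341908887968694181340027289467486728) (CTree.cons CTree.nil (CTree.cons CTree.nil (CTree.cons (CTree.leaf 1 11774837022322671403392510783062680109076056467) (CTree.cons (CTree.leaf 1 11774837022322671403392510783062680109076056467) (CTree.cons CTree.nil CTree.nil)))))))))))))))))))))))))))))))))))) (CTree.cons CTree.nil (CTree.cons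 (CTree.cons CTree.nil (CTree.cons (CTree.leaf 1 20916889091019745513441262698624) (CTree.cons (CTree.leaf 1 879971016069070046211439469063307727544722) (CTree.cons CTree.nil (CTree.cons (CTree.leaf 1 1370776524887801681310048992282876170) (CTree.cons CTree.nil (CTree.cons CTree.nil (CTree.cons CTree.nil (CTree.cons CTree.nil (CTree.cons CTree.nil (CTree.cons CTree.nil (CTree.cons CTree.nil (CTree.cons CTree.nil (CTree.cons CTree.nil (CTree.cons CTree.nil (CTree.cons CTree.nil (CTree.cons CTree.nil (CTree.cons CTree.nil (CTree.cons (CTree.leaf 1 2798658148116019437170769537454965000) (CTree.cons (CTree.leaf 1 2798668685455508778037949148170365450) (CTree.cons CTree.nil (CTree.cons CTree.nil (CTree.cons (CTree.leaf 1 20916389648726529530714157820426) (CTree.cons CTree.nil (CTree.cons (CTree.leaf 1 2798658148116019437170769537454965000) (CTree.cons (CTree.leaf 1 2798668685455508778037949148170365450) (CTree.cons (CTree.leaf 1 2788611066365067125689300911886303905) (CTree.cons CTree.nil (CTree.cons CTree.nil (CTree.cons CTree.nil (CTree.cons (CTree.leaf 1 664948816422931242010866423616373275) (CTree.cons CTree.nil (CTree.cons (CTree.leaf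 1 2798658148116019437170769537454965000) (CTree.cons CTree.nil (CTree.cons (CTree.leaf 1 2798658148116019437170769537454965000) (CTree.cons CTree.nil CTree.nil)))))))))))))))))))))))))))))))))))) (CTree.cons (CTree.cons CTree.nil (CTree.cons (CTree.leaf 1 2035727388242127010591775027620872320) (CTree.cons (CTree.leaf 1 133391352794025310543382899635721369952658) (CTree.cons (CTree.leaf 1 53468954226705976837347686732620372183578) (CTree.cons CTree.nil (CTree.cons CTree.nil (CTree.cons CTree.nil (CTree.cons CTree.nil (CTree.cons CTree.nil (CTree.cons CTree.nil (CTree.cons CTree.nil (CTree.cons CTree.nil (CTree.cons CTree.nil (CTree.cons CTree.nil (CTree.cons CTree.nil (CTree.cons CTree.nil (CTree.cons CTree.nil (CTree.cons CTree.nil (CTree.cons (CTree.leaf 1 96301945229140630711936366364805601829266) (CTree.cons (CTree.leaf 1 96301265038247351203097669985366473056658) (CTree.cons (CTree.leaf 1 2035390509911322188771212554686570898) (CTree.cons CTree.nil (CTree.cons CTree.nil (CTree.cons CTree.nil (CTree.cons (CTree.leaf 1 96301945229140630711936366364805601829266) (CTree.cons (CTree.leaf 1 96301265038247351203097669985366473056658)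 (CTree.cons CTree.nil (CTree.cons (CTree.leaf 1 1370776517162765271464230517753381401) (CTree.cons CTree.nil (CTree.cons CTree.nil (CTree.cons (CTree.leaf 1 96300574787442176054477214839415137509778) (CTree.cons CTree.nil (CTree.cons (CTree.leaf 1 96301945229140630711936366364805601829266) (CTree.cons (CTree.leaf 1 96301945229140630711936366364805601829266) (CTree.cons CTree.nil (CTree.cons CTree.nil CTree.nil)))))))))))))))))))))))))))))))))))) (CTree.cons CTree.nil (CTree.cons (CTree.cons CTree.nil (CTree.cons (CTree.leaf 1 89847271208996431988334184371825896194176) (CTree.cons (CTree.leaf 1 6267999850280550221004231717952408831066247298) (CTree.cons CTree.nil (CTree.cons (CTree.leaf 1 443945189306972004991640415983235362881108568371250659459) (CTree.cons CTree.nil (CTree.cons CTree.nil (CTree.cons CTree.nil (CTree.cons CTree.nil (CTree.cons CTree.nil (CTree.cons CTree.nil (CTree.cons CTree.nil (CTree.cons CTree.nil (CTree.cons (CTree.leaf 1 381506587303879471686147743439266097994963032812058) (CTree.cons CTree.nil (CTree.cons (CTree.leaf 1 182392013305889317681116439590254197473544) (CTree.cons (CTree.leaf 1 89835209828145338378113465799762775777682)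 (CTree.cons CTree.nil (CTree.cons CTree.nil (CTree.cons CTree.nil (CTree.cons CTree.nil (CTree.cons CTree.nil (CTree.cons CTree.nil (CTree.cons CTree.nil (CTree.cons CTree.nil (CTree.cons (CTree.leaf 1 783367799102627059228021891770844540565516471042073) (CTree.cons (CTree.leaf 1 36635396785598443821989793875999012937205009744001) (CTree.cons (CTree.leaf 1 182754414845308188779228512340656735191304) (CTree.cons CTree.nil (CTree.cons CTree.nil (CTree.cons CTree.nil (CTree.cons CTree.nil (CTree.cons (CTree.leaf 1 783365435962038735076111736943482450336084739621128) (CTree.cons (CTree.leaf 1 783419537569899586704918206716878372104056239423513) (CTree.cons (CTree.leaf 1 783419537569878334635465742224279113458433643905288) (CTree.cons CTree.nil CTree.nil)))))))))))))))))))))))))))))))))))) (CTree.cons (CTree.cons CTree.nil (CTree.cons CTree.nil (CTree.cons (CTree.leaf 1 43568869307748800957315237761105419440258) (CTree.cons (CTree.leaf 1 2178488378495772366382823099946346225930370) (CTree.cons (CTree.leaf 1 2918975384542442502562036832188366296518786) (CTree.cons CTree.nil (CTree.cons CTree.nil (CTree.cons CTree.nil (CTree.cons CTree.nil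 (CTree.cons CTree.nil (CTree.cons CTree.nil (CTree.cons CTree.nil (CTree.cons (CTree.leaf 1 11955334360002626469592014313917844854856034842) (CTree.cons CTree.nil (CTree.cons CTree.nil (CTree.cons (CTree.leaf 1 182392703869244638597158411921907735669274) (CTree.cons (CTree.leaf 1 95620700304410285765349217676432542146962) (CTree.cons CTree.nil (CTree.cons CTree.nil (CTree.cons CTree.nil (CTree.cons CTree.nil (CTree.cons CTree.nil (CTree.cons CTree.nil (CTree.cons CTree.nil (CTree.cons (CTree.leaf 1 11596431071362731747065797729734105863236430362) (CTree.cons CTree.nil (CTree.cons (CTree.leaf 1 132392624541004481105633101352876272779801) (CTree.cons (CTree.leaf 1 182392704206756425980163701359540653064729) (CTree.cons CTree.nil (CTree.cons CTree.nil (CTree.cons (CTree.leaf 1 11596431071362731747065797729734105863236430362) (CTree.cons CTree.nil (CTree.cons (CTree.leaf 1 8675172285561400257358909963706436666605513242) (CTree.cons CTree.nil (CTree.cons (CTree.leaf 1 11596431071362731747065797729734105863236430362) (CTree.cons CTree.nil CTree.nil)))))))))))))))))))))))))))))))))))) (CTree.cons (CTree.cons CTree.nil (CTree.cons (CTree.leaf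 1 2035422604905567833934186728729477248) (CTree.cons CTree.nil (CTree.cons (CTree.leaf 1 57692117663808712952102101739591681523994132629) (CTree.cons (CTree.leaf 1 2178489706881659746564239565967489007489154) (CTree.cons CTree.nil (CTree.cons CTree.nil (CTree.cons CTree.nil (CTree.cons CTree.nil (CTree.cons CTree.nil (CTree.cons CTree.nil (CTree.cons CTree.nil (CTree.cons (CTree.leaf 1 180690601796035729274843994846631071711624) (CTree.cons (CTree.leaf 1 180691956648642794159651838773045487083922) (CTree.cons CTree.nil (CTree.cons CTree.nil (CTree.cons (CTree.leaf 1 2035390509911322188771212554686570898) (CTree.cons CTree.nil (CTree.cons CTree.nil (CTree.cons CTree.nil (CTree.cons CTree.nil (CTree.cons CTree.nil (CTree.cons CTree.nil (CTree.cons CTree.nil (CTree.cons (CTree.leaf 1 180690601796035729274843994846631071711624) (CTree.cons (CTree.leaf 1 180691956648642794159651838773045487083922) (CTree.cons CTree.nil (CTree.cons (CTree.leaf 1 11954692586103128420367263117139563018180700698) (CTree.cons CTree.nil (CTree.cons CTree.nil (CTree.cons (CTree.leaf 1 43588719783390393034718797827136593986067) (CTree.cons CTree.nil (CTree.cons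 CTree.nil (CTree.cons (CTree.leaf 1 180690601796035729274843994846631071711624) (CTree.cons (CTree.leaf 1 180690601796035729274843994846631071711624) (CTree.cons CTree.nil CTree.nil)))))))))))))))))))))))))))))))))))) (CTree.cons CTree.nil (CTree.cons (CTree.cons CTree.nil (CTree.cons (CTree.leaf 1 20916724677108277923873502658688) (CTree.cons (CTree.leaf 1 50703443447736993821885044435452971524498) (CTree.cons (CTree.leaf 1 1370776524878285928377047613203677857) (CTree.cons CTree.nil (CTree.cons CTree.nil (CTree.cons CTree.nil (CTree.cons CTree.nil (CTree.cons CTree.nil (CTree.cons CTree.nil (CTree.cons CTree.nil (CTree.cons CTree.nil (CTree.cons (CTree.leaf 1 2092505775355282879690622036681031944) (CTree.cons (CTree.leaf 1 2092516312694772220557801647396432394) (CTree.cons CTree.nil (CTree.cons (CTree.leaf 1 20916389648726529530714157820426) (CTree.cons CTree.nil (CTree.cons CTree.nil (CTree.cons CTree.nil (CTree.cons CTree.nil (CTree.cons CTree.nil (CTree.cons CTree.nil (CTree.cons CTree.nil (CTree.cons CTree.nil (CTree.cons (CTree.leaf 1 2092505775355282879690622036681031944) (CTree.cons (CTree.leaf 1 2092516312694772220557801647396432394)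 (CTree.cons (CTree.leaf 1 2035728021877517285573066261310546322) (CTree.cons CTree.nil (CTree.cons CTree.nil (CTree.cons CTree.nil (CTree.cons (CTree.leaf 1 664948816422931242010866423616373139) (CTree.cons CTree.nil (CTree.cons (CTree.leaf 1 2092505775355282879690622036681031944) (CTree.cons (CTree.leaf 1 2092505775355282879690622036681031944) (CTree.cons CTree.nil (CTree.cons CTree.nil CTree.nil)))))))))))))))))))))))))))))))))))) (CTree.cons CTree.nil (CTree.cons (CTree.cons CTree.nil (CTree.cons (CTree.leaf 1 89837328285263770494587690496170141483136) (CTree.cons (CTree.leaf 1 57693521000351113644836060119180658455614722178) (CTree.cons (CTree.leaf 1 142770166704233107895277392789315368385395691650) (CTree.cons CTree.nil (CTree.cons CTree.nil (CTree.cons CTree.nil (CTree.cons CTree.nil (CTree.cons CTree.nil (CTree.cons CTree.nil (CTree.cons CTree.nil (CTree.cons CTree.nil (CTree.cons CTree.nil (CTree.cons (CTree.leaf 1 381506587303880800609590657900422483503767011535386) (CTree.cons CTree.nil (CTree.cons (CTree.leaf 1 43557602043768961857824171010384845209864) (CTree.cons (CTree.leaf 1 89836003912691502583023267882939390239122)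 (CTree.cons CTree.nil (CTree.cons CTree.nil (CTree.cons (CTree.leaf 1 5821987658636020329858162416410141972130955937) (CTree.cons (CTree.leaf 1 176947495759908208351008755617363509979674) (CTree.cons CTree.nil (CTree.cons (CTree.leaf 1 12726329741634609862921078518923788552) (CTree.cons CTree.nil (CTree.cons CTree.nil (CTree.cons CTree.nil (CTree.cons CTree.nil (CTree.cons CTree.nil (CTree.cons CTree.nil (CTree.cons CTree.nil (CTree.cons CTree.nil (CTree.cons CTree.nil (CTree.cons (CTree.leaf 1 410736620050498090818277092829014105923735613079816) (CTree.cons (CTree.leaf 1 410736620050498090818277092829014105923735613079816) (CTree.cons (CTree.leaf 1 783419537569899586704923162023624975980627939164441) (CTree.cons CTree.nil CTree.nil)))))))))))))))))))))))))))))))))))) (CTree.cons (CTree.cons CTree.nil (CTree.cons CTree.nil (CTree.cons (CTree.leaf 1 43578885248384109159678280835357377958018) (CTree.cons (CTree.leaf 1 2178488378495772366382823099946346225930370) (CTree.cons (CTree.leaf 1 2918975384542442502562036832188366296518786) (CTree.cons CTree.nil (CTree.cons CTree.nil (CTree.cons CTree.nil (CTree.cons CTree.nil (CTree.cons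 CTree.nil (CTree.cons CTree.nil (CTree.cons CTree.nil (CTree.cons (CTree.leaf 1 11954692588227223572835918791409495020568314529) (CTree.cons CTree.nil (CTree.cons CTree.nil (CTree.cons (CTree.leaf 1 182392703869244638597158411921907735669274) (CTree.cons (CTree.leaf 1 95620700304410285765349217676432542146962) (CTree.cons CTree.nil (CTree.cons (CTree.leaf 1 12356156078046997345815556855392336452220041658111633946) (CTree.cons CTree.nil (CTree.cons (CTree.leaf 1 182393368483247486406446770960455444802074) (CTree.cons CTree.nil (CTree.cons (CTree.leaf 1 12726340278974099203788258129639189002) (CTree.cons CTree.nil (CTree.cons CTree.nil (CTree.cons CTree.nil (CTree.cons CTree.nil (CTree.cons CTree.nil (CTree.cons CTree.nil (CTree.cons CTree.nil (CTree.cons (CTree.leaf 1 767031233166267281897889189990525533318799272419404314) (CTree.cons CTree.nil (CTree.cons (CTree.leaf 1 8676483044042767362153698304699794428407055009) (CTree.cons (CTree.leaf 1 11976993331301790561789435934106701757570679304) (CTree.cons CTree.nil (CTree.cons CTree.nil CTree.nil)))))))))))))))))))))))))))))))))))) (CTree.cons (CTree.cons CTree.nil (CTree.cons (CTree.leaf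 1 2700036912451076430458837758386438272) (CTree.cons CTree.nil (CTree.cons (CTree.leaf 1 43578927445382381725149649447515494351385) (CTree.cons (CTree.leaf 1 182732960276350040779705304983086131384450) (CTree.cons CTree.nil (CTree.cons CTree.nil (CTree.cons CTree.nil (CTree.cons CTree.nil (CTree.cons CTree.nil (CTree.cons CTree.nil (CTree.cons CTree.nil (CTree.cons (CTree.leaf 1 6413081138028294415906044857060377816858610110103681) (CTree.cons (CTree.leaf 1 182733651187675256792765707386180306862753) (CTree.cons CTree.nil (CTree.cons (CTree.leaf 1 2788611066365067125689300911886303905) (CTree.cons CTree.nil (CTree.cons CTree.nil (CTree.cons (CTree.leaf 1 36635396785598443821989793838219504613495544610945) (CTree.cons (CTree.leaf 1 132392624541002005225554530592326474531353) (CTree.cons CTree.nil (CTree.cons CTree.nil (CTree.cons (CTree.leaf 1 2035728021877517285573066261310546322) (CTree.cons CTree.nil (CTree.cons CTree.nil (CTree.cons CTree.nil (CTree.cons CTree.nil (CTree.cons CTree.nil (CTree.cons CTree.nil (CTree.cons CTree.nil (CTree.cons (CTree.leaf 1 182754414845307995313318400787169553744408) (CTree.cons CTree.nil (CTree.cons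 CTree.nil (CTree.cons (CTree.leaf 1 182754414845300897704853129649767372096008) (CTree.cons (CTree.leaf 1 182754414845300897711989640307661058212513) (CTree.cons CTree.nil CTree.nil)))))))))))))))))))))))))))))))))))) (CTree.cons (CTree.cons CTree.nil (CTree.cons (CTree.leaf 1 1371114024474783234202534052711497856) (CTree.cons (CTree.leaf 1 6774062943744646195704244231883404132055652466502170) (CTree.cons CTree.nil (CTree.cons (CTree.leaf 1 182733001813061117761334793475866482516370) (CTree.cons CTree.nil (CTree.cons CTree.nil (CTree.cons CTree.nil (CTree.cons CTree.nil (CTree.cons CTree.nil (CTree.cons CTree.nil (CTree.cons CTree.nil (CTree.cons (CTree.leaf 1 182754414845301052563588595398127775777032) (CTree.cons (CTree.leaf 1 182732986573677364334737066814697176637842) (CTree.cons CTree.nil (CTree.cons CTree.nil (CTree.cons (CTree.leaf 1 1370776517162765271464230517753381401) (CTree.cons CTree.nil (CTree.cons (CTree.leaf 1 182754414845308188736468958172742912442632) (CTree.cons (CTree.leaf 1 182732986573677364443627575569186178539922) (CTree.cons (CTree.leaf 1 11954692586103128420367263117139563018180700698) (CTree.cons CTree.nil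 (CTree.cons CTree.nil (CTree.cons CTree.nil (CTree.cons CTree.nil (CTree.cons CTree.nil (CTree.cons CTree.nil (CTree.cons CTree.nil (CTree.cons CTree.nil (CTree.cons CTree.nil (CTree.cons (CTree.leaf 1 1493159690997901863154043470177897748234777) (CTree.cons CTree.nil (CTree.cons (CTree.leaf 1 182754414845308188736468958172742912442632) (CTree.cons CTree.nil (CTree.cons (CTree.leaf 1 182754414845301052563588595398127775777032) (CTree.cons CTree.nil CTree.nil)))))))))))))))))))))))))))))))))))) (CTree.cons CTree.nil (CTree.cons CTree.nil (CTree.cons (CTree.cons CTree.nil (CTree.cons CTree.nil (CTree.cons (CTree.leaf 1 43578885268587290596111767182915149631618) (CTree.cons (CTree.leaf 1 142770166683536928430515672719399133135804960898) (CTree.cons (CTree.leaf 1 378586616930587320512590950321698858069582966755458) (CTree.cons CTree.nil (CTree.cons CTree.nil (CTree.cons CTree.nil (CTree.cons CTree.nil (CTree.cons CTree.nil (CTree.cons CTree.nil (CTree.cons CTree.nil (CTree.cons CTree.nil (CTree.cons (CTree.leaf 1 97856550274212912452244386503589187850420759066) (CTree.cons CTree.nil (CTree.cons (CTree.leaf 1 43578085634672700311681353760846930117144)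 (CTree.cons (CTree.leaf 1 43578085959423983070716273191796461937042) (CTree.cons CTree.nil (CTree.cons CTree.nil (CTree.cons (CTree.leaf 1 97855896560709359953595996547075239183897537050) (CTree.cons (CTree.leaf 1 182392013780703695629102686870596694911514) (CTree.cons CTree.nil (CTree.cons (CTree.leaf 1 664948816422931242010866423616375187) (CTree.cons CTree.nil (CTree.cons CTree.nil (CTree.cons (CTree.leaf 1 54659960515139250780836165967230045316399497890) (CTree.cons (CTree.leaf 1 182754414845307995351097332650126715453976) (CTree.cons (CTree.leaf 1 182414132478384581081029349302722516550169) (CTree.cons CTree.nil (CTree.cons CTree.nil (CTree.cons CTree.nil (CTree.cons CTree.nil (CTree.cons CTree.nil (CTree.cons CTree.nil (CTree.cons CTree.nil (CTree.cons CTree.nil CTree.nil)))))))))))))))))))))))))))))))))))) (CTree.cons CTree.nil (CTree.cons (CTree.cons CTree.nil (CTree.cons (CTree.leaf 1 89836003945014260906520926880806704119936) (CTree.cons CTree.nil (CTree.cons (CTree.leaf 1 5887440344517972950468804280701208706640183969) (CTree.cons (CTree.leaf 1 5887440299952995920403380882469026504309285266) (CTree.cons CTree.nil (CTree.cons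 CTree.nil (CTree.cons CTree.nil (CTree.cons CTree.nil (CTree.cons CTree.nil (CTree.cons CTree.nil (CTree.cons CTree.nil (CTree.cons (CTree.leaf 1 51983169428280725868661221502925782035256181272) (CTree.cons CTree.nil (CTree.cons CTree.nil (CTree.cons (CTree.leaf 1 182392013305889317681116439590254197473544) (CTree.cons (CTree.leaf 1 95620009739703130735213420956063056404882) (CTree.cons CTree.nil (CTree.cons (CTree.leaf 1 11953242984014425843875509569858480197550604552) (CTree.cons (CTree.leaf 1 51983169428280725868661221502925782035256181272) (CTree.cons CTree.nil (CTree.cons CTree.nil (CTree.cons (CTree.leaf 1 12726329741634609862921078518923788552) (CTree.cons CTree.nil (CTree.cons (CTree.leaf 1 11953242984014425841543527247591178705267458312) (CTree.cons (CTree.leaf 1 51983169428280725868661221502925782035256181272) (CTree.cons CTree.nil (CTree.cons (CTree.leaf 1 182414132478387250315765024301128626012424) (CTree.cons CTree.nil (CTree.cons CTree.nil (CTree.cons CTree.nil (CTree.cons CTree.nil (CTree.cons CTree.nil (CTree.cons CTree.nil (CTree.cons CTree.nil (CTree.cons CTree.nil CTree.nil))))))))))))))))))))))))))))))))))))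 (CTree.cons (CTree.cons CTree.nil (CTree.cons (CTree.leaf 1 89836004096738524068278621019254992011392) (CTree.cons (CTree.leaf 1 217766599291725393030923489515283018008083199765018) (CTree.cons CTree.nil (CTree.cons (CTree.leaf 1 6267343488831350883895157963858764646247960706) (CTree.cons CTree.nil (CTree.cons CTree.nil (CTree.cons CTree.nil (CTree.cons CTree.nil (CTree.cons CTree.nil (CTree.cons CTree.nil (CTree.cons CTree.nil (CTree.cons (CTree.leaf 1 11841739258021772728167830978571280034233975048) (CTree.cons (CTree.leaf 1 11841784514782163519209556099399950766450549138) (CTree.cons CTree.nil (CTree.cons CTree.nil (CTree.cons (CTree.leaf 1 89835209503394055619078546368813243965842) (CTree.cons CTree.nil (CTree.cons (CTree.leaf 1 11841784514782163519209556099399950766450549138) (CTree.cons CTree.nil (CTree.cons (CTree.leaf 1 176947495759908208351008755617363509979674) (CTree.cons CTree.nil (CTree.cons (CTree.leaf 1 12726329741634609862921078518923788552) (CTree.cons CTree.nil (CTree.cons (CTree.leaf 1 11841739258021772725835848656303978541950828808) (CTree.cons (CTree.leaf 1 11841784514782163519209520516173597810800337298)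 (CTree.cons (CTree.leaf 1 182754414845303373584931700410317170344456) (CTree.cons CTree.nil (CTree.cons CTree.nil (CTree.cons CTree.nil (CTree.cons CTree.nil (CTree.cons CTree.nil (CTree.cons CTree.nil (CTree.cons CTree.nil (CTree.cons CTree.nil (CTree.cons CTree.nil CTree.nil)))))))))))))))))))))))))))))))))))) (CTree.cons (CTree.cons CTree.nil (CTree.cons (CTree.leaf 1 89847271229199613427055142463217367318656) (CTree.cons (CTree.leaf 1 217766599291725393030923489515283018008083199765018) (CTree.cons (CTree.leaf 1 11953249844165640866359002164194154402234830978) (CTree.cons CTree.nil (CTree.cons CTree.nil (CTree.cons CTree.nil (CTree.cons CTree.nil (CTree.cons CTree.nil (CTree.cons CTree.nil (CTree.cons CTree.nil (CTree.cons CTree.nil (CTree.cons (CTree.leaf 1 783367845098913600103409383950279103377681598185736) (CTree.cons (CTree.leaf 1 11953288240775129190204454677094469170593081882) (CTree.cons CTree.nil (CTree.cons (CTree.leaf 1 182392013630643223766420522043541481390344) (CTree.cons CTree.nil (CTree.cons CTree.nil (CTree.cons (CTree.leaf 1 11953242983245977634580407191957930585330680072) (CTree.cons (CTree.leaf 1 11953288240775129185249141105195285850345253402)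 (CTree.cons (CTree.leaf 1 176947495759908208351008755617363509979674) (CTree.cons CTree.nil (CTree.cons CTree.nil (CTree.cons CTree.nil (CTree.cons (CTree.leaf 1 5820538054418828758490375606546649666511569432) (CTree.cons CTree.nil (CTree.cons (CTree.leaf 1 182754414845303373592068211068210856460961) (CTree.cons (CTree.leaf 1 182414132478387250315765024301128626012424) (CTree.cons CTree.nil (CTree.cons CTree.nil (CTree.cons CTree.nil (CTree.cons CTree.nil (CTree.cons CTree.nil (CTree.cons CTree.nil (CTree.cons CTree.nil (CTree.cons CTree.nil CTree.nil)))))))))))))))))))))))))))))))))))) (CTree.cons CTree.nil CTree.nil)))))))))))))))))))))))))))))))))))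

theorem tree6_1_5_ok : chk 6 (pk (goalL 6)) tree6_1_5 (stk [((1 : Fin 6), (5 : Fin 6))]) 1 (om [((1 : Fin 6), (5 : Fin 6))]) (im [((1 : Fin 6), (5 : Fin 6))])
    (cm [((1 : Fin 6), (5 : Fin 6))]) (pk (goalR [((1 : Fin 6), (5 : Fin 6))])) 0 = true := by
  decide +kernel

end Vale.Agent.Lib.P333
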