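import Vale.Agent.Lib.P333.CertSound

namespace Vale.Agent.Lib.P333

def tree6_2_0 : CTree :=
  CTree.cons CTree.nil (CTree.cons (CTree.cons CTree.nil (CTree.cons CTree.nil (CTree.cons CTree.nil (CTree.cons CTree.nil (CTree.cons CTree.nil (CTree.cons CTree.nil (CTree.cons CTree.nil (CTree.cons CTree.nil (CTree.cons CTree.nil (CTree.cons (CTree.leaf 1 1371620292442885095462638525868540032) (CTree.cons (CTree.leaf 1 1371620292597627601990666276552966272) (CTree.cons (CTree.leaf 1 1370809238528230358933780157338091648) (CTree.cons CTree.nil (CTree.cons CTree.nil (CTree.cons CTree.nil (CTree.cons CTree.nil (CTree.cons CTree.nil (CTree.cons CTree.nil (CTree.cons CTree.nil (CTree.cons CTree.nil (CTree.cons (CTree.leaf 1 228672476569425677066491889289043485196416) (CTree.cons CTree.nil (CTree.cons (CTree.leaf 1 3448539035521943696458939991948329088) (CTree.cons (CTree.leaf 1 2783092037848646880942678813803610240) (CTree.cons CTree.nil (CTree.cons CTree.nil (CTree.cons (CTree.leaf 1 225950291137431505538935141682124924452992) (CTree.cons (CTree.leaf 1 228672549260472502278878987989682478973056) (CTree.cons CTree.nil (CTree.cons (CTree.leaf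 1 2783092037848646880942634829043531904) (CTree.cons CTree.nil (CTree.cons CTree.nil (CTree.cons (CTree.leaf 1 225950291137431505538935141682124924452992) (CTree.cons (CTree.leaf 1 228672549260472502278878987989682478973056) (CTree.cons (CTree.leaf 1 225950291137431505538935141682124924452992) (CTree.cons CTree.nil CTree.nil)))))))))))))))))))))))))))))))))))) (CTree.cons CTree.nil (CTree.cons (CTree.cons CTree.nil (CTree.cons CTree.nil (CTree.cons CTree.nil (CTree.cons CTree.nil (CTree.cons CTree.nil (CTree.cons CTree.nil (CTree.cons CTree.nil (CTree.cons CTree.nil (CTree.cons (CTree.leaf 1 33241094642574580768448825367266922626) (CTree.cons CTree.nil (CTree.cons (CTree.leaf 1 385851243617735020190040908627892549951014685573793) (CTree.cons (CTree.leaf 1 385848389122349608270278792055953650960741920080545) (CTree.cons CTree.nil (CTree.cons CTree.nil (CTree.cons CTree.nil (CTree.cons CTree.nil (CTree.cons CTree.nil (CTree.cons CTree.nil (CTree.cons CTree.nil (CTree.cons (CTree.leaf 1 188548697322268756241513985988888674617503454659233) (CTree.cons CTree.nil (CTree.cons CTree.nil (CTree.cons (CTree.leaf 1 43612064683938811033677834037533606740641)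 (CTree.cons (CTree.leaf 1 43600765921530503581076169987809758751258) (CTree.cons CTree.nil (CTree.cons (CTree.leaf 1 958848438087019850830738017806222934840558358692513) (CTree.cons (CTree.leaf 1 767303347276706303593512844979366945468005497897633) (CTree.cons CTree.nil (CTree.cons CTree.nil (CTree.cons (CTree.leaf 1 43600765921530503581076169987809758741017) (CTree.cons CTree.nil (CTree.cons (CTree.leaf 1 958848438087019850830738017806222934840558358692513) (CTree.cons (CTree.leaf 1 767303347276706303593512844979366945468005497897633) (CTree.cons CTree.nil (CTree.cons (CTree.leaf 1 958848438087019850830738017806222934840558358692513) (CTree.cons CTree.nil CTree.nil)))))))))))))))))))))))))))))))))))) (CTree.cons (CTree.cons CTree.nil (CTree.cons CTree.nil (CTree.cons CTree.nil (CTree.cons CTree.nil (CTree.cons CTree.nil (CTree.cons CTree.nil (CTree.cons CTree.nil (CTree.cons CTree.nil (CTree.cons (CTree.leaf 1 220503639232689816916445553540645827451146) (CTree.cons (CTree.leaf 1 97002541886736764818800147994417886730506) (CTree.cons CTree.nil (CTree.cons (CTree.leaf 1 89835210335049446866413941518800245692682) (CTree.cons CTree.nil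 (CTree.cons CTree.nil (CTree.cons CTree.nil (CTree.cons CTree.nil (CTree.cons CTree.nil (CTree.cons CTree.nil (CTree.cons CTree.nil (CTree.cons (CTree.leaf 1 11418210234052272804491402235155899072372277401) (CTree.cons (CTree.leaf 1 94778341320388528346393121614823982043902449930) (CTree.cons CTree.nil (CTree.cons CTree.nil (CTree.cons (CTree.leaf 1 49396905789219053987180614401573985780385) (CTree.cons CTree.nil (CTree.cons (CTree.leaf 1 982140519017902189564117313527675665150532301488525) (CTree.cons CTree.nil (CTree.cons (CTree.leaf 1 3580690430192247577825792968158146036439101097443597) (CTree.cons CTree.nil (CTree.cons (CTree.leaf 1 49343731477090798817437372032713437086369) (CTree.cons CTree.nil (CTree.cons (CTree.leaf 1 748343475889152474694700058576001936870502419202317) (CTree.cons (CTree.leaf 1 3580728163053134078754992865809402406110577734320525) (CTree.cons (CTree.leaf 1 3580693998311479342725499930878346701878714592985357) (CTree.cons CTree.nil (CTree.cons CTree.nil CTree.nil)))))))))))))))))))))))))))))))))))) (CTree.cons (CTree.cons CTree.nil (CTree.cons CTree.nil (CTree.cons CTree.nil (CTree.cons CTree.nil (CTree.cons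 CTree.nil (CTree.cons CTree.nil (CTree.cons CTree.nil (CTree.cons CTree.nil (CTree.cons (CTree.leaf 1 229012732942299418707391743680864360997266) (CTree.cons (CTree.leaf 1 229011513079116113774741662651810739525898) (CTree.cons (CTree.leaf 1 229011403714313669042411068893195300118930) (CTree.cons CTree.nil (CTree.cons CTree.nil (CTree.cons CTree.nil (CTree.cons CTree.nil (CTree.cons CTree.nil (CTree.cons CTree.nil (CTree.cons CTree.nil (CTree.cons CTree.nil (CTree.cons (CTree.leaf 1 229010697908247206620007912644992304284168) (CTree.cons (CTree.leaf 1 229010697594261212512094976602312549204365) (CTree.cons CTree.nil (CTree.cons (CTree.leaf 1 49344437629466037818647135861050311453210) (CTree.cons CTree.nil (CTree.cons CTree.nil (CTree.cons (CTree.leaf 1 393155715287564271793953331971168088767696007725073) (CTree.cons (CTree.leaf 1 182735125494796198676300740875762456008970) (CTree.cons (CTree.leaf 1 229010697573104528345362976377705938295050) (CTree.cons CTree.nil (CTree.cons CTree.nil (CTree.cons CTree.nil (CTree.cons (CTree.leaf 1 15008445075548539145466760170639516115485196685) (CTree.cons CTree.nil (CTree.cons (CTree.leaf 1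 15008445075548853121874159770519706877545283853) (CTree.cons (CTree.leaf 1 15008445075548853121874159770519706877545283853) (CTree.cons CTree.nil CTree.nil)))))))))))))))))))))))))))))))))))) (CTree.cons CTree.nil (CTree.cons CTree.nil (CTree.cons (CTree.cons CTree.nil (CTree.cons CTree.nil (CTree.cons CTree.nil (CTree.cons (CTree.leaf 1 33241094642574580768448825367266922626) (CTree.cons (CTree.leaf 1 44540029671363109041930496438851145858) (CTree.cons (CTree.leaf 1 3495267815823901169433385071277183106) (CTree.cons CTree.nil (CTree.cons CTree.nil (CTree.cons CTree.nil (CTree.cons CTree.nil (CTree.cons CTree.nil (CTree.cons CTree.nil (CTree.cons CTree.nil (CTree.cons CTree.nil (CTree.cons CTree.nil (CTree.cons CTree.nil (CTree.cons CTree.nil (CTree.cons CTree.nil (CTree.cons CTree.nil (CTree.cons (CTree.leaf 1 228672434998497775445712416065242654180001) (CTree.cons CTree.nil (CTree.cons CTree.nil (CTree.cons (CTree.leaf 1 3447715933977284919855865754469139105) (CTree.cons (CTree.leaf 1 2783081264964277204039569572215466522) (CTree.cons CTree.nil (CTree.cons (CTree.leaf 1 225948156292218041602467025112389781160609) (CTree.cons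 CTree.nil (CTree.cons (CTree.leaf 1 228672434998488366519629364532057356239521) (CTree.cons CTree.nil (CTree.cons (CTree.leaf 1 2783101936084743898769044360153596441) (CTree.cons CTree.nil (CTree.cons (CTree.leaf 1 225948156292218041602467025112389781160609) (CTree.cons CTree.nil (CTree.cons (CTree.leaf 1 228672434998488366519629364532057356239521) (CTree.cons (CTree.leaf 1 225948156292218041602467025112389781160609) (CTree.cons CTree.nil CTree.nil)))))))))))))))))))))))))))))))))))) (CTree.cons (CTree.cons CTree.nil (CTree.cons (CTree.leaf 1 1371620292442885095462638525868540032) (CTree.cons CTree.nil (CTree.cons CTree.nil (CTree.cons (CTree.leaf 1 225948157103427305713970542429742873516298) (CTree.cons (CTree.leaf 1 15008581209768117643567579226196283786213326976) (CTree.cons CTree.nil (CTree.cons CTree.nil (CTree.cons CTree.nil (CTree.cons CTree.nil (CTree.cons CTree.nil (CTree.cons CTree.nil (CTree.cons CTree.nil (CTree.cons CTree.nil (CTree.cons CTree.nil (CTree.cons CTree.nil (CTree.cons CTree.nil (CTree.cons CTree.nil (CTree.cons CTree.nil (CTree.cons CTree.nil (CTree.cons (CTree.leaf 1 3383564731723755324429441103787461451377309435232929)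 (CTree.cons CTree.nil (CTree.cons (CTree.leaf 1 14629378684870078252896747701252383469501481633) (CTree.cons (CTree.leaf 1 11774883299457986085347990982460939013575485978) (CTree.cons CTree.nil (CTree.cons (CTree.leaf 1 12349740461677073123788276104056689825986765511525024) (CTree.cons (CTree.leaf 1 14807784646457837175892221887314430071844968714) (CTree.cons CTree.nil (CTree.cons CTree.nil (CTree.cons (CTree.leaf 1 11774883299457986085347990982460939013575475737) (CTree.cons CTree.nil (CTree.cons (CTree.leaf 1 12349740461677073123788276104056689825986765511525024) (CTree.cons (CTree.leaf 1 14807784646457837175892221887314430071844968714) (CTree.cons CTree.nil (CTree.cons (CTree.leaf 1 14807784646457837175892221887314430071844968714) (CTree.cons CTree.nil CTree.nil)))))))))))))))))))))))))))))))))))) (CTree.cons (CTree.cons CTree.nil (CTree.cons (CTree.leaf 1 3572340250696326218260480911472601629524608) (CTree.cons CTree.nil (CTree.cons (CTree.leaf 1 430925165196015666263462332793257580870799468397083035674) (CTree.cons CTree.nil (CTree.cons (CTree.leaf 1 983596489373866516242770249813377269814731380828698) (CTree.cons CTree.nil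 (CTree.cons CTree.nil (CTree.cons CTree.nil (CTree.cons CTree.nil (CTree.cons CTree.nil (CTree.cons CTree.nil (CTree.cons CTree.nil (CTree.cons CTree.nil (CTree.cons CTree.nil (CTree.cons CTree.nil (CTree.cons CTree.nil (CTree.cons CTree.nil (CTree.cons CTree.nil (CTree.cons (CTree.leaf 1 568624471641944883566243068799692671311876509012251) (CTree.cons (CTree.leaf 1 1530985542174439992014170179811028691976865) (CTree.cons CTree.nil (CTree.cons CTree.nil (CTree.cons (CTree.leaf 1 23360164482937954015121451756474212746) (CTree.cons CTree.nil (CTree.cons CTree.nil (CTree.cons (CTree.leaf 1 24945862554848998490208059397868921241245297672581) (CTree.cons (CTree.leaf 1 385936764838992891216890416428316944787904833585285) (CTree.cons CTree.nil (CTree.cons (CTree.leaf 1 23360164482937954015121451755803058570) (CTree.cons CTree.nil (CTree.cons (CTree.leaf 1 24945862554848998490208059397868921241245297672581) (CTree.cons (CTree.leaf 1 385936764838992891216890416428316944787904833585285) (CTree.cons (CTree.leaf 1 385936764838992891216890416428316944787904833585285) (CTree.cons CTree.nil (CTree.cons CTree.nil CTree.nil))))))))))))))))))))))))))))))))))))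 (CTree.cons (CTree.cons CTree.nil (CTree.cons (CTree.leaf 1 96983174751599414296341029335308774801536) (CTree.cons CTree.nil (CTree.cons (CTree.leaf 1 6575396197494217747064059715407960129719609694685210) (CTree.cons (CTree.leaf 1 191468671357350153831180287881274059002449651826845) (CTree.cons CTree.nil (CTree.cons CTree.nil (CTree.cons CTree.nil (CTree.cons CTree.nil (CTree.cons CTree.nil (CTree.cons CTree.nil (CTree.cons CTree.nil (CTree.cons CTree.nil (CTree.cons CTree.nil (CTree.cons CTree.nil (CTree.cons CTree.nil (CTree.cons CTree.nil (CTree.cons CTree.nil (CTree.cons CTree.nil (CTree.cons (CTree.leaf 1 568624467980166333139063700428254511862506292121883) (CTree.cons (CTree.leaf 1 1530933068781820169989246527026699165106309) (CTree.cons CTree.nil (CTree.cons (CTree.leaf 1 23360164482937994157003372257326737930) (CTree.cons CTree.nil (CTree.cons CTree.nil (CTree.cons (CTree.leaf 1 568624468018958522959018674736453082624063857889563) (CTree.cons (CTree.leaf 1 188545664635979505493985139914514143407183807250457) (CTree.cons (CTree.leaf 1 182732321632942529776864464585117132128929) (CTree.cons CTree.nil (CTree.cons CTree.nil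 (CTree.cons CTree.nil (CTree.cons CTree.nil (CTree.cons (CTree.leaf 1 6400016003059615746587046302628016944660804095443333) (CTree.cons (CTree.leaf 1 385848385463315202492816991130066595453201672700037) (CTree.cons (CTree.leaf 1 783365435217851832789898233644604784663078370934917) (CTree.cons CTree.nil CTree.nil)))))))))))))))))))))))))))))))))))) (CTree.cons CTree.nil (CTree.cons CTree.nil (CTree.cons CTree.nil (CTree.cons CTree.nil (CTree.cons CTree.nil (CTree.cons CTree.nil (CTree.cons CTree.nil (CTree.cons (CTree.cons CTree.nil (CTree.cons CTree.nil (CTree.cons CTree.nil (CTree.cons (CTree.leaf 1 982140586042630719725823317270185763685664340116129) (CTree.cons (CTree.leaf 1 1530986331404186384493912610556061954414858) (CTree.cons (CTree.leaf 1 229065871577835187120617034206320576499842) (CTree.cons CTree.nil (CTree.cons CTree.nil (CTree.cons (CTree.leaf 1 11529713937479539306584091774843797832917451425) (CTree.cons CTree.nil (CTree.cons (CTree.leaf 1 568581316258413722266460851368933385188092221719201) (CTree.cons (CTree.leaf 1 752682018441268083067721587525868041801773054826626) (CTree.cons CTree.nil (CTree.cons CTree.nil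 (CTree.cons CTree.nil (CTree.cons CTree.nil (CTree.cons CTree.nil (CTree.cons CTree.nil (CTree.cons CTree.nil (CTree.cons CTree.nil (CTree.cons CTree.nil (CTree.cons CTree.nil (CTree.cons CTree.nil (CTree.cons CTree.nil (CTree.cons CTree.nil (CTree.cons CTree.nil (CTree.cons (CTree.leaf 1 568538948284109723594472199963128256658176570628226) (CTree.cons (CTree.leaf 1 755604980556045304141933653156850957045402593990786) (CTree.cons CTree.nil (CTree.cons (CTree.leaf 1 8675172296937571271844304712287964259708639362) (CTree.cons CTree.nil (CTree.cons CTree.nil (CTree.cons (CTree.leaf 1 568538948284109723594472199963128256658176570628226) (CTree.cons (CTree.leaf 1 970448616804732416796501824346786315477558127302786) (CTree.cons (CTree.leaf 1 568538948284109723594472199963128256658176570628226) (CTree.cons CTree.nil CTree.nil)))))))))))))))))))))))))))))))))))) (CTree.cons (CTree.cons CTree.nil (CTree.cons (CTree.leaf 1 14986144693904563949365822519067894956874727441) (CTree.cons CTree.nil (CTree.cons CTree.nil (CTree.cons (CTree.leaf 1 225970852632993933018644417660231741151498) (CTree.cons (CTree.leaf 1 14807923845217456325867689233805818108395002122)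 (CTree.cons CTree.nil (CTree.cons CTree.nil (CTree.cons CTree.nil (CTree.cons (CTree.leaf 1 175926649166054274375359279589315997407498) (CTree.cons (CTree.leaf 1 217835224415748089969318978663384835227781) (CTree.cons (CTree.leaf 1 176947495769336506126160100302003330744453) (CTree.cons CTree.nil (CTree.cons CTree.nil (CTree.cons CTree.nil (CTree.cons CTree.nil (CTree.cons CTree.nil (CTree.cons CTree.nil (CTree.cons CTree.nil (CTree.cons CTree.nil (CTree.cons CTree.nil (CTree.cons CTree.nil (CTree.cons CTree.nil (CTree.cons CTree.nil (CTree.cons CTree.nil (CTree.cons (CTree.leaf 1 982140629777443268082054279687925364287314214322307) (CTree.cons CTree.nil (CTree.cons (CTree.leaf 1 947053441680302927627063443005651870954284029902979) (CTree.cons CTree.nil (CTree.cons (CTree.leaf 1 379289638566308730808302732948565719541940357) (CTree.cons CTree.nil (CTree.cons (CTree.leaf 1 982129482230889060048877450748138317332093169893507) (CTree.cons CTree.nil (CTree.cons (CTree.leaf 1 947053441680302927627063443005651870954284029902979) (CTree.cons (CTree.leaf 1 947053441680302927627063443005651870954284029902979) (CTree.cons CTree.nil CTree.nil))))))))))))))))))))))))))))))))))))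 (CTree.cons CTree.nil (CTree.cons (CTree.cons CTree.nil (CTree.cons (CTree.leaf 1 3448539035521943696458939991948329088) (CTree.cons CTree.nil (CTree.cons (CTree.leaf 1 43612064683938811033677834028737513718433) (CTree.cons CTree.nil (CTree.cons (CTree.leaf 1 49344437629463274252038206702112278907418) (CTree.cons CTree.nil (CTree.cons CTree.nil (CTree.cons (CTree.leaf 1 3447715933977284919855865754469139105) (CTree.cons (CTree.leaf 1 14629378684870078252896747701252374673408459425) (CTree.cons CTree.nil (CTree.cons (CTree.leaf 1 23360164482937994157003372257326737930) (CTree.cons CTree.nil (CTree.cons CTree.nil (CTree.cons CTree.nil (CTree.cons CTree.nil (CTree.cons CTree.nil (CTree.cons CTree.nil (CTree.cons CTree.nil (CTree.cons CTree.nil (CTree.cons CTree.nil (CTree.cons CTree.nil (CTree.cons CTree.nil (CTree.cons CTree.nil (CTree.cons CTree.nil (CTree.cons (CTree.leaf 1 8675215853081045398155563925233849201708832898) (CTree.cons (CTree.leaf 1 379333194709274613562288769685772760617386117) (CTree.cons CTree.nil (CTree.cons CTree.nil (CTree.cons (CTree.leaf 1 2035390515025115850864745164599525777) (CTree.cons CTree.nil (CTree.cons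 (CTree.leaf 1 8675215853081045398155563925233849201708832898) (CTree.cons (CTree.leaf 1 379333194709274613562288769685772760617386117) (CTree.cons (CTree.leaf 1 379333194709274613562288769685772760617386117) (CTree.cons CTree.nil (CTree.cons CTree.nil CTree.nil)))))))))))))))))))))))))))))))))))) (CTree.cons (CTree.cons CTree.nil (CTree.cons (CTree.leaf 1 2783092037848646880942678813803610240) (CTree.cons CTree.nil (CTree.cons (CTree.leaf 1 43600765921530503581075593527057455327770) (CTree.cons (CTree.leaf 1 55963255168205964999412021343243276418) (CTree.cons CTree.nil (CTree.cons CTree.nil (CTree.cons CTree.nil (CTree.cons (CTree.leaf 1 2783101936084743898769044360153606682) (CTree.cons (CTree.leaf 1 11774883299457986085347990981884478261272062490) (CTree.cons (CTree.leaf 1 23360164482937954015121451756474212746) (CTree.cons CTree.nil (CTree.cons CTree.nil (CTree.cons CTree.nil (CTree.cons CTree.nil (CTree.cons CTree.nil (CTree.cons CTree.nil (CTree.cons CTree.nil (CTree.cons CTree.nil (CTree.cons CTree.nil (CTree.cons CTree.nil (CTree.cons CTree.nil (CTree.cons CTree.nil (CTree.cons CTree.nil (CTree.cons CTree.nil (CTree.cons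 (CTree.leaf 1 8676520815380606500601450395059040432029767810) (CTree.cons (CTree.leaf 1 379292338835877677460751018564023339730993285) (CTree.cons (CTree.leaf 1 379292360825579302610889860463259831152279685) (CTree.cons CTree.nil (CTree.cons CTree.nil (CTree.cons CTree.nil (CTree.cons (CTree.leaf 1 8676520815380606500601450395059040432029767810) (CTree.cons (CTree.leaf 1 379292360824919342087498115920966635348426885) (CTree.cons CTree.nil (CTree.cons (CTree.leaf 1 379292360825579302610889860463259831152279685) (CTree.cons CTree.nil CTree.nil)))))))))))))))))))))))))))))))))))) (CTree.cons CTree.nil (CTree.cons (CTree.cons CTree.nil (CTree.cons CTree.nil (CTree.cons CTree.nil (CTree.cons (CTree.leaf 1 48595502331273852532716965323566241771820224642) (CTree.cons (CTree.leaf 1 784926710518146679834196282730735385230697258680856) (CTree.cons (CTree.leaf 1 983594015468656835214716515868807471699788460851728) (CTree.cons CTree.nil (CTree.cons CTree.nil (CTree.cons (CTree.leaf 1 14809829767461545594364582880250141416431616673) (CTree.cons (CTree.leaf 1 939757085164424306169002400445836556063852813945476) (CTree.cons CTree.nil (CTree.cons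 (CTree.leaf 1 783373553515309684515253748692136773548761059820193) (CTree.cons CTree.nil (CTree.cons CTree.nil (CTree.cons CTree.nil (CTree.cons CTree.nil (CTree.cons CTree.nil (CTree.cons CTree.nil (CTree.cons CTree.nil (CTree.cons CTree.nil (CTree.cons (CTree.leaf 1 3934376747249922504988933643049651525883435649929619) (CTree.cons CTree.nil (CTree.cons (CTree.leaf 1 8675215853081045398155563925810309954012256386) (CTree.cons (CTree.leaf 1 8675172296937226943775424615323714561936857218) (CTree.cons CTree.nil (CTree.cons CTree.nil (CTree.cons CTree.nil (CTree.cons CTree.nil (CTree.cons CTree.nil (CTree.cons CTree.nil (CTree.cons CTree.nil (CTree.cons CTree.nil (CTree.cons (CTree.leaf 1 3934376747206325935154813591907214868855096473622658) (CTree.cons (CTree.leaf 1 3934376747249902655182374163944217120632279320297489) (CTree.cons (CTree.leaf 1 3934376747206325935154813591907214868855096473622658) (CTree.cons CTree.nil CTree.nil)))))))))))))))))))))))))))))))))))) (CTree.cons (CTree.cons CTree.nil (CTree.cons (CTree.leaf 1 14807738710311375655442969369606542212616355857) (CTree.cons CTree.nil (CTree.cons (CTree.leaf 1 14450926445471214490734911171492408546348302873)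 (CTree.cons CTree.nil (CTree.cons (CTree.leaf 1 182735125808789788533612118742087886444810) (CTree.cons CTree.nil (CTree.cons CTree.nil (CTree.cons CTree.nil (CTree.cons (CTree.leaf 1 14807784702331777787504660353159033262581612677) (CTree.cons (CTree.leaf 1 568524518169344540783460625549901873184674334442008) (CTree.cons (CTree.leaf 1 385848386985738512107789000351304868316451134570629) (CTree.cons CTree.nil (CTree.cons CTree.nil (CTree.cons CTree.nil (CTree.cons CTree.nil (CTree.cons CTree.nil (CTree.cons CTree.nil (CTree.cons CTree.nil (CTree.cons (CTree.leaf 1 24988297993143470122361896899932172998901772648579) (CTree.cons CTree.nil (CTree.cons CTree.nil (CTree.cons (CTree.leaf 1 379333194709274613562288769685781556710408325) (CTree.cons (CTree.leaf 1 220843920786888863935791305533463027384453) (CTree.cons CTree.nil (CTree.cons CTree.nil (CTree.cons CTree.nil (CTree.cons CTree.nil (CTree.cons CTree.nil (CTree.cons CTree.nil (CTree.cons CTree.nil (CTree.cons (CTree.leaf 1 970437468435343549422207896722956469309618056659075) (CTree.cons CTree.nil (CTree.cons (CTree.leaf 1 947053441680325596849237648525799937167844517675139)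 (CTree.cons (CTree.leaf 1 947053441680325596849237648525799937167844517675139) (CTree.cons CTree.nil CTree.nil)))))))))))))))))))))))))))))))))))) (CTree.cons (CTree.cons CTree.nil (CTree.cons (CTree.leaf 1 14987677982853420053524255190890566044969795601) (CTree.cons CTree.nil (CTree.cons CTree.nil (CTree.cons (CTree.leaf 1 191297970824068858069888677352503176518223073410) (CTree.cons (CTree.leaf 1 983596535452874202060170719933256533376883089811994) (CTree.cons CTree.nil (CTree.cons CTree.nil (CTree.cons (CTree.leaf 1 11529713961457200323643434890686622895293203105) (CTree.cons CTree.nil (CTree.cons (CTree.leaf 1 14986190631317956667968470109255808019721748613) (CTree.cons (CTree.leaf 1 783370766537050105185054270188102460819900265529477) (CTree.cons CTree.nil (CTree.cons CTree.nil (CTree.cons CTree.nil (CTree.cons CTree.nil (CTree.cons CTree.nil (CTree.cons CTree.nil (CTree.cons CTree.nil (CTree.cons (CTree.leaf 1 982140629777442562405605255593334555575069589569667) (CTree.cons (CTree.leaf 1 947053441634024525736601053832830431410342846988419) (CTree.cons CTree.nil (CTree.cons CTree.nil (CTree.cons (CTree.leaf 1 5887442034589485548582725181510223059190026643)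 (CTree.cons CTree.nil (CTree.cons CTree.nil (CTree.cons CTree.nil (CTree.cons CTree.nil (CTree.cons CTree.nil (CTree.cons CTree.nil (CTree.cons CTree.nil (CTree.cons (CTree.leaf 1 982140629777443268255093208347356392240218983039107) (CTree.cons (CTree.leaf 1 947053441680325596849247860282057494321901834272899) (CTree.cons CTree.nil (CTree.cons (CTree.leaf 1 947053441680325596849247860282057494321901834272899) (CTree.cons CTree.nil CTree.nil)))))))))))))))))))))))))))))))))))) (CTree.cons CTree.nil (CTree.cons (CTree.cons CTree.nil (CTree.cons (CTree.leaf 1 2783092037848646880942634829043531904) (CTree.cons CTree.nil (CTree.cons (CTree.leaf 1 43600765921530503581075593527057455317529) (CTree.cons (CTree.leaf 1 49343731477090798779658440169756275376801) (CTree.cons CTree.nil (CTree.cons CTree.nil (CTree.cons CTree.nil (CTree.cons (CTree.leaf 1 2783101936084743898769044360153596441) (CTree.cons (CTree.leaf 1 11774883299457986085347990981884478261272052249) (CTree.cons (CTree.leaf 1 23360164482937954015121451755803058570) (CTree.cons CTree.nil (CTree.cons CTree.nil (CTree.cons CTree.nil (CTree.cons CTree.nil (CTree.cons CTree.nil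 (CTree.cons CTree.nil (CTree.cons CTree.nil (CTree.cons CTree.nil (CTree.cons (CTree.leaf 1 8675172296937571271844266933356101302546929794) (CTree.cons (CTree.leaf 1 379289638566308730808302732372104967238516869) (CTree.cons CTree.nil (CTree.cons (CTree.leaf 1 2035390515025115850864745164599525777) (CTree.cons CTree.nil (CTree.cons CTree.nil (CTree.cons CTree.nil (CTree.cons CTree.nil (CTree.cons CTree.nil (CTree.cons CTree.nil (CTree.cons CTree.nil (CTree.cons CTree.nil (CTree.cons (CTree.leaf 1 8675172296937571271844266933356101302546929794) (CTree.cons (CTree.leaf 1 379289638566308730808302732372104967238516869) (CTree.cons (CTree.leaf 1 379289638566308730808302732372104967238516869) (CTree.cons CTree.nil (CTree.cons CTree.nil CTree.nil)))))))))))))))))))))))))))))))))))) (CTree.cons CTree.nil (CTree.cons (CTree.cons CTree.nil (CTree.cons CTree.nil (CTree.cons CTree.nil (CTree.cons (CTree.leaf 1 48595502331273852532716965323566241771820224642) (CTree.cons (CTree.leaf 1 191297970824068858069888677351387691190073364610) (CTree.cons (CTree.leaf 1 983690934553556685255219345307891658936048643867288) (CTree.cons CTree.nil (CTree.cons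 CTree.nil (CTree.cons (CTree.leaf 1 14809272053172336727361548892430044231924777633) (CTree.cons (CTree.leaf 1 755784788025674231684001200718281685008861758554379) (CTree.cons (CTree.leaf 1 568524516260360462834823232917868218764639290458785) (CTree.cons CTree.nil (CTree.cons CTree.nil (CTree.cons CTree.nil (CTree.cons CTree.nil (CTree.cons CTree.nil (CTree.cons CTree.nil (CTree.cons CTree.nil (CTree.cons CTree.nil (CTree.cons CTree.nil (CTree.cons (CTree.leaf 1 755781933530312797445052815236662336338205975056787) (CTree.cons CTree.nil (CTree.cons (CTree.leaf 1 8675215853081045398155563925810309954012256386) (CTree.cons (CTree.leaf 1 139916406328603940559974033453292749811113591173) (CTree.cons CTree.nil (CTree.cons CTree.nil (CTree.cons (CTree.leaf 1 983599279092089548405089724142962158302136185328019) (CTree.cons (CTree.leaf 1 755781933530312797445052815236662336338205975056787) (CTree.cons CTree.nil (CTree.cons (CTree.leaf 1 8675172296937571271844304712287964259708639362) (CTree.cons CTree.nil (CTree.cons CTree.nil (CTree.cons CTree.nil (CTree.cons CTree.nil (CTree.cons CTree.nil (CTree.cons CTree.nil CTree.nil))))))))))))))))))))))))))))))))))))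 (CTree.cons (CTree.cons CTree.nil (CTree.cons (CTree.leaf 1 14807738710311375655442969369606542212616355857) (CTree.cons CTree.nil (CTree.cons (CTree.leaf 1 982177693615940530306328609682411223897643925766817) (CTree.cons (CTree.leaf 1 970537421907955143940953476135733419102386063743242) (CTree.cons CTree.nil (CTree.cons CTree.nil (CTree.cons CTree.nil (CTree.cons CTree.nil (CTree.cons (CTree.leaf 1 14807784702331777787504660353159033262581612677) (CTree.cons (CTree.leaf 1 14986190631317956667968470109255808019721748613) (CTree.cons (CTree.leaf 1 970445763754833897418845402938342542891835841391130) (CTree.cons CTree.nil (CTree.cons CTree.nil (CTree.cons CTree.nil (CTree.cons CTree.nil (CTree.cons CTree.nil (CTree.cons CTree.nil (CTree.cons CTree.nil (CTree.cons (CTree.leaf 1 24988297993143470122361896899932172998901772648579) (CTree.cons CTree.nil (CTree.cons CTree.nil (CTree.cons (CTree.leaf 1 379333194709274613562288769685781556710408325) (CTree.cons (CTree.leaf 1 379202505661776920359591182176173136140697733) (CTree.cons CTree.nil (CTree.cons (CTree.leaf 1 24988297993143470122354470589485232379561060139139) (CTree.cons CTree.nil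 (CTree.cons (CTree.leaf 1 970488714990087674868305669758131749235420133724563) (CTree.cons CTree.nil (CTree.cons (CTree.leaf 1 379289638566308730808302732948565719541940357) (CTree.cons CTree.nil (CTree.cons CTree.nil (CTree.cons CTree.nil (CTree.cons CTree.nil (CTree.cons CTree.nil (CTree.cons CTree.nil CTree.nil)))))))))))))))))))))))))))))))))))) (CTree.cons (CTree.cons CTree.nil (CTree.cons (CTree.leaf 1 14987677982853420053524255190890566044969795601) (CTree.cons CTree.nil (CTree.cons CTree.nil (CTree.cons (CTree.leaf 1 388859768113602182832031473120317396070827982651417) (CTree.cons (CTree.leaf 1 223624760444077978113409028600808699263601468449170) (CTree.cons CTree.nil (CTree.cons CTree.nil (CTree.cons (CTree.leaf 1 11529713961457200323643434890686622895293203105) (CTree.cons CTree.nil (CTree.cons (CTree.leaf 1 36543428425987973011333214093101576189855731351685) (CTree.cons (CTree.leaf 1 783365435217851832789895767516213043537534980784261) (CTree.cons CTree.nil (CTree.cons CTree.nil (CTree.cons CTree.nil (CTree.cons CTree.nil (CTree.cons CTree.nil (CTree.cons CTree.nil (CTree.cons CTree.nil (CTree.cons (CTree.leaf 1 982140629777442562405605255593334555575069589569667)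 (CTree.cons (CTree.leaf 1 947053441634024525736601053832830431410342846988419) (CTree.cons CTree.nil (CTree.cons (CTree.leaf 1 379333194709274613562288769685781556710408325) (CTree.cons CTree.nil (CTree.cons CTree.nil (CTree.cons (CTree.leaf 1 982140629777442562113495477712738862005440186351747) (CTree.cons (CTree.leaf 1 947053441634047901100372989987596027858682131447939) (CTree.cons CTree.nil (CTree.cons CTree.nil (CTree.cons (CTree.leaf 1 379289638566308730808302732948565719541940357) (CTree.cons CTree.nil (CTree.cons CTree.nil (CTree.cons CTree.nil (CTree.cons CTree.nil (CTree.cons CTree.nil (CTree.cons CTree.nil CTree.nil)))))))))))))))))))))))))))))))))))) (CTree.cons (CTree.cons CTree.nil (CTree.cons (CTree.leaf 1 14807738710311375655442969369606542212616355857) (CTree.cons CTree.nil (CTree.cons (CTree.leaf 1 48593415356796381281756024655594643713226248322) (CTree.cons CTree.nil (CTree.cons (CTree.leaf 1 983690932982131447896029202992093046128444236767634) (CTree.cons CTree.nil (CTree.cons CTree.nil (CTree.cons (CTree.leaf 1 8675215853787197765662230823724149783006413473) (CTree.cons (CTree.leaf 1 14807784702331777787340203644821289054453240347)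 (CTree.cons CTree.nil (CTree.cons (CTree.leaf 1 783365435217851832789895757764526790363280876109957) (CTree.cons CTree.nil (CTree.cons CTree.nil (CTree.cons CTree.nil (CTree.cons CTree.nil (CTree.cons CTree.nil (CTree.cons CTree.nil (CTree.cons CTree.nil (CTree.cons (CTree.leaf 1 970445764356089567753003957534730213462286220853379) (CTree.cons (CTree.leaf 1 947053441634024525736601053832830431410342846988419) (CTree.cons CTree.nil (CTree.cons CTree.nil (CTree.cons (CTree.leaf 1 379292360825579302610889861039720583455703173) (CTree.cons CTree.nil (CTree.cons (CTree.leaf 1 970445764356089567752996531224283272842945508343939) (CTree.cons (CTree.leaf 1 947053441634047901100372989987596027858682131447939) (CTree.cons (CTree.leaf 1 947053441634047901100372989987596027858682131447939) (CTree.cons CTree.nil (CTree.cons CTree.nil (CTree.cons CTree.nil (CTree.cons CTree.nil (CTree.cons CTree.nil (CTree.cons CTree.nil (CTree.cons CTree.nil (CTree.cons CTree.nil CTree.nil)))))))))))))))))))))))))))))))))))) (CTree.cons CTree.nil CTree.nil)))))))))))))))))))))))))))))))))))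

theorem tree6_2_0_ok : chk 6 (pk (goalL 6)) tree6_2_0 (stk [((2 : Fin 6), (0 : Fin 6))]) 1 (om [((2 : Fin 6), (0 : Fin 6))]) (im [((2 : Fin 6), (0 : Fin 6))])
    (cm [((2 : Fin 6), (0 : Fin 6))]) (pk (goalR [((2 : Fin 6), (0 : Fin 6))])) 0 = true := by
  decide +kernel

def tree6_2_1 : CTree :=
  CTree.cons CTree.nil (CTree.cons CTree.nil (CTree.cons (CTree.cons CTree.nil (CTree.cons CTree.nil (CTree.cons CTree.nil (CTree.cons CTree.nil (CTree.cons CTree.nil (CTree.cons CTree.nil (CTree.cons CTree.nil (CTree.cons CTree.nil (CTree.cons CTree.nil (CTree.cons (CTree.leaf 1 33282633017442859389477069337900683394) (CTree.cons (CTree.leaf 1 44581070981614646670342695463988301954) (CTree.cons (CTree.leaf 1 55879508933410728626810287152303247490) (CTree.cons CTree.nil (CTree.cons CTree.nil (CTree.cons CTree.nil (CTree.cons CTree.nil (CTree.cons CTree.nil (CTree.cons CTree.nil (CTree.cons (CTree.leaf 1 228670415226463976919324055978714213716098) (CTree.cons CTree.nil (CTree.cons CTree.nil (CTree.cons CTree.nil (CTree.cons (CTree.leaf 1 3447716567802585033470956626465853570) (CTree.cons (CTree.leaf 1 2783081262818434022335429417717338242)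 (CTree.cons (CTree.leaf 1 225948156292218041602614099455103102685314) (CTree.cons CTree.nil (CTree.cons CTree.nil (CTree.cons (CTree.leaf 1 228670415227573154269562282100215383134338) (CTree.cons CTree.nil (CTree.cons (CTree.leaf 1 2783102569910011270450888314308857986) (CTree.cons (CTree.leaf 1 225948156292218041602614099455103102685314) (CTree.cons CTree.nil (CTree.cons CTree.nil (CTree.cons (CTree.leaf 1 228670415227573154269562282100215383134338) (CTree.cons (CTree.leaf 1 225948156292218041602614099455103102685314) (CTree.cons CTree.nil CTree.nil)))))))))))))))))))))))))))))))))))) (CTree.cons (CTree.cons CTree.nil (CTree.cons CTree.nil (CTree.cons CTree.nil (CTree.cons CTree.nil (CTree.cons CTree.nil (CTree.cons CTree.nil (CTree.cons (CTree.leaf 1 89835209523998472397001946538228920156832) (CTree.cons CTree.nil (CTree.cons CTree.nil (CTree.cons CTree.nil (CTree.cons (CTree.leaf 1 1370776524887811146864553838191575713) (CTree.cons (CTree.leaf 1 1370776512512223862031492312998347425) (CTree.cons CTree.nil (CTree.cons CTree.nil (CTree.cons CTree.nil (CTree.cons CTree.nil (CTree.cons CTree.nil (CTree.cons CTree.nil (CTree.cons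 CTree.nil (CTree.cons CTree.nil (CTree.cons (CTree.leaf 1 191296020984117032691233531049635974883499055370) (CTree.cons CTree.nil (CTree.cons (CTree.leaf 1 1370776524878285931292584040010154657) (CTree.cons (CTree.leaf 1 1370776522247660837358897617824721434) (CTree.cons (CTree.leaf 1 191296020984117032691250455752856162660011219210) (CTree.cons CTree.nil (CTree.cons (CTree.leaf 1 89835209523842646697067351549472607634081) (CTree.cons CTree.nil (CTree.cons CTree.nil (CTree.cons (CTree.leaf 1 1370776522247660837358897617824711193) (CTree.cons (CTree.leaf 1 191296020984117032691250455752856162660011219210) (CTree.cons CTree.nil (CTree.cons (CTree.leaf 1 89835209523830261252044823212825440682657) (CTree.cons CTree.nil (CTree.cons (CTree.leaf 1 89835209523842646697067351549472607634081) (CTree.cons CTree.nil CTree.nil)))))))))))))))))))))))))))))))))))) (CTree.cons (CTree.cons CTree.nil (CTree.cons CTree.nil (CTree.cons CTree.nil (CTree.cons CTree.nil (CTree.cons CTree.nil (CTree.cons CTree.nil (CTree.cons (CTree.leaf 1 2858162960871386358959687842981118015485644930) (CTree.cons CTree.nil (CTree.cons CTree.nil (CTree.cons (CTree.leaf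 1 44539543368901596487426347201659476234) (CTree.cons CTree.nil (CTree.cons (CTree.leaf 1 43612105726181831418778142809972124815490) (CTree.cons CTree.nil (CTree.cons CTree.nil (CTree.cons CTree.nil (CTree.cons CTree.nil (CTree.cons CTree.nil (CTree.cons CTree.nil (CTree.cons (CTree.leaf 1 14807829904589469300397046573672485928697467010) (CTree.cons CTree.nil (CTree.cons (CTree.leaf 1 43612105897881770576379201563508670599298) (CTree.cons CTree.nil (CTree.cons CTree.nil (CTree.cons (CTree.leaf 1 3667564015319329051482354234546503971115138) (CTree.cons CTree.nil (CTree.cons CTree.nil (CTree.cons (CTree.leaf 1 14807829904589469300397046573672485928697467010) (CTree.cons (CTree.leaf 1 14562430226746223098348656213928445704279822466) (CTree.cons CTree.nil (CTree.cons (CTree.leaf 1 182732295835307361285618933792338269048962) (CTree.cons (CTree.leaf 1 14807829904589469300397046573672485928697467010) (CTree.cons CTree.nil (CTree.cons (CTree.leaf 1 8853439403408162305335005755998320293413785730) (CTree.cons (CTree.leaf 1 14562430226746223098348656213928445704279822466) (CTree.cons CTree.nil (CTree.cons CTree.nil CTree.nil))))))))))))))))))))))))))))))))))))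 (CTree.cons (CTree.cons CTree.nil (CTree.cons CTree.nil (CTree.cons CTree.nil (CTree.cons CTree.nil (CTree.cons CTree.nil (CTree.cons CTree.nil (CTree.cons (CTree.leaf 1 15011320472863016039141714554898574159467122818) (CTree.cons CTree.nil (CTree.cons CTree.nil (CTree.cons (CTree.leaf 1 3495267815823787943318260642048383242) (CTree.cons (CTree.leaf 1 229010698221904096134705259849759457415298) (CTree.cons CTree.nil (CTree.cons CTree.nil (CTree.cons CTree.nil (CTree.cons CTree.nil (CTree.cons CTree.nil (CTree.cons CTree.nil (CTree.cons CTree.nil (CTree.cons (CTree.leaf 1 6311339903278630753708581348864061327872233602) (CTree.cons CTree.nil (CTree.cons (CTree.leaf 1 229022141384212333043991834543740257702018) (CTree.cons CTree.nil (CTree.cons (CTree.leaf 1 229022141384212332895292561604198124884098) (CTree.cons CTree.nil (CTree.cons (CTree.leaf 1 6311339904000206713214922267895617437645279362) (CTree.cons CTree.nil (CTree.cons (CTree.leaf 1 229012816019054404347454297899441523921026) (CTree.cons (CTree.leaf 1 229022847568984282630295016072632077521026) (CTree.cons CTree.nil (CTree.cons CTree.nil (CTree.cons CTree.nil (CTree.cons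 CTree.nil (CTree.cons (CTree.leaf 1 6311339903278630753708581348864061327872233602) (CTree.cons (CTree.leaf 1 15008580178962189287693989809816874187723247746) (CTree.cons (CTree.leaf 1 15008536622819223402473762211783271673680760962) (CTree.cons CTree.nil CTree.nil)))))))))))))))))))))))))))))))))))) (CTree.cons (CTree.cons CTree.nil (CTree.cons CTree.nil (CTree.cons CTree.nil (CTree.cons (CTree.leaf 1 831365785006257193342881088257398244249730) (CTree.cons (CTree.leaf 1 2918998106076358022171543117115297362481282) (CTree.cons (CTree.leaf 1 229065871577828101568462885057875898142850) (CTree.cons CTree.nil (CTree.cons CTree.nil (CTree.cons CTree.nil (CTree.cons CTree.nil (CTree.cons CTree.nil (CTree.cons CTree.nil (CTree.cons CTree.nil (CTree.cons CTree.nil (CTree.cons CTree.nil (CTree.cons CTree.nil (CTree.cons CTree.nil (CTree.cons CTree.nil (CTree.cons CTree.nil (CTree.cons CTree.nil (CTree.cons (CTree.leaf 1 11530316580951986220125377130258548418620293793) (CTree.cons CTree.nil (CTree.cons (CTree.leaf 1 831313270926888178513037366832922684883333) (CTree.cons (CTree.leaf 1 831333104689432941119010822025179270087045) (CTree.cons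 CTree.nil (CTree.cons CTree.nil (CTree.cons (CTree.leaf 1 54480852893299583615688445012954055286330556672) (CTree.cons (CTree.leaf 1 11530316580952623125263226623811573995210998433) (CTree.cons CTree.nil (CTree.cons (CTree.leaf 1 831312605479256671453904699751629189611909) (CTree.cons CTree.nil (CTree.cons CTree.nil (CTree.cons (CTree.leaf 1 54480852893298772403301709346595476440142708992) (CTree.cons (CTree.leaf 1 11530316580952623125263226623811573995210998433) (CTree.cons (CTree.leaf 1 54480852893299583615688367019578000217643025057) (CTree.cons CTree.nil CTree.nil)))))))))))))))))))))))))))))))))))) (CTree.cons CTree.nil (CTree.cons CTree.nil (CTree.cons (CTree.cons CTree.nil (CTree.cons CTree.nil (CTree.cons (CTree.leaf 1 33282633017442859389477069337900683394) (CTree.cons CTree.nil (CTree.cons (CTree.leaf 1 44539543368901596487426347201659476234) (CTree.cons (CTree.leaf 1 3495267815823787943318260642048383242) (CTree.cons CTree.nil (CTree.cons CTree.nil (CTree.cons CTree.nil (CTree.cons CTree.nil (CTree.cons CTree.nil (CTree.cons CTree.nil (CTree.cons CTree.nil (CTree.cons CTree.nil (CTree.cons CTree.nil (CTree.cons CTree.nil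 (CTree.cons CTree.nil (CTree.cons CTree.nil (CTree.cons (CTree.leaf 1 175927312979362947429756372939927288684930) (CTree.cons CTree.nil (CTree.cons CTree.nil (CTree.cons CTree.nil (CTree.cons (CTree.leaf 1 3447695268301812848077036773093480714) (CTree.cons (CTree.leaf 1 2783081262818504653187698019796654346) (CTree.cons (CTree.leaf 1 225948157103422819470368085210327880958213) (CTree.cons CTree.nil (CTree.cons (CTree.leaf 1 175927312979367716569342347281237323424130) (CTree.cons CTree.nil (CTree.cons CTree.nil (CTree.cons (CTree.leaf 1 2783081262818504653187698019125500170) (CTree.cons (CTree.leaf 1 225948157103422819470368085210327880958213) (CTree.cons CTree.nil (CTree.cons (CTree.leaf 1 175927312979367716569342347281237323424130) (CTree.cons CTree.nil (CTree.cons (CTree.leaf 1 225948157103422819470368085210327880958213) (CTree.cons CTree.nil CTree.nil)))))))))))))))))))))))))))))))))))) (CTree.cons (CTree.cons CTree.nil (CTree.cons CTree.nil (CTree.cons (CTree.leaf 1 44581070981614646670342695463988301954) (CTree.cons (CTree.leaf 1 1370776524887811146864553838191575713) (CTree.cons CTree.nil (CTree.cons (CTree.leaf 1 229033393091499683602058936246474078556290)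 (CTree.cons CTree.nil (CTree.cons CTree.nil (CTree.cons CTree.nil (CTree.cons CTree.nil (CTree.cons CTree.nil (CTree.cons CTree.nil (CTree.cons CTree.nil (CTree.cons CTree.nil (CTree.cons CTree.nil (CTree.cons CTree.nil (CTree.cons CTree.nil (CTree.cons CTree.nil (CTree.cons (CTree.leaf 1 226991698889986738001839008258181523177733) (CTree.cons CTree.nil (CTree.cons (CTree.leaf 1 87115750047691445856726056637008687268229) (CTree.cons CTree.nil (CTree.cons CTree.nil (CTree.cons (CTree.leaf 1 23360153712862030083988318189461840266) (CTree.cons (CTree.leaf 1 226991621849305869914655617481601964441989) (CTree.cons CTree.nil (CTree.cons CTree.nil (CTree.cons (CTree.leaf 1 226991698889986738001839008258181523177733) (CTree.cons CTree.nil (CTree.cons (CTree.leaf 1 23360153712862030083988318188790686090) (CTree.cons (CTree.leaf 1 226991698889986738001839008258181523177733) (CTree.cons CTree.nil (CTree.cons (CTree.leaf 1 87115749549036999971054970299268664525189) (CTree.cons (CTree.leaf 1 226991698889986738001839008258181523177733) (CTree.cons CTree.nil (CTree.cons CTree.nil CTree.nil)))))))))))))))))))))))))))))))))))) (CTree.cons (CTree.cons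 CTree.nil (CTree.cons CTree.nil (CTree.cons (CTree.leaf 1 55879508933410728626810287152303247490) (CTree.cons (CTree.leaf 1 11954039244810492706452543601154644157961736322) (CTree.cons (CTree.leaf 1 1530931849435828120065005297196436959137922) (CTree.cons CTree.nil (CTree.cons CTree.nil (CTree.cons CTree.nil (CTree.cons CTree.nil (CTree.cons CTree.nil (CTree.cons CTree.nil (CTree.cons CTree.nil (CTree.cons CTree.nil (CTree.cons CTree.nil (CTree.cons CTree.nil (CTree.cons CTree.nil (CTree.cons CTree.nil (CTree.cons CTree.nil (CTree.cons (CTree.leaf 1 183435555924098693876984747617936304898309) (CTree.cons CTree.nil (CTree.cons (CTree.leaf 1 183413525353645806515492347279488871694725) (CTree.cons CTree.nil (CTree.cons (CTree.leaf 1 23360153712862070225834210443051215370) (CTree.cons CTree.nil (CTree.cons (CTree.leaf 1 183435555924098693876984747617936304898309) (CTree.cons CTree.nil (CTree.cons (CTree.leaf 1 183435478049787020656396154872464992240005) (CTree.cons (CTree.leaf 1 182394136943180238132547045705134962442913) (CTree.cons CTree.nil (CTree.cons CTree.nil (CTree.cons (CTree.leaf 1 183435478049787020656396154872464992240005)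 (CTree.cons CTree.nil (CTree.cons CTree.nil (CTree.cons (CTree.leaf 1 183435555924098693876984747617936304898309) (CTree.cons (CTree.leaf 1 183435555924098693876984747617936304898309) (CTree.cons CTree.nil CTree.nil)))))))))))))))))))))))))))))))))))) (CTree.cons CTree.nil (CTree.cons CTree.nil (CTree.cons CTree.nil (CTree.cons CTree.nil (CTree.cons CTree.nil (CTree.cons CTree.nil (CTree.cons (CTree.cons CTree.nil (CTree.cons CTree.nil (CTree.cons (CTree.leaf 1 228693110724579035172493771479791177896066) (CTree.cons CTree.nil (CTree.cons (CTree.leaf 1 8857063420599855842942707182410733121392218242) (CTree.cons (CTree.leaf 1 15011320462815939602403752919544005035081470082) (CTree.cons CTree.nil (CTree.cons CTree.nil (CTree.cons CTree.nil (CTree.cons (CTree.leaf 1 175939416223339849982191266551573061968258) (CTree.cons (CTree.leaf 1 880312477421721375583916354965452140183813) (CTree.cons (CTree.leaf 1 880312477421730943022852785140740907467013) (CTree.cons CTree.nil (CTree.cons CTree.nil (CTree.cons CTree.nil (CTree.cons CTree.nil (CTree.cons CTree.nil (CTree.cons CTree.nil (CTree.cons CTree.nil (CTree.cons CTree.nil (CTree.cons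 CTree.nil (CTree.cons CTree.nil (CTree.cons CTree.nil (CTree.cons CTree.nil (CTree.cons CTree.nil (CTree.cons CTree.nil (CTree.cons (CTree.leaf 1 755787642521072987441442953883422803877149062267139) (CTree.cons (CTree.leaf 1 752864639106545185755028333901179871197569564082849) (CTree.cons CTree.nil (CTree.cons (CTree.leaf 1 130691711350316190451829777842351583592709) (CTree.cons CTree.nil (CTree.cons CTree.nil (CTree.cons (CTree.leaf 1 12536772574738436055728202470984384406881521583063299) (CTree.cons (CTree.leaf 1 752864639106545185552043488245003517383954613273249) (CTree.cons (CTree.leaf 1 752864639106545185755028333901179871197569564082849) (CTree.cons CTree.nil CTree.nil)))))))))))))))))))))))))))))))))))) (CTree.cons CTree.nil (CTree.cons (CTree.cons CTree.nil (CTree.cons CTree.nil (CTree.cons CTree.nil (CTree.cons (CTree.leaf 1 228672476547006915485173427478414877593730) (CTree.cons (CTree.leaf 1 3667565344567617282503756658895601900589186) (CTree.cons (CTree.leaf 1 15008580169034712511097549708630268015260340354) (CTree.cons (CTree.leaf 1 11530357754345043966952955163824683800502338209) (CTree.cons CTree.nil (CTree.cons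 CTree.nil (CTree.cons CTree.nil (CTree.cons (CTree.leaf 1 87125718758993169476055797725413711151493) (CTree.cons (CTree.leaf 1 880333765503874264705820140830186887840133) (CTree.cons CTree.nil (CTree.cons CTree.nil (CTree.cons CTree.nil (CTree.cons CTree.nil (CTree.cons CTree.nil (CTree.cons CTree.nil (CTree.cons CTree.nil (CTree.cons CTree.nil (CTree.cons CTree.nil (CTree.cons CTree.nil (CTree.cons CTree.nil (CTree.cons CTree.nil (CTree.cons (CTree.leaf 1 14986233156686453086423416561260392512150504097) (CTree.cons CTree.nil (CTree.cons CTree.nil (CTree.cons (CTree.leaf 1 11530357753623314703964930746428058420683801099) (CTree.cons CTree.nil (CTree.cons (CTree.leaf 1 831312605814228231225848988444982353920389) (CTree.cons (CTree.leaf 1 14986233156686453086423416561260376608129286817) (CTree.cons CTree.nil (CTree.cons CTree.nil (CTree.cons (CTree.leaf 1 11530357753623314703964930746428058420683801099) (CTree.cons (CTree.leaf 1 14986233156685824410953712067134197087114232481) (CTree.cons CTree.nil CTree.nil)))))))))))))))))))))))))))))))))))) (CTree.cons CTree.nil (CTree.cons (CTree.cons CTree.nil (CTree.cons CTree.nil (CTree.cons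 (CTree.leaf 1 3447716567802585033470956626465853570) (CTree.cons (CTree.leaf 1 1370776524878285931292584040010154657) (CTree.cons CTree.nil (CTree.cons (CTree.leaf 1 229034094051575594193238897139650289864834) (CTree.cons (CTree.leaf 1 134414983472806205340046170812661387821445) (CTree.cons CTree.nil (CTree.cons CTree.nil (CTree.cons (CTree.leaf 1 3447695268301812848077036773093480714) (CTree.cons CTree.nil (CTree.cons (CTree.leaf 1 23360153712862070225834210443051215370) (CTree.cons CTree.nil (CTree.cons CTree.nil (CTree.cons CTree.nil (CTree.cons CTree.nil (CTree.cons CTree.nil (CTree.cons CTree.nil (CTree.cons CTree.nil (CTree.cons CTree.nil (CTree.cons CTree.nil (CTree.cons CTree.nil (CTree.cons CTree.nil (CTree.cons CTree.nil (CTree.cons (CTree.leaf 1 130691712010675653359706777389661629251845) (CTree.cons CTree.nil (CTree.cons (CTree.leaf 1 134414982974156870714747581183428038558085) (CTree.cons CTree.nil (CTree.cons CTree.nil (CTree.cons (CTree.leaf 1 2076939422119170263648892717922582929) (CTree.cons (CTree.leaf 1 130691712010675653359706777389661629251845) (CTree.cons CTree.nil (CTree.cons (CTree.leaf 1 134414982974156870714747581183428038558085)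 (CTree.cons (CTree.leaf 1 225949485832768927637223459469847133487365) (CTree.cons CTree.nil (CTree.cons CTree.nil CTree.nil)))))))))))))))))))))))))))))))))))) (CTree.cons (CTree.cons CTree.nil (CTree.cons CTree.nil (CTree.cons (CTree.leaf 1 2061384324554264674717536198042718338) (CTree.cons (CTree.leaf 1 1329269600959900379272678920456638594) (CTree.cons (CTree.leaf 1 55963255160775987264923086895381614722) (CTree.cons CTree.nil (CTree.cons (CTree.leaf 1 87115069337695113707929634981411431252357) (CTree.cons CTree.nil (CTree.cons CTree.nil (CTree.cons (CTree.leaf 1 2783081262488472940394036377809459466) (CTree.cons (CTree.leaf 1 23360153712862030083988318189461840266) (CTree.cons CTree.nil (CTree.cons CTree.nil (CTree.cons CTree.nil (CTree.cons CTree.nil (CTree.cons CTree.nil (CTree.cons CTree.nil (CTree.cons CTree.nil (CTree.cons CTree.nil (CTree.cons CTree.nil (CTree.cons CTree.nil (CTree.cons CTree.nil (CTree.cons CTree.nil (CTree.cons CTree.nil (CTree.cons (CTree.leaf 1 130701711875767767856796325710206684758277) (CTree.cons CTree.nil (CTree.cons (CTree.leaf 1 182414631263555210861034300510960650682757) (CTree.cons (CTree.leaf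 1 130691711491572732457891277529180213477637) (CTree.cons CTree.nil (CTree.cons CTree.nil (CTree.cons (CTree.leaf 1 130691711664611670781256890179442255200517) (CTree.cons CTree.nil (CTree.cons (CTree.leaf 1 182414631263555210861034300510960650682757) (CTree.cons CTree.nil (CTree.cons (CTree.leaf 1 130691711491572732457891277529180213477637) (CTree.cons CTree.nil CTree.nil)))))))))))))))))))))))))))))))))))) (CTree.cons (CTree.cons CTree.nil (CTree.cons CTree.nil (CTree.cons (CTree.leaf 1 1525828127320458033777790287586560275714178) (CTree.cons (CTree.leaf 1 228671079840464345332878459587565640028290) (CTree.cons CTree.nil (CTree.cons (CTree.leaf 1 229065871577827927485800001639846504960130) (CTree.cons CTree.nil (CTree.cons CTree.nil (CTree.cons CTree.nil (CTree.cons (CTree.leaf 1 880313931763503471989507346183781693915397) (CTree.cons (CTree.leaf 1 48329554240966790954290748700078298153844546732421) (CTree.cons (CTree.leaf 1 880312477421730943022852785140740907467013) (CTree.cons CTree.nil (CTree.cons CTree.nil (CTree.cons CTree.nil (CTree.cons CTree.nil (CTree.cons CTree.nil (CTree.cons CTree.nil (CTree.cons CTree.nil (CTree.cons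 CTree.nil (CTree.cons (CTree.leaf 1 3781004735984092096670057098839269687064632888721441) (CTree.cons CTree.nil (CTree.cons (CTree.leaf 1 130691712010678129239785348150211427500293) (CTree.cons (CTree.leaf 1 2181233254252755788856528518492616226504965) (CTree.cons CTree.nil (CTree.cons CTree.nil (CTree.cons CTree.nil (CTree.cons CTree.nil (CTree.cons CTree.nil (CTree.cons CTree.nil (CTree.cons CTree.nil (CTree.cons CTree.nil (CTree.cons (CTree.leaf 1 568524873726646553029302634854936700364522908025091) (CTree.cons (CTree.leaf 1 565606954367517170300214250939480964025924332946081) (CTree.cons (CTree.leaf 1 565606954152798996773102080538549356555970780660376) (CTree.cons CTree.nil CTree.nil)))))))))))))))))))))))))))))))))))) (CTree.cons CTree.nil (CTree.cons (CTree.cons CTree.nil (CTree.cons CTree.nil (CTree.cons CTree.nil (CTree.cons (CTree.leaf 1 880366404942521363399709676870428275052674) (CTree.cons (CTree.leaf 1 5709125866372046175133416934624870247302828162) (CTree.cons (CTree.leaf 1 229054572491698297233146581704005049258114) (CTree.cons (CTree.leaf 1 60033788467813265857558975811113912127637750297) (CTree.cons CTree.nil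 (CTree.cons CTree.nil (CTree.cons (CTree.leaf 1 175939416223339849982191266551573061968258) (CTree.cons CTree.nil (CTree.cons (CTree.leaf 1 880333765503874264705820140830186887840133) (CTree.cons CTree.nil (CTree.cons CTree.nil (CTree.cons CTree.nil (CTree.cons CTree.nil (CTree.cons CTree.nil (CTree.cons CTree.nil (CTree.cons (CTree.leaf 1 14272652867021315338502584140027700253414195737) (CTree.cons CTree.nil (CTree.cons CTree.nil (CTree.cons CTree.nil (CTree.cons (CTree.leaf 1 831313270428238843887738777203689335619973) (CTree.cons (CTree.leaf 1 182414630949022049711128928320610067153285) (CTree.cons CTree.nil (CTree.cons CTree.nil (CTree.cons CTree.nil (CTree.cons CTree.nil (CTree.cons CTree.nil (CTree.cons CTree.nil (CTree.cons (CTree.leaf 1 14273392969974776352659417545455769115703706137) (CTree.cons CTree.nil (CTree.cons CTree.nil (CTree.cons (CTree.leaf 1 14272652867021639703543104258079146212205855257) (CTree.cons (CTree.leaf 1 60033788469116207934668908353265993227104748057) (CTree.cons CTree.nil CTree.nil)))))))))))))))))))))))))))))))))))) (CTree.cons (CTree.cons CTree.nil (CTree.cons CTree.nil (CTree.cons (CTree.leaf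 1 228693110724581527939496630565160326598786) (CTree.cons CTree.nil (CTree.cons (CTree.leaf 1 182776170772912814987468615868573324808322) (CTree.cons (CTree.leaf 1 229012821414487142096383971198307566489730) (CTree.cons (CTree.leaf 1 11532404211113059553053141016494602050164818457) (CTree.cons CTree.nil (CTree.cons CTree.nil (CTree.cons CTree.nil (CTree.cons (CTree.leaf 1 130691711361718109077819621413263698952453) (CTree.cons (CTree.leaf 1 182734414462922474368200659802170530529541) (CTree.cons CTree.nil (CTree.cons CTree.nil (CTree.cons CTree.nil (CTree.cons CTree.nil (CTree.cons CTree.nil (CTree.cons CTree.nil (CTree.cons (CTree.leaf 1 14986189610470498824436273874388295008345260705) (CTree.cons CTree.nil (CTree.cons (CTree.leaf 1 11532404211113059553053141016494602050164818457) (CTree.cons CTree.nil (CTree.cons CTree.nil (CTree.cons (CTree.leaf 1 130671799053563903896630273910399710134533) (CTree.cons CTree.nil (CTree.cons CTree.nil (CTree.cons CTree.nil (CTree.cons CTree.nil (CTree.cons CTree.nil (CTree.cons CTree.nil (CTree.cons (CTree.leaf 1 14986189610470498826931605066909572889057559201) (CTree.cons CTree.nil (CTree.cons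 (CTree.leaf 1 11532404211113059553053141016494602050164818457) (CTree.cons CTree.nil (CTree.cons (CTree.leaf 1 14986189610470498826931458691993121488424272545) (CTree.cons CTree.nil CTree.nil)))))))))))))))))))))))))))))))))))) (CTree.cons CTree.nil (CTree.cons (CTree.cons CTree.nil (CTree.cons CTree.nil (CTree.cons (CTree.leaf 1 2783102569910011270450888314308857986) (CTree.cons (CTree.leaf 1 1370776522247660837358897617824711193) (CTree.cons (CTree.leaf 1 182732295673048084456405570400760258760834) (CTree.cons CTree.nil (CTree.cons (CTree.leaf 1 134414318025174698280913503731367892550021) (CTree.cons CTree.nil (CTree.cons CTree.nil (CTree.cons (CTree.leaf 1 2783081262818504653187698019125500170) (CTree.cons (CTree.leaf 1 23360153712862030083988318188790686090) (CTree.cons CTree.nil (CTree.cons CTree.nil (CTree.cons CTree.nil (CTree.cons CTree.nil (CTree.cons CTree.nil (CTree.cons CTree.nil (CTree.cons CTree.nil (CTree.cons (CTree.leaf 1 130691711188056913622616414450773573304581) (CTree.cons CTree.nil (CTree.cons (CTree.leaf 1 134414318360146258052857792424721056858501) (CTree.cons CTree.nil (CTree.cons (CTree.leaf 1 2076939422119170263648892717922582929)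 (CTree.cons CTree.nil (CTree.cons CTree.nil (CTree.cons CTree.nil (CTree.cons CTree.nil (CTree.cons CTree.nil (CTree.cons CTree.nil (CTree.cons CTree.nil (CTree.cons (CTree.leaf 1 130691711188049812432640725818647072276741) (CTree.cons CTree.nil (CTree.cons (CTree.leaf 1 134414318360146258052857792424721056858501) (CTree.cons (CTree.leaf 1 182393342866876252148083001870613617377541) (CTree.cons CTree.nil (CTree.cons CTree.nil CTree.nil)))))))))))))))))))))))))))))))))))) (CTree.cons (CTree.cons CTree.nil (CTree.cons CTree.nil (CTree.cons (CTree.leaf 1 1525829580989028879390709052054745190043778) (CTree.cons (CTree.leaf 1 228671079840464345332878459587565640028290) (CTree.cons (CTree.leaf 1 8853621847271073395338526647245656035359854722) (CTree.cons CTree.nil (CTree.cons CTree.nil (CTree.cons CTree.nil (CTree.cons CTree.nil (CTree.cons (CTree.leaf 1 880313931763503471989507346183781693915397) (CTree.cons (CTree.leaf 1 880333765514005902068709545866871746199813) (CTree.cons (CTree.leaf 1 87125718759002736914992227900702478434693) (CTree.cons CTree.nil (CTree.cons CTree.nil (CTree.cons CTree.nil (CTree.cons CTree.nil (CTree.cons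 CTree.nil (CTree.cons CTree.nil (CTree.cons CTree.nil (CTree.cons CTree.nil (CTree.cons (CTree.leaf 1 568581830475431929945892061686565111242672388112417) (CTree.cons CTree.nil (CTree.cons (CTree.leaf 1 130691712010678129239785348150211427500293) (CTree.cons (CTree.leaf 1 2181233254252757944338374346693010597085445) (CTree.cons CTree.nil (CTree.cons CTree.nil (CTree.cons (CTree.leaf 1 3781004732545922338780915271459061148071369673867297) (CTree.cons (CTree.leaf 1 14809220641458069260965475429981464329885915170) (CTree.cons CTree.nil (CTree.cons (CTree.leaf 1 130691711350309089261854089210225082564869) (CTree.cons CTree.nil (CTree.cons CTree.nil (CTree.cons CTree.nil (CTree.cons CTree.nil (CTree.cons CTree.nil (CTree.cons CTree.nil CTree.nil)))))))))))))))))))))))))))))))))))) (CTree.cons CTree.nil (CTree.cons (CTree.cons CTree.nil (CTree.cons CTree.nil (CTree.cons CTree.nil (CTree.cons (CTree.leaf 1 178661675786352861205968039431784657653890) (CTree.cons (CTree.leaf 1 8853482969535915047022340218159375755348938882) (CTree.cons (CTree.leaf 1 229065871577827927442801297322200252682370) (CTree.cons (CTree.leaf 1 99996673896014653248923744769311382774262923937)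 (CTree.cons CTree.nil (CTree.cons CTree.nil (CTree.cons (CTree.leaf 1 175939416223339849982191266551573061968258) (CTree.cons (CTree.leaf 1 87135568395837985754507671661997367886213) (CTree.cons CTree.nil (CTree.cons CTree.nil (CTree.cons CTree.nil (CTree.cons CTree.nil (CTree.cons CTree.nil (CTree.cons CTree.nil (CTree.cons CTree.nil (CTree.cons (CTree.leaf 1 14986276712829104108885456703108438756413276833) (CTree.cons CTree.nil (CTree.cons CTree.nil (CTree.cons CTree.nil (CTree.cons (CTree.leaf 1 831313270428238843887738777203689335619973) (CTree.cons (CTree.leaf 1 182414630949022049711128928320610067153285) (CTree.cons (CTree.leaf 1 99997421836657145471666437266079835801981682337) (CTree.cons CTree.nil (CTree.cons CTree.nil (CTree.cons (CTree.leaf 1 11529572424466141636490722273249879538873860768) (CTree.cons CTree.nil (CTree.cons (CTree.leaf 1 831312605814228231225848988444982353920389) (CTree.cons CTree.nil (CTree.cons CTree.nil (CTree.cons CTree.nil (CTree.cons CTree.nil (CTree.cons CTree.nil (CTree.cons CTree.nil CTree.nil)))))))))))))))))))))))))))))))))))) (CTree.cons (CTree.cons CTree.nil (CTree.cons CTree.nil (CTree.cons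 (CTree.leaf 1 228693110724581527939496630565160326598786) (CTree.cons CTree.nil (CTree.cons (CTree.leaf 1 14562517339031992606735120080900714084315041922) (CTree.cons (CTree.leaf 1 15008580168847608000850002915621247715768406146) (CTree.cons (CTree.leaf 1 11532404211113050679498934678075564629887550113) (CTree.cons CTree.nil (CTree.cons CTree.nil (CTree.cons CTree.nil (CTree.cons (CTree.leaf 1 880313972803216285443637322735192640192773) (CTree.cons (CTree.leaf 1 880312477421730943022852785140740907467013) (CTree.cons CTree.nil (CTree.cons CTree.nil (CTree.cons CTree.nil (CTree.cons CTree.nil (CTree.cons CTree.nil (CTree.cons CTree.nil (CTree.cons (CTree.leaf 1 14986189610470498824436273874388295008345260705) (CTree.cons CTree.nil (CTree.cons (CTree.leaf 1 11532404211113050679498934678075564629887615648) (CTree.cons CTree.nil (CTree.cons (CTree.leaf 1 225949485832768927675002391332804295196933) (CTree.cons CTree.nil (CTree.cons (CTree.leaf 1 14986189610470498826931605066909588793078776481) (CTree.cons CTree.nil (CTree.cons (CTree.leaf 1 11532404211113050679498934678075564629887615648) (CTree.cons CTree.nil (CTree.cons CTree.nil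 (CTree.cons (CTree.leaf 1 182393342866878728028161572631163415625989) (CTree.cons CTree.nil (CTree.cons CTree.nil (CTree.cons CTree.nil (CTree.cons CTree.nil (CTree.cons CTree.nil (CTree.cons CTree.nil CTree.nil)))))))))))))))))))))))))))))))))))) (CTree.cons (CTree.cons CTree.nil (CTree.cons CTree.nil (CTree.cons (CTree.leaf 1 1525828127168092375142967078041965314510978) (CTree.cons (CTree.leaf 1 222260307317426375061543186105695020847234) (CTree.cons CTree.nil (CTree.cons (CTree.leaf 1 15011320462816083718697249803352621753001709698) (CTree.cons (CTree.leaf 1 8675076997962384548481690309592319828187808417) (CTree.cons CTree.nil (CTree.cons CTree.nil (CTree.cons (CTree.leaf 1 880313931763503471989507346183781693915397) (CTree.cons CTree.nil (CTree.cons (CTree.leaf 1 880312477421730943022852785140740907467013) (CTree.cons CTree.nil (CTree.cons CTree.nil (CTree.cons CTree.nil (CTree.cons CTree.nil (CTree.cons CTree.nil (CTree.cons CTree.nil (CTree.cons (CTree.leaf 1 5820625188528503315594111653033429035145888417) (CTree.cons CTree.nil (CTree.cons (CTree.leaf 1 8675076997962384548481690309592319828187808417) (CTree.cons CTree.nil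 (CTree.cons CTree.nil (CTree.cons (CTree.leaf 1 130691711350309089261854089210225753719045) (CTree.cons (CTree.leaf 1 14807783648882253841799362114866848953591268001) (CTree.cons CTree.nil (CTree.cons (CTree.leaf 1 8675076997962384538579570453055616435494191777) (CTree.cons (CTree.leaf 1 5820625188527854370267193663639885466285769377) (CTree.cons CTree.nil (CTree.cons CTree.nil (CTree.cons CTree.nil (CTree.cons CTree.nil (CTree.cons CTree.nil (CTree.cons CTree.nil (CTree.cons CTree.nil (CTree.cons CTree.nil CTree.nil)))))))))))))))))))))))))))))))))))) (CTree.cons CTree.nil CTree.nil)))))))))))))))))))))))))))))))))))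

theorem tree6_2_1_ok : chk 6 (pk (goalL 6)) tree6_2_1 (stk [((2 : Fin 6), (1 : Fin 6))]) 1 (om [((2 : Fin 6), (1 : Fin 6))]) (im [((2 : Fin 6), (1 : Fin 6))])
    (cm [((2 : Fin 6), (1 : Fin 6))]) (pk (goalR [((2 : Fin 6), (1 : Fin 6))])) 0 = true := by
  decide +kernel

def tree6_2_3 : CTree :=
  CTree.cons CTree.nil (CTree.cons (CTree.cons CTree.nil (CTree.cons CTree.nil (CTree.cons CTree.nil (CTree.cons CTree.nil (CTree.cons CTree.nil (CTree.cons CTree.nil (CTree.cons CTree.nil (CTree.cons CTree.nil (CTree.cons (CTree.leaf 1 853921789803922649709013138669696) (CTree.cons CTree.nil (CTree.cons (CTree.leaf 1 20929264718592267640744067072128) (CTree.cons (CTree.leaf 1 20916889091019745513441262698624) (CTree.cons CTree.nil (CTree.cons CTree.nil (CTree.cons CTree.nil (CTree.cons CTree.nil (CTree.cons CTree.nil (CTree.cons CTree.nil (CTree.cons (CTree.leaf 1 228670420418763311409621485783077972148352) (CTree.cons CTree.nil (CTree.cons CTree.nil (CTree.cons CTree.nil (CTree.cons (CTree.leaf 1 51352859927299532272420983472256) (CTree.cons (CTree.leaf 1 41209024462748371986875061764224) (CTree.cons (CTree.leaf 1 43899831500865656639646043479536413245568)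 (CTree.cons CTree.nil (CTree.cons (CTree.leaf 1 228670420418763311409621485783077972148352) (CTree.cons CTree.nil (CTree.cons CTree.nil (CTree.cons (CTree.leaf 1 41209024462748371986874390610048) (CTree.cons (CTree.leaf 1 43899831500865656639646043479536413245568) (CTree.cons CTree.nil (CTree.cons (CTree.leaf 1 228670420418763311409621485783077972148352) (CTree.cons CTree.nil (CTree.cons (CTree.leaf 1 223225902527755779030684226024512761692288) (CTree.cons CTree.nil CTree.nil)))))))))))))))))))))))))))))))))))) (CTree.cons (CTree.cons CTree.nil (CTree.cons CTree.nil (CTree.cons CTree.nil (CTree.cons CTree.nil (CTree.cons CTree.nil (CTree.cons CTree.nil (CTree.cons (CTree.leaf 1 664656870708333484446474513047097474) (CTree.cons CTree.nil (CTree.cons CTree.nil (CTree.cons CTree.nil (CTree.cons (CTree.leaf 1 680253158288797709211434471198850) (CTree.cons (CTree.leaf 1 852653639730999817169812045500546) (CTree.cons CTree.nil (CTree.cons CTree.nil (CTree.cons CTree.nil (CTree.cons CTree.nil (CTree.cons CTree.nil (CTree.cons CTree.nil (CTree.cons CTree.nil (CTree.cons (CTree.leaf 1 3489233630774901992717213233852780674) (CTree.cons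 CTree.nil (CTree.cons CTree.nil (CTree.cons (CTree.leaf 1 10154215419882076725427396743298) (CTree.cons (CTree.leaf 1 10151584757156823707799871164546) (CTree.cons (CTree.leaf 1 3489233630791826695937401010364944514) (CTree.cons (CTree.leaf 1 664656714882671181171379904100503682) (CTree.cons CTree.nil (CTree.cons CTree.nil (CTree.cons CTree.nil (CTree.cons (CTree.leaf 1 10151584757156823707799200010370) (CTree.cons (CTree.leaf 1 3489233630791826695937401010364944514) (CTree.cons (CTree.leaf 1 664656702506897565776421124237758594) (CTree.cons CTree.nil (CTree.cons CTree.nil (CTree.cons (CTree.leaf 1 664656714882671181171379904100503682) (CTree.cons CTree.nil CTree.nil)))))))))))))))))))))))))))))))))))) (CTree.cons CTree.nil (CTree.cons (CTree.cons CTree.nil (CTree.cons CTree.nil (CTree.cons CTree.nil (CTree.cons CTree.nil (CTree.cons CTree.nil (CTree.cons CTree.nil (CTree.cons (CTree.leaf 1 43612105716053137596992847439799471702664) (CTree.cons CTree.nil (CTree.cons (CTree.leaf 1 679626917592820877715003662209154) (CTree.cons CTree.nil (CTree.cons CTree.nil (CTree.cons (CTree.leaf 1 1370776524887839460241911949444585738) (CTree.cons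 CTree.nil (CTree.cons CTree.nil (CTree.cons CTree.nil (CTree.cons CTree.nil (CTree.cons CTree.nil (CTree.cons CTree.nil (CTree.cons (CTree.leaf 1 223225898168057324546085931729727588729505) (CTree.cons (CTree.leaf 1 1370776524887994966870589730222840074) (CTree.cons CTree.nil (CTree.cons CTree.nil (CTree.cons CTree.nil (CTree.cons (CTree.leaf 1 853931505862517776462118285021314) (CTree.cons CTree.nil (CTree.cons (CTree.leaf 1 223225897335300473724362198385306458981025) (CTree.cons (CTree.leaf 1 43557530163065152369699088903348320016650) (CTree.cons CTree.nil (CTree.cons CTree.nil (CTree.cons (CTree.leaf 1 42555893553936695166634689630338) (CTree.cons (CTree.leaf 1 43557529361128056574789598724709444288665) (CTree.cons (CTree.leaf 1 43557530163065152369846522118947856188065) (CTree.cons (CTree.leaf 1 43557530163065152369699088903348320016650) (CTree.cons CTree.nil (CTree.cons CTree.nil (CTree.cons CTree.nil CTree.nil)))))))))))))))))))))))))))))))))))) (CTree.cons (CTree.cons CTree.nil (CTree.cons CTree.nil (CTree.cons CTree.nil (CTree.cons CTree.nil (CTree.cons CTree.nil (CTree.cons CTree.nil (CTree.cons (CTree.leaf 1 229010697564230964512056130925543489143304)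 (CTree.cons CTree.nil (CTree.cons (CTree.leaf 1 53333554318602007590231095447682) (CTree.cons CTree.nil (CTree.cons (CTree.leaf 1 3494436702183741287878568218604478866) (CTree.cons CTree.nil (CTree.cons CTree.nil (CTree.cons CTree.nil (CTree.cons CTree.nil (CTree.cons CTree.nil (CTree.cons CTree.nil (CTree.cons CTree.nil (CTree.cons (CTree.leaf 1 229010827369354811018735898252933961220624) (CTree.cons (CTree.leaf 1 3494590404973615129343825611410509954) (CTree.cons CTree.nil (CTree.cons CTree.nil (CTree.cons (CTree.leaf 1 53333554318602007590231077621890) (CTree.cons CTree.nil (CTree.cons (CTree.leaf 1 229010697572946062235424999091625450930704) (CTree.cons (CTree.leaf 1 3412231807533887805408662067495911306921910674) (CTree.cons (CTree.leaf 1 3494425929672963279207872282553295250) (CTree.cons CTree.nil (CTree.cons CTree.nil (CTree.cons CTree.nil (CTree.cons CTree.nil (CTree.cons (CTree.leaf 1 229010697563911710057320543164428325093904) (CTree.cons (CTree.leaf 1 229010697563911710057322848118976452108690) (CTree.cons CTree.nil (CTree.cons (CTree.leaf 1 229010827369352469334238449528405015273874) (CTree.cons CTree.nil CTree.nil))))))))))))))))))))))))))))))))))))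 (CTree.cons (CTree.cons CTree.nil (CTree.cons CTree.nil (CTree.cons (CTree.leaf 1 664656873348667762211324836504998018) (CTree.cons CTree.nil (CTree.cons (CTree.leaf 1 44540029671363109041930487058642571394) (CTree.cons (CTree.leaf 1 3495267815823901169433385071134052482) (CTree.cons CTree.nil (CTree.cons CTree.nil (CTree.cons CTree.nil (CTree.cons CTree.nil (CTree.cons CTree.nil (CTree.cons CTree.nil (CTree.cons CTree.nil (CTree.cons CTree.nil (CTree.cons CTree.nil (CTree.cons CTree.nil (CTree.cons CTree.nil (CTree.cons CTree.nil (CTree.cons CTree.nil (CTree.cons (CTree.leaf 1 228672435667965842858871109071701879227041) (CTree.cons CTree.nil (CTree.cons CTree.nil (CTree.cons (CTree.leaf 1 3406167417904204326071477993707602593) (CTree.cons (CTree.leaf 1 2741542887620269858782781299463629338) (CTree.cons CTree.nil (CTree.cons (CTree.leaf 1 223225897356837819813411444447857280221857) (CTree.cons (CTree.leaf 1 228672435667965842753080646067969036321441) (CTree.cons CTree.nil (CTree.cons CTree.nil (CTree.cons (CTree.leaf 1 2741553420011706248274979165520855577) (CTree.cons CTree.nil (CTree.cons (CTree.leaf 1 223225897356837819813411444447857280221857)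 (CTree.cons (CTree.leaf 1 228672435667965842753080646067969036321441) (CTree.cons CTree.nil (CTree.cons (CTree.leaf 1 223225897356837819813411444447857280221857) (CTree.cons CTree.nil CTree.nil)))))))))))))))))))))))))))))))))))) (CTree.cons CTree.nil (CTree.cons (CTree.cons CTree.nil (CTree.cons (CTree.leaf 1 853921789803922649709013138669696) (CTree.cons CTree.nil (CTree.cons CTree.nil (CTree.cons (CTree.leaf 1 679626917592820877715003662209154) (CTree.cons (CTree.leaf 1 53333554318602007590231095447682) (CTree.cons CTree.nil (CTree.cons CTree.nil (CTree.cons CTree.nil (CTree.cons CTree.nil (CTree.cons CTree.nil (CTree.cons CTree.nil (CTree.cons CTree.nil (CTree.cons CTree.nil (CTree.cons CTree.nil (CTree.cons CTree.nil (CTree.cons CTree.nil (CTree.cons CTree.nil (CTree.cons (CTree.leaf 1 3489264450050320059901635230165500577) (CTree.cons CTree.nil (CTree.cons CTree.nil (CTree.cons CTree.nil (CTree.cons (CTree.leaf 1 51340004250274477926093823476385) (CTree.cons (CTree.leaf 1 41198799408307915093219416812058) (CTree.cons (CTree.leaf 1 3364618506186983602341491099866628769) (CTree.cons (CTree.leaf 1 3489264450050176491083229292464308897)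 (CTree.cons CTree.nil (CTree.cons CTree.nil (CTree.cons CTree.nil (CTree.cons (CTree.leaf 1 41198799408307915093219416801817) (CTree.cons (CTree.leaf 1 3364618506186983602341491099866628769) (CTree.cons (CTree.leaf 1 3489264450050176491083229292464308897) (CTree.cons CTree.nil (CTree.cons CTree.nil (CTree.cons (CTree.leaf 1 3364618506186983602341491099866628769) (CTree.cons CTree.nil CTree.nil)))))))))))))))))))))))))))))))))))) (CTree.cons CTree.nil (CTree.cons (CTree.cons CTree.nil (CTree.cons (CTree.leaf 1 20929264718592267640744067072128) (CTree.cons (CTree.leaf 1 680253158288797709211434471198850) (CTree.cons CTree.nil (CTree.cons CTree.nil (CTree.cons (CTree.leaf 1 3494436068393500021956276580720447618) (CTree.cons CTree.nil (CTree.cons CTree.nil (CTree.cons CTree.nil (CTree.cons CTree.nil (CTree.cons CTree.nil (CTree.cons CTree.nil (CTree.cons CTree.nil (CTree.cons CTree.nil (CTree.cons CTree.nil (CTree.cons CTree.nil (CTree.cons CTree.nil (CTree.cons CTree.nil (CTree.cons (CTree.leaf 1 3463272158877336793092745565359964424) (CTree.cons (CTree.leaf 1 3463282683348087576329792724834263434) (CTree.cons CTree.nil (CTree.cons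 CTree.nil (CTree.cons CTree.nil (CTree.cons (CTree.leaf 1 10141524076486032465505020412037) (CTree.cons (CTree.leaf 1 664948829137050517753507821841416859) (CTree.cons CTree.nil (CTree.cons (CTree.leaf 1 3463272158877336793092745565359964424) (CTree.cons CTree.nil (CTree.cons CTree.nil (CTree.cons (CTree.leaf 1 20916389648725917016524599140746) (CTree.cons (CTree.leaf 1 3463272158877336793092745565359964424) (CTree.cons (CTree.leaf 1 3463282683348087576329792724834263434) (CTree.cons (CTree.leaf 1 3463272158877336793092745565359964424) (CTree.cons CTree.nil (CTree.cons CTree.nil (CTree.cons CTree.nil CTree.nil)))))))))))))))))))))))))))))))))))) (CTree.cons (CTree.cons CTree.nil (CTree.cons (CTree.leaf 1 20916889091019745513441262698624) (CTree.cons (CTree.leaf 1 879971016069070046173660537200350565835154) (CTree.cons CTree.nil (CTree.cons (CTree.leaf 1 1370776524887801681310048992282876170) (CTree.cons CTree.nil (CTree.cons CTree.nil (CTree.cons CTree.nil (CTree.cons CTree.nil (CTree.cons CTree.nil (CTree.cons CTree.nil (CTree.cons CTree.nil (CTree.cons CTree.nil (CTree.cons CTree.nil (CTree.cons CTree.nil (CTree.cons CTree.nil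 (CTree.cons CTree.nil (CTree.cons CTree.nil (CTree.cons (CTree.leaf 1 2798658148116019437170769537454965000) (CTree.cons (CTree.leaf 1 2798668685455508778037949148170365450) (CTree.cons CTree.nil (CTree.cons CTree.nil (CTree.cons (CTree.leaf 1 20916389648726529530714157820426) (CTree.cons CTree.nil (CTree.cons (CTree.leaf 1 2798658148116019437170769537454965000) (CTree.cons (CTree.leaf 1 2798668685455508778037949148170365450) (CTree.cons (CTree.leaf 1 2788448807088237912325909333876015777) (CTree.cons CTree.nil (CTree.cons CTree.nil (CTree.cons CTree.nil (CTree.cons (CTree.leaf 1 664948816422931242010866423616373275) (CTree.cons CTree.nil (CTree.cons (CTree.leaf 1 2798658148116019437170769537454965000) (CTree.cons CTree.nil (CTree.cons (CTree.leaf 1 2798658148116019437170769537454965000) (CTree.cons CTree.nil CTree.nil)))))))))))))))))))))))))))))))))))) (CTree.cons CTree.nil (CTree.cons CTree.nil (CTree.cons CTree.nil (CTree.cons CTree.nil (CTree.cons CTree.nil (CTree.cons CTree.nil (CTree.cons (CTree.cons CTree.nil (CTree.cons (CTree.leaf 1 1329269593697804915381316523206443680) (CTree.cons CTree.nil (CTree.cons CTree.nil (CTree.cons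 (CTree.leaf 1 87168248712265584694854035895282108141698) (CTree.cons (CTree.leaf 1 229010697564783535381662993844882803335570) (CTree.cons CTree.nil (CTree.cons CTree.nil (CTree.cons (CTree.leaf 1 3489264450050320060478095982468924065) (CTree.cons CTree.nil (CTree.cons (CTree.leaf 1 5887405295434038040170672373182569916034777744) (CTree.cons (CTree.leaf 1 13432492889419403731253063275857914378) (CTree.cons CTree.nil (CTree.cons CTree.nil (CTree.cons CTree.nil (CTree.cons CTree.nil (CTree.cons CTree.nil (CTree.cons CTree.nil (CTree.cons CTree.nil (CTree.cons CTree.nil (CTree.cons CTree.nil (CTree.cons CTree.nil (CTree.cons CTree.nil (CTree.cons CTree.nil (CTree.cons CTree.nil (CTree.cons (CTree.leaf 1 11529713950823376991353897324268969462176227458) (CTree.cons (CTree.leaf 1 557739146369685745899154876753259093186117765) (CTree.cons CTree.nil (CTree.cons CTree.nil (CTree.cons (CTree.leaf 1 2700004510441733850627808646465126937) (CTree.cons CTree.nil (CTree.cons (CTree.leaf 1 11529713950823376991353897324268969462176227458) (CTree.cons (CTree.leaf 1 557739146369685745899154876753259093186117765) (CTree.cons CTree.nil (CTree.cons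 (CTree.leaf 1 557739146369685745899154876753259093186117765) (CTree.cons CTree.nil CTree.nil)))))))))))))))))))))))))))))))))))) (CTree.cons (CTree.cons CTree.nil (CTree.cons CTree.nil (CTree.cons (CTree.leaf 1 3489233630774939771649076191014490242) (CTree.cons CTree.nil (CTree.cons (CTree.leaf 1 1330081917710119337008666627474591874) (CTree.cons (CTree.leaf 1 3495267805763149702341372669661941890) (CTree.cons (CTree.leaf 1 177971167143425261243350003403120709796357) (CTree.cons CTree.nil (CTree.cons CTree.nil (CTree.cons CTree.nil (CTree.cons (CTree.leaf 1 664818961961358446819000052053254538) (CTree.cons (CTree.leaf 1 13432482119343479800083901461582391818) (CTree.cons CTree.nil (CTree.cons CTree.nil (CTree.cons CTree.nil (CTree.cons CTree.nil (CTree.cons CTree.nil (CTree.cons CTree.nil (CTree.cons CTree.nil (CTree.cons CTree.nil (CTree.cons CTree.nil (CTree.cons CTree.nil (CTree.cons CTree.nil (CTree.cons CTree.nil (CTree.cons (CTree.leaf 1 174237884954112485541579629993787025064197) (CTree.cons CTree.nil (CTree.cons (CTree.leaf 1 177971167326281070125480424004884925317637) (CTree.cons CTree.nil (CTree.cons CTree.nil (CTree.cons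 (CTree.leaf 1 2741553420011590422398431249200906777) (CTree.cons (CTree.leaf 1 174237884954112485541579629993787025064197) (CTree.cons CTree.nil (CTree.cons (CTree.leaf 1 177971167326281070125480424004884925317637) (CTree.cons CTree.nil (CTree.cons (CTree.leaf 1 174237884954102918142783929679503834546437) (CTree.cons CTree.nil CTree.nil)))))))))))))))))))))))))))))))))))) (CTree.cons CTree.nil (CTree.cons CTree.nil (CTree.cons (CTree.cons CTree.nil (CTree.cons (CTree.leaf 1 51352859927299532272420983472256) (CTree.cons (CTree.leaf 1 10154215419882076725427396743298) (CTree.cons CTree.nil (CTree.cons CTree.nil (CTree.cons (CTree.leaf 1 53333554318602007590231077621890) (CTree.cons (CTree.leaf 1 3406167417904204326071477993573384865) (CTree.cons CTree.nil (CTree.cons (CTree.leaf 1 51340004250274477926093823476385) (CTree.cons CTree.nil (CTree.cons CTree.nil (CTree.cons (CTree.leaf 1 20916389648726529530714157820426) (CTree.cons CTree.nil (CTree.cons CTree.nil (CTree.cons CTree.nil (CTree.cons CTree.nil (CTree.cons CTree.nil (CTree.cons CTree.nil (CTree.cons CTree.nil (CTree.cons CTree.nil (CTree.cons CTree.nil (CTree.cons CTree.nil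 (CTree.cons CTree.nil (CTree.cons CTree.nil (CTree.cons (CTree.leaf 1 3364618505858351849236572527588082337) (CTree.cons (CTree.leaf 1 3406167417904010580530980132151755425) (CTree.cons CTree.nil (CTree.cons CTree.nil (CTree.cons CTree.nil (CTree.cons (CTree.leaf 1 20916389658685505712621286391941) (CTree.cons (CTree.leaf 1 3364618505858351849236572527588082337) (CTree.cons (CTree.leaf 1 3406167417904010580530980132151755425) (CTree.cons (CTree.leaf 1 3364618505858351849236572527588082337) (CTree.cons CTree.nil (CTree.cons CTree.nil (CTree.cons CTree.nil CTree.nil)))))))))))))))))))))))))))))))))))) (CTree.cons (CTree.cons CTree.nil (CTree.cons (CTree.leaf 1 41209024462748371986875061764224) (CTree.cons (CTree.leaf 1 10151584757156823707799871164546) (CTree.cons CTree.nil (CTree.cons (CTree.leaf 1 853931505862517776462118285021314) (CTree.cons CTree.nil (CTree.cons (CTree.leaf 1 2741553420011625674126339104378530330) (CTree.cons CTree.nil (CTree.cons (CTree.leaf 1 41198799408307915093219416812058) (CTree.cons CTree.nil (CTree.cons (CTree.leaf 1 20916389764514514788659237617797) (CTree.cons CTree.nil (CTree.cons CTree.nil (CTree.cons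 CTree.nil (CTree.cons CTree.nil (CTree.cons CTree.nil (CTree.cons CTree.nil (CTree.cons CTree.nil (CTree.cons CTree.nil (CTree.cons CTree.nil (CTree.cons CTree.nil (CTree.cons CTree.nil (CTree.cons CTree.nil (CTree.cons CTree.nil (CTree.cons (CTree.leaf 1 2076939659803579775675829299340978714) (CTree.cons (CTree.leaf 1 2741553420011625674126339104378530330) (CTree.cons (CTree.leaf 1 2700004507803857712228688362781878810) (CTree.cons CTree.nil (CTree.cons CTree.nil (CTree.cons CTree.nil (CTree.cons (CTree.leaf 1 2659115328499220973182685891277171226) (CTree.cons (CTree.leaf 1 2741553420011625674126339104378530330) (CTree.cons CTree.nil (CTree.cons CTree.nil (CTree.cons (CTree.leaf 1 2700004507803857712228688362781878810) (CTree.cons CTree.nil CTree.nil)))))))))))))))))))))))))))))))))))) (CTree.cons (CTree.cons CTree.nil (CTree.cons (CTree.leaf 1 13432493298415933468356720099311288448) (CTree.cons (CTree.leaf 1 3489233630774939771649076191014490242) (CTree.cons CTree.nil (CTree.cons CTree.nil (CTree.cons (CTree.leaf 1 3495267815823901169433393858503053442) (CTree.cons CTree.nil (CTree.cons CTree.nil (CTree.cons (CTree.leaf 1 3364618508662863680912251649664877217)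 (CTree.cons CTree.nil (CTree.cons (CTree.leaf 1 736712401193713045867509821335374059976852112) (CTree.cons (CTree.leaf 1 13432492889419403731253063275857914378) (CTree.cons CTree.nil (CTree.cons CTree.nil (CTree.cons CTree.nil (CTree.cons CTree.nil (CTree.cons CTree.nil (CTree.cons CTree.nil (CTree.cons CTree.nil (CTree.cons (CTree.leaf 1 2921408862345807933678134755663295327905055376) (CTree.cons CTree.nil (CTree.cons CTree.nil (CTree.cons (CTree.leaf 1 3364618508334231927807333077386330785) (CTree.cons (CTree.leaf 1 2076939659803620026471397558056987162) (CTree.cons CTree.nil (CTree.cons CTree.nil (CTree.cons CTree.nil (CTree.cons CTree.nil (CTree.cons CTree.nil (CTree.cons CTree.nil (CTree.cons CTree.nil (CTree.cons (CTree.leaf 1 736147830216866090637649461233887484296888581) (CTree.cons (CTree.leaf 1 736145107957930731031440622934445985233961093) (CTree.cons CTree.nil (CTree.cons (CTree.leaf 1 736145107957930731031440622934445985233961093) (CTree.cons CTree.nil CTree.nil)))))))))))))))))))))))))))))))))))) (CTree.cons (CTree.cons CTree.nil (CTree.cons CTree.nil (CTree.cons (CTree.leaf 1 664818974159500394534771482110791810)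 (CTree.cons CTree.nil (CTree.cons (CTree.leaf 1 182776171066215782067228341518462802399362) (CTree.cons (CTree.leaf 1 229010827369354945252279874939681002234258) (CTree.cons (CTree.leaf 1 90858715718770115188253488639762648072453) (CTree.cons CTree.nil (CTree.cons (CTree.leaf 1 3489264450050214270015092249626018465) (CTree.cons CTree.nil (CTree.cons CTree.nil (CTree.cons (CTree.leaf 1 13432482119343479800083901461582391818) (CTree.cons CTree.nil (CTree.cons CTree.nil (CTree.cons CTree.nil (CTree.cons CTree.nil (CTree.cons CTree.nil (CTree.cons CTree.nil (CTree.cons (CTree.leaf 1 90899931987421346872798001510278095241733) (CTree.cons CTree.nil (CTree.cons CTree.nil (CTree.cons CTree.nil (CTree.cons (CTree.leaf 1 3406167417904048359462843089313464993) (CTree.cons (CTree.leaf 1 2783081260178210663188471153812384282) (CTree.cons CTree.nil (CTree.cons CTree.nil (CTree.cons CTree.nil (CTree.cons CTree.nil (CTree.cons CTree.nil (CTree.cons CTree.nil (CTree.cons (CTree.leaf 1 90858715251172635109252774517342875943173) (CTree.cons CTree.nil (CTree.cons (CTree.leaf 1 217782101852288608313148755763631046066693) (CTree.cons CTree.nil (CTree.cons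 (CTree.leaf 1 90858715251172635109252774517342875943173) (CTree.cons CTree.nil CTree.nil)))))))))))))))))))))))))))))))))))) (CTree.cons (CTree.cons CTree.nil (CTree.cons (CTree.leaf 1 3489265086848220122849982958918500480) (CTree.cons CTree.nil (CTree.cons CTree.nil (CTree.cons (CTree.leaf 1 2788943039950795254548657410570719362) (CTree.cons (CTree.leaf 1 229010697564151870393972128590950817210770) (CTree.cons (CTree.leaf 1 221526505942343725456562173601387041063449) (CTree.cons CTree.nil (CTree.cons CTree.nil (CTree.cons CTree.nil (CTree.cons (CTree.leaf 1 3364618508799588085749423907343507850) (CTree.cons (CTree.leaf 1 2788273554866695497181466369840186017) (CTree.cons CTree.nil (CTree.cons CTree.nil (CTree.cons CTree.nil (CTree.cons CTree.nil (CTree.cons CTree.nil (CTree.cons CTree.nil (CTree.cons (CTree.leaf 1 228670415205787902458570865141766183518341) (CTree.cons (CTree.leaf 1 221526505293151271280465163289790118436994) (CTree.cons CTree.nil (CTree.cons CTree.nil (CTree.cons CTree.nil (CTree.cons (CTree.leaf 1 2700004510441733850627808646465137178) (CTree.cons CTree.nil (CTree.cons CTree.nil (CTree.cons CTree.nil (CTree.cons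 CTree.nil (CTree.cons CTree.nil (CTree.cons CTree.nil (CTree.cons (CTree.leaf 1 228672466347091227149607477570472731803781) (CTree.cons (CTree.leaf 1 918765075114151705827915343542304210755714) (CTree.cons CTree.nil (CTree.cons CTree.nil (CTree.cons (CTree.leaf 1 228670415389832428602802045110375092912261) (CTree.cons CTree.nil CTree.nil)))))))))))))))))))))))))))))))))))) (CTree.cons CTree.nil (CTree.cons CTree.nil (CTree.cons (CTree.cons CTree.nil (CTree.cons (CTree.leaf 1 41209024462748371986874390610048) (CTree.cons (CTree.leaf 1 10151584757156823707799200010370) (CTree.cons CTree.nil (CTree.cons (CTree.leaf 1 42555893553936695166634689630338) (CTree.cons CTree.nil (CTree.cons (CTree.leaf 1 2741553420011706248274970369427833369) (CTree.cons CTree.nil (CTree.cons (CTree.leaf 1 41198799408307915093219416801817) (CTree.cons CTree.nil (CTree.cons (CTree.leaf 1 20916389648725917016524599140746) (CTree.cons CTree.nil (CTree.cons CTree.nil (CTree.cons CTree.nil (CTree.cons CTree.nil (CTree.cons CTree.nil (CTree.cons CTree.nil (CTree.cons CTree.nil (CTree.cons (CTree.leaf 1 2700004507965853772057048096666878489) (CTree.cons (CTree.leaf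 1 2741553420011552643466568292039197209) (CTree.cons CTree.nil (CTree.cons CTree.nil (CTree.cons (CTree.leaf 1 20916389658685505712621286391941) (CTree.cons CTree.nil (CTree.cons CTree.nil (CTree.cons CTree.nil (CTree.cons CTree.nil (CTree.cons CTree.nil (CTree.cons CTree.nil (CTree.cons CTree.nil (CTree.cons (CTree.leaf 1 2659115328661217033011045625162170905) (CTree.cons (CTree.leaf 1 2741553420011552643466568292039197209) (CTree.cons (CTree.leaf 1 2700004507965853772057048096666878489) (CTree.cons CTree.nil (CTree.cons CTree.nil (CTree.cons CTree.nil CTree.nil)))))))))))))))))))))))))))))))))))) (CTree.cons (CTree.cons CTree.nil (CTree.cons (CTree.leaf 1 13432493298415933468356720099311288448) (CTree.cons (CTree.leaf 1 3489233630774939771649076191014490242) (CTree.cons CTree.nil (CTree.cons (CTree.leaf 1 87168248712265584694854035895282108141698) (CTree.cons CTree.nil (CTree.cons CTree.nil (CTree.cons CTree.nil (CTree.cons (CTree.leaf 1 3364618508662863680912251649664877217) (CTree.cons CTree.nil (CTree.cons (CTree.leaf 1 736014438116598331744543816634244163669656208) (CTree.cons (CTree.leaf 1 13432482119343479800083901461582391818)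 (CTree.cons CTree.nil (CTree.cons CTree.nil (CTree.cons CTree.nil (CTree.cons CTree.nil (CTree.cons CTree.nil (CTree.cons CTree.nil (CTree.cons CTree.nil (CTree.cons (CTree.leaf 1 15030713505147936299531833523413670779049149072) (CTree.cons CTree.nil (CTree.cons CTree.nil (CTree.cons (CTree.leaf 1 3364618508334231927807333077386330785) (CTree.cons (CTree.leaf 1 2659115331137097111581806174960429594) (CTree.cons CTree.nil (CTree.cons (CTree.leaf 1 223237253072327211403153841951551175919650) (CTree.cons (CTree.leaf 1 787767111947345514916494368860182918857360) (CTree.cons CTree.nil (CTree.cons CTree.nil (CTree.cons (CTree.leaf 1 2659115331137097111581806174960419353) (CTree.cons CTree.nil (CTree.cons CTree.nil (CTree.cons CTree.nil (CTree.cons CTree.nil (CTree.cons CTree.nil (CTree.cons CTree.nil CTree.nil)))))))))))))))))))))))))))))))))))) (CTree.cons (CTree.cons CTree.nil (CTree.cons CTree.nil (CTree.cons (CTree.leaf 1 664655595805427406121060172866588802) (CTree.cons CTree.nil (CTree.cons (CTree.leaf 1 43612105746384991099398216645034944496289) (CTree.cons (CTree.leaf 1 3495267815823901169433393858503053442) (CTree.cons (CTree.leaf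 1 223238665182250182161187358170380618564257) (CTree.cons CTree.nil (CTree.cons (CTree.leaf 1 3489264450050214270015092249626018465) (CTree.cons CTree.nil (CTree.cons (CTree.leaf 1 3489233633267775045295462400137437578) (CTree.cons CTree.nil (CTree.cons CTree.nil (CTree.cons CTree.nil (CTree.cons CTree.nil (CTree.cons CTree.nil (CTree.cons CTree.nil (CTree.cons CTree.nil (CTree.cons (CTree.leaf 1 228672435667968815494089466600431297364641) (CTree.cons CTree.nil (CTree.cons CTree.nil (CTree.cons CTree.nil (CTree.cons (CTree.leaf 1 3406167417904048359462843089313464993) (CTree.cons (CTree.leaf 1 2783081260178210663188471153812384282) (CTree.cons (CTree.leaf 1 223238665182250189220886054912855503930017) (CTree.cons CTree.nil (CTree.cons (CTree.leaf 1 228672435667968815494087775806046065001121) (CTree.cons CTree.nil (CTree.cons CTree.nil (CTree.cons (CTree.leaf 1 2741553420011590422398431249200906777) (CTree.cons CTree.nil (CTree.cons CTree.nil (CTree.cons CTree.nil (CTree.cons CTree.nil (CTree.cons CTree.nil (CTree.cons CTree.nil CTree.nil)))))))))))))))))))))))))))))))))))) (CTree.cons (CTree.cons CTree.nil (CTree.cons (CTree.leaf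 1 3489265086848220122849982958918500480) (CTree.cons CTree.nil (CTree.cons CTree.nil (CTree.cons (CTree.leaf 1 43568163987028955816603748599280764524810) (CTree.cons (CTree.leaf 1 229010697735202872862830842389706537304225) (CTree.cons (CTree.leaf 1 183414880847198617541562221100650823942817) (CTree.cons CTree.nil (CTree.cons CTree.nil (CTree.cons CTree.nil (CTree.cons (CTree.leaf 1 3489244405325098160599464621801283978) (CTree.cons (CTree.leaf 1 13432492889419403731253063275857914378) (CTree.cons CTree.nil (CTree.cons CTree.nil (CTree.cons CTree.nil (CTree.cons CTree.nil (CTree.cons CTree.nil (CTree.cons CTree.nil (CTree.cons (CTree.leaf 1 228670415205787902458570865141766183518341) (CTree.cons (CTree.leaf 1 183414880241103174307440038510039603945602) (CTree.cons CTree.nil (CTree.cons CTree.nil (CTree.cons (CTree.leaf 1 3364618508334231927807333077386330785) (CTree.cons CTree.nil (CTree.cons (CTree.leaf 1 228670415389832115644527956587995937702021) (CTree.cons (CTree.leaf 1 183414880241103174307440038510039603945602) (CTree.cons CTree.nil (CTree.cons CTree.nil (CTree.cons CTree.nil (CTree.cons (CTree.leaf 1 2700004510441733850627808646465126937)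 (CTree.cons CTree.nil (CTree.cons CTree.nil (CTree.cons CTree.nil (CTree.cons CTree.nil (CTree.cons CTree.nil (CTree.cons CTree.nil CTree.nil)))))))))))))))))))))))))))))))))))) (CTree.cons CTree.nil (CTree.cons (CTree.cons CTree.nil (CTree.cons (CTree.leaf 1 13432493298415933468356720099311288448) (CTree.cons (CTree.leaf 1 3390580002838662323507147836844216450) (CTree.cons CTree.nil (CTree.cons CTree.nil (CTree.cons (CTree.leaf 1 229010697735203312905020028551293897941394) (CTree.cons (CTree.leaf 1 223226588224434079154699102467723712201377) (CTree.cons CTree.nil (CTree.cons (CTree.leaf 1 3364618508662863680912251649664877217) (CTree.cons CTree.nil (CTree.cons CTree.nil (CTree.cons (CTree.leaf 1 13432492889419403731253063275857914378) (CTree.cons CTree.nil (CTree.cons CTree.nil (CTree.cons CTree.nil (CTree.cons CTree.nil (CTree.cons CTree.nil (CTree.cons CTree.nil (CTree.cons (CTree.leaf 1 220503638399923063863133395195410157469829) (CTree.cons (CTree.leaf 1 223226587899757237254729219693841922199682) (CTree.cons CTree.nil (CTree.cons CTree.nil (CTree.cons CTree.nil (CTree.cons (CTree.leaf 1 2700004510441733850627808646465137178)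 (CTree.cons (CTree.leaf 1 220503638583729596188325152472746803921029) (CTree.cons (CTree.leaf 1 223226587899760041919834279382521080778882) (CTree.cons (CTree.leaf 1 220503638583729596188325152472746803921029) (CTree.cons CTree.nil (CTree.cons CTree.nil (CTree.cons CTree.nil (CTree.cons CTree.nil (CTree.cons CTree.nil (CTree.cons CTree.nil (CTree.cons CTree.nil (CTree.cons CTree.nil (CTree.cons CTree.nil CTree.nil)))))))))))))))))))))))))))))))))))) (CTree.cons CTree.nil CTree.nil)))))))))))))))))))))))))))))))))))

theorem tree6_2_3_ok : chk 6 (pk (goalL 6)) tree6_2_3 (stk [((2 : Fin 6), (3 : Fin 6))]) 1 (om [((2 : Fin 6), (3 : Fin 6))]) (im [((2 : Fin 6), (3 : Fin 6))])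
    (cm [((2 : Fin 6), (3 : Fin 6))]) (pk (goalR [((2 : Fin 6), (3 : Fin 6))])) 0 = true := by
  decide +kernel

def tree6_2_4 : CTree :=
  CTree.cons CTree.nil (CTree.cons (CTree.cons CTree.nil (CTree.cons CTree.nil (CTree.cons CTree.nil (CTree.cons CTree.nil (CTree.cons CTree.nil (CTree.cons CTree.nil (CTree.cons CTree.nil (CTree.cons CTree.nil (CTree.cons (CTree.leaf 1 20929264718590652852822577512576) (CTree.cons (CTree.leaf 1 20929264718590652852822971383936) (CTree.cons CTree.nil (CTree.cons (CTree.leaf 1 2035402948915422172309714835969540224) (CTree.cons CTree.nil (CTree.cons CTree.nil (CTree.cons CTree.nil (CTree.cons CTree.nil (CTree.cons CTree.nil (CTree.cons CTree.nil (CTree.cons (CTree.leaf 1 43910523272693444628498761711947376230528) (CTree.cons CTree.nil (CTree.cons (CTree.leaf 1 43910523272700868641957015149709246660736) (CTree.cons CTree.nil (CTree.cons CTree.nil (CTree.cons (CTree.leaf 1 31065188925057713744458011508864) (CTree.cons (CTree.leaf 1 43910523272700868641957015149709246660736) (CTree.cons CTree.nil (CTree.cons CTree.nil (CTree.cons (CTree.leaf 1 43910523272693444628498761711947376230528) (CTree.cons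 CTree.nil (CTree.cons (CTree.leaf 1 31065188925057713700473251430528) (CTree.cons (CTree.leaf 1 43910523272693444628498761711947376230528) (CTree.cons CTree.nil (CTree.cons (CTree.leaf 1 135106196763816954937038790139946049077376) (CTree.cons (CTree.leaf 1 43910523272693444628498761711947376230528) (CTree.cons CTree.nil (CTree.cons CTree.nil CTree.nil)))))))))))))))))))))))))))))))))))) (CTree.cons (CTree.cons CTree.nil (CTree.cons CTree.nil (CTree.cons CTree.nil (CTree.cons CTree.nil (CTree.cons CTree.nil (CTree.cons CTree.nil (CTree.cons (CTree.leaf 1 665467919836926294545371649818103938) (CTree.cons CTree.nil (CTree.cons CTree.nil (CTree.cons (CTree.leaf 1 507852676657758510583243127001218) (CTree.cons CTree.nil (CTree.cons (CTree.leaf 1 664647274369914860490261208929276034) (CTree.cons CTree.nil (CTree.cons CTree.nil (CTree.cons CTree.nil (CTree.cons CTree.nil (CTree.cons CTree.nil (CTree.cons CTree.nil (CTree.cons (CTree.leaf 1 665467919834508442984391249583280258) (CTree.cons (CTree.leaf 1 2050967401144619762764529406739353730) (CTree.cons CTree.nil (CTree.cons CTree.nil (CTree.cons CTree.nil (CTree.cons (CTree.leaf 1 10148954023653111861197231231106)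 (CTree.cons CTree.nil (CTree.cons (CTree.leaf 1 664666856106775678390498512155578498) (CTree.cons CTree.nil (CTree.cons (CTree.leaf 1 664665662403643786404822616569417858) (CTree.cons CTree.nil (CTree.cons (CTree.leaf 1 10148954023653111817212471152770) (CTree.cons (CTree.leaf 1 664666856106775678390498512155578498) (CTree.cons (CTree.leaf 1 664666856106775678312812603994411138) (CTree.cons CTree.nil (CTree.cons (CTree.leaf 1 2050967401144619762764529406739353730) (CTree.cons CTree.nil (CTree.cons CTree.nil CTree.nil)))))))))))))))))))))))))))))))))))) (CTree.cons (CTree.cons CTree.nil (CTree.cons CTree.nil (CTree.cons CTree.nil (CTree.cons CTree.nil (CTree.cons CTree.nil (CTree.cons CTree.nil (CTree.cons (CTree.leaf 1 44623106421099666283986966203817070722) (CTree.cons CTree.nil (CTree.cons (CTree.leaf 1 680894568193049107116500365414530) (CTree.cons CTree.nil (CTree.cons CTree.nil (CTree.cons (CTree.leaf 1 880014823477665504589883455271676810166945) (CTree.cons CTree.nil (CTree.cons CTree.nil (CTree.cons CTree.nil (CTree.cons CTree.nil (CTree.cons CTree.nil (CTree.cons CTree.nil (CTree.cons CTree.nil (CTree.cons (CTree.leaf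 1 2924387326786464666616172749480430338637953) (CTree.cons (CTree.leaf 1 3386058446332900662909000038297440386) (CTree.cons CTree.nil (CTree.cons CTree.nil (CTree.cons (CTree.leaf 1 680894568193046149095987955241090) (CTree.cons (CTree.leaf 1 2924387325953709996663349674618068347715713) (CTree.cons (CTree.leaf 1 15055927417736760955992264220234349806266417552) (CTree.cons CTree.nil (CTree.cons CTree.nil (CTree.cons CTree.nil (CTree.cons (CTree.leaf 1 680894568193046149095987284086914) (CTree.cons (CTree.leaf 1 2924387325953709996663349674618068347715713) (CTree.cons (CTree.leaf 1 2924387325953709996663348946723778707784353) (CTree.cons (CTree.leaf 1 188725363950592463885612511567151399238822350422173) (CTree.cons CTree.nil (CTree.cons CTree.nil (CTree.cons CTree.nil CTree.nil)))))))))))))))))))))))))))))))))))) (CTree.cons CTree.nil (CTree.cons (CTree.cons CTree.nil (CTree.cons CTree.nil (CTree.cons CTree.nil (CTree.cons CTree.nil (CTree.cons CTree.nil (CTree.cons CTree.nil (CTree.cons (CTree.leaf 1 229010848148681269093425005503687181865090) (CTree.cons CTree.nil (CTree.cons (CTree.leaf 1 3494923004954585725781552213812973698)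 (CTree.cons (CTree.leaf 1 3494438365975196884451815283192109322) (CTree.cons CTree.nil (CTree.cons CTree.nil (CTree.cons CTree.nil (CTree.cons CTree.nil (CTree.cons CTree.nil (CTree.cons CTree.nil (CTree.cons CTree.nil (CTree.cons CTree.nil (CTree.cons (CTree.leaf 1 229010697573102337696109214462375821451666) (CTree.cons (CTree.leaf 1 3494923004954623485722017017330012290) (CTree.cons (CTree.leaf 1 3494752505639407779082199439043074314) (CTree.cons CTree.nil (CTree.cons CTree.nil (CTree.cons CTree.nil (CTree.cons (CTree.leaf 1 229010697573102337696109214462375821451666) (CTree.cons (CTree.leaf 1 3494447240023655045065246962828841090) (CTree.cons CTree.nil (CTree.cons (CTree.leaf 1 3494425929673001058067643625769146634) (CTree.cons CTree.nil (CTree.cons CTree.nil (CTree.cons CTree.nil (CTree.cons (CTree.leaf 1 229010697563911712441894800693650320400786) (CTree.cons (CTree.leaf 1 229010827369354811018735934281730980190474) (CTree.cons (CTree.leaf 1 229010827369352630152288656124592571163026) (CTree.cons CTree.nil (CTree.cons CTree.nil CTree.nil)))))))))))))))))))))))))))))))))))) (CTree.cons (CTree.cons CTree.nil (CTree.cons CTree.nil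 (CTree.cons (CTree.leaf 1 665467919836850755129797184087789698) (CTree.cons (CTree.leaf 1 44623106421099666283986974999910092930) (CTree.cons CTree.nil (CTree.cons (CTree.leaf 1 229010697574369988260920271748736373362818) (CTree.cons CTree.nil (CTree.cons CTree.nil (CTree.cons CTree.nil (CTree.cons CTree.nil (CTree.cons CTree.nil (CTree.cons CTree.nil (CTree.cons CTree.nil (CTree.cons CTree.nil (CTree.cons CTree.nil (CTree.cons CTree.nil (CTree.cons CTree.nil (CTree.cons CTree.nil (CTree.cons CTree.nil (CTree.cons (CTree.leaf 1 226969693935900267402348143374708658798992) (CTree.cons (CTree.leaf 1 227000915237576312797986813378367039021458) (CTree.cons CTree.nil (CTree.cons CTree.nil (CTree.cons (CTree.leaf 1 2076928889727658206190654098119467410) (CTree.cons CTree.nil (CTree.cons (CTree.leaf 1 226970358549892714979257270806462351876498) (CTree.cons CTree.nil (CTree.cons (CTree.leaf 1 226969693935900267402348143374708658798992) (CTree.cons CTree.nil (CTree.cons (CTree.leaf 1 2076939422119167735907055939219956114) (CTree.cons CTree.nil (CTree.cons (CTree.leaf 1 226969693935900267402348143374708658798992) (CTree.cons (CTree.leaf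 1 227000915237576312797986813378367039021458) (CTree.cons (CTree.leaf 1 226969693935900267402348143374708658798992) (CTree.cons CTree.nil (CTree.cons CTree.nil CTree.nil)))))))))))))))))))))))))))))))))))) (CTree.cons CTree.nil (CTree.cons (CTree.cons CTree.nil (CTree.cons (CTree.leaf 1 20929264718590652852822577512576) (CTree.cons CTree.nil (CTree.cons (CTree.leaf 1 680894568193049107116500365414530) (CTree.cons CTree.nil (CTree.cons (CTree.leaf 1 3494923004954585725205091461509550210) (CTree.cons CTree.nil (CTree.cons CTree.nil (CTree.cons CTree.nil (CTree.cons CTree.nil (CTree.cons CTree.nil (CTree.cons CTree.nil (CTree.cons CTree.nil (CTree.cons CTree.nil (CTree.cons CTree.nil (CTree.cons CTree.nil (CTree.cons CTree.nil (CTree.cons CTree.nil (CTree.cons (CTree.leaf 1 3463272158877336793092745565360488840) (CTree.cons (CTree.leaf 1 3463292824552889402741465450763329938) (CTree.cons CTree.nil (CTree.cons CTree.nil (CTree.cons CTree.nil (CTree.cons (CTree.leaf 1 31057594566340197960744938643858) (CTree.cons (CTree.leaf 1 665111088413882092300140834674836123) (CTree.cons CTree.nil (CTree.cons CTree.nil (CTree.cons (CTree.leaf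 1 3463272158877336793092745565360488840) (CTree.cons CTree.nil (CTree.cons (CTree.leaf 1 31057594566340197960744267489682) (CTree.cons (CTree.leaf 1 3463272158877336793092745565360488840) (CTree.cons (CTree.leaf 1 3463292824552889402741465450763329938) (CTree.cons CTree.nil (CTree.cons (CTree.leaf 1 3463272158877336793092745565360488840) (CTree.cons CTree.nil (CTree.cons CTree.nil CTree.nil)))))))))))))))))))))))))))))))))))) (CTree.cons (CTree.cons CTree.nil (CTree.cons (CTree.leaf 1 20929264718590652852822971383936) (CTree.cons (CTree.leaf 1 507852676657758510583243127001218) (CTree.cons CTree.nil (CTree.cons CTree.nil (CTree.cons (CTree.leaf 1 3494425940028621702348933834764065034) (CTree.cons CTree.nil (CTree.cons CTree.nil (CTree.cons CTree.nil (CTree.cons CTree.nil (CTree.cons CTree.nil (CTree.cons CTree.nil (CTree.cons CTree.nil (CTree.cons CTree.nil (CTree.cons CTree.nil (CTree.cons CTree.nil (CTree.cons CTree.nil (CTree.cons CTree.nil (CTree.cons (CTree.leaf 1 3463272158877412293885449626761435402) (CTree.cons CTree.nil (CTree.cons (CTree.leaf 1 3463282921032575117970703786081130762) (CTree.cons CTree.nil (CTree.cons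 CTree.nil (CTree.cons (CTree.leaf 1 20916389658688388333046849994885) (CTree.cons (CTree.leaf 1 3463282921032575117970703786081130762) (CTree.cons (CTree.leaf 1 3463282683348087576329768085125994762) (CTree.cons CTree.nil (CTree.cons CTree.nil (CTree.cons CTree.nil (CTree.cons (CTree.leaf 1 20916389658685505747810356166789) (CTree.cons (CTree.leaf 1 3463282921032575117970703786081130762) (CTree.cons (CTree.leaf 1 3463282683348087576329768085125994762) (CTree.cons (CTree.leaf 1 3463282921032575117970703786081130762) (CTree.cons CTree.nil (CTree.cons CTree.nil (CTree.cons CTree.nil CTree.nil)))))))))))))))))))))))))))))))))))) (CTree.cons CTree.nil (CTree.cons (CTree.cons CTree.nil (CTree.cons (CTree.leaf 1 2035402951391302250880475385767788672) (CTree.cons (CTree.leaf 1 53424996232947643796155771184532099309970) (CTree.cons (CTree.leaf 1 2924388032095064791272449971350781493840410) (CTree.cons CTree.nil (CTree.cons CTree.nil (CTree.cons CTree.nil (CTree.cons CTree.nil (CTree.cons CTree.nil (CTree.cons CTree.nil (CTree.cons CTree.nil (CTree.cons CTree.nil (CTree.cons CTree.nil (CTree.cons CTree.nil (CTree.cons CTree.nil (CTree.cons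 CTree.nil (CTree.cons CTree.nil (CTree.cons CTree.nil (CTree.cons (CTree.leaf 1 136114317544890062599134557991701656502555) (CTree.cons (CTree.leaf 1 136114301967999487070154195893905863606555) (CTree.cons (CTree.leaf 1 2035390509911284409839349597524861330) (CTree.cons CTree.nil (CTree.cons CTree.nil (CTree.cons CTree.nil (CTree.cons (CTree.leaf 1 136114317544890062599134557991701656502555) (CTree.cons (CTree.leaf 1 136114301967999487070154195893905863606555) (CTree.cons CTree.nil (CTree.cons (CTree.leaf 1 2788284329422891874408816810538377618) (CTree.cons CTree.nil (CTree.cons CTree.nil (CTree.cons (CTree.leaf 1 136113611717194311848393516543978813653275) (CTree.cons CTree.nil (CTree.cons (CTree.leaf 1 136114317544887585550694405794722062410130) (CTree.cons (CTree.leaf 1 136114317544890062599134557991701656502555) (CTree.cons CTree.nil (CTree.cons CTree.nil CTree.nil)))))))))))))))))))))))))))))))))))) (CTree.cons CTree.nil (CTree.cons CTree.nil (CTree.cons CTree.nil (CTree.cons CTree.nil (CTree.cons CTree.nil (CTree.cons CTree.nil (CTree.cons (CTree.cons CTree.nil (CTree.cons (CTree.leaf 1 2036234290006550461284592956818456704)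 (CTree.cons (CTree.leaf 1 665467922310277602897859710647668866) (CTree.cons CTree.nil (CTree.cons CTree.nil (CTree.cons (CTree.leaf 1 229010697564783222269875783180245794365842) (CTree.cons CTree.nil (CTree.cons CTree.nil (CTree.cons (CTree.leaf 1 14097096125156663776323202047603245448) (CTree.cons (CTree.leaf 1 14097096125156739277115906109004192010) (CTree.cons CTree.nil (CTree.cons (CTree.leaf 1 133402791087126680254494129678951044481157) (CTree.cons CTree.nil (CTree.cons CTree.nil (CTree.cons CTree.nil (CTree.cons CTree.nil (CTree.cons CTree.nil (CTree.cons CTree.nil (CTree.cons CTree.nil (CTree.cons CTree.nil (CTree.cons CTree.nil (CTree.cons CTree.nil (CTree.cons CTree.nil (CTree.cons CTree.nil (CTree.cons CTree.nil (CTree.cons (CTree.leaf 1 561186215256606656174610976268614667487677083) (CTree.cons CTree.nil (CTree.cons (CTree.leaf 1 557608520470718785085145851942677031936854683) (CTree.cons CTree.nil (CTree.cons (CTree.leaf 1 2076939659803579776176575026657042834) (CTree.cons CTree.nil (CTree.cons (CTree.leaf 1 561186215256606656174610976268614667487677083) (CTree.cons (CTree.leaf 1 557608520470718785085145851942677031936854683)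 (CTree.cons (CTree.leaf 1 557608520470718785085145851942677031936854683) (CTree.cons CTree.nil (CTree.cons CTree.nil CTree.nil)))))))))))))))))))))))))))))))))))) (CTree.cons (CTree.cons CTree.nil (CTree.cons CTree.nil (CTree.cons (CTree.leaf 1 221920066021275863621073901702331143164034) (CTree.cons (CTree.leaf 1 2924419903256957884984850392384940565139586) (CTree.cons CTree.nil (CTree.cons (CTree.leaf 1 3494923004954587791954248257917554818) (CTree.cons (CTree.leaf 1 217782070872802152646461715953458250648196) (CTree.cons CTree.nil (CTree.cons (CTree.leaf 1 14097116790832216385971921933006086546) (CTree.cons CTree.nil (CTree.cons CTree.nil (CTree.cons (CTree.leaf 1 1576880591587297504126078319921375090966789) (CTree.cons CTree.nil (CTree.cons CTree.nil (CTree.cons CTree.nil (CTree.cons CTree.nil (CTree.cons CTree.nil (CTree.cons CTree.nil (CTree.cons CTree.nil (CTree.cons CTree.nil (CTree.cons CTree.nil (CTree.cons CTree.nil (CTree.cons CTree.nil (CTree.cons CTree.nil (CTree.cons (CTree.leaf 1 90887968489090295889518811043791415411077) (CTree.cons CTree.nil (CTree.cons CTree.nil (CTree.cons (CTree.leaf 1 90858715251175275403242812902064977346821)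 (CTree.cons CTree.nil (CTree.cons (CTree.leaf 1 2076939422119167735907055939219956114) (CTree.cons (CTree.leaf 1 90858715251175275403242812902064977346821) (CTree.cons CTree.nil (CTree.cons (CTree.leaf 1 90887968489090295889518811043791415411077) (CTree.cons (CTree.leaf 1 90858715251175275403242812902064977346821) (CTree.cons CTree.nil (CTree.cons CTree.nil CTree.nil)))))))))))))))))))))))))))))))))))) (CTree.cons (CTree.cons CTree.nil (CTree.cons (CTree.leaf 1 14097106900186881504870877522945704064) (CTree.cons CTree.nil (CTree.cons (CTree.leaf 1 44623106421099666284558643539373789314) (CTree.cons CTree.nil (CTree.cons (CTree.leaf 1 3494425930253176452629989214548267138) (CTree.cons (CTree.leaf 1 221525841166086556318423500171991729643922) (CTree.cons CTree.nil (CTree.cons CTree.nil (CTree.cons (CTree.leaf 1 3364618518565175067106393971508779274) (CTree.cons CTree.nil (CTree.cons (CTree.leaf 1 2035390513014672212997656735659458693) (CTree.cons CTree.nil (CTree.cons CTree.nil (CTree.cons CTree.nil (CTree.cons CTree.nil (CTree.cons CTree.nil (CTree.cons CTree.nil (CTree.cons CTree.nil (CTree.cons CTree.nil (CTree.cons CTree.nil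 (CTree.cons CTree.nil (CTree.cons CTree.nil (CTree.cons CTree.nil (CTree.cons (CTree.leaf 1 87134229432205711312300927690965405862555) (CTree.cons (CTree.leaf 1 221525840679163144482649641814793411174802) (CTree.cons CTree.nil (CTree.cons CTree.nil (CTree.cons CTree.nil (CTree.cons (CTree.leaf 1 2035390509911359634509042154775060882) (CTree.cons (CTree.leaf 1 87134229432205711312300927690965405862555) (CTree.cons (CTree.leaf 1 221525840679163144482649641814793411174802) (CTree.cons CTree.nil (CTree.cons (CTree.leaf 1 134412199568697850234674234656314331630235) (CTree.cons CTree.nil (CTree.cons CTree.nil CTree.nil)))))))))))))))))))))))))))))))))))) (CTree.cons CTree.nil (CTree.cons CTree.nil (CTree.cons (CTree.cons CTree.nil (CTree.cons (CTree.leaf 1 31065188925057713744458011508864) (CTree.cons (CTree.leaf 1 10148954023653111861197231231106) (CTree.cons (CTree.leaf 1 680894568193046149095987955241090) (CTree.cons CTree.nil (CTree.cons CTree.nil (CTree.cons (CTree.leaf 1 2076939422119167735330595187587686802) (CTree.cons CTree.nil (CTree.cons (CTree.leaf 1 31057594566340197960744938643858) (CTree.cons (CTree.leaf 1 20916389658688388333046849994885)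 (CTree.cons CTree.nil (CTree.cons CTree.nil (CTree.cons CTree.nil (CTree.cons CTree.nil (CTree.cons CTree.nil (CTree.cons CTree.nil (CTree.cons CTree.nil (CTree.cons CTree.nil (CTree.cons CTree.nil (CTree.cons CTree.nil (CTree.cons CTree.nil (CTree.cons CTree.nil (CTree.cons CTree.nil (CTree.cons CTree.nil (CTree.cons (CTree.leaf 1 2076939659803579775600114275024773522) (CTree.cons (CTree.leaf 1 2076939422119167735330595187587686802) (CTree.cons CTree.nil (CTree.cons (CTree.leaf 1 2035390509911359633932581403142791570) (CTree.cons CTree.nil (CTree.cons CTree.nil (CTree.cons (CTree.leaf 1 2076939659803579775600114275024773522) (CTree.cons (CTree.leaf 1 2076939422119167735330595187587686802) (CTree.cons (CTree.leaf 1 2035390509911359633932581403142791570) (CTree.cons CTree.nil (CTree.cons CTree.nil (CTree.cons CTree.nil CTree.nil)))))))))))))))))))))))))))))))))))) (CTree.cons (CTree.cons CTree.nil (CTree.cons (CTree.leaf 1 14097106266361541104681907714423652749) (CTree.cons CTree.nil (CTree.cons (CTree.leaf 1 44623106421099517550734930431860347010) (CTree.cons CTree.nil (CTree.cons (CTree.leaf 1 229043274043595583834349910213770460926082)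 (CTree.cons CTree.nil (CTree.cons CTree.nil (CTree.cons (CTree.leaf 1 665111088413882092300140834674838171) (CTree.cons (CTree.leaf 1 14097106887311902101201160268323887370) (CTree.cons CTree.nil (CTree.cons (CTree.leaf 1 736848470197878525745618828775825791851298949) (CTree.cons CTree.nil (CTree.cons CTree.nil (CTree.cons CTree.nil (CTree.cons CTree.nil (CTree.cons CTree.nil (CTree.cons CTree.nil (CTree.cons CTree.nil (CTree.cons (CTree.leaf 1 738059525142229930854486590584860512443570442) (CTree.cons (CTree.leaf 1 736060705189708342535186855236999245689127176) (CTree.cons CTree.nil (CTree.cons CTree.nil (CTree.cons (CTree.leaf 1 1994339073967769819884590565957443986) (CTree.cons CTree.nil (CTree.cons CTree.nil (CTree.cons CTree.nil (CTree.cons CTree.nil (CTree.cons CTree.nil (CTree.cons CTree.nil (CTree.cons CTree.nil (CTree.cons (CTree.leaf 1 738059525142229930854562130464015494493112987) (CTree.cons (CTree.leaf 1 736014426787807094904120511237660512856705691) (CTree.cons (CTree.leaf 1 736014426787807094904155836290413774788102811) (CTree.cons CTree.nil (CTree.cons CTree.nil CTree.nil)))))))))))))))))))))))))))))))))))) (CTree.cons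 (CTree.cons CTree.nil (CTree.cons CTree.nil (CTree.cons (CTree.leaf 1 218802891371441910473016579142734425755778) (CTree.cons (CTree.leaf 1 222249008250235081342552516348962713243778) (CTree.cons CTree.nil (CTree.cons (CTree.leaf 1 229010697583246185211824283768664548841738) (CTree.cons (CTree.leaf 1 227000915237576312797986813378367039021458) (CTree.cons CTree.nil (CTree.cons CTree.nil (CTree.cons (CTree.leaf 1 14097096125156666136891702133289785610) (CTree.cons CTree.nil (CTree.cons (CTree.leaf 1 11953242984606693593893188452612083635638108421) (CTree.cons CTree.nil (CTree.cons CTree.nil (CTree.cons CTree.nil (CTree.cons CTree.nil (CTree.cons CTree.nil (CTree.cons CTree.nil (CTree.cons (CTree.leaf 1 134414858217047477884872336625356279775493) (CTree.cons CTree.nil (CTree.cons (CTree.leaf 1 226970358549898159900572284335220459706498) (CTree.cons CTree.nil (CTree.cons CTree.nil (CTree.cons (CTree.leaf 1 2076928887417474105669200401464435090) (CTree.cons CTree.nil (CTree.cons CTree.nil (CTree.cons CTree.nil (CTree.cons CTree.nil (CTree.cons CTree.nil (CTree.cons CTree.nil (CTree.cons (CTree.leaf 1 134414858217047477884872336625356279775493)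 (CTree.cons CTree.nil (CTree.cons (CTree.leaf 1 226969004204192732423956477416954398900613) (CTree.cons (CTree.leaf 1 134414858217047477884872336625356279775493) (CTree.cons CTree.nil (CTree.cons CTree.nil CTree.nil)))))))))))))))))))))))))))))))))))) (CTree.cons CTree.nil (CTree.cons (CTree.cons CTree.nil (CTree.cons (CTree.leaf 1 2036234290006550461284592956818456704) (CTree.cons (CTree.leaf 1 3390579993092262224005792280108732546) (CTree.cons CTree.nil (CTree.cons CTree.nil (CTree.cons (CTree.leaf 1 229010697573102337658330859060170963165586) (CTree.cons (CTree.leaf 1 90856747492189017061337265082686984161947) (CTree.cons CTree.nil (CTree.cons (CTree.leaf 1 14097096125156663776323202047603245448) (CTree.cons CTree.nil (CTree.cons CTree.nil (CTree.cons (CTree.leaf 1 793198861929206722962278841629614080655493) (CTree.cons CTree.nil (CTree.cons CTree.nil (CTree.cons CTree.nil (CTree.cons CTree.nil (CTree.cons CTree.nil (CTree.cons CTree.nil (CTree.cons (CTree.leaf 1 90857427358400481184932059980430367132315) (CTree.cons (CTree.leaf 1 90856747167516961255890790374701821594267) (CTree.cons CTree.nil (CTree.cons CTree.nil (CTree.cons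 CTree.nil (CTree.cons (CTree.leaf 1 2035390512549235772293984615472439698) (CTree.cons CTree.nil (CTree.cons CTree.nil (CTree.cons CTree.nil (CTree.cons CTree.nil (CTree.cons CTree.nil (CTree.cons CTree.nil (CTree.cons (CTree.leaf 1 90857427358400481184932059980430367132315) (CTree.cons (CTree.leaf 1 90856747167516961255890790374701821594267) (CTree.cons (CTree.leaf 1 90857427358400481184932059980430367132315) (CTree.cons CTree.nil (CTree.cons CTree.nil (CTree.cons CTree.nil CTree.nil)))))))))))))))))))))))))))))))))))) (CTree.cons CTree.nil (CTree.cons (CTree.cons CTree.nil (CTree.cons (CTree.leaf 1 31065188925057713700473251430528) (CTree.cons (CTree.leaf 1 10148954023653111817212471152770) (CTree.cons (CTree.leaf 1 680894568193046149095987284086914) (CTree.cons CTree.nil (CTree.cons CTree.nil (CTree.cons (CTree.leaf 1 2076939422119167735330595186916532626) (CTree.cons CTree.nil (CTree.cons (CTree.leaf 1 31057594566340197960744267489682) (CTree.cons (CTree.leaf 1 20916389658685505747810356166789) (CTree.cons CTree.nil (CTree.cons CTree.nil (CTree.cons CTree.nil (CTree.cons CTree.nil (CTree.cons CTree.nil (CTree.cons CTree.nil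 (CTree.cons CTree.nil (CTree.cons CTree.nil (CTree.cons (CTree.leaf 1 2076939659803579775600114274353619346) (CTree.cons (CTree.leaf 1 2076939422119167735330595186916532626) (CTree.cons (CTree.leaf 1 2035390509911359633932581402471637394) (CTree.cons CTree.nil (CTree.cons CTree.nil (CTree.cons CTree.nil (CTree.cons CTree.nil (CTree.cons CTree.nil (CTree.cons CTree.nil (CTree.cons CTree.nil (CTree.cons CTree.nil (CTree.cons CTree.nil (CTree.cons (CTree.leaf 1 1994339071329893681523187352956641682) (CTree.cons (CTree.leaf 1 2076939422119167735330595186916532626) (CTree.cons CTree.nil (CTree.cons (CTree.leaf 1 2035390509911359633932581402471637394) (CTree.cons CTree.nil (CTree.cons CTree.nil CTree.nil)))))))))))))))))))))))))))))))))))) (CTree.cons (CTree.cons CTree.nil (CTree.cons (CTree.leaf 1 2036234290006550461284592956818456704) (CTree.cons (CTree.leaf 1 664829115383493973096598001432006786) (CTree.cons (CTree.leaf 1 44623106421099517550734930431860347010) (CTree.cons CTree.nil (CTree.cons CTree.nil (CTree.cons CTree.nil (CTree.cons CTree.nil (CTree.cons (CTree.leaf 1 14097096125156663776323202047603245448) (CTree.cons (CTree.leaf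 1 14097106887311902101201160268323887370) (CTree.cons CTree.nil (CTree.cons (CTree.leaf 1 736848461677643815264906556820774500820975877) (CTree.cons CTree.nil (CTree.cons CTree.nil (CTree.cons CTree.nil (CTree.cons CTree.nil (CTree.cons CTree.nil (CTree.cons CTree.nil (CTree.cons CTree.nil (CTree.cons (CTree.leaf 1 736060705853521831945069117834178134055526802) (CTree.cons (CTree.leaf 1 736060705189708342535186855811796397725974792) (CTree.cons CTree.nil (CTree.cons CTree.nil (CTree.cons (CTree.leaf 1 1994025414458513167226374628119814546) (CTree.cons CTree.nil (CTree.cons (CTree.leaf 1 923868703129770707665159080896396505325970) (CTree.cons CTree.nil (CTree.cons (CTree.leaf 1 923898704383753967703496256000666791911826) (CTree.cons CTree.nil (CTree.cons (CTree.leaf 1 1994339071329893682099648105260065170) (CTree.cons CTree.nil (CTree.cons CTree.nil (CTree.cons CTree.nil (CTree.cons CTree.nil (CTree.cons CTree.nil (CTree.cons CTree.nil CTree.nil)))))))))))))))))))))))))))))))))))) (CTree.cons (CTree.cons CTree.nil (CTree.cons CTree.nil (CTree.cons (CTree.leaf 1 665467919508098472263214460266745986) (CTree.cons (CTree.leaf 1 44623106421099666283874386727212748930)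 (CTree.cons CTree.nil (CTree.cons (CTree.leaf 1 43899919758731342766157701059876633584018) (CTree.cons (CTree.leaf 1 923867981389969533676912975096167050322322) (CTree.cons CTree.nil (CTree.cons (CTree.leaf 1 14097116790832216385971921933006086546) (CTree.cons (CTree.leaf 1 14097096125156666136891702133289785610) (CTree.cons CTree.nil (CTree.cons CTree.nil (CTree.cons CTree.nil (CTree.cons CTree.nil (CTree.cons CTree.nil (CTree.cons CTree.nil (CTree.cons CTree.nil (CTree.cons CTree.nil (CTree.cons (CTree.leaf 1 43557499009281659353214568562964011549072) (CTree.cons CTree.nil (CTree.cons (CTree.leaf 1 2134945667158080517099012495434961291125138) (CTree.cons CTree.nil (CTree.cons CTree.nil (CTree.cons (CTree.leaf 1 2076928887417474105669200401464435090) (CTree.cons (CTree.leaf 1 923867290835165898961061987418648009056658) (CTree.cons CTree.nil (CTree.cons CTree.nil (CTree.cons (CTree.leaf 1 923867981389969533676912975097340095496592) (CTree.cons CTree.nil (CTree.cons (CTree.leaf 1 2076939422119167735907055939219956114) (CTree.cons CTree.nil (CTree.cons CTree.nil (CTree.cons CTree.nil (CTree.cons CTree.nil (CTree.cons CTree.nil (CTree.cons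 CTree.nil CTree.nil)))))))))))))))))))))))))))))))))))) (CTree.cons (CTree.cons CTree.nil (CTree.cons (CTree.leaf 1 14097106900186770586213550228902117504) (CTree.cons CTree.nil (CTree.cons (CTree.leaf 1 191652657672524164839269695601208680499929682050) (CTree.cons CTree.nil (CTree.cons (CTree.leaf 1 229010697583243247522082620254499118389514) (CTree.cons (CTree.leaf 1 226970359036821571733838538145475726483858) (CTree.cons CTree.nil (CTree.cons CTree.nil (CTree.cons (CTree.leaf 1 14097106887311902101201160268323887370) (CTree.cons CTree.nil (CTree.cons (CTree.leaf 1 11953289261622110239410148039878780420171563141) (CTree.cons CTree.nil (CTree.cons CTree.nil (CTree.cons CTree.nil (CTree.cons CTree.nil (CTree.cons CTree.nil (CTree.cons CTree.nil (CTree.cons (CTree.leaf 1 89835209491676022347392052336688379333275) (CTree.cons (CTree.leaf 1 226970358549892714979257270806462351876498) (CTree.cons CTree.nil (CTree.cons CTree.nil (CTree.cons CTree.nil (CTree.cons (CTree.leaf 1 2035390512549235772293984615472439698) (CTree.cons (CTree.leaf 1 89835209491676022347392052336688379333275) (CTree.cons (CTree.leaf 1 226970358549892714979257270806462351876498)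 (CTree.cons CTree.nil (CTree.cons (CTree.leaf 1 923867996966865553074362206858432079857931) (CTree.cons CTree.nil (CTree.cons CTree.nil (CTree.cons CTree.nil (CTree.cons CTree.nil (CTree.cons CTree.nil (CTree.cons CTree.nil (CTree.cons CTree.nil (CTree.cons CTree.nil CTree.nil)))))))))))))))))))))))))))))))))))) (CTree.cons (CTree.cons CTree.nil (CTree.cons (CTree.leaf 1 2036234290006550461284592956818456704) (CTree.cons (CTree.leaf 1 664645689975949126429730490178211970) (CTree.cons CTree.nil (CTree.cons CTree.nil (CTree.cons (CTree.leaf 1 229010697564783222229551815939415804027282) (CTree.cons (CTree.leaf 1 90856747492189017061337265082686984161947) (CTree.cons CTree.nil (CTree.cons (CTree.leaf 1 14097096125156663776323202047603245448) (CTree.cons CTree.nil (CTree.cons CTree.nil (CTree.cons (CTree.leaf 1 133391352814149428276020730590293715452037) (CTree.cons CTree.nil (CTree.cons CTree.nil (CTree.cons CTree.nil (CTree.cons CTree.nil (CTree.cons CTree.nil (CTree.cons CTree.nil (CTree.cons (CTree.leaf 1 90857427358400481184932059980430367132315) (CTree.cons (CTree.leaf 1 90856747167516961255890790374701821594267) (CTree.cons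 (CTree.leaf 1 90857427358400481184932059980430367132315) (CTree.cons CTree.nil (CTree.cons CTree.nil (CTree.cons CTree.nil (CTree.cons (CTree.leaf 1 90857427358400481184932059980430367132315) (CTree.cons (CTree.leaf 1 90856747167516961255890790374701821594267) (CTree.cons CTree.nil (CTree.cons CTree.nil (CTree.cons CTree.nil (CTree.cons (CTree.leaf 1 2035390509911359634509042154775060882) (CTree.cons CTree.nil (CTree.cons CTree.nil (CTree.cons CTree.nil (CTree.cons CTree.nil (CTree.cons CTree.nil (CTree.cons CTree.nil CTree.nil)))))))))))))))))))))))))))))))))))) (CTree.cons CTree.nil (CTree.cons CTree.nil CTree.nil)))))))))))))))))))))))))))))))))))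

theorem tree6_2_4_ok : chk 6 (pk (goalL 6)) tree6_2_4 (stk [((2 : Fin 6), (4 : Fin 6))]) 1 (om [((2 : Fin 6), (4 : Fin 6))]) (im [((2 : Fin 6), (4 : Fin 6))])
    (cm [((2 : Fin 6), (4 : Fin 6))]) (pk (goalR [((2 : Fin 6), (4 : Fin 6))])) 0 = true := by
  decide +kernel

def tree6_2_5 : CTree :=
  CTree.cons CTree.nil (CTree.cons (CTree.cons CTree.nil (CTree.cons CTree.nil (CTree.cons CTree.nil (CTree.cons CTree.nil (CTree.cons CTree.nil (CTree.cons CTree.nil (CTree.cons CTree.nil (CTree.cons CTree.nil (CTree.cons (CTree.leaf 1 20916889091165704687455155781760) (CTree.cons (CTree.leaf 1 89857993302881123259693398705062718996608) (CTree.cons (CTree.leaf 1 2036234290024762414515772779562860672) (CTree.cons CTree.nil (CTree.cons CTree.nil (CTree.cons CTree.nil (CTree.cons CTree.nil (CTree.cons CTree.nil (CTree.cons CTree.nil (CTree.cons CTree.nil (CTree.cons (CTree.leaf 1 43909857826096856615606677835089139728512) (CTree.cons CTree.nil (CTree.cons (CTree.leaf 1 43909858485668669252867249951224967790720) (CTree.cons CTree.nil (CTree.cons (CTree.leaf 1 31067829332329093691934833246336) (CTree.cons CTree.nil (CTree.cons (CTree.leaf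 1 43909857826096856615606677835089139728512) (CTree.cons CTree.nil (CTree.cons (CTree.leaf 1 43909858485668669252867249951224967790720) (CTree.cons (CTree.leaf 1 2788304617137377240904963150934245504) (CTree.cons CTree.nil (CTree.cons CTree.nil (CTree.cons (CTree.leaf 1 43909858485668669252867249951224967790720) (CTree.cons CTree.nil (CTree.cons CTree.nil (CTree.cons (CTree.leaf 1 43909857826096856615606677835089139728512) (CTree.cons (CTree.leaf 1 43909857826096856615606677835089139728512) (CTree.cons CTree.nil CTree.nil)))))))))))))))))))))))))))))))))))) (CTree.cons (CTree.cons CTree.nil (CTree.cons CTree.nil (CTree.cons CTree.nil (CTree.cons CTree.nil (CTree.cons CTree.nil (CTree.cons CTree.nil (CTree.cons (CTree.leaf 1 664656870718004890967362750087565442) (CTree.cons CTree.nil (CTree.cons CTree.nil (CTree.cons (CTree.leaf 1 507852676468921422189869021663362) (CTree.cons (CTree.leaf 1 44581070974044348613661231332267200642) (CTree.cons CTree.nil (CTree.cons CTree.nil (CTree.cons CTree.nil (CTree.cons CTree.nil (CTree.cons CTree.nil (CTree.cons CTree.nil (CTree.cons CTree.nil (CTree.cons (CTree.leaf 1 2061351994694897944256931093313360002)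 (CTree.cons (CTree.leaf 1 43579591421207626155401859931434844688514) (CTree.cons CTree.nil (CTree.cons CTree.nil (CTree.cons (CTree.leaf 1 10151594428563344596036249325698) (CTree.cons CTree.nil (CTree.cons (CTree.leaf 1 2061351994694897944256931093313360002) (CTree.cons (CTree.leaf 1 664656712261679862439250512953086082) (CTree.cons CTree.nil (CTree.cons (CTree.leaf 1 664655598137445312157679271054217346) (CTree.cons CTree.nil (CTree.cons CTree.nil (CTree.cons CTree.nil (CTree.cons (CTree.leaf 1 2061351994694897944256931093313360002) (CTree.cons CTree.nil (CTree.cons (CTree.leaf 1 141558129295817732521275695097144705880194) (CTree.cons (CTree.leaf 1 664656712261679862439250512953086082) (CTree.cons CTree.nil CTree.nil)))))))))))))))))))))))))))))))))))) (CTree.cons (CTree.cons CTree.nil (CTree.cons CTree.nil (CTree.cons CTree.nil (CTree.cons CTree.nil (CTree.cons CTree.nil (CTree.cons CTree.nil (CTree.cons (CTree.leaf 1 94778210673346702100615181005687065147091911329) (CTree.cons CTree.nil (CTree.cons (CTree.leaf 1 182392013641417964980339301988212008419720) (CTree.cons CTree.nil (CTree.cons (CTree.leaf 1 89835209838922703026621373704331998331553)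 (CTree.cons CTree.nil (CTree.cons CTree.nil (CTree.cons CTree.nil (CTree.cons CTree.nil (CTree.cons CTree.nil (CTree.cons CTree.nil (CTree.cons CTree.nil (CTree.cons CTree.nil (CTree.cons (CTree.leaf 1 176947495770682949675754030400305051271841) (CTree.cons (CTree.leaf 1 1446200724385783418283314968827613588292257) (CTree.cons CTree.nil (CTree.cons (CTree.leaf 1 853295049824087690976984878354562) (CTree.cons CTree.nil (CTree.cons (CTree.leaf 1 2856032112066316528342294473337046564153131161) (CTree.cons (CTree.leaf 1 15354539615349220051303294173194955319484354382070029) (CTree.cons (CTree.leaf 1 43579591553746596851039061208057018647201) (CTree.cons CTree.nil (CTree.cons CTree.nil (CTree.cons CTree.nil (CTree.cons (CTree.leaf 1 2854586264252475521651371694900951966529159321) (CTree.cons (CTree.leaf 1 2854547450000759723986386848466908921753043617) (CTree.cons CTree.nil (CTree.cons CTree.nil (CTree.cons (CTree.leaf 1 2854586264252475521651520483995372439052812441) (CTree.cons CTree.nil CTree.nil)))))))))))))))))))))))))))))))))))) (CTree.cons (CTree.cons CTree.nil (CTree.cons CTree.nil (CTree.cons CTree.nil (CTree.cons CTree.nil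 (CTree.cons CTree.nil (CTree.cons CTree.nil (CTree.cons (CTree.leaf 1 136114276850292495721977076256069497458818) (CTree.cons CTree.nil (CTree.cons (CTree.leaf 1 33241114924984215098783744714056994946) (CTree.cons (CTree.leaf 1 1479814748551778608090847784350128394) (CTree.cons CTree.nil (CTree.cons CTree.nil (CTree.cons CTree.nil (CTree.cons CTree.nil (CTree.cons CTree.nil (CTree.cons CTree.nil (CTree.cons CTree.nil (CTree.cons CTree.nil (CTree.cons (CTree.leaf 1 136114343506384565898948226411272801551009) (CTree.cons (CTree.leaf 1 33241114924984370749490498741968048258) (CTree.cons (CTree.leaf 1 22067271803007662390515691480946907402) (CTree.cons CTree.nil (CTree.cons CTree.nil (CTree.cons CTree.nil (CTree.cons CTree.nil (CTree.cons (CTree.leaf 1 182732296008338893731923994706088755861770) (CTree.cons (CTree.leaf 1 182732296008341376903816575016181619038474) (CTree.cons (CTree.leaf 1 2788943039950795255635993510304354434) (CTree.cons CTree.nil (CTree.cons CTree.nil (CTree.cons (CTree.leaf 1 136114343506371721220277781969454477542049) (CTree.cons (CTree.leaf 1 43556938241223279399496901731063427045642) (CTree.cons CTree.nil (CTree.cons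 (CTree.leaf 1 136113611394508216551112164397599412781729) (CTree.cons CTree.nil (CTree.cons CTree.nil CTree.nil)))))))))))))))))))))))))))))))))))) (CTree.cons CTree.nil (CTree.cons (CTree.cons CTree.nil (CTree.cons CTree.nil (CTree.cons (CTree.leaf 1 664656870717929351551788284357251202) (CTree.cons (CTree.leaf 1 11953335540024154171875994519802710049442304130) (CTree.cons (CTree.leaf 1 43612105563922693616182071217151272882306) (CTree.cons CTree.nil (CTree.cons CTree.nil (CTree.cons CTree.nil (CTree.cons CTree.nil (CTree.cons CTree.nil (CTree.cons CTree.nil (CTree.cons CTree.nil (CTree.cons CTree.nil (CTree.cons CTree.nil (CTree.cons CTree.nil (CTree.cons CTree.nil (CTree.cons CTree.nil (CTree.cons CTree.nil (CTree.cons CTree.nil (CTree.cons (CTree.leaf 1 88814362715181697976707057585585734680976) (CTree.cons (CTree.leaf 1 2134933589875587746388535515721088112863762) (CTree.cons CTree.nil (CTree.cons (CTree.leaf 1 2076939422119167737674444370331380242) (CTree.cons CTree.nil (CTree.cons CTree.nil (CTree.cons (CTree.leaf 1 88814362423071920096111364015956331463056) (CTree.cons (CTree.leaf 1 2134933589875587746388535515721088112863762)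 (CTree.cons (CTree.leaf 1 179670445281530123033553857889883694105113) (CTree.cons CTree.nil (CTree.cons CTree.nil (CTree.cons CTree.nil (CTree.cons (CTree.leaf 1 2134933589875587746388535515721088112863762) (CTree.cons CTree.nil (CTree.cons (CTree.leaf 1 88814362423071920096111364015956331463056) (CTree.cons (CTree.leaf 1 88814362423071920096111364015956331463056) (CTree.cons CTree.nil CTree.nil)))))))))))))))))))))))))))))))))))) (CTree.cons CTree.nil (CTree.cons (CTree.cons CTree.nil (CTree.cons (CTree.leaf 1 20916889091165704687455155781760) (CTree.cons CTree.nil (CTree.cons (CTree.leaf 1 182392013641415489100260731227662210171272) (CTree.cons (CTree.leaf 1 33241114924984177319851881756895285378) (CTree.cons CTree.nil (CTree.cons CTree.nil (CTree.cons CTree.nil (CTree.cons CTree.nil (CTree.cons CTree.nil (CTree.cons CTree.nil (CTree.cons CTree.nil (CTree.cons CTree.nil (CTree.cons CTree.nil (CTree.cons CTree.nil (CTree.cons CTree.nil (CTree.cons CTree.nil (CTree.cons CTree.nil (CTree.cons (CTree.leaf 1 2798658148116019584744722127131902344) (CTree.cons (CTree.leaf 1 2798678826660348382807275878771403282) (CTree.cons CTree.nil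 (CTree.cons CTree.nil (CTree.cons (CTree.leaf 1 31057594450552366994487597148690) (CTree.cons CTree.nil (CTree.cons (CTree.leaf 1 2798658148116019584744722127131902344) (CTree.cons (CTree.leaf 1 2798678826660348382807275878771403282) (CTree.cons CTree.nil (CTree.cons (CTree.leaf 1 2788621207569861812743487175902495393) (CTree.cons CTree.nil (CTree.cons CTree.nil (CTree.cons (CTree.leaf 1 665111075854503107858883125665989147) (CTree.cons CTree.nil (CTree.cons CTree.nil (CTree.cons (CTree.leaf 1 2798658148116019584744722127131902344) (CTree.cons (CTree.leaf 1 2798658148116019584744722127131902344) (CTree.cons CTree.nil CTree.nil)))))))))))))))))))))))))))))))))))) (CTree.cons (CTree.cons CTree.nil (CTree.cons (CTree.leaf 1 89857993465140400086785418897786452574336) (CTree.cons (CTree.leaf 1 507852676468921422189869021663362) (CTree.cons CTree.nil (CTree.cons (CTree.leaf 1 2918975384890093016297710186300174919340162) (CTree.cons CTree.nil (CTree.cons CTree.nil (CTree.cons CTree.nil (CTree.cons CTree.nil (CTree.cons CTree.nil (CTree.cons CTree.nil (CTree.cons CTree.nil (CTree.cons CTree.nil (CTree.cons CTree.nil (CTree.cons CTree.nil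 (CTree.cons CTree.nil (CTree.cons CTree.nil (CTree.cons CTree.nil (CTree.cons (CTree.leaf 1 11774882301970358140846878485199772131554099873) (CTree.cons CTree.nil (CTree.cons (CTree.leaf 1 176970279221642509914652883708353428718241) (CTree.cons CTree.nil (CTree.cons (CTree.leaf 1 20916389648726531757874405841162) (CTree.cons CTree.nil (CTree.cons (CTree.leaf 1 11776330180657983374226921942179788208543432968) (CTree.cons (CTree.leaf 1 11774882301970358140846798224641005044963082913) (CTree.cons (CTree.leaf 1 960307287428435615225356001129200709431683834970393) (CTree.cons CTree.nil (CTree.cons CTree.nil (CTree.cons CTree.nil (CTree.cons (CTree.leaf 1 11419518258286299421493694108211236148978451105) (CTree.cons (CTree.leaf 1 11774882301970358138360075758646272453140152993) (CTree.cons CTree.nil (CTree.cons CTree.nil (CTree.cons (CTree.leaf 1 11597924219069575413990995477293054466998993569) (CTree.cons CTree.nil CTree.nil)))))))))))))))))))))))))))))))))))) (CTree.cons (CTree.cons CTree.nil (CTree.cons (CTree.leaf 1 2036234292500642494810541255039189120) (CTree.cons (CTree.leaf 1 133391353300929724932209406228012886262433) (CTree.cons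 (CTree.leaf 1 5887440312003475998869944840398019468866945181) (CTree.cons CTree.nil (CTree.cons CTree.nil (CTree.cons CTree.nil (CTree.cons CTree.nil (CTree.cons CTree.nil (CTree.cons CTree.nil (CTree.cons CTree.nil (CTree.cons CTree.nil (CTree.cons CTree.nil (CTree.cons CTree.nil (CTree.cons CTree.nil (CTree.cons CTree.nil (CTree.cons CTree.nil (CTree.cons CTree.nil (CTree.cons (CTree.leaf 1 759987274070266286021512886751630534473407654854789) (CTree.cons (CTree.leaf 1 11774882279186907178763415774890689446919930272) (CTree.cons (CTree.leaf 1 176947495770683094590775558873920340828554) (CTree.cons CTree.nil (CTree.cons CTree.nil (CTree.cons CTree.nil (CTree.cons (CTree.leaf 1 11953288240775152163895774256473967370468131216) (CTree.cons CTree.nil (CTree.cons (CTree.leaf 1 133391352804800312880150133120374325445145) (CTree.cons (CTree.leaf 1 1370776512018866761076503048374264202) (CTree.cons CTree.nil (CTree.cons CTree.nil (CTree.cons (CTree.leaf 1 759987274070266286021512886751630534473407654854789) (CTree.cons (CTree.leaf 1 11774882279186907178763415774890708207050817952) (CTree.cons CTree.nil (CTree.cons (CTree.leaf 1 759987274070266286021512886751630534473407654854789)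 (CTree.cons CTree.nil (CTree.cons CTree.nil CTree.nil)))))))))))))))))))))))))))))))))))) (CTree.cons CTree.nil (CTree.cons CTree.nil (CTree.cons CTree.nil (CTree.cons CTree.nil (CTree.cons CTree.nil (CTree.cons CTree.nil (CTree.cons CTree.nil (CTree.cons (CTree.cons CTree.nil (CTree.cons (CTree.leaf 1 2035401691310995505616581485996933248) (CTree.cons (CTree.leaf 1 2061351997170778022827691643111608450) (CTree.cons CTree.nil (CTree.cons (CTree.leaf 1 141602004668781763794292143200282553159810) (CTree.cons CTree.nil (CTree.cons CTree.nil (CTree.cons CTree.nil (CTree.cons (CTree.leaf 1 13432482114395346567975178609374658952) (CTree.cons (CTree.leaf 1 664948816422931387970040437903329819) (CTree.cons (CTree.leaf 1 880311854000985122492746906146496840335493) (CTree.cons CTree.nil (CTree.cons CTree.nil (CTree.cons CTree.nil (CTree.cons CTree.nil (CTree.cons CTree.nil (CTree.cons CTree.nil (CTree.cons CTree.nil (CTree.cons CTree.nil (CTree.cons CTree.nil (CTree.cons CTree.nil (CTree.cons CTree.nil (CTree.cons CTree.nil (CTree.cons CTree.nil (CTree.cons CTree.nil (CTree.cons (CTree.leaf 1 100710348061627834315930162030188590668194054405)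 (CTree.cons (CTree.leaf 1 100710348061627813162010770721610461988052337040) (CTree.cons (CTree.leaf 1 176970279221642998279972041587266970911393) (CTree.cons CTree.nil (CTree.cons CTree.nil (CTree.cons CTree.nil (CTree.cons (CTree.leaf 1 6600150671385195807964923074468949993031878731431945) (CTree.cons CTree.nil (CTree.cons (CTree.leaf 1 385937142562233090119438940991571940567476653326345) (CTree.cons (CTree.leaf 1 557563900950548425662548767324869288726233480) (CTree.cons CTree.nil CTree.nil)))))))))))))))))))))))))))))))))))) (CTree.cons (CTree.cons CTree.nil (CTree.cons CTree.nil (CTree.cons (CTree.leaf 1 148478540203508138133570054006079782911404609666) (CTree.cons (CTree.leaf 1 55921544385735638431245681927083069570) (CTree.cons (CTree.leaf 1 1397235074106711286825368972936941698) (CTree.cons CTree.nil (CTree.cons (CTree.leaf 1 90856056602572121697925586784961321634331) (CTree.cons CTree.nil (CTree.cons (CTree.leaf 1 13432502792939675366037732361014159890) (CTree.cons CTree.nil (CTree.cons (CTree.leaf 1 880311148196260582270061059331716217381258) (CTree.cons CTree.nil (CTree.cons CTree.nil (CTree.cons CTree.nil (CTree.cons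 CTree.nil (CTree.cons CTree.nil (CTree.cons CTree.nil (CTree.cons CTree.nil (CTree.cons CTree.nil (CTree.cons CTree.nil (CTree.cons CTree.nil (CTree.cons CTree.nil (CTree.cons CTree.nil (CTree.cons CTree.nil (CTree.cons (CTree.leaf 1 90856056602572121697925663670995568822811) (CTree.cons CTree.nil (CTree.cons (CTree.leaf 1 9730683812583367857452981672005641875087285364130449) (CTree.cons (CTree.leaf 1 179670445281530122965502589546239093310113) (CTree.cons CTree.nil (CTree.cons CTree.nil (CTree.cons (CTree.leaf 1 11598653104621584697653775725895499584916554401) (CTree.cons CTree.nil (CTree.cons CTree.nil (CTree.cons (CTree.leaf 1 390369415577907005328912407150218312613539245787675) (CTree.cons (CTree.leaf 1 390369415577907005328912407150218312613539245787675) (CTree.cons CTree.nil CTree.nil)))))))))))))))))))))))))))))))))))) (CTree.cons (CTree.cons CTree.nil (CTree.cons (CTree.leaf 1 13432492899654129578380633221096079488) (CTree.cons CTree.nil (CTree.cons (CTree.leaf 1 43600765768233605495822951163893622378626) (CTree.cons (CTree.leaf 1 665467922127918789336576824519037058) (CTree.cons CTree.nil (CTree.cons (CTree.leaf 1 409368936946567788125092980262756388482561700069771)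 (CTree.cons CTree.nil (CTree.cons CTree.nil (CTree.cons (CTree.leaf 1 2700004507803857858722341736261228810) (CTree.cons (CTree.leaf 1 176947495770680778333896786041302971392394) (CTree.cons CTree.nil (CTree.cons CTree.nil (CTree.cons CTree.nil (CTree.cons CTree.nil (CTree.cons CTree.nil (CTree.cons CTree.nil (CTree.cons CTree.nil (CTree.cons CTree.nil (CTree.cons CTree.nil (CTree.cons CTree.nil (CTree.cons CTree.nil (CTree.cons CTree.nil (CTree.cons CTree.nil (CTree.cons (CTree.leaf 1 89835209491666119925048731143729167018514) (CTree.cons (CTree.leaf 1 409368936946567788125092980262756388482561700069771) (CTree.cons CTree.nil (CTree.cons (CTree.leaf 1 176970279221642998279972041587266970911393) (CTree.cons CTree.nil (CTree.cons CTree.nil (CTree.cons (CTree.leaf 1 87114337093982785193031378627738340502034) (CTree.cons (CTree.leaf 1 409368936946567788125092980222320664126123701568161) (CTree.cons CTree.nil (CTree.cons CTree.nil (CTree.cons (CTree.leaf 1 134412199752732161109243477440962911873554) (CTree.cons CTree.nil CTree.nil)))))))))))))))))))))))))))))))))))) (CTree.cons CTree.nil (CTree.cons (CTree.cons CTree.nil (CTree.cons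 (CTree.leaf 1 31067829332329093691934833246336) (CTree.cons (CTree.leaf 1 10151594428563344596036249325698) (CTree.cons (CTree.leaf 1 853295049824087690976984878354562) (CTree.cons CTree.nil (CTree.cons CTree.nil (CTree.cons (CTree.leaf 1 2076939422119167737674435574238358034) (CTree.cons CTree.nil (CTree.cons (CTree.leaf 1 31057594450552366994487597148690) (CTree.cons (CTree.leaf 1 20916389648726531757874405841162) (CTree.cons CTree.nil (CTree.cons CTree.nil (CTree.cons CTree.nil (CTree.cons CTree.nil (CTree.cons CTree.nil (CTree.cons CTree.nil (CTree.cons CTree.nil (CTree.cons CTree.nil (CTree.cons CTree.nil (CTree.cons CTree.nil (CTree.cons CTree.nil (CTree.cons CTree.nil (CTree.cons CTree.nil (CTree.cons CTree.nil (CTree.cons (CTree.leaf 1 2035390509911399923350737422318119442) (CTree.cons (CTree.leaf 1 2076939422119167737674435574238358034) (CTree.cons (CTree.leaf 1 2035390509911399923350737422318119442) (CTree.cons CTree.nil (CTree.cons CTree.nil (CTree.cons CTree.nil (CTree.cons (CTree.leaf 1 1994339071329933970941343372803123730) (CTree.cons (CTree.leaf 1 2076939422119167737674435574238358034) (CTree.cons CTree.nil (CTree.cons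 (CTree.leaf 1 2035390509911399923350737422318119442) (CTree.cons CTree.nil (CTree.cons CTree.nil CTree.nil)))))))))))))))))))))))))))))))))))) (CTree.cons CTree.nil (CTree.cons (CTree.cons CTree.nil (CTree.cons (CTree.leaf 1 2035401691310995505616581485996933248) (CTree.cons (CTree.leaf 1 664818961628984421803092762518753410) (CTree.cons (CTree.leaf 1 55921544385271300108619307660284596354) (CTree.cons CTree.nil (CTree.cons CTree.nil (CTree.cons CTree.nil (CTree.cons CTree.nil (CTree.cons (CTree.leaf 1 13432482114395346567975178609374658952) (CTree.cons (CTree.leaf 1 13432482114395346566360400033984676104) (CTree.cons (CTree.leaf 1 880311148196265188390861820271776112443653) (CTree.cons CTree.nil (CTree.cons CTree.nil (CTree.cons CTree.nil (CTree.cons CTree.nil (CTree.cons CTree.nil (CTree.cons CTree.nil (CTree.cons CTree.nil (CTree.cons CTree.nil (CTree.cons (CTree.leaf 1 100710254132427583083465577082515573913824592272) (CTree.cons (CTree.leaf 1 91925208425589172828774946556810477206543991457) (CTree.cons CTree.nil (CTree.cons (CTree.leaf 1 2035390509911399923350746218411141650) (CTree.cons CTree.nil (CTree.cons CTree.nil (CTree.cons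 CTree.nil (CTree.cons CTree.nil (CTree.cons CTree.nil (CTree.cons CTree.nil (CTree.cons CTree.nil (CTree.cons CTree.nil (CTree.cons (CTree.leaf 1 6600150693685932496450847558694058810498564855169049) (CTree.cons CTree.nil (CTree.cons (CTree.leaf 1 36638251240487575035676727346839283110212202987912) (CTree.cons (CTree.leaf 1 36638251240487575035676727346839283110212202987912) (CTree.cons CTree.nil CTree.nil)))))))))))))))))))))))))))))))))))) (CTree.cons (CTree.cons CTree.nil (CTree.cons CTree.nil (CTree.cons (CTree.leaf 1 187172920623654987128995480174270453413076988395907) (CTree.cons (CTree.leaf 1 2856032112601143783321946731772175235658875553) (CTree.cons (CTree.leaf 1 393335236324524156686558476394038950891895104012441) (CTree.cons CTree.nil (CTree.cons (CTree.leaf 1 90856056602572121697925586784961321634331) (CTree.cons CTree.nil (CTree.cons (CTree.leaf 1 13432502792939675366037732361014159890) (CTree.cons (CTree.leaf 1 664634686832460609342072985645353499) (CTree.cons CTree.nil (CTree.cons CTree.nil (CTree.cons CTree.nil (CTree.cons CTree.nil (CTree.cons CTree.nil (CTree.cons CTree.nil (CTree.cons CTree.nil (CTree.cons CTree.nil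 (CTree.cons (CTree.leaf 1 90856056602572121697925663670995568822811) (CTree.cons CTree.nil (CTree.cons (CTree.leaf 1 8765729578856194673317204867214902820119579163) (CTree.cons CTree.nil (CTree.cons (CTree.leaf 1 2076939422119167737674444370331380242) (CTree.cons CTree.nil (CTree.cons CTree.nil (CTree.cons CTree.nil (CTree.cons CTree.nil (CTree.cons CTree.nil (CTree.cons CTree.nil (CTree.cons CTree.nil (CTree.cons (CTree.leaf 3 6972089584919141138489165517840662670699714472525564720196054318318022524862163596763825067861016044737064645913227577798068576906641998133334844463642249755) (CTree.cons CTree.nil (CTree.cons CTree.nil (CTree.cons (CTree.leaf 1 390224150011376830447749505290565843295749955193371) (CTree.cons (CTree.leaf 1 390224150011376830447749505290565843295749955193371) (CTree.cons CTree.nil CTree.nil)))))))))))))))))))))))))))))))))))) (CTree.cons (CTree.cons CTree.nil (CTree.cons (CTree.leaf 1 13432492899654129578380633221096079488) (CTree.cons CTree.nil (CTree.cons (CTree.leaf 1 43579591420098441478303588113643015835778) (CTree.cons (CTree.leaf 1 607996099163283912234751854002664627572868540078346) (CTree.cons CTree.nil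 (CTree.cons (CTree.leaf 1 409229134271486339751597383204196716237215076778379) (CTree.cons CTree.nil (CTree.cons CTree.nil (CTree.cons (CTree.leaf 1 960307287428435615213947145727147222405312274759961) (CTree.cons (CTree.leaf 1 410684816122107749729712577849527026531764680654981) (CTree.cons CTree.nil (CTree.cons CTree.nil (CTree.cons CTree.nil (CTree.cons CTree.nil (CTree.cons CTree.nil (CTree.cons CTree.nil (CTree.cons CTree.nil (CTree.cons (CTree.leaf 1 89835209491663470000087398886149548222994) (CTree.cons (CTree.leaf 1 409229134271486339751599857845115139004535247274379) (CTree.cons CTree.nil (CTree.cons CTree.nil (CTree.cons (CTree.leaf 1 2035390509911399923350746218411141650) (CTree.cons CTree.nil (CTree.cons CTree.nil (CTree.cons CTree.nil (CTree.cons CTree.nil (CTree.cons CTree.nil (CTree.cons CTree.nil (CTree.cons CTree.nil (CTree.cons (CTree.leaf 1 87114337093982785193031378627738340502034) (CTree.cons (CTree.leaf 1 409229134271486339751594733208565907423874333147809) (CTree.cons CTree.nil (CTree.cons (CTree.leaf 1 134412199568687947923286385994733157689874) (CTree.cons CTree.nil (CTree.cons CTree.nil CTree.nil))))))))))))))))))))))))))))))))))))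 (CTree.cons (CTree.cons CTree.nil (CTree.cons (CTree.leaf 1 2788304617137377240904963150934245504) (CTree.cons (CTree.leaf 1 664655598137445312157679271054217346) (CTree.cons CTree.nil (CTree.cons (CTree.leaf 1 2788943039950795255635993510304354434) (CTree.cons CTree.nil (CTree.cons (CTree.leaf 1 179670445281530123033553857881087601082905) (CTree.cons CTree.nil (CTree.cons (CTree.leaf 1 2788621207569861812743487175902495393) (CTree.cons CTree.nil (CTree.cons (CTree.leaf 1 1370776512018866761076503048374264202) (CTree.cons CTree.nil (CTree.cons CTree.nil (CTree.cons CTree.nil (CTree.cons CTree.nil (CTree.cons CTree.nil (CTree.cons CTree.nil (CTree.cons CTree.nil (CTree.cons (CTree.leaf 1 176970279221642998279972041587266836693665) (CTree.cons (CTree.leaf 1 179670445281530122965502589546238959092385) (CTree.cons (CTree.leaf 1 176970279221642998279972041587266836693665) (CTree.cons CTree.nil (CTree.cons CTree.nil (CTree.cons CTree.nil (CTree.cons CTree.nil (CTree.cons CTree.nil (CTree.cons CTree.nil (CTree.cons CTree.nil (CTree.cons CTree.nil (CTree.cons CTree.nil (CTree.cons (CTree.leaf 1 11597924218534756792857381212542873525360994842)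 (CTree.cons (CTree.leaf 1 179670445281530122965502589546238959092385) (CTree.cons CTree.nil (CTree.cons CTree.nil (CTree.cons (CTree.leaf 1 182755079459298931607110476464910926283425) (CTree.cons CTree.nil CTree.nil)))))))))))))))))))))))))))))))))))) (CTree.cons CTree.nil (CTree.cons CTree.nil (CTree.cons (CTree.cons CTree.nil (CTree.cons (CTree.leaf 1 13432492260548281773493067795072680333) (CTree.cons CTree.nil (CTree.cons (CTree.leaf 1 55921544385271300108619307660284596354) (CTree.cons (CTree.leaf 1 141602004668781763794292143200282553159810) (CTree.cons CTree.nil (CTree.cons CTree.nil (CTree.cons CTree.nil (CTree.cons (CTree.leaf 1 665111075854503107858883125665991195) (CTree.cons (CTree.leaf 1 13432482114395346566360400033984676104) (CTree.cons (CTree.leaf 1 880311854000985122603315075301266697093253) (CTree.cons CTree.nil (CTree.cons CTree.nil (CTree.cons CTree.nil (CTree.cons CTree.nil (CTree.cons CTree.nil (CTree.cons CTree.nil (CTree.cons CTree.nil (CTree.cons CTree.nil (CTree.cons (CTree.leaf 1 100710297718981701806445658268138640075572062746) (CTree.cons (CTree.leaf 1 91925208425589172831398275555975611362948360730)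 (CTree.cons CTree.nil (CTree.cons (CTree.leaf 1 1994339071329933970941352168896145938) (CTree.cons CTree.nil (CTree.cons CTree.nil (CTree.cons (CTree.leaf 1 100710297718981701806446867193960506504560454170) (CTree.cons (CTree.leaf 1 100710301430201671085245321157681624625835616794) (CTree.cons (CTree.leaf 1 11597924218534919052134210425906265103505500698) (CTree.cons CTree.nil (CTree.cons CTree.nil (CTree.cons CTree.nil (CTree.cons CTree.nil (CTree.cons CTree.nil (CTree.cons CTree.nil (CTree.cons CTree.nil (CTree.cons CTree.nil CTree.nil)))))))))))))))))))))))))))))))))))) (CTree.cons (CTree.cons CTree.nil (CTree.cons CTree.nil (CTree.cons (CTree.leaf 1 664818961628984421803092762518753410) (CTree.cons (CTree.leaf 1 2854636966325652372802569670886032093342666882) (CTree.cons (CTree.leaf 1 43557488624700484818305194192627894456450) (CTree.cons CTree.nil (CTree.cons (CTree.leaf 1 183414215584015396283270296257892163070482) (CTree.cons CTree.nil (CTree.cons CTree.nil (CTree.cons (CTree.leaf 1 664634686832460609342072985645353499) (CTree.cons (CTree.leaf 1 880311148173289371850212850612109031637253) (CTree.cons CTree.nil (CTree.cons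 CTree.nil (CTree.cons CTree.nil (CTree.cons CTree.nil (CTree.cons CTree.nil (CTree.cons CTree.nil (CTree.cons CTree.nil (CTree.cons (CTree.leaf 1 43558194257967848992243897082154899016219) (CTree.cons CTree.nil (CTree.cons (CTree.leaf 1 183414215584015396283270296233836712958082) (CTree.cons CTree.nil (CTree.cons (CTree.leaf 1 2076939422119167737674444370331380242) (CTree.cons CTree.nil (CTree.cons (CTree.leaf 1 43558194257967848992243897082154899016219) (CTree.cons CTree.nil (CTree.cons (CTree.leaf 1 183414215584015396283270296233836712958082) (CTree.cons (CTree.leaf 1 179670445281530122965502589546239093310113) (CTree.cons CTree.nil (CTree.cons CTree.nil (CTree.cons CTree.nil (CTree.cons CTree.nil (CTree.cons CTree.nil (CTree.cons CTree.nil (CTree.cons CTree.nil (CTree.cons CTree.nil CTree.nil)))))))))))))))))))))))))))))))))))) (CTree.cons CTree.nil (CTree.cons (CTree.cons CTree.nil (CTree.cons (CTree.leaf 1 2035401691310995505616581485996933248) (CTree.cons (CTree.leaf 1 141558129610903310017558883730488966582402) (CTree.cons CTree.nil (CTree.cons (CTree.leaf 1 607987892489050852946341781694487716525615897117345) (CTree.cons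 CTree.nil (CTree.cons (CTree.leaf 1 90856747167514979786184752949848666280066) (CTree.cons CTree.nil (CTree.cons (CTree.leaf 1 13432482114395346567975178609374658952) (CTree.cons CTree.nil (CTree.cons (CTree.leaf 1 11596431082827325030481456764583144769742045317) (CTree.cons CTree.nil (CTree.cons CTree.nil (CTree.cons CTree.nil (CTree.cons CTree.nil (CTree.cons CTree.nil (CTree.cons CTree.nil (CTree.cons CTree.nil (CTree.cons (CTree.leaf 1 90856056592428935466683094860380383609224) (CTree.cons (CTree.leaf 1 90856747167516961104795739196217653068176) (CTree.cons CTree.nil (CTree.cons CTree.nil (CTree.cons (CTree.leaf 1 2035390509911399923350746218411141650) (CTree.cons CTree.nil (CTree.cons (CTree.leaf 1 90856056592428935466683094860380383609224) (CTree.cons (CTree.leaf 1 90856747167516961104795739196217653068176) (CTree.cons (CTree.leaf 1 90856056592428935466683094860380383609224) (CTree.cons CTree.nil (CTree.cons CTree.nil (CTree.cons CTree.nil (CTree.cons CTree.nil (CTree.cons CTree.nil (CTree.cons CTree.nil (CTree.cons CTree.nil (CTree.cons CTree.nil (CTree.cons CTree.nil CTree.nil)))))))))))))))))))))))))))))))))))) (CTree.cons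 (CTree.cons CTree.nil (CTree.cons (CTree.leaf 1 2035401691310995505616581485996933248) (CTree.cons (CTree.leaf 1 664645461862602837519742428708475010) (CTree.cons (CTree.leaf 1 2855283162539767341859784099365977502527848601) (CTree.cons CTree.nil (CTree.cons CTree.nil (CTree.cons (CTree.leaf 1 90856747167514979786184752949848666280066) (CTree.cons CTree.nil (CTree.cons (CTree.leaf 1 13432482114395346567975178609374658952) (CTree.cons (CTree.leaf 1 11597924219069563527290738259071654885752242849) (CTree.cons CTree.nil (CTree.cons CTree.nil (CTree.cons CTree.nil (CTree.cons CTree.nil (CTree.cons CTree.nil (CTree.cons CTree.nil (CTree.cons CTree.nil (CTree.cons CTree.nil (CTree.cons (CTree.leaf 1 90856056592428935466683094860380383609224) (CTree.cons (CTree.leaf 1 90856747167516961104795739196217653068176) (CTree.cons (CTree.leaf 1 90856056592428935466683094860380383609224) (CTree.cons CTree.nil (CTree.cons CTree.nil (CTree.cons CTree.nil (CTree.cons (CTree.leaf 1 90856056592428935466683094860380383609224) (CTree.cons (CTree.leaf 1 90856747167516961104795739196217653068176) (CTree.cons CTree.nil (CTree.cons (CTree.leaf 1 182755079459298931607110476464911060501153)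 (CTree.cons CTree.nil (CTree.cons CTree.nil (CTree.cons CTree.nil (CTree.cons CTree.nil (CTree.cons CTree.nil (CTree.cons CTree.nil (CTree.cons CTree.nil (CTree.cons CTree.nil CTree.nil)))))))))))))))))))))))))))))))))))) (CTree.cons CTree.nil CTree.nil)))))))))))))))))))))))))))))))))))

theorem tree6_2_5_ok : chk 6 (pk (goalL 6)) tree6_2_5 (stk [((2 : Fin 6), (5 : Fin 6))]) 1 (om [((2 : Fin 6), (5 : Fin 6))]) (im [((2 : Fin 6), (5 : Fin 6))])
    (cm [((2 : Fin 6), (5 : Fin 6))]) (pk (goalR [((2 : Fin 6), (5 : Fin 6))])) 0 = true := by
  decide +kernel

end Vale.Agent.Lib.P333
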