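import Vale.Agent.Lib.P333.CertSound

namespace Vale.Agent.Lib.P333

def tree6_3_0 : CTree :=
  CTree.cons CTree.nil (CTree.cons (CTree.cons CTree.nil (CTree.cons CTree.nil (CTree.cons CTree.nil (CTree.cons CTree.nil (CTree.cons CTree.nil (CTree.cons CTree.nil (CTree.cons CTree.nil (CTree.cons CTree.nil (CTree.cons (CTree.leaf 1 1329562819603230859416288010234233504) (CTree.cons CTree.nil (CTree.cons (CTree.leaf 1 3667587417021166782839599275921481912090752) (CTree.cons (CTree.leaf 1 182392807725956852698520997644540678570112) (CTree.cons CTree.nil (CTree.cons CTree.nil (CTree.cons CTree.nil (CTree.cons (CTree.leaf 1 1329562819603230713457157963250467488) (CTree.cons (CTree.leaf 1 561186217380245618478645179445312736760758928) (CTree.cons (CTree.leaf 1 2036061255699619308511720612257988736) (CTree.cons CTree.nil (CTree.cons CTree.nil (CTree.cons CTree.nil (CTree.cons CTree.nil (CTree.cons CTree.nil (CTree.cons CTree.nil (CTree.cons CTree.nil (CTree.cons CTree.nil (CTree.cons (CTree.leaf 1 11707935149720207875819989973455694831548433056) (CTree.cons (CTree.leaf 1 2878373362742125799284241945276180800604209177) (CTree.cons CTree.nil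 (CTree.cons (CTree.leaf 1 23360164889303861168852604099174662272) (CTree.cons CTree.nil (CTree.cons CTree.nil (CTree.cons (CTree.leaf 1 11707935149720207875819989973455694831548433056) (CTree.cons (CTree.leaf 1 2878373362742125799284241945276180800604209177) (CTree.cons (CTree.leaf 1 103363997891744934944066652943660892421566038672) (CTree.cons CTree.nil CTree.nil)))))))))))))))))))))))))))))))))))) (CTree.cons (CTree.cons CTree.nil (CTree.cons CTree.nil (CTree.cons CTree.nil (CTree.cons CTree.nil (CTree.cons CTree.nil (CTree.cons CTree.nil (CTree.cons CTree.nil (CTree.cons CTree.nil (CTree.cons CTree.nil (CTree.cons (CTree.leaf 1 3489731341611872939106405399557902466) (CTree.cons (CTree.leaf 1 14987678006249584535503442671386361615861485698) (CTree.cons (CTree.leaf 1 3322952594226498494399037799861961244111081602) (CTree.cons CTree.nil (CTree.cons (CTree.leaf 1 229691262642089238294161508033085601091714) (CTree.cons CTree.nil (CTree.cons CTree.nil (CTree.cons (CTree.leaf 1 664981220905667500059932413318533250) (CTree.cons (CTree.leaf 1 24066306090903243703003840341611778178) (CTree.cons CTree.nil (CTree.cons CTree.nil (CTree.cons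 CTree.nil (CTree.cons CTree.nil (CTree.cons CTree.nil (CTree.cons CTree.nil (CTree.cons CTree.nil (CTree.cons (CTree.leaf 1 8965128263626544535866967469948953593317101698) (CTree.cons CTree.nil (CTree.cons (CTree.leaf 1 5887440291281178879201763945457279602039783961) (CTree.cons CTree.nil (CTree.cons (CTree.leaf 1 2783081257859495978820410898982178946) (CTree.cons CTree.nil (CTree.cons (CTree.leaf 1 8965128263626544535866967469948953593317101698) (CTree.cons CTree.nil (CTree.cons (CTree.leaf 1 5887440291281178879201763945457279602039783961) (CTree.cons (CTree.leaf 1 8965128263626544535866967469948953593317101698) (CTree.cons CTree.nil CTree.nil)))))))))))))))))))))))))))))))))))) (CTree.cons CTree.nil (CTree.cons (CTree.cons CTree.nil (CTree.cons CTree.nil (CTree.cons CTree.nil (CTree.cons CTree.nil (CTree.cons CTree.nil (CTree.cons CTree.nil (CTree.cons CTree.nil (CTree.cons CTree.nil (CTree.cons (CTree.leaf 1 87168248874536933668462860822050175651970) (CTree.cons (CTree.leaf 1 5887625426229318544352704844115842316330277130) (CTree.cons CTree.nil (CTree.cons (CTree.leaf 1 784832268220636823513806941542650632068558144864545) (CTree.cons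 CTree.nil (CTree.cons (CTree.leaf 1 142948479749440597401765851073221070309501765763) (CTree.cons CTree.nil (CTree.cons (CTree.leaf 1 87168248874536933673092884653735286083714) (CTree.cons CTree.nil (CTree.cons (CTree.leaf 1 136168203558779476081794117936493073993858) (CTree.cons CTree.nil (CTree.cons CTree.nil (CTree.cons CTree.nil (CTree.cons CTree.nil (CTree.cons CTree.nil (CTree.cons CTree.nil (CTree.cons CTree.nil (CTree.cons (CTree.leaf 1 958845408809307920606270328698070753077683594395777) (CTree.cons (CTree.leaf 1 970537421907931207473518050517230207925624091248771) (CTree.cons CTree.nil (CTree.cons CTree.nil (CTree.cons (CTree.leaf 1 2788943039950795255631208435700273282) (CTree.cons CTree.nil (CTree.cons (CTree.leaf 1 958845408809307920606270328698070753077683594395777) (CTree.cons (CTree.leaf 1 970537421907931207473518050517230207925624091248771) (CTree.cons (CTree.leaf 1 958845408809307920586926117052912473987003952857217) (CTree.cons CTree.nil (CTree.cons CTree.nil CTree.nil)))))))))))))))))))))))))))))))))))) (CTree.cons (CTree.cons CTree.nil (CTree.cons CTree.nil (CTree.cons CTree.nil (CTree.cons CTree.nil (CTree.cons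 CTree.nil (CTree.cons CTree.nil (CTree.cons CTree.nil (CTree.cons CTree.nil (CTree.cons (CTree.leaf 1 229010697727042812173079049569920159392146) (CTree.cons (CTree.leaf 1 15008452244750251786283719591946339952539277578) (CTree.cons (CTree.leaf 1 983596557799875216133493272453615984971927422304521) (CTree.cons CTree.nil (CTree.cons CTree.nil (CTree.cons (CTree.leaf 1 43559637413127247191282947324185662925338) (CTree.cons CTree.nil (CTree.cons (CTree.leaf 1 229010697727042812210876357245256906645906) (CTree.cons (CTree.leaf 1 136116441196285762380643783459375167840658) (CTree.cons CTree.nil (CTree.cons CTree.nil (CTree.cons CTree.nil (CTree.cons CTree.nil (CTree.cons CTree.nil (CTree.cons CTree.nil (CTree.cons CTree.nil (CTree.cons CTree.nil (CTree.cons (CTree.leaf 1 229011429675793175694594174678453014765970) (CTree.cons (CTree.leaf 1 229032141769271481878858044421056582254720) (CTree.cons (CTree.leaf 1 229010697573104528345362976096230961649930) (CTree.cons CTree.nil (CTree.cons CTree.nil (CTree.cons CTree.nil (CTree.cons (CTree.leaf 1 15008445086239792353597369857088936061252993293) (CTree.cons (CTree.leaf 1 11953428437110473648537381452602329876784677025)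 (CTree.cons CTree.nil (CTree.cons (CTree.leaf 1 15008445075548671929554463799992680449418854669) (CTree.cons CTree.nil CTree.nil)))))))))))))))))))))))))))))))))))) (CTree.cons CTree.nil (CTree.cons CTree.nil (CTree.cons (CTree.cons CTree.nil (CTree.cons (CTree.leaf 1 1329562819603230859416288010234233504) (CTree.cons CTree.nil (CTree.cons CTree.nil (CTree.cons (CTree.leaf 1 87168248874536933668462860822050041434242) (CTree.cons (CTree.leaf 1 229010697564783535343865686178342149104018) (CTree.cons CTree.nil (CTree.cons CTree.nil (CTree.cons CTree.nil (CTree.cons CTree.nil (CTree.cons CTree.nil (CTree.cons CTree.nil (CTree.cons CTree.nil (CTree.cons CTree.nil (CTree.cons CTree.nil (CTree.cons (CTree.leaf 1 3489264450050320061054556734772347553) (CTree.cons (CTree.leaf 1 559095862094098073915010227793821645979255457) (CTree.cons (CTree.leaf 1 24066306090903238833063404882290147720) (CTree.cons CTree.nil (CTree.cons CTree.nil (CTree.cons CTree.nil (CTree.cons CTree.nil (CTree.cons CTree.nil (CTree.cons CTree.nil (CTree.cons CTree.nil (CTree.cons (CTree.leaf 1 11529713961457200960273362330929149365641675425) (CTree.cons CTree.nil (CTree.cons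 (CTree.leaf 1 559095862094098086764642623750094243116417672) (CTree.cons CTree.nil (CTree.cons (CTree.leaf 1 2700004513081871910951020206015709721) (CTree.cons CTree.nil (CTree.cons (CTree.leaf 1 11529713961457200960273362330929149365641675425) (CTree.cons CTree.nil (CTree.cons (CTree.leaf 1 559095862094098086764642623750094243116417672) (CTree.cons (CTree.leaf 1 14450891419067170777624828950669782345830170757) (CTree.cons CTree.nil CTree.nil)))))))))))))))))))))))))))))))))))) (CTree.cons (CTree.cons CTree.nil (CTree.cons CTree.nil (CTree.cons (CTree.leaf 1 3489731341611872939106405399557902466) (CTree.cons CTree.nil (CTree.cons (CTree.leaf 1 3323039728398296883076097242792242990857982082) (CTree.cons (CTree.leaf 1 983693967454562857873920994957717530604219033915522) (CTree.cons CTree.nil (CTree.cons CTree.nil (CTree.cons CTree.nil (CTree.cons CTree.nil (CTree.cons CTree.nil (CTree.cons CTree.nil (CTree.cons CTree.nil (CTree.cons (CTree.leaf 1 986525134692156823964760952850238979419805551501442) (CTree.cons CTree.nil (CTree.cons CTree.nil (CTree.cons (CTree.leaf 1 3489233635743655122135435088187496714) (CTree.cons (CTree.leaf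 1 24066630757678612375632230657058543882) (CTree.cons CTree.nil (CTree.cons CTree.nil (CTree.cons CTree.nil (CTree.cons CTree.nil (CTree.cons CTree.nil (CTree.cons CTree.nil (CTree.cons CTree.nil (CTree.cons (CTree.leaf 1 14987678006249564891847929700399455152484981002) (CTree.cons (CTree.leaf 1 986525134692156112284881928459203885638225483596313) (CTree.cons CTree.nil (CTree.cons CTree.nil (CTree.cons (CTree.leaf 1 558956685900545550540087166878071220793311760) (CTree.cons CTree.nil (CTree.cons (CTree.leaf 1 14987678006249564891847929700399455152484981002) (CTree.cons (CTree.leaf 1 986525134692156112284881928459203885638225483596313) (CTree.cons CTree.nil (CTree.cons (CTree.leaf 1 14987678006249564891847929700399455152484981002) (CTree.cons CTree.nil CTree.nil)))))))))))))))))))))))))))))))))))) (CTree.cons (CTree.cons CTree.nil (CTree.cons (CTree.leaf 1 14454550476064815603352738653269747172125639329) (CTree.cons (CTree.leaf 1 6774163453033434323417170078019617812538760958247585) (CTree.cons CTree.nil (CTree.cons CTree.nil (CTree.cons (CTree.leaf 1 983593924790539929160385784373468870862239331193371) (CTree.cons CTree.nil (CTree.cons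 CTree.nil (CTree.cons CTree.nil (CTree.cons CTree.nil (CTree.cons CTree.nil (CTree.cons CTree.nil (CTree.cons CTree.nil (CTree.cons (CTree.leaf 1 14986189609053175053901394991866638801488118160) (CTree.cons CTree.nil (CTree.cons (CTree.leaf 1 5887405295434200301923381665693182796146737808) (CTree.cons CTree.nil (CTree.cons (CTree.leaf 1 2966132557349682980639686349721060922969752225) (CTree.cons CTree.nil (CTree.cons CTree.nil (CTree.cons CTree.nil (CTree.cons CTree.nil (CTree.cons CTree.nil (CTree.cons CTree.nil (CTree.cons CTree.nil (CTree.cons CTree.nil (CTree.cons (CTree.leaf 1 14986190631317956667978141515236264300815974533) (CTree.cons (CTree.leaf 1 14987631727847986810813177130064809580489736453) (CTree.cons CTree.nil (CTree.cons (CTree.leaf 1 23360164482937954015121451755803058570) (CTree.cons CTree.nil (CTree.cons (CTree.leaf 1 14987631727847986810813177130064809580489736453) (CTree.cons (CTree.leaf 1 14986190631317956667978141515236264300815974533) (CTree.cons (CTree.leaf 1 14986190631317956667978141515236264300815974533) (CTree.cons CTree.nil (CTree.cons CTree.nil CTree.nil)))))))))))))))))))))))))))))))))))) (CTree.cons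 (CTree.cons CTree.nil (CTree.cons (CTree.leaf 1 182392807725959328578599568405090476818560) (CTree.cons (CTree.leaf 1 11975598537281292525354656146054584527428325506) (CTree.cons CTree.nil (CTree.cons (CTree.leaf 1 3019468271699587385609498169740538764859002745717409) (CTree.cons CTree.nil (CTree.cons CTree.nil (CTree.cons CTree.nil (CTree.cons CTree.nil (CTree.cons CTree.nil (CTree.cons CTree.nil (CTree.cons CTree.nil (CTree.cons CTree.nil (CTree.cons (CTree.leaf 1 5822071717737309529183229838246865551176565017) (CTree.cons CTree.nil (CTree.cons (CTree.leaf 1 95620715881298395201429408579392614236833) (CTree.cons (CTree.leaf 1 95620009904175820216421894299485014725011) (CTree.cons CTree.nil (CTree.cons CTree.nil (CTree.cons CTree.nil (CTree.cons CTree.nil (CTree.cons CTree.nil (CTree.cons CTree.nil (CTree.cons CTree.nil (CTree.cons CTree.nil (CTree.cons (CTree.leaf 1 381552259926956369687011120683404375274754772828185) (CTree.cons (CTree.leaf 1 783379352369867758064036744163185848363079370473605) (CTree.cons (CTree.leaf 1 182733001813063591148041979468676812047009) (CTree.cons CTree.nil (CTree.cons CTree.nil (CTree.cons CTree.nil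 (CTree.cons CTree.nil (CTree.cons (CTree.leaf 1 36543429860958713982736124197162712202121163374725) (CTree.cons (CTree.leaf 1 36637873516873073674698147956104675192563408830725) (CTree.cons (CTree.leaf 1 410687849017669861206013001180210588862746340688005) (CTree.cons CTree.nil CTree.nil)))))))))))))))))))))))))))))))))))) (CTree.cons CTree.nil (CTree.cons (CTree.cons CTree.nil (CTree.cons CTree.nil (CTree.cons (CTree.leaf 1 2181213461217133704025987710883274518761602) (CTree.cons CTree.nil (CTree.cons (CTree.leaf 1 43600682855562917587764761743701020836513) (CTree.cons (CTree.leaf 1 6399930679804496919827389836923558637248701881979010) (CTree.cons CTree.nil (CTree.cons CTree.nil (CTree.cons CTree.nil (CTree.cons (CTree.leaf 1 228672435667966007242548247421175948450058) (CTree.cons (CTree.leaf 1 14987678004125905811201475341992528504118968581) (CTree.cons (CTree.leaf 1 103365392028602210026311128112238313432867799301) (CTree.cons CTree.nil (CTree.cons CTree.nil (CTree.cons CTree.nil (CTree.cons CTree.nil (CTree.cons CTree.nil (CTree.cons CTree.nil (CTree.cons CTree.nil (CTree.cons CTree.nil (CTree.cons CTree.nil (CTree.cons CTree.nil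 (CTree.cons CTree.nil (CTree.cons CTree.nil (CTree.cons CTree.nil (CTree.cons CTree.nil (CTree.cons (CTree.leaf 1 982320396087210882380151984299368161762979675964065) (CTree.cons (CTree.leaf 1 982320396087199464693582795660493304677214804050435) (CTree.cons CTree.nil (CTree.cons (CTree.leaf 1 48593332316600393055898661303575448811663327760) (CTree.cons CTree.nil (CTree.cons CTree.nil (CTree.cons (CTree.leaf 1 982320396087210882380151984299368161762979675964065) (CTree.cons (CTree.leaf 1 982320396087199464693582795660493304677214804050435) (CTree.cons (CTree.leaf 1 982232467159304223919368952927101341243625013576195) (CTree.cons CTree.nil CTree.nil)))))))))))))))))))))))))))))))))))) (CTree.cons CTree.nil (CTree.cons (CTree.cons CTree.nil (CTree.cons (CTree.leaf 1 1329562819603230713457157963250467488) (CTree.cons CTree.nil (CTree.cons CTree.nil (CTree.cons (CTree.leaf 1 87168248874536933673092884653735151865986) (CTree.cons (CTree.leaf 1 229010697564783535381662993853678896357778) (CTree.cons CTree.nil (CTree.cons CTree.nil (CTree.cons (CTree.leaf 1 3489264450050320061054556734772347553) (CTree.cons CTree.nil (CTree.cons (CTree.leaf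 1 5887405295434200301923381665116722043843314320) (CTree.cons (CTree.leaf 1 95620715881295919321350837818842815988385) (CTree.cons CTree.nil (CTree.cons CTree.nil (CTree.cons CTree.nil (CTree.cons CTree.nil (CTree.cons CTree.nil (CTree.cons CTree.nil (CTree.cons CTree.nil (CTree.cons CTree.nil (CTree.cons CTree.nil (CTree.cons CTree.nil (CTree.cons CTree.nil (CTree.cons CTree.nil (CTree.cons CTree.nil (CTree.cons (CTree.leaf 1 11529713961457200960109104386070186494217232514) (CTree.cons (CTree.leaf 1 557739157003671971455311073347107153439162501) (CTree.cons CTree.nil (CTree.cons CTree.nil (CTree.cons (CTree.leaf 1 2700004512917613929198569196263375385) (CTree.cons CTree.nil (CTree.cons (CTree.leaf 1 11529713961457200960109104386070186494217232514) (CTree.cons (CTree.leaf 1 557739157003671971455311073347107153439162501) (CTree.cons CTree.nil (CTree.cons (CTree.leaf 1 14450891418361018563320417421718290687611441691) (CTree.cons CTree.nil CTree.nil)))))))))))))))))))))))))))))))))))) (CTree.cons (CTree.cons CTree.nil (CTree.cons (CTree.leaf 1 14452460120778838550533005836484732009934553761) (CTree.cons (CTree.leaf 1 14807703374846449558701926770923459713374949506)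 (CTree.cons CTree.nil (CTree.cons CTree.nil (CTree.cons (CTree.leaf 1 54788955532602608095480141823086832918930) (CTree.cons CTree.nil (CTree.cons CTree.nil (CTree.cons (CTree.leaf 1 559095862094260333191839441157213223989543585) (CTree.cons (CTree.leaf 1 14807703374846449558371890023323249893393373450) (CTree.cons CTree.nil (CTree.cons (CTree.leaf 1 182733001813056165965483241862361701810309) (CTree.cons CTree.nil (CTree.cons CTree.nil (CTree.cons CTree.nil (CTree.cons CTree.nil (CTree.cons CTree.nil (CTree.cons CTree.nil (CTree.cons CTree.nil (CTree.cons CTree.nil (CTree.cons CTree.nil (CTree.cons CTree.nil (CTree.cons CTree.nil (CTree.cons CTree.nil (CTree.cons CTree.nil (CTree.cons (CTree.leaf 1 103365392051126039322268566782197131587322118405) (CTree.cons CTree.nil (CTree.cons (CTree.leaf 1 14986190632024087490678558365863140992637468805) (CTree.cons CTree.nil (CTree.cons (CTree.leaf 1 2076939659803657805289828418877727122) (CTree.cons CTree.nil (CTree.cons (CTree.leaf 1 103365392051126039322268566782197131587322118405) (CTree.cons (CTree.leaf 1 14986190632024087490678558365863140992637468805) (CTree.cons (CTree.leaf 1 14986190632024087490678558365863140992637468805)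 (CTree.cons CTree.nil (CTree.cons CTree.nil CTree.nil)))))))))))))))))))))))))))))))))))) (CTree.cons (CTree.cons CTree.nil (CTree.cons (CTree.leaf 1 2036061255699619308511720612257988736) (CTree.cons (CTree.leaf 1 665294885201134577019229364913574018) (CTree.cons CTree.nil (CTree.cons (CTree.leaf 1 191297970812023095233742340327741832347520667778) (CTree.cons CTree.nil (CTree.cons CTree.nil (CTree.cons CTree.nil (CTree.cons (CTree.leaf 1 24066306090903238833063404882290147720) (CTree.cons (CTree.leaf 1 21943013757090946028399455985881717002) (CTree.cons (CTree.leaf 1 5891064319829897474977998458506997947271544965) (CTree.cons CTree.nil (CTree.cons CTree.nil (CTree.cons CTree.nil (CTree.cons CTree.nil (CTree.cons CTree.nil (CTree.cons CTree.nil (CTree.cons CTree.nil (CTree.cons CTree.nil (CTree.cons CTree.nil (CTree.cons CTree.nil (CTree.cons CTree.nil (CTree.cons CTree.nil (CTree.cons CTree.nil (CTree.cons CTree.nil (CTree.cons (CTree.leaf 1 103364090119621902110971811705128615840405062305) (CTree.cons (CTree.leaf 1 94956618324383921700361602825338754294337307024) (CTree.cons (CTree.leaf 1 140629251949184097065223775131154706701932888197)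 (CTree.cons CTree.nil (CTree.cons CTree.nil (CTree.cons CTree.nil (CTree.cons (CTree.leaf 1 5821932552753093710768528484603005212873064848) (CTree.cons CTree.nil (CTree.cons (CTree.leaf 1 103363999254779964786882778666850009551355324946) (CTree.cons (CTree.leaf 1 2966132524746399070583037969226500591017077266) (CTree.cons CTree.nil CTree.nil)))))))))))))))))))))))))))))))))))) (CTree.cons CTree.nil (CTree.cons CTree.nil (CTree.cons CTree.nil (CTree.cons CTree.nil (CTree.cons CTree.nil (CTree.cons CTree.nil (CTree.cons CTree.nil (CTree.cons (CTree.cons CTree.nil (CTree.cons CTree.nil (CTree.cons (CTree.leaf 1 14808436287232029147918037740656368306024943746) (CTree.cons CTree.nil (CTree.cons (CTree.leaf 1 191297970824069223945248155091255730657512460418) (CTree.cons (CTree.leaf 1 229054572967468233045737358176167393497218) (CTree.cons CTree.nil (CTree.cons CTree.nil (CTree.cons (CTree.leaf 1 11529713961457200960273400109861012322803384993) (CTree.cons (CTree.leaf 1 14811362375305149885856043234021101123100348955) (CTree.cons CTree.nil (CTree.cons (CTree.leaf 1 103365484947500864078417375662316363869009346821) (CTree.cons CTree.nil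 (CTree.cons CTree.nil (CTree.cons CTree.nil (CTree.cons (CTree.leaf 1 11529713961457200960109104386070195290310254722) (CTree.cons (CTree.leaf 1 100332629878902600571053855422070506061744898309) (CTree.cons (CTree.leaf 1 103365392051126718227611014286947177892408197381) (CTree.cons CTree.nil (CTree.cons CTree.nil (CTree.cons CTree.nil (CTree.cons CTree.nil (CTree.cons CTree.nil (CTree.cons CTree.nil (CTree.cons CTree.nil (CTree.cons CTree.nil (CTree.cons CTree.nil (CTree.cons CTree.nil (CTree.cons CTree.nil (CTree.cons CTree.nil (CTree.cons CTree.nil (CTree.cons CTree.nil (CTree.cons (CTree.leaf 1 3934502322746136760156473405231242694681176781161091) (CTree.cons (CTree.leaf 1 3934376747162767138925238591626389197261000198914576) (CTree.cons (CTree.leaf 1 3934376747162767138925238591626389197261000198914576) (CTree.cons CTree.nil CTree.nil)))))))))))))))))))))))))))))))))))) (CTree.cons (CTree.cons CTree.nil (CTree.cons (CTree.leaf 1 14987677982853105195865425899414405995286300939) (CTree.cons CTree.nil (CTree.cons CTree.nil (CTree.cons (CTree.leaf 1 11953382181404101967671364498822543876676387489) (CTree.cons (CTree.leaf 1 182394843441856962707526571950269003993218)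 (CTree.cons CTree.nil (CTree.cons CTree.nil (CTree.cons CTree.nil (CTree.cons (CTree.leaf 1 755596905456764703098849275984907613604915298500739) (CTree.cons (CTree.leaf 1 220503638735216784151835230798886392692869) (CTree.cons (CTree.leaf 1 182734331041057036799095907248277964259461) (CTree.cons CTree.nil (CTree.cons (CTree.leaf 1 755611335432704145104026861123965462699816518287491) (CTree.cons CTree.nil (CTree.cons (CTree.leaf 1 557739157003671971455311073347115949532184709) (CTree.cons CTree.nil (CTree.cons (CTree.leaf 1 133391352814231567647438963535882413539461) (CTree.cons CTree.nil (CTree.cons CTree.nil (CTree.cons CTree.nil (CTree.cons CTree.nil (CTree.cons CTree.nil (CTree.cons CTree.nil (CTree.cons CTree.nil (CTree.cons CTree.nil (CTree.cons CTree.nil (CTree.cons CTree.nil (CTree.cons CTree.nil (CTree.cons CTree.nil (CTree.cons CTree.nil (CTree.cons (CTree.leaf 1 982314687096439352562475409535319288832423119356035) (CTree.cons CTree.nil (CTree.cons (CTree.leaf 1 947156425732174090020090460080083591431553632239747) (CTree.cons (CTree.leaf 1 947156424952950699761378943906626087040827680424067) (CTree.cons CTree.nil CTree.nil))))))))))))))))))))))))))))))))))))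 (CTree.cons (CTree.cons CTree.nil (CTree.cons (CTree.leaf 1 14451624387991681777750830318014104828085600281) (CTree.cons (CTree.leaf 1 14986842248819948497711695699974882792501350530) (CTree.cons CTree.nil (CTree.cons CTree.nil (CTree.cons (CTree.leaf 1 14451111922041433006529341415296420512526240396) (CTree.cons CTree.nil (CTree.cons CTree.nil (CTree.cons (CTree.leaf 1 559095862094260346041471837113485821126705800) (CTree.cons CTree.nil (CTree.cons (CTree.leaf 1 958745633138654589376697850781390501499913241166085) (CTree.cons (CTree.leaf 1 182733001813056460943383906492688887775365) (CTree.cons CTree.nil (CTree.cons (CTree.leaf 1 970540452060533080439007073176360576971804228780293) (CTree.cons CTree.nil (CTree.cons CTree.nil (CTree.cons (CTree.leaf 1 220503638724446239058857042163538210848901) (CTree.cons (CTree.leaf 1 1577230713539000374643278963938392018124933) (CTree.cons CTree.nil (CTree.cons CTree.nil (CTree.cons CTree.nil (CTree.cons CTree.nil (CTree.cons CTree.nil (CTree.cons CTree.nil (CTree.cons CTree.nil (CTree.cons CTree.nil (CTree.cons CTree.nil (CTree.cons CTree.nil (CTree.cons CTree.nil (CTree.cons CTree.nil (CTree.cons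 CTree.nil (CTree.cons (CTree.leaf 1 958848439573999227930078798367518276966794771103875) (CTree.cons (CTree.leaf 1 947156426475362669389315820938096452585765564645507) (CTree.cons CTree.nil (CTree.cons (CTree.leaf 1 947156426475351339789026836589054925237539853500547) (CTree.cons CTree.nil CTree.nil)))))))))))))))))))))))))))))))))))) (CTree.cons CTree.nil (CTree.cons (CTree.cons CTree.nil (CTree.cons (CTree.leaf 1 23360164889303861168852604099174662272) (CTree.cons (CTree.leaf 1 2783081257859495978820410898982178946) (CTree.cons CTree.nil (CTree.cons (CTree.leaf 1 2788943039950795255631208435700273282) (CTree.cons CTree.nil (CTree.cons CTree.nil (CTree.cons CTree.nil (CTree.cons (CTree.leaf 1 2700004513081871910951020206015709721) (CTree.cons (CTree.leaf 1 558956685900545550540049387946208263631602192) (CTree.cons (CTree.leaf 1 23360164482937954015121451755803058570) (CTree.cons CTree.nil (CTree.cons CTree.nil (CTree.cons (CTree.leaf 1 2921406150009676862033510281191604447415435792) (CTree.cons CTree.nil (CTree.cons (CTree.leaf 1 2700004512917613929198569196263375385) (CTree.cons (CTree.leaf 1 2076939659803657805289828418877727122)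 (CTree.cons CTree.nil (CTree.cons CTree.nil (CTree.cons CTree.nil (CTree.cons CTree.nil (CTree.cons CTree.nil (CTree.cons CTree.nil (CTree.cons CTree.nil (CTree.cons CTree.nil (CTree.cons CTree.nil (CTree.cons CTree.nil (CTree.cons CTree.nil (CTree.cons CTree.nil (CTree.cons CTree.nil (CTree.cons CTree.nil (CTree.cons (CTree.leaf 1 559049582275035087716256883130874431506743557) (CTree.cons (CTree.leaf 1 557695600154553715940588478553291859286360197) (CTree.cons (CTree.leaf 1 557695600154553715940588478553291859286360197) (CTree.cons CTree.nil (CTree.cons CTree.nil CTree.nil)))))))))))))))))))))))))))))))))))) (CTree.cons CTree.nil (CTree.cons (CTree.cons CTree.nil (CTree.cons CTree.nil (CTree.cons (CTree.leaf 1 14808436287232029147918037740656368306024943746) (CTree.cons CTree.nil (CTree.cons (CTree.leaf 1 191297970824069223945248155091255730657512460418) (CTree.cons (CTree.leaf 1 15012060959725006823136834009025264337536225410) (CTree.cons CTree.nil (CTree.cons CTree.nil (CTree.cons (CTree.leaf 1 11529713961457200960273400109861012322803384993) (CTree.cons (CTree.leaf 1 14811362375305149885856043234021101123100348955) (CTree.cons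 (CTree.leaf 1 14987631727847986810813177130641270332793159941) (CTree.cons CTree.nil (CTree.cons CTree.nil (CTree.cons CTree.nil (CTree.cons CTree.nil (CTree.cons (CTree.leaf 1 11529713961457200960109104386070195290310254722) (CTree.cons (CTree.leaf 1 100332629878902600571053855422070506061744898309) (CTree.cons (CTree.leaf 1 103365392051126718227611014286947177892408197381) (CTree.cons CTree.nil (CTree.cons CTree.nil (CTree.cons CTree.nil (CTree.cons CTree.nil (CTree.cons CTree.nil (CTree.cons CTree.nil (CTree.cons CTree.nil (CTree.cons CTree.nil (CTree.cons (CTree.leaf 1 983730516975043768303233892315420881865970643112339) (CTree.cons (CTree.leaf 1 381452486439205782273382521758515079560854619820435) (CTree.cons CTree.nil (CTree.cons (CTree.leaf 1 559049582275035087716294662062737388668453125) (CTree.cons CTree.nil (CTree.cons CTree.nil (CTree.cons CTree.nil (CTree.cons CTree.nil (CTree.cons CTree.nil (CTree.cons CTree.nil CTree.nil)))))))))))))))))))))))))))))))))))) (CTree.cons (CTree.cons CTree.nil (CTree.cons (CTree.leaf 1 14987677982853105195865425899414405995286300939) (CTree.cons CTree.nil (CTree.cons CTree.nil (CTree.cons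 (CTree.leaf 1 970537418330202952872703459605029991122961888510625) (CTree.cons (CTree.leaf 1 970452097120169888371752966785806806962810403367450) (CTree.cons CTree.nil (CTree.cons CTree.nil (CTree.cons CTree.nil (CTree.cons (CTree.leaf 1 3383387821483520155877719088403352712470564857512067) (CTree.cons (CTree.leaf 1 14986190631317956667978141515812725053119398021) (CTree.cons (CTree.leaf 1 103364043853094450946404616213442715828510916741) (CTree.cons CTree.nil (CTree.cons (CTree.leaf 1 982140631348886382340030389349076039452478965154465) (CTree.cons CTree.nil (CTree.cons (CTree.leaf 1 557739157003671971455311073347115949532184709) (CTree.cons (CTree.leaf 1 14986234188167053370801997505342798376270430341) (CTree.cons CTree.nil (CTree.cons CTree.nil (CTree.cons CTree.nil (CTree.cons CTree.nil (CTree.cons CTree.nil (CTree.cons CTree.nil (CTree.cons CTree.nil (CTree.cons CTree.nil (CTree.cons (CTree.leaf 1 12536776031913035684862721261629346921776736272777889) (CTree.cons CTree.nil (CTree.cons (CTree.leaf 1 947104688792769150652984289980193347431698868015507) (CTree.cons CTree.nil (CTree.cons (CTree.leaf 1 557695600154553715940588479129752611589783685)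 (CTree.cons CTree.nil (CTree.cons CTree.nil (CTree.cons CTree.nil (CTree.cons CTree.nil (CTree.cons CTree.nil (CTree.cons CTree.nil CTree.nil)))))))))))))))))))))))))))))))))))) (CTree.cons (CTree.cons CTree.nil (CTree.cons (CTree.leaf 1 14451624387991681777750830318014104828085600281) (CTree.cons (CTree.leaf 1 14986842248820274120655282728023340856207544450) (CTree.cons CTree.nil (CTree.cons (CTree.leaf 1 385936763352639512688706190766640068552952664621081) (CTree.cons CTree.nil (CTree.cons CTree.nil (CTree.cons CTree.nil (CTree.cons (CTree.leaf 1 559095862094260346041471837113485821126705800) (CTree.cons CTree.nil (CTree.cons (CTree.leaf 1 14986190631317956667978141515812725053119398021) (CTree.cons (CTree.leaf 1 103365484947500864078417375662316363869009346821) (CTree.cons CTree.nil (CTree.cons (CTree.leaf 1 6774060647335140611260141144031166238339834889437445) (CTree.cons CTree.nil (CTree.cons CTree.nil (CTree.cons (CTree.leaf 1 14986234188167053370801997505342798376270430341) (CTree.cons (CTree.leaf 1 103364087408531943349542173757300318307519430789) (CTree.cons CTree.nil (CTree.cons CTree.nil (CTree.cons CTree.nil (CTree.cons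 CTree.nil (CTree.cons CTree.nil (CTree.cons CTree.nil (CTree.cons CTree.nil (CTree.cons (CTree.leaf 1 36589168689361606431290230268188805507590701187745) (CTree.cons (CTree.leaf 1 36637873563130213108594492462029761824452149053707) (CTree.cons CTree.nil (CTree.cons CTree.nil (CTree.cons (CTree.leaf 1 557695600154553715940588479129752611589783685) (CTree.cons CTree.nil (CTree.cons CTree.nil (CTree.cons CTree.nil (CTree.cons CTree.nil (CTree.cons CTree.nil (CTree.cons CTree.nil CTree.nil)))))))))))))))))))))))))))))))))))) (CTree.cons (CTree.cons CTree.nil (CTree.cons (CTree.leaf 1 14451624387991681777750830318014104828085600281) (CTree.cons (CTree.leaf 1 14808436287232515839093931556589538426291818626) (CTree.cons CTree.nil (CTree.cons CTree.nil (CTree.cons (CTree.leaf 1 15012060959725006823136748969535084536805396610) (CTree.cons CTree.nil (CTree.cons CTree.nil (CTree.cons (CTree.leaf 1 14450891419067333036901658164033173923840458885) (CTree.cons (CTree.leaf 1 14811362375305149885856078614452331413567574555) (CTree.cons CTree.nil (CTree.cons (CTree.leaf 1 103364043853094450946404616213442715828510916741) (CTree.cons CTree.nil (CTree.cons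 (CTree.leaf 1 36640905675043384513836544870338426672528436035845) (CTree.cons CTree.nil (CTree.cons (CTree.leaf 1 14450891418361018563320417421718299483704463899) (CTree.cons CTree.nil (CTree.cons (CTree.leaf 1 103364087408531943349542173757300318307519430789) (CTree.cons CTree.nil (CTree.cons CTree.nil (CTree.cons CTree.nil (CTree.cons CTree.nil (CTree.cons CTree.nil (CTree.cons CTree.nil (CTree.cons CTree.nil (CTree.cons (CTree.leaf 1 958848439573999228081491728102698457180692365901955) (CTree.cons (CTree.leaf 1 947156426475351339789026836589054925237539853500547) (CTree.cons (CTree.leaf 1 947156426475351339789026836589054925237539853500547) (CTree.cons CTree.nil (CTree.cons CTree.nil (CTree.cons CTree.nil (CTree.cons CTree.nil (CTree.cons CTree.nil (CTree.cons CTree.nil (CTree.cons CTree.nil (CTree.cons CTree.nil CTree.nil)))))))))))))))))))))))))))))))))))) (CTree.cons CTree.nil CTree.nil)))))))))))))))))))))))))))))))))))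

theorem tree6_3_0_ok : chk 6 (pk (goalL 6)) tree6_3_0 (stk [((3 : Fin 6), (0 : Fin 6))]) 1 (om [((3 : Fin 6), (0 : Fin 6))]) (im [((3 : Fin 6), (0 : Fin 6))])
    (cm [((3 : Fin 6), (0 : Fin 6))]) (pk (goalR [((3 : Fin 6), (0 : Fin 6))])) 0 = true := by
  decide +kernel

def tree6_3_1 : CTree :=
  CTree.cons CTree.nil (CTree.cons CTree.nil (CTree.cons (CTree.cons CTree.nil (CTree.cons CTree.nil (CTree.cons CTree.nil (CTree.cons CTree.nil (CTree.cons CTree.nil (CTree.cons CTree.nil (CTree.cons (CTree.leaf 1 11886433327710667406610055789875689555968987266) (CTree.cons CTree.nil (CTree.cons CTree.nil (CTree.cons CTree.nil (CTree.cons (CTree.leaf 1 43612105906822480791520851176738284896929) (CTree.cons (CTree.leaf 1 872199586282557428679837658497143606939778) (CTree.cons CTree.nil (CTree.cons CTree.nil (CTree.cons CTree.nil (CTree.cons (CTree.leaf 1 872147195683449312150872890362463734796418) (CTree.cons (CTree.leaf 1 222205715192769370691019548287270906892418) (CTree.cons (CTree.leaf 1 57156951504024615354291611458246284340929564802) (CTree.cons CTree.nil (CTree.cons CTree.nil (CTree.cons CTree.nil (CTree.cons CTree.nil (CTree.cons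 CTree.nil (CTree.cons CTree.nil (CTree.cons (CTree.leaf 1 234663964353102555654910901830430716772688691703914234112) (CTree.cons CTree.nil (CTree.cons CTree.nil (CTree.cons (CTree.leaf 1 13891821527029751790037041797744814956937114231062462720) (CTree.cons CTree.nil (CTree.cons (CTree.leaf 1 664970455775564942695232709947101314) (CTree.cons (CTree.leaf 1 64365024688741706894675301047322838995906630162579521792) (CTree.cons CTree.nil (CTree.cons CTree.nil (CTree.cons (CTree.leaf 1 13891821527029751790037041797744814954055654980347495072) (CTree.cons (CTree.leaf 1 13891821527029751790037041797744814956937114231062462720) (CTree.cons CTree.nil CTree.nil)))))))))))))))))))))))))))))))))))) (CTree.cons (CTree.cons CTree.nil (CTree.cons CTree.nil (CTree.cons CTree.nil (CTree.cons CTree.nil (CTree.cons CTree.nil (CTree.cons CTree.nil (CTree.cons CTree.nil (CTree.cons CTree.nil (CTree.cons (CTree.leaf 1 181403742683777731122345594027841662685314) (CTree.cons CTree.nil (CTree.cons (CTree.leaf 1 224928015311265202635220249099994266667540) (CTree.cons (CTree.leaf 1 11886340771020914802025220225637798922021834882) (CTree.cons (CTree.leaf 1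 187087197248534623172654566062396992423294796366349) (CTree.cons CTree.nil (CTree.cons CTree.nil (CTree.cons CTree.nil (CTree.cons (CTree.leaf 1 43612105906822480642806079618060948412682) (CTree.cons (CTree.leaf 1 3664874333188396341368856271267651676868738) (CTree.cons CTree.nil (CTree.cons CTree.nil (CTree.cons CTree.nil (CTree.cons CTree.nil (CTree.cons CTree.nil (CTree.cons CTree.nil (CTree.cons (CTree.leaf 1 36780477684288871201064005386616102780473731241258058400) (CTree.cons CTree.nil (CTree.cons (CTree.leaf 1 767388690694931853885228040280339728444079179104409) (CTree.cons CTree.nil (CTree.cons CTree.nil (CTree.cons (CTree.leaf 1 136486470585185413605872007597243370115202) (CTree.cons (CTree.leaf 1 36780477684288871201064005386616102780473731241258058400) (CTree.cons CTree.nil (CTree.cons (CTree.leaf 1 767388690694931853885228040280339728444079179104409) (CTree.cons CTree.nil (CTree.cons (CTree.leaf 1 38312949741511133985689340044349921774043299307451384480) (CTree.cons CTree.nil CTree.nil)))))))))))))))))))))))))))))))))))) (CTree.cons (CTree.cons CTree.nil (CTree.cons CTree.nil (CTree.cons CTree.nil (CTree.cons CTree.nil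 (CTree.cons CTree.nil (CTree.cons CTree.nil (CTree.cons (CTree.leaf 1 43612105573521673235860553199087964657930) (CTree.cons CTree.nil (CTree.cons (CTree.leaf 1 33241114924984186635457638980510814338) (CTree.cons CTree.nil (CTree.cons CTree.nil (CTree.cons (CTree.leaf 1 1370776524887806277498293895047682314) (CTree.cons (CTree.leaf 1 8920389618027460224917873471648546651055067652) (CTree.cons CTree.nil (CTree.cons CTree.nil (CTree.cons (CTree.leaf 1 1330081917710119337008675423567614082) (CTree.cons CTree.nil (CTree.cons (CTree.leaf 1 33241927647475252846364825203387928706) (CTree.cons CTree.nil (CTree.cons CTree.nil (CTree.cons CTree.nil (CTree.cons CTree.nil (CTree.cons CTree.nil (CTree.cons CTree.nil (CTree.cons CTree.nil (CTree.cons CTree.nil (CTree.cons (CTree.leaf 1 14566054201351326487494805993800999246818973962) (CTree.cons (CTree.leaf 1 8920347423013962028548404013345860817376248077) (CTree.cons CTree.nil (CTree.cons (CTree.leaf 1 182732383929734921820209713650965302809092) (CTree.cons (CTree.leaf 1 11418117655347383712626305880736680254116200717) (CTree.cons CTree.nil (CTree.cons (CTree.leaf 1 14566054201351326487494805993800999246818973962)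 (CTree.cons (CTree.leaf 1 3233836736258679094722452103234958409181954317) (CTree.cons CTree.nil (CTree.cons CTree.nil CTree.nil)))))))))))))))))))))))))))))))))))) (CTree.cons (CTree.cons CTree.nil (CTree.cons CTree.nil (CTree.cons CTree.nil (CTree.cons CTree.nil (CTree.cons CTree.nil (CTree.cons CTree.nil (CTree.cons (CTree.leaf 1 229065871577835187047069835475414179057794) (CTree.cons CTree.nil (CTree.cons (CTree.leaf 1 3495267813193167573560131253682966658) (CTree.cons CTree.nil (CTree.cons (CTree.leaf 1 3495267805772776172629725630934819218) (CTree.cons CTree.nil (CTree.cons (CTree.leaf 1 8920527145283188032664815002256131308229689489) (CTree.cons CTree.nil (CTree.cons CTree.nil (CTree.cons (CTree.leaf 1 3495267805763187481273235626823651458) (CTree.cons (CTree.leaf 1 3495267813193245566352116473094344834) (CTree.cons CTree.nil (CTree.cons CTree.nil (CTree.cons CTree.nil (CTree.cons CTree.nil (CTree.cons CTree.nil (CTree.cons CTree.nil (CTree.cons CTree.nil (CTree.cons (CTree.leaf 1 15012060917843444629104893063685413420200034704) (CTree.cons CTree.nil (CTree.cons (CTree.leaf 1 229012759250089974599444537111027276451970) (CTree.cons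 (CTree.leaf 1 229012779703402348313860024102371575599234) (CTree.cons CTree.nil (CTree.cons CTree.nil (CTree.cons CTree.nil (CTree.cons CTree.nil (CTree.cons (CTree.leaf 1 15012060917911289444908527721136491073937023378) (CTree.cons (CTree.leaf 1 8920527145283188029878281219170789997494403339) (CTree.cons (CTree.leaf 1 15012060917843444629104893063685413420200034704) (CTree.cons CTree.nil CTree.nil)))))))))))))))))))))))))))))))))))) (CTree.cons (CTree.cons CTree.nil (CTree.cons CTree.nil (CTree.cons (CTree.leaf 1 1569384934737588857673792205065381593813122) (CTree.cons CTree.nil (CTree.cons (CTree.leaf 1 43612105573521673273639485062045126367498) (CTree.cons (CTree.leaf 1 229065871577835187047069835475414313275522) (CTree.cons CTree.nil (CTree.cons CTree.nil (CTree.cons CTree.nil (CTree.cons CTree.nil (CTree.cons CTree.nil (CTree.cons CTree.nil (CTree.cons CTree.nil (CTree.cons CTree.nil (CTree.cons CTree.nil (CTree.cons (CTree.leaf 1 220514993942142413016458968089458332729861) (CTree.cons (CTree.leaf 1 787757169010862382885641409418017119535365) (CTree.cons (CTree.leaf 1 136136893824910533817344419847535177367813) (CTree.cons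 CTree.nil (CTree.cons CTree.nil (CTree.cons CTree.nil (CTree.cons CTree.nil (CTree.cons CTree.nil (CTree.cons CTree.nil (CTree.cons CTree.nil (CTree.cons CTree.nil (CTree.cons (CTree.leaf 1 3582140714027977757263748993176758022470762917593347) (CTree.cons (CTree.leaf 1 3582140714027977746046549146983108782564759906157217) (CTree.cons CTree.nil (CTree.cons (CTree.leaf 1 787756338243369507193137727287430548095237) (CTree.cons CTree.nil (CTree.cons CTree.nil (CTree.cons (CTree.leaf 1 3582155142389958515179074380925677054952303254110467) (CTree.cons (CTree.leaf 1 3582155142389958503961874534732027815046300242674337) (CTree.cons (CTree.leaf 1 3582155142475707033143864562180641321436723409978017) (CTree.cons CTree.nil CTree.nil)))))))))))))))))))))))))))))))))))) (CTree.cons CTree.nil (CTree.cons (CTree.cons CTree.nil (CTree.cons CTree.nil (CTree.cons CTree.nil (CTree.cons (CTree.leaf 1 181403742683777731122345594027841528467586) (CTree.cons (CTree.leaf 1 33241114924984186635457638980510814338) (CTree.cons (CTree.leaf 1 3495267813193167574708250164514132098) (CTree.cons CTree.nil (CTree.cons CTree.nil (CTree.cons CTree.nil (CTree.cons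 CTree.nil (CTree.cons CTree.nil (CTree.cons CTree.nil (CTree.cons (CTree.leaf 1 180693426088941263532925733307427548627617) (CTree.cons CTree.nil (CTree.cons CTree.nil (CTree.cons CTree.nil (CTree.cons (CTree.leaf 1 664981228010519321506535213263618720) (CTree.cons (CTree.leaf 1 665111085773588102261790717259158043) (CTree.cons CTree.nil (CTree.cons CTree.nil (CTree.cons CTree.nil (CTree.cons CTree.nil (CTree.cons CTree.nil (CTree.cons CTree.nil (CTree.cons (CTree.leaf 1 180693426423908164147558141282358839804577) (CTree.cons CTree.nil (CTree.cons CTree.nil (CTree.cons (CTree.leaf 1 180693426423908009405053230609824485802657) (CTree.cons CTree.nil (CTree.cons (CTree.leaf 1 2783101936084711156297931609360892441) (CTree.cons (CTree.leaf 1 180693426423908164147558141282358839804577) (CTree.cons CTree.nil (CTree.cons CTree.nil (CTree.cons (CTree.leaf 1 180693426423908009405053230609824485802657) (CTree.cons (CTree.leaf 1 180693426423908164147558141282358839804577) (CTree.cons CTree.nil CTree.nil)))))))))))))))))))))))))))))))))))) (CTree.cons CTree.nil (CTree.cons (CTree.cons CTree.nil (CTree.cons CTree.nil (CTree.cons (CTree.leaf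 1 43612105724280794358655817361213157016225) (CTree.cons (CTree.leaf 1 1569415517364434372956474102303790735626370) (CTree.cons CTree.nil (CTree.cons (CTree.leaf 1 3495267805772776172629725630934819218) (CTree.cons CTree.nil (CTree.cons CTree.nil (CTree.cons CTree.nil (CTree.cons CTree.nil (CTree.cons CTree.nil (CTree.cons CTree.nil (CTree.cons (CTree.leaf 1 14807781956687589940599659066375547722401907077) (CTree.cons CTree.nil (CTree.cons CTree.nil (CTree.cons (CTree.leaf 1 3489233635743655123866222949935686026) (CTree.cons CTree.nil (CTree.cons (CTree.leaf 1 174226731892294581076290908581680938352901) (CTree.cons CTree.nil (CTree.cons CTree.nil (CTree.cons CTree.nil (CTree.cons CTree.nil (CTree.cons CTree.nil (CTree.cons CTree.nil (CTree.cons (CTree.leaf 1 14630858288475086549415772789684298124275810565) (CTree.cons CTree.nil (CTree.cons (CTree.leaf 1 14808480216104023195716221936444198016256115077) (CTree.cons CTree.nil (CTree.cons CTree.nil (CTree.cons (CTree.leaf 1 23360153712862030083988318188790686090) (CTree.cons (CTree.leaf 1 14630858288475086549415581203606309078468460805) (CTree.cons CTree.nil (CTree.cons (CTree.leaf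 1 14808480216103678070386267293886980619472273797) (CTree.cons (CTree.leaf 1 14629375986469747576582489803273960660546945285) (CTree.cons CTree.nil (CTree.cons CTree.nil CTree.nil)))))))))))))))))))))))))))))))))))) (CTree.cons (CTree.cons CTree.nil (CTree.cons CTree.nil (CTree.cons (CTree.leaf 1 55879539356860722277330413834599469186) (CTree.cons (CTree.leaf 1 1569415517689101191546572569839657679917186) (CTree.cons (CTree.leaf 1 1370776524887806277498293895047682314) (CTree.cons CTree.nil (CTree.cons CTree.nil (CTree.cons CTree.nil (CTree.cons CTree.nil (CTree.cons CTree.nil (CTree.cons CTree.nil (CTree.cons CTree.nil (CTree.cons (CTree.leaf 1 8675172285727401797523497546145686937124536576) (CTree.cons CTree.nil (CTree.cons CTree.nil (CTree.cons (CTree.leaf 1 95620009904181103219764451854337322320408) (CTree.cons (CTree.leaf 1 98003398632541339587302111403135355453701) (CTree.cons CTree.nil (CTree.cons CTree.nil (CTree.cons CTree.nil (CTree.cons CTree.nil (CTree.cons CTree.nil (CTree.cons CTree.nil (CTree.cons CTree.nil (CTree.cons (CTree.leaf 1 11596431071529209686171472662750684263668646561) (CTree.cons CTree.nil (CTree.cons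 (CTree.leaf 1 182393368483242840542299816480935830952066) (CTree.cons (CTree.leaf 1 182414709322943716969966465892799431705249) (CTree.cons CTree.nil (CTree.cons CTree.nil (CTree.cons (CTree.leaf 1 11596431071529231706314021640802720742851547396) (CTree.cons CTree.nil (CTree.cons (CTree.leaf 1 8675172285727423824935206556655868584929530116) (CTree.cons CTree.nil (CTree.cons (CTree.leaf 1 11596431071529209686171472662750684263668646561) (CTree.cons CTree.nil CTree.nil)))))))))))))))))))))))))))))))))))) (CTree.cons (CTree.cons CTree.nil (CTree.cons CTree.nil (CTree.cons CTree.nil (CTree.cons (CTree.leaf 1 6740460537514456540936768682358866304454497077887129) (CTree.cons (CTree.leaf 1 3233699593232906142207577790037202711938863620) (CTree.cons (CTree.leaf 1 15012060927205184941778830011680446411731894672) (CTree.cons CTree.nil (CTree.cons CTree.nil (CTree.cons (CTree.leaf 1 51626277198465501934655996919068921315857597072) (CTree.cons CTree.nil (CTree.cons (CTree.leaf 1 970488714246942179979928347907600336294818095366533) (CTree.cons (CTree.leaf 1 9356636288727168912720047455766050002279139148628357) (CTree.cons CTree.nil (CTree.cons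 CTree.nil (CTree.cons CTree.nil (CTree.cons CTree.nil (CTree.cons CTree.nil (CTree.cons CTree.nil (CTree.cons CTree.nil (CTree.cons CTree.nil (CTree.cons CTree.nil (CTree.cons CTree.nil (CTree.cons CTree.nil (CTree.cons CTree.nil (CTree.cons CTree.nil (CTree.cons CTree.nil (CTree.cons (CTree.leaf 1 3383387778972382869886884075187922957351967326928913) (CTree.cons (CTree.leaf 1 3383616647858577503405496760889641083407732690846083) (CTree.cons CTree.nil (CTree.cons (CTree.leaf 1 787786255933033385317680839003605159707013) (CTree.cons CTree.nil (CTree.cons CTree.nil (CTree.cons (CTree.leaf 1 3383387778972382869886884075187922957351967326928913) (CTree.cons (CTree.leaf 1 3383616647858577503405496760889641083407732690846083) (CTree.cons (CTree.leaf 1 3582192139498479032480456117334948364083144397684753) (CTree.cons CTree.nil CTree.nil)))))))))))))))))))))))))))))))))))) (CTree.cons CTree.nil (CTree.cons CTree.nil (CTree.cons (CTree.cons CTree.nil (CTree.cons CTree.nil (CTree.cons (CTree.leaf 1 175248908229367338977881694342202437734530) (CTree.cons CTree.nil (CTree.cons (CTree.leaf 1 1330081917710119337008675423567614082) (CTree.cons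 (CTree.leaf 1 3495267805763187481273235626823651458) (CTree.cons (CTree.leaf 1 177971167143427737123428574163670508044805) (CTree.cons CTree.nil (CTree.cons CTree.nil (CTree.cons CTree.nil (CTree.cons (CTree.leaf 1 3489233635743655123866222949935686026) (CTree.cons (CTree.leaf 1 24066306085622806783314357943825148426) (CTree.cons CTree.nil (CTree.cons CTree.nil (CTree.cons CTree.nil (CTree.cons CTree.nil (CTree.cons CTree.nil (CTree.cons CTree.nil (CTree.cons CTree.nil (CTree.cons CTree.nil (CTree.cons CTree.nil (CTree.cons CTree.nil (CTree.cons CTree.nil (CTree.cons CTree.nil (CTree.cons (CTree.leaf 1 174248518778069197469767160135986077303045) (CTree.cons CTree.nil (CTree.cons (CTree.leaf 1 177971167488540346954693787396462935605765) (CTree.cons CTree.nil (CTree.cons CTree.nil (CTree.cons (CTree.leaf 1 2741553420011628201330294206362616345) (CTree.cons (CTree.leaf 1 174248518778069197469767160135986077303045) (CTree.cons CTree.nil (CTree.cons (CTree.leaf 1 177971167488540346954693787396462935605765) (CTree.cons CTree.nil (CTree.cons (CTree.leaf 1 174248518778069197469767160135986077303045) (CTree.cons CTree.nil CTree.nil))))))))))))))))))))))))))))))))))))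 (CTree.cons (CTree.cons CTree.nil (CTree.cons CTree.nil (CTree.cons (CTree.leaf 1 222217111959543480475810826910038824652930) (CTree.cons (CTree.leaf 1 43612105592766836766778967025098919319818) (CTree.cons CTree.nil (CTree.cons (CTree.leaf 1 3495267813193245566352116473094344834) (CTree.cons (CTree.leaf 1 8567153741529100852061930443755981319042044420) (CTree.cons CTree.nil (CTree.cons (CTree.leaf 1 2019813624778336683923957215973737120) (CTree.cons CTree.nil (CTree.cons CTree.nil (CTree.cons (CTree.leaf 1 98025268578033458123965654580438148186373) (CTree.cons CTree.nil (CTree.cons CTree.nil (CTree.cons CTree.nil (CTree.cons CTree.nil (CTree.cons CTree.nil (CTree.cons CTree.nil (CTree.cons CTree.nil (CTree.cons CTree.nil (CTree.cons CTree.nil (CTree.cons CTree.nil (CTree.cons CTree.nil (CTree.cons CTree.nil (CTree.cons (CTree.leaf 1 5709819754632286450402047638016384079759479300) (CTree.cons CTree.nil (CTree.cons CTree.nil (CTree.cons (CTree.leaf 1 14630117834044504887261119056517460867816690180) (CTree.cons CTree.nil (CTree.cons (CTree.leaf 1 2076928889893354184239960950591529362) (CTree.cons (CTree.leaf 1 8564315140044206212518619576915373802769158660)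 (CTree.cons CTree.nil (CTree.cons (CTree.leaf 1 14630117780102565586372915805779640011385278980) (CTree.cons (CTree.leaf 1 228672409048021245595770603041445836231172) (CTree.cons CTree.nil (CTree.cons CTree.nil CTree.nil)))))))))))))))))))))))))))))))))))) (CTree.cons (CTree.cons CTree.nil (CTree.cons CTree.nil (CTree.cons (CTree.leaf 1 178650901285024943959487473240780551753858) (CTree.cons (CTree.leaf 1 55921544385735564978008074525213790338) (CTree.cons (CTree.leaf 1 33241927647475252846364825203387928706) (CTree.cons CTree.nil (CTree.cons (CTree.leaf 1 88816356557185113094386832207818576237060) (CTree.cons CTree.nil (CTree.cons (CTree.leaf 1 24066326759219045145061417903447943698) (CTree.cons CTree.nil (CTree.cons (CTree.leaf 1 141570279268327659646779272502825219391749) (CTree.cons CTree.nil (CTree.cons CTree.nil (CTree.cons CTree.nil (CTree.cons CTree.nil (CTree.cons CTree.nil (CTree.cons CTree.nil (CTree.cons CTree.nil (CTree.cons CTree.nil (CTree.cons CTree.nil (CTree.cons CTree.nil (CTree.cons CTree.nil (CTree.cons CTree.nil (CTree.cons CTree.nil (CTree.cons (CTree.leaf 1 88816356557185113094386909093852823425540) (CTree.cons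 CTree.nil (CTree.cons (CTree.leaf 1 748437316807327363101442545572730982559899166445730) (CTree.cons (CTree.leaf 1 179669754390804198984924467462718040965793) (CTree.cons CTree.nil (CTree.cons CTree.nil (CTree.cons (CTree.leaf 1 132372499685324513246913837015272948634116) (CTree.cons CTree.nil (CTree.cons CTree.nil (CTree.cons (CTree.leaf 1 88816356243515537266040357762556643774980) (CTree.cons (CTree.leaf 1 88815084150196562614059353154197287731600) (CTree.cons CTree.nil CTree.nil)))))))))))))))))))))))))))))))))))) (CTree.cons CTree.nil (CTree.cons CTree.nil (CTree.cons CTree.nil (CTree.cons CTree.nil (CTree.cons CTree.nil (CTree.cons CTree.nil (CTree.cons (CTree.cons CTree.nil (CTree.cons CTree.nil (CTree.cons (CTree.leaf 1 228693697484549992515283284020946136010882) (CTree.cons (CTree.leaf 1 584703507538601726062782896166679721652748861244065) (CTree.cons CTree.nil (CTree.cons (CTree.leaf 1 15012060917843444629104893063685413420334252432) (CTree.cons CTree.nil (CTree.cons CTree.nil (CTree.cons (CTree.leaf 1 174228019914047875855307813718432698993043) (CTree.cons CTree.nil (CTree.cons (CTree.leaf 1 174248518789876344323284911001725307584773)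 (CTree.cons (CTree.leaf 1 174248518930830662196064503330626960228613) (CTree.cons CTree.nil (CTree.cons CTree.nil (CTree.cons CTree.nil (CTree.cons (CTree.leaf 1 223227891521530286241452935625276949332229) (CTree.cons (CTree.leaf 1 174228061584092495996032969360187436695941) (CTree.cons (CTree.leaf 1 136136893824910533817344465208372040302853) (CTree.cons CTree.nil (CTree.cons CTree.nil (CTree.cons CTree.nil (CTree.cons CTree.nil (CTree.cons CTree.nil (CTree.cons CTree.nil (CTree.cons CTree.nil (CTree.cons CTree.nil (CTree.cons CTree.nil (CTree.cons CTree.nil (CTree.cons CTree.nil (CTree.cons CTree.nil (CTree.cons CTree.nil (CTree.cons CTree.nil (CTree.cons (CTree.leaf 1 939757508138141285565954685560049519189452333842465) (CTree.cons (CTree.leaf 1 3582154854046643822588586036804459980005472727007265) (CTree.cons (CTree.leaf 1 3582154854046643822588586036804459980005472727007265) (CTree.cons CTree.nil CTree.nil)))))))))))))))))))))))))))))))))))) (CTree.cons CTree.nil (CTree.cons (CTree.cons CTree.nil (CTree.cons CTree.nil (CTree.cons CTree.nil (CTree.cons (CTree.leaf 1 223712601723732677917011430143688799380297399075489) (CTree.cons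 (CTree.leaf 1 3412236275723716702418069003129144869258533130) (CTree.cons (CTree.leaf 1 15012060938545132835581366129002143997374439826) (CTree.cons (CTree.leaf 1 223661378267717060569587098362145242562759984415393) (CTree.cons CTree.nil (CTree.cons CTree.nil (CTree.cons CTree.nil (CTree.cons (CTree.leaf 1 14517959372762669377951503317231684976966697349) (CTree.cons (CTree.leaf 1 180033319471368765629599137171699575947653) (CTree.cons (CTree.leaf 1 60213581450885423161161747273529346820687331979) (CTree.cons CTree.nil (CTree.cons CTree.nil (CTree.cons (CTree.leaf 1 220514993942142413016458968089458332729861) (CTree.cons CTree.nil (CTree.cons (CTree.leaf 1 174227942029585232170411884348374609166725) (CTree.cons CTree.nil (CTree.cons CTree.nil (CTree.cons CTree.nil (CTree.cons CTree.nil (CTree.cons CTree.nil (CTree.cons CTree.nil (CTree.cons CTree.nil (CTree.cons CTree.nil (CTree.cons CTree.nil (CTree.cons CTree.nil (CTree.cons CTree.nil (CTree.cons CTree.nil (CTree.cons (CTree.leaf 1 102853171789213313291478467299339206856782447104) (CTree.cons CTree.nil (CTree.cons CTree.nil (CTree.cons (CTree.leaf 1 223661376965455855957574548023811144751649153679488)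 (CTree.cons (CTree.leaf 1 11419550956500419730126725386291540479859294859) (CTree.cons CTree.nil CTree.nil)))))))))))))))))))))))))))))))))))) (CTree.cons (CTree.cons CTree.nil (CTree.cons CTree.nil (CTree.cons (CTree.leaf 1 6740448963559397073428706434031722469125642080288896) (CTree.cons CTree.nil (CTree.cons (CTree.leaf 1 3233782290379024347811183579958902777239044365) (CTree.cons (CTree.leaf 1 15012060917843444629104893063685413420334252432) (CTree.cons (CTree.leaf 1 5822063881751239986399046265821422603504517387) (CTree.cons CTree.nil (CTree.cons (CTree.leaf 1 51626268714688243691689156754655897714530779792) (CTree.cons CTree.nil (CTree.cons CTree.nil (CTree.cons (CTree.leaf 1 223568173888451699772475114983644241461509) (CTree.cons (CTree.leaf 1 6575299279935132564861729713035338458251536715809424) (CTree.cons CTree.nil (CTree.cons CTree.nil (CTree.cons CTree.nil (CTree.cons (CTree.leaf 1 223225897659809271388721145605670298583301) (CTree.cons (CTree.leaf 1 177289771987204068741456168372923103510789) (CTree.cons CTree.nil (CTree.cons CTree.nil (CTree.cons CTree.nil (CTree.cons CTree.nil (CTree.cons CTree.nil (CTree.cons CTree.nil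 (CTree.cons CTree.nil (CTree.cons CTree.nil (CTree.cons CTree.nil (CTree.cons CTree.nil (CTree.cons CTree.nil (CTree.cons CTree.nil (CTree.cons (CTree.leaf 1 11419550979886515114830626327830438806138389144) (CTree.cons CTree.nil (CTree.cons (CTree.leaf 1 390321268395925917111421168280368713871736745034384) (CTree.cons CTree.nil (CTree.cons (CTree.leaf 1 11418204779607064184968426346763770425522585867) (CTree.cons CTree.nil CTree.nil)))))))))))))))))))))))))))))))))))) (CTree.cons CTree.nil (CTree.cons (CTree.cons CTree.nil (CTree.cons CTree.nil (CTree.cons (CTree.leaf 1 664970455775564942695232709947101314) (CTree.cons (CTree.leaf 1 136486470585185413568093075734286208405634) (CTree.cons (CTree.leaf 1 182732383929734921820209713650965302809092) (CTree.cons CTree.nil (CTree.cons (CTree.leaf 1 90858050789287534020146531267169251033349) (CTree.cons CTree.nil (CTree.cons (CTree.leaf 1 2783101936084711156297931609360892441) (CTree.cons CTree.nil (CTree.cons (CTree.leaf 1 23360153712862030083988318188790686090) (CTree.cons CTree.nil (CTree.cons (CTree.leaf 1 90887968478951412144689642983343862645125) (CTree.cons CTree.nil (CTree.cons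 CTree.nil (CTree.cons (CTree.leaf 1 2741553420011628201330294206362616345) (CTree.cons (CTree.leaf 1 2076928889893354184239960950591529362) (CTree.cons CTree.nil (CTree.cons CTree.nil (CTree.cons CTree.nil (CTree.cons CTree.nil (CTree.cons CTree.nil (CTree.cons CTree.nil (CTree.cons CTree.nil (CTree.cons CTree.nil (CTree.cons CTree.nil (CTree.cons CTree.nil (CTree.cons CTree.nil (CTree.cons CTree.nil (CTree.cons CTree.nil (CTree.cons (CTree.leaf 1 90858050789287534025182454118111010357509) (CTree.cons CTree.nil (CTree.cons (CTree.leaf 1 90887968478951412144689642983343862645125) (CTree.cons (CTree.leaf 1 90858050789287534025182454118111010357509) (CTree.cons CTree.nil (CTree.cons CTree.nil CTree.nil)))))))))))))))))))))))))))))))))))) (CTree.cons (CTree.cons CTree.nil (CTree.cons CTree.nil (CTree.cons (CTree.leaf 1 228693697638171055523277601848858100437122) (CTree.cons (CTree.leaf 1 441748580109064180969081812448190976488781162293943272097) (CTree.cons (CTree.leaf 1 3234395810124871563922513830135617373740466445) (CTree.cons CTree.nil (CTree.cons CTree.nil (CTree.cons CTree.nil (CTree.cons (CTree.leaf 1 174228019914047875855307813718432698993043)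 (CTree.cons CTree.nil (CTree.cons (CTree.leaf 1 174248518789876344323284911001725307584773) (CTree.cons (CTree.leaf 1 174248518930830662196064503330626960228613) (CTree.cons CTree.nil (CTree.cons CTree.nil (CTree.cons CTree.nil (CTree.cons (CTree.leaf 1 223227891521530286241452935625276949332229) (CTree.cons (CTree.leaf 1 174248518789876179869084754308603533328645) (CTree.cons (CTree.leaf 1 174257148699414025139381855013950815601029) (CTree.cons CTree.nil (CTree.cons CTree.nil (CTree.cons CTree.nil (CTree.cons CTree.nil (CTree.cons CTree.nil (CTree.cons CTree.nil (CTree.cons CTree.nil (CTree.cons CTree.nil (CTree.cons (CTree.leaf 1 48369469133254889598443150566741088662530332760330) (CTree.cons (CTree.leaf 1 48244184108547658725389870969225381673794832371842) (CTree.cons CTree.nil (CTree.cons (CTree.leaf 1 787756338243369507198173650138372307419397) (CTree.cons CTree.nil (CTree.cons CTree.nil (CTree.cons CTree.nil (CTree.cons CTree.nil (CTree.cons CTree.nil (CTree.cons CTree.nil CTree.nil)))))))))))))))))))))))))))))))))))) (CTree.cons CTree.nil (CTree.cons (CTree.cons CTree.nil (CTree.cons CTree.nil (CTree.cons CTree.nil (CTree.cons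 (CTree.leaf 1 6740460537649569274152007460593833677784721674797209) (CTree.cons (CTree.leaf 1 3412236275723716702418069003129144869258533130) (CTree.cons (CTree.leaf 1 15012060938545132835581366129002143997374439826) (CTree.cons (CTree.leaf 1 223661378267717060569587098362145242562759984415393) (CTree.cons CTree.nil (CTree.cons CTree.nil (CTree.cons CTree.nil (CTree.cons (CTree.leaf 1 11418118708018384090429933013911332823089873285) (CTree.cons (CTree.leaf 1 11418207501159847186984477211612678850988343685) (CTree.cons (CTree.leaf 1 51626362292339175400267714086059561849234457240) (CTree.cons CTree.nil (CTree.cons CTree.nil (CTree.cons (CTree.leaf 1 220514993942142413016458968089458332729861) (CTree.cons (CTree.leaf 1 228693697484554768865516434593869840122245) (CTree.cons CTree.nil (CTree.cons CTree.nil (CTree.cons CTree.nil (CTree.cons CTree.nil (CTree.cons CTree.nil (CTree.cons CTree.nil (CTree.cons CTree.nil (CTree.cons (CTree.leaf 1 51626362292339175400267714086059561849234457240) (CTree.cons CTree.nil (CTree.cons CTree.nil (CTree.cons (CTree.leaf 1 6575298722416524685267444904137298193685559078750475) (CTree.cons CTree.nil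 (CTree.cons (CTree.leaf 1 787786255933033385317680839003605159707013) (CTree.cons CTree.nil (CTree.cons CTree.nil (CTree.cons CTree.nil (CTree.cons CTree.nil (CTree.cons CTree.nil (CTree.cons CTree.nil CTree.nil)))))))))))))))))))))))))))))))))))) (CTree.cons (CTree.cons CTree.nil (CTree.cons CTree.nil (CTree.cons (CTree.leaf 1 6740448963559385717702434939930137313202799147745953) (CTree.cons CTree.nil (CTree.cons (CTree.leaf 1 11418210224119388713406298052855770801045242125) (CTree.cons (CTree.leaf 1 15012060917843627249856283457335591600428941457) (CTree.cons (CTree.leaf 1 14630858233899524707969515183838167267425716627) (CTree.cons CTree.nil (CTree.cons (CTree.leaf 1 51626268714688243691689156754655897714530779792) (CTree.cons CTree.nil (CTree.cons (CTree.leaf 1 174237298548521860187948052292419224994053) (CTree.cons CTree.nil (CTree.cons (CTree.leaf 1 390321268272086417486886747376159191089334873817744) (CTree.cons CTree.nil (CTree.cons CTree.nil (CTree.cons CTree.nil (CTree.cons (CTree.leaf 1 174228061452412512954429834271629570474245) (CTree.cons (CTree.leaf 1 174248518920055641725242421240730072645893) (CTree.cons CTree.nil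 (CTree.cons CTree.nil (CTree.cons CTree.nil (CTree.cons CTree.nil (CTree.cons CTree.nil (CTree.cons CTree.nil (CTree.cons (CTree.leaf 1 102851211136157694147426871409798250730991125144) (CTree.cons CTree.nil (CTree.cons (CTree.leaf 1 982140519837314632364585023234067337273809195503778) (CTree.cons CTree.nil (CTree.cons CTree.nil (CTree.cons (CTree.leaf 1 787756338243369507198173650138372307419397) (CTree.cons CTree.nil (CTree.cons CTree.nil (CTree.cons CTree.nil (CTree.cons CTree.nil (CTree.cons CTree.nil (CTree.cons CTree.nil CTree.nil)))))))))))))))))))))))))))))))))))) (CTree.cons (CTree.cons CTree.nil (CTree.cons CTree.nil (CTree.cons (CTree.leaf 1 1569438156418420497882045680806179083653250) (CTree.cons (CTree.leaf 1 211923737882845551040583457635251439530610489229985) (CTree.cons CTree.nil (CTree.cons (CTree.leaf 1 15012060917843627247382901344613562564022894737) (CTree.cons (CTree.leaf 1 11775011246894553300033523334061207673210340001) (CTree.cons CTree.nil (CTree.cons (CTree.leaf 1 225971439362536457031707934266253692242323) (CTree.cons CTree.nil (CTree.cons CTree.nil (CTree.cons (CTree.leaf 1 834034740144622409251596125645524196524293)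 (CTree.cons (CTree.leaf 1 11955334370709160972807763032999891777576043136) (CTree.cons CTree.nil (CTree.cons CTree.nil (CTree.cons (CTree.leaf 1 223227891521530286241452935625276949332229) (CTree.cons CTree.nil (CTree.cons (CTree.leaf 1 787756338243374787851695046857628809429253) (CTree.cons CTree.nil (CTree.cons CTree.nil (CTree.cons CTree.nil (CTree.cons CTree.nil (CTree.cons CTree.nil (CTree.cons CTree.nil (CTree.cons (CTree.leaf 1 14272659342355335746389016627884067163275788555) (CTree.cons CTree.nil (CTree.cons (CTree.leaf 1 11955334381930201105968301989358835250705269376) (CTree.cons (CTree.leaf 1 54659344265055284875113359902153913352750956811) (CTree.cons CTree.nil (CTree.cons CTree.nil (CTree.cons CTree.nil (CTree.cons CTree.nil (CTree.cons CTree.nil (CTree.cons CTree.nil (CTree.cons CTree.nil (CTree.cons CTree.nil CTree.nil)))))))))))))))))))))))))))))))))))) (CTree.cons CTree.nil CTree.nil)))))))))))))))))))))))))))))))))))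

theorem tree6_3_1_ok : chk 6 (pk (goalL 6)) tree6_3_1 (stk [((3 : Fin 6), (1 : Fin 6))]) 1 (om [((3 : Fin 6), (1 : Fin 6))]) (im [((3 : Fin 6), (1 : Fin 6))])
    (cm [((3 : Fin 6), (1 : Fin 6))]) (pk (goalR [((3 : Fin 6), (1 : Fin 6))])) 0 = true := by
  decide +kernel

def tree6_3_2 : CTree :=
  CTree.cons CTree.nil (CTree.cons (CTree.cons CTree.nil (CTree.cons CTree.nil (CTree.cons CTree.nil (CTree.cons CTree.nil (CTree.cons CTree.nil (CTree.cons CTree.nil (CTree.cons CTree.nil (CTree.cons CTree.nil (CTree.cons CTree.nil (CTree.cons (CTree.leaf 1 3489244410773837637579428862452433024) (CTree.cons (CTree.leaf 1 3432962157492495608252243784866267264) (CTree.cons (CTree.leaf 1 2035746410405692667657470602142941312) (CTree.cons (CTree.leaf 1 14986144683229526042749113026638363098566295680) (CTree.cons CTree.nil (CTree.cons CTree.nil (CTree.cons CTree.nil (CTree.cons (CTree.leaf 1 3364974411451962119039065021100130432) (CTree.cons (CTree.leaf 1 24066976826456848306153382899142688896) (CTree.cons CTree.nil (CTree.cons CTree.nil (CTree.cons CTree.nil (CTree.cons CTree.nil (CTree.cons CTree.nil (CTree.cons CTree.nil (CTree.cons (CTree.leaf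 1 14987672922570557018972698191387507468246515840) (CTree.cons CTree.nil (CTree.cons CTree.nil (CTree.cons (CTree.leaf 1 14987672878617764121384947259258534336435781760) (CTree.cons CTree.nil (CTree.cons (CTree.leaf 1 2783427563997093944344388932792549504) (CTree.cons (CTree.leaf 1 103030320450058420458245870482137679566624325760) (CTree.cons CTree.nil (CTree.cons CTree.nil (CTree.cons (CTree.leaf 1 14987672878617764121384947259258534336435781760) (CTree.cons (CTree.leaf 1 14986144693826527378425333205011381658107052160) (CTree.cons CTree.nil CTree.nil)))))))))))))))))))))))))))))))))))) (CTree.cons CTree.nil (CTree.cons (CTree.cons CTree.nil (CTree.cons CTree.nil (CTree.cons CTree.nil (CTree.cons CTree.nil (CTree.cons CTree.nil (CTree.cons CTree.nil (CTree.cons (CTree.leaf 1 228702991665500836731685897227070251012226) (CTree.cons CTree.nil (CTree.cons CTree.nil (CTree.cons CTree.nil (CTree.cons (CTree.leaf 1 33241094642565057912441649947163562114) (CTree.cons (CTree.leaf 1 33241094639934286630870624502793965698) (CTree.cons CTree.nil (CTree.cons (CTree.leaf 1 228702991665500827060279340310071213101186) (CTree.cons CTree.nil (CTree.cons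 CTree.nil (CTree.cons (CTree.leaf 1 44623106421099665989951170315305422978) (CTree.cons (CTree.leaf 1 55921544385271410917092377975624634498) (CTree.cons CTree.nil (CTree.cons CTree.nil (CTree.cons CTree.nil (CTree.cons CTree.nil (CTree.cons CTree.nil (CTree.cons CTree.nil (CTree.cons (CTree.leaf 1 180723177929648503711943520662797485674626) (CTree.cons (CTree.leaf 1 180723177929658258387896396416285596586114) (CTree.cons CTree.nil (CTree.cons CTree.nil (CTree.cons CTree.nil (CTree.cons (CTree.leaf 1 2082618259123709928346073222199447682) (CTree.cons (CTree.leaf 1 180723177929648681275193344681037774524546) (CTree.cons (CTree.leaf 1 180693426565726110671730448640695047622786) (CTree.cons CTree.nil (CTree.cons CTree.nil (CTree.cons (CTree.leaf 1 2178490470147634140506023016715345190785154) (CTree.cons CTree.nil CTree.nil)))))))))))))))))))))))))))))))))))) (CTree.cons (CTree.cons CTree.nil (CTree.cons CTree.nil (CTree.cons CTree.nil (CTree.cons CTree.nil (CTree.cons CTree.nil (CTree.cons CTree.nil (CTree.cons (CTree.leaf 1 94243123435613408161601777805301232518558783754) (CTree.cons CTree.nil (CTree.cons CTree.nil (CTree.cons (CTree.leaf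 1 665467286001848946090016993452888194) (CTree.cons CTree.nil (CTree.cons (CTree.leaf 1 11418032245901288934429778283797279152477442178) (CTree.cons (CTree.leaf 1 14517828691788696947699666842865484896576078221) (CTree.cons (CTree.leaf 1 222237626857846665802127675120598476001410) (CTree.cons CTree.nil (CTree.cons CTree.nil (CTree.cons CTree.nil (CTree.cons (CTree.leaf 1 23947716270697906668964782701575540866) (CTree.cons CTree.nil (CTree.cons CTree.nil (CTree.cons CTree.nil (CTree.cons CTree.nil (CTree.cons CTree.nil (CTree.cons CTree.nil (CTree.cons CTree.nil (CTree.cons (CTree.leaf 1 14517828681139458587806052132905841283987800461) (CTree.cons CTree.nil (CTree.cons (CTree.leaf 1 14562430171536377133812776811399985543553095946) (CTree.cons CTree.nil (CTree.cons (CTree.leaf 1 182732295996214800371563398825433157998858) (CTree.cons (CTree.leaf 1 240000663383482589164448403988453143526700089741) (CTree.cons (CTree.leaf 1 2854716909985842335599262821230435031134634381) (CTree.cons CTree.nil (CTree.cons (CTree.leaf 1 14562430226662973071659093059661465562339481866) (CTree.cons CTree.nil (CTree.cons CTree.nil CTree.nil))))))))))))))))))))))))))))))))))))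 (CTree.cons (CTree.cons CTree.nil (CTree.cons CTree.nil (CTree.cons CTree.nil (CTree.cons CTree.nil (CTree.cons CTree.nil (CTree.cons CTree.nil (CTree.cons (CTree.leaf 1 15009978728156283304713663078880945431636480130) (CTree.cons CTree.nil (CTree.cons CTree.nil (CTree.cons (CTree.leaf 1 3495267805608369731010968326719017090) (CTree.cons (CTree.leaf 1 229010697563607340012494448234125919394058) (CTree.cons CTree.nil (CTree.cons (CTree.leaf 1 11663518749529079193450543095176079469026345357) (CTree.cons (CTree.leaf 1 229043274196265605641019104613470469492866) (CTree.cons CTree.nil (CTree.cons CTree.nil (CTree.cons (CTree.leaf 1 3495267811029185634045198666897690754) (CTree.cons CTree.nil (CTree.cons CTree.nil (CTree.cons CTree.nil (CTree.cons CTree.nil (CTree.cons CTree.nil (CTree.cons CTree.nil (CTree.cons CTree.nil (CTree.cons (CTree.leaf 1 11663518772852875322420287532064718650071449997) (CTree.cons (CTree.leaf 1 229012094322111368542954088262919835488386) (CTree.cons CTree.nil (CTree.cons (CTree.leaf 1 229010697593703850492432700491573310396682) (CTree.cons CTree.nil (CTree.cons CTree.nil (CTree.cons CTree.nil (CTree.cons (CTree.leaf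 1 103029671827909042192089416290054135147502633357) (CTree.cons CTree.nil (CTree.cons (CTree.leaf 1 15008445076805044014447112273729925901149929997) (CTree.cons (CTree.leaf 1 15008445075507801447624774840638294932492779917) (CTree.cons CTree.nil CTree.nil)))))))))))))))))))))))))))))))))))) (CTree.cons (CTree.cons CTree.nil (CTree.cons CTree.nil (CTree.cons CTree.nil (CTree.cons (CTree.leaf 1 228702991665500836731685897235866344034434) (CTree.cons (CTree.leaf 1 43612106384570470590264137935461341073538) (CTree.cons (CTree.leaf 1 229065870908352427664604894300943021641858) (CTree.cons CTree.nil (CTree.cons CTree.nil (CTree.cons CTree.nil (CTree.cons CTree.nil (CTree.cons CTree.nil (CTree.cons CTree.nil (CTree.cons CTree.nil (CTree.cons (CTree.leaf 1 14986276700061550221348033178450766349463521675) (CTree.cons CTree.nil (CTree.cons CTree.nil (CTree.cons (CTree.leaf 1 874867985654288406054508740682607165047456) (CTree.cons (CTree.leaf 1 2134932234879671807645041880884602882621829) (CTree.cons CTree.nil (CTree.cons CTree.nil (CTree.cons CTree.nil (CTree.cons CTree.nil (CTree.cons CTree.nil (CTree.cons CTree.nil (CTree.cons CTree.nil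 (CTree.cons (CTree.leaf 1 14988235705647296787548955578194243764894696097) (CTree.cons CTree.nil (CTree.cons (CTree.leaf 1 14986276700060932954405205458158862233141053835) (CTree.cons CTree.nil (CTree.cons (CTree.leaf 1 874867985654288406054508740682606637023633) (CTree.cons CTree.nil (CTree.cons (CTree.leaf 1 14988235705647296787548955578194243764894696097) (CTree.cons CTree.nil (CTree.cons (CTree.leaf 1 14986276700060932954405205458158862233141053835) (CTree.cons (CTree.leaf 1 14988235705647296787548955578194243764894696097) (CTree.cons CTree.nil CTree.nil)))))))))))))))))))))))))))))))))))) (CTree.cons CTree.nil (CTree.cons CTree.nil (CTree.cons (CTree.cons CTree.nil (CTree.cons (CTree.leaf 1 3489244410773837637579428862452433024) (CTree.cons CTree.nil (CTree.cons CTree.nil (CTree.cons (CTree.leaf 1 665467286001848946090016993452888194) (CTree.cons (CTree.leaf 1 3495267805608369731010968326719017090) (CTree.cons CTree.nil (CTree.cons CTree.nil (CTree.cons CTree.nil (CTree.cons CTree.nil (CTree.cons CTree.nil (CTree.cons CTree.nil (CTree.cons (CTree.leaf 1 228672434998488356853240356027559062413442) (CTree.cons CTree.nil (CTree.cons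 CTree.nil (CTree.cons CTree.nil (CTree.cons (CTree.leaf 1 3364618518545915023810672374255327498) (CTree.cons (CTree.leaf 1 2700004518032505910434252793494771978) (CTree.cons CTree.nil (CTree.cons CTree.nil (CTree.cons CTree.nil (CTree.cons CTree.nil (CTree.cons CTree.nil (CTree.cons CTree.nil (CTree.cons (CTree.leaf 1 220503638420849181622174630040044879609989) (CTree.cons (CTree.leaf 1 228672434998488356779934113660194752438402) (CTree.cons CTree.nil (CTree.cons CTree.nil (CTree.cons CTree.nil (CTree.cons (CTree.leaf 1 2700004513228151932897053621082986762) (CTree.cons (CTree.leaf 1 228672450575378932384416999251683740090501) (CTree.cons (CTree.leaf 1 228672434998488356779934113660194752438402) (CTree.cons CTree.nil (CTree.cons CTree.nil (CTree.cons (CTree.leaf 1 220503638420846560784296489043160734498949) (CTree.cons CTree.nil CTree.nil)))))))))))))))))))))))))))))))))))) (CTree.cons (CTree.cons CTree.nil (CTree.cons (CTree.leaf 1 3432962157492495608252243784866267264) (CTree.cons CTree.nil (CTree.cons (CTree.leaf 1 33241094642565057912441649947163562114) (CTree.cons CTree.nil (CTree.cons (CTree.leaf 1 229010697563607339974715516371168757684490)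 (CTree.cons CTree.nil (CTree.cons CTree.nil (CTree.cons CTree.nil (CTree.cons CTree.nil (CTree.cons CTree.nil (CTree.cons CTree.nil (CTree.cons (CTree.leaf 1 89835210335059647786959600873747133825157) (CTree.cons (CTree.leaf 1 224248099614530652270932557220166162782338) (CTree.cons CTree.nil (CTree.cons CTree.nil (CTree.cons CTree.nil (CTree.cons (CTree.leaf 1 2035390522780453050313528211782894241) (CTree.cons CTree.nil (CTree.cons CTree.nil (CTree.cons CTree.nil (CTree.cons CTree.nil (CTree.cons CTree.nil (CTree.cons CTree.nil (CTree.cons (CTree.leaf 1 224246744911986861493590129610545355096453) (CTree.cons CTree.nil (CTree.cons CTree.nil (CTree.cons (CTree.leaf 1 89835209533350035907961716255157920006277) (CTree.cons CTree.nil (CTree.cons (CTree.leaf 1 2082121181951251851926751348246250009) (CTree.cons (CTree.leaf 1 87167542689760018882168135142438011469957) (CTree.cons (CTree.leaf 1 3621286968586259332841647417123665763965058) (CTree.cons CTree.nil (CTree.cons (CTree.leaf 1 224246744435825604782860272841256503148677) (CTree.cons CTree.nil (CTree.cons CTree.nil CTree.nil)))))))))))))))))))))))))))))))))))) (CTree.cons (CTree.cons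 CTree.nil (CTree.cons (CTree.leaf 1 89837312556888961501304711022268992585856) (CTree.cons CTree.nil (CTree.cons (CTree.leaf 1 11596431072193491564394059791066289714210347274) (CTree.cons (CTree.leaf 1 11418032256534950641432276053664344056709910658) (CTree.cons CTree.nil (CTree.cons CTree.nil (CTree.cons CTree.nil (CTree.cons CTree.nil (CTree.cons CTree.nil (CTree.cons CTree.nil (CTree.cons CTree.nil (CTree.cons (CTree.leaf 1 133391352813040523009334572049097304965253) (CTree.cons (CTree.leaf 1 11843961302438889374855589747081740973426942354) (CTree.cons CTree.nil (CTree.cons CTree.nil (CTree.cons (CTree.leaf 1 2035390515335693998059972616984341002) (CTree.cons CTree.nil (CTree.cons CTree.nil (CTree.cons CTree.nil (CTree.cons CTree.nil (CTree.cons CTree.nil (CTree.cons CTree.nil (CTree.cons CTree.nil (CTree.cons (CTree.leaf 1 133391352813040523049623875893999918776453) (CTree.cons (CTree.leaf 1 11843961302438889374855557319429975099364675714) (CTree.cons CTree.nil (CTree.cons (CTree.leaf 1 89835209523674153794342158943790762885793) (CTree.cons CTree.nil (CTree.cons CTree.nil (CTree.cons (CTree.leaf 1 11841739278505900799128602653286907689621913989)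 (CTree.cons CTree.nil (CTree.cons CTree.nil (CTree.cons (CTree.leaf 1 133391352813040523049623875893999918776453) (CTree.cons (CTree.leaf 1 133391352813040523009334572049097304965253) (CTree.cons CTree.nil CTree.nil)))))))))))))))))))))))))))))))))))) (CTree.cons (CTree.cons CTree.nil (CTree.cons (CTree.leaf 1 228683142185356111399576484435128236441728) (CTree.cons CTree.nil (CTree.cons CTree.nil (CTree.cons (CTree.leaf 1 228671811922867808407886841102916618162306) (CTree.cons (CTree.leaf 1 15008536611375403978619470313302331897522297098) (CTree.cons CTree.nil (CTree.cons CTree.nil (CTree.cons CTree.nil (CTree.cons (CTree.leaf 1 228672434998490832733318926788108860661890) (CTree.cons (CTree.leaf 1 89835209512820029722886016521684507755168) (CTree.cons (CTree.leaf 1 133391352813042998889413142809647103213701) (CTree.cons CTree.nil (CTree.cons CTree.nil (CTree.cons CTree.nil (CTree.cons CTree.nil (CTree.cons CTree.nil (CTree.cons CTree.nil (CTree.cons CTree.nil (CTree.cons CTree.nil (CTree.cons CTree.nil (CTree.cons CTree.nil (CTree.cons CTree.nil (CTree.cons CTree.nil (CTree.cons CTree.nil (CTree.cons (CTree.leaf 1 755611334172954845414735356256360817884100303061123)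 (CTree.cons CTree.nil (CTree.cons (CTree.leaf 1 947156090439071726164413514689979156953331335757955) (CTree.cons CTree.nil (CTree.cons (CTree.leaf 1 182392013304542582853577789987047385661573) (CTree.cons CTree.nil (CTree.cons (CTree.leaf 1 982314688660013557003329817906148353715582015701123) (CTree.cons CTree.nil (CTree.cons (CTree.leaf 1 947156090439071726164413514689979156953331335757955) (CTree.cons (CTree.leaf 1 947156090439071726164413514689979156953331335757955) (CTree.cons CTree.nil CTree.nil)))))))))))))))))))))))))))))))))))) (CTree.cons (CTree.cons CTree.nil (CTree.cons CTree.nil (CTree.cons CTree.nil (CTree.cons (CTree.leaf 1 2178488377846176001519336332002515350524034) (CTree.cons (CTree.leaf 1 222205051066029779362617053471055155435786) (CTree.cons (CTree.leaf 1 15008580167518390143785475511144666761283115274) (CTree.cons (CTree.leaf 1 11663420410750317922256973373787905879898658946) (CTree.cons CTree.nil (CTree.cons CTree.nil (CTree.cons CTree.nil (CTree.cons (CTree.leaf 1 877590244102725057477346884710411964383904) (CTree.cons (CTree.leaf 1 877588889269139885464716885317724720988549) (CTree.cons CTree.nil (CTree.cons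 CTree.nil (CTree.cons CTree.nil (CTree.cons CTree.nil (CTree.cons CTree.nil (CTree.cons CTree.nil (CTree.cons CTree.nil (CTree.cons CTree.nil (CTree.cons CTree.nil (CTree.cons CTree.nil (CTree.cons CTree.nil (CTree.cons CTree.nil (CTree.cons (CTree.leaf 1 11663518421895176494162727106754327635543791746) (CTree.cons CTree.nil (CTree.cons CTree.nil (CTree.cons (CTree.leaf 1 11663420420573515940391251937161402803086760066) (CTree.cons CTree.nil (CTree.cons (CTree.leaf 1 874867985167357549769639887816352882301058) (CTree.cons (CTree.leaf 1 11663518421895176494162727106754327635543791746) (CTree.cons CTree.nil (CTree.cons CTree.nil (CTree.cons (CTree.leaf 1 11663420420573515940391251937161402803086760066) (CTree.cons (CTree.leaf 1 11663518421895176494162727106754327635543791746) (CTree.cons CTree.nil CTree.nil)))))))))))))))))))))))))))))))))))) (CTree.cons CTree.nil (CTree.cons CTree.nil (CTree.cons (CTree.cons CTree.nil (CTree.cons (CTree.leaf 1 3364974411451962119039065021100130432) (CTree.cons CTree.nil (CTree.cons (CTree.leaf 1 44623106421099665989951170315305422978) (CTree.cons CTree.nil (CTree.cons (CTree.leaf 1 3495267811029185634045198666897690754)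 (CTree.cons (CTree.leaf 1 221525841166086556204830719417350552101266) (CTree.cons CTree.nil (CTree.cons CTree.nil (CTree.cons (CTree.leaf 1 3364618518545915023810672374255327498) (CTree.cons CTree.nil (CTree.cons (CTree.leaf 1 2035390515335693998059972616984341002) (CTree.cons CTree.nil (CTree.cons CTree.nil (CTree.cons CTree.nil (CTree.cons CTree.nil (CTree.cons CTree.nil (CTree.cons CTree.nil (CTree.cons CTree.nil (CTree.cons CTree.nil (CTree.cons CTree.nil (CTree.cons CTree.nil (CTree.cons CTree.nil (CTree.cons CTree.nil (CTree.cons (CTree.leaf 1 220503638410066726411149894434306930114693) (CTree.cons (CTree.leaf 1 221525840679155700000242486578667926460546) (CTree.cons CTree.nil (CTree.cons CTree.nil (CTree.cons CTree.nil (CTree.cons (CTree.leaf 1 2035390515025115850864745164599533970) (CTree.cons (CTree.leaf 1 220503638410066726411149894434306930114693) (CTree.cons (CTree.leaf 1 221525840679155700000242486578667926460546) (CTree.cons CTree.nil (CTree.cons (CTree.leaf 1 220503638410066726411149894434306930114693) (CTree.cons CTree.nil (CTree.cons CTree.nil CTree.nil)))))))))))))))))))))))))))))))))))) (CTree.cons (CTree.cons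 CTree.nil (CTree.cons (CTree.leaf 1 24066976826456848306153382899142688896) (CTree.cons CTree.nil (CTree.cons (CTree.leaf 1 55921544385271410917092377975624634498) (CTree.cons (CTree.leaf 1 23947716270697906668964782701575540866) (CTree.cons CTree.nil (CTree.cons (CTree.leaf 1 177969698200206432954824401795699022309906) (CTree.cons CTree.nil (CTree.cons CTree.nil (CTree.cons (CTree.leaf 1 2700004518032505910434252793494771978) (CTree.cons (CTree.leaf 1 2035390522780453050313528211782894241) (CTree.cons CTree.nil (CTree.cons CTree.nil (CTree.cons CTree.nil (CTree.cons CTree.nil (CTree.cons CTree.nil (CTree.cons CTree.nil (CTree.cons CTree.nil (CTree.cons CTree.nil (CTree.cons CTree.nil (CTree.cons CTree.nil (CTree.cons CTree.nil (CTree.cons CTree.nil (CTree.cons CTree.nil (CTree.cons (CTree.leaf 1 1577209435313474295030225578764206035042437) (CTree.cons (CTree.leaf 1 177969697713280380834837783263017954318466) (CTree.cons CTree.nil (CTree.cons (CTree.leaf 1 1577209435313474295030225578764206035042437) (CTree.cons CTree.nil (CTree.cons CTree.nil (CTree.cons (CTree.leaf 1 176947496093773199717403474703520390840453) (CTree.cons (CTree.leaf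 1 177969697713275576636937995675599430097026) (CTree.cons CTree.nil (CTree.cons CTree.nil (CTree.cons (CTree.leaf 1 1577209435313474295030225578764206035042437) (CTree.cons CTree.nil CTree.nil)))))))))))))))))))))))))))))))))))) (CTree.cons CTree.nil (CTree.cons CTree.nil (CTree.cons CTree.nil (CTree.cons CTree.nil (CTree.cons CTree.nil (CTree.cons CTree.nil (CTree.cons (CTree.cons CTree.nil (CTree.cons (CTree.leaf 1 1572149157978280391100713858367904452968576) (CTree.cons CTree.nil (CTree.cons (CTree.leaf 1 2178488377846176001519336332002515350524034) (CTree.cons CTree.nil (CTree.cons (CTree.leaf 1 229065870929662004755411631621876642091138) (CTree.cons CTree.nil (CTree.cons CTree.nil (CTree.cons CTree.nil (CTree.cons (CTree.leaf 1 220503638583105837613509852434738744787077) (CTree.cons (CTree.leaf 1 2924387326429621351522398516672866417705349) (CTree.cons (CTree.leaf 1 130681820328321608260414722034563145138309) (CTree.cons CTree.nil (CTree.cons (CTree.leaf 1 568664051808350123511587782356125768874579204311571) (CTree.cons CTree.nil (CTree.cons CTree.nil (CTree.cons (CTree.leaf 1 220503638572326003240363257825884940402821) (CTree.cons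 (CTree.leaf 1 1577209435973434818459749052920359000604805) (CTree.cons CTree.nil (CTree.cons CTree.nil (CTree.cons CTree.nil (CTree.cons CTree.nil (CTree.cons CTree.nil (CTree.cons CTree.nil (CTree.cons CTree.nil (CTree.cons CTree.nil (CTree.cons CTree.nil (CTree.cons CTree.nil (CTree.cons CTree.nil (CTree.cons CTree.nil (CTree.cons CTree.nil (CTree.cons (CTree.leaf 1 3757623741155500355619179355941591372600756883619971) (CTree.cons CTree.nil (CTree.cons (CTree.leaf 1 947156091310843212397881010358403503172234504110211) (CTree.cons (CTree.leaf 1 947156091310843211547854904299607281769344636354691) (CTree.cons CTree.nil CTree.nil)))))))))))))))))))))))))))))))))))) (CTree.cons (CTree.cons CTree.nil (CTree.cons CTree.nil (CTree.cons CTree.nil (CTree.cons (CTree.leaf 1 2178488377846176156261842971511313200648322) (CTree.cons (CTree.leaf 1 14339561896347782359633139066577012334004932738) (CTree.cons (CTree.leaf 1 229012094320209883051558695830847754997890) (CTree.cons (CTree.leaf 1 103029486386745429980103085709156280448204216450) (CTree.cons CTree.nil (CTree.cons CTree.nil (CTree.cons (CTree.leaf 1 228670415389208360623331982932740898685445)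 (CTree.cons CTree.nil (CTree.cons (CTree.leaf 1 2924387326298580276213504530558906427638149) (CTree.cons (CTree.leaf 1 14272611381805040325801607182087103903230919057) (CTree.cons CTree.nil (CTree.cons CTree.nil (CTree.cons CTree.nil (CTree.cons (CTree.leaf 1 874867985167357549769639887850957451565186) (CTree.cons (CTree.leaf 1 43569492858191297573358885720380987801989) (CTree.cons CTree.nil (CTree.cons CTree.nil (CTree.cons CTree.nil (CTree.cons CTree.nil (CTree.cons CTree.nil (CTree.cons CTree.nil (CTree.cons CTree.nil (CTree.cons CTree.nil (CTree.cons CTree.nil (CTree.cons CTree.nil (CTree.cons CTree.nil (CTree.cons CTree.nil (CTree.cons (CTree.leaf 1 191652647805706927415712940644229697629155563650) (CTree.cons CTree.nil (CTree.cons CTree.nil (CTree.cons (CTree.leaf 1 14272611352572855066805482941681061222162170257) (CTree.cons (CTree.leaf 1 191652825760657859149631804612642530131307468930) (CTree.cons CTree.nil CTree.nil)))))))))))))))))))))))))))))))))))) (CTree.cons CTree.nil (CTree.cons (CTree.cons CTree.nil (CTree.cons (CTree.leaf 1 228693739186696898991045969797816269209728) (CTree.cons CTree.nil (CTree.cons CTree.nil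 (CTree.cons (CTree.leaf 1 222205050427287387422208315158987354542210) (CTree.cons (CTree.leaf 1 15008580167518722911815564144629149344714070282) (CTree.cons (CTree.leaf 1 14517961074174341720257565776963373993071018385) (CTree.cons CTree.nil (CTree.cons CTree.nil (CTree.cons CTree.nil (CTree.cons (CTree.leaf 1 89835209685455561592107067861045090779808) (CTree.cons (CTree.leaf 1 176947495778923268384265578821478511673477) (CTree.cons (CTree.leaf 1 14986144331590966446499567099565173551255454369) (CTree.cons (CTree.leaf 1 14517961050892113825592890226425648941608010129) (CTree.cons CTree.nil (CTree.cons CTree.nil (CTree.cons CTree.nil (CTree.cons (CTree.leaf 1 176947495778923268533036948223245585350789) (CTree.cons CTree.nil (CTree.cons CTree.nil (CTree.cons CTree.nil (CTree.cons CTree.nil (CTree.cons CTree.nil (CTree.cons CTree.nil (CTree.cons CTree.nil (CTree.cons CTree.nil (CTree.cons CTree.nil (CTree.cons CTree.nil (CTree.cons CTree.nil (CTree.cons CTree.nil (CTree.cons (CTree.leaf 1 14986234164765391791625269937606278746859504289) (CTree.cons (CTree.leaf 1 14517961050892113825592890226425648941608010129) (CTree.cons CTree.nil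 (CTree.cons CTree.nil (CTree.cons (CTree.leaf 1 14986144353544160447729780657721481210121159329) (CTree.cons CTree.nil CTree.nil)))))))))))))))))))))))))))))))))))) (CTree.cons CTree.nil (CTree.cons (CTree.cons CTree.nil (CTree.cons (CTree.leaf 1 2783427563997093944344388932792549504) (CTree.cons CTree.nil (CTree.cons (CTree.leaf 1 2082618259123709928346073222199447682) (CTree.cons (CTree.leaf 1 182732295996214800333784466962475996289290) (CTree.cons CTree.nil (CTree.cons (CTree.leaf 1 177969698200206432881517544662345339961745) (CTree.cons CTree.nil (CTree.cons CTree.nil (CTree.cons (CTree.leaf 1 2700004513228151932897053621082986762) (CTree.cons (CTree.leaf 1 2082121181951251851926751348246250009) (CTree.cons CTree.nil (CTree.cons (CTree.leaf 1 182392013304542582853577213526295082238085) (CTree.cons (CTree.leaf 1 177969697713275576596648691796091585239170) (CTree.cons CTree.nil (CTree.cons CTree.nil (CTree.cons (CTree.leaf 1 2035390515025115850864745164599533970) (CTree.cons CTree.nil (CTree.cons CTree.nil (CTree.cons CTree.nil (CTree.cons CTree.nil (CTree.cons CTree.nil (CTree.cons CTree.nil (CTree.cons CTree.nil (CTree.cons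 CTree.nil (CTree.cons CTree.nil (CTree.cons CTree.nil (CTree.cons CTree.nil (CTree.cons CTree.nil (CTree.cons CTree.nil (CTree.cons (CTree.leaf 1 182414708844489797724241823799115999936645) (CTree.cons (CTree.leaf 1 177969697713275576596648691796091585239170) (CTree.cons CTree.nil (CTree.cons (CTree.leaf 1 182392013304542582742621740994917043863685) (CTree.cons CTree.nil (CTree.cons CTree.nil CTree.nil)))))))))))))))))))))))))))))))))))) (CTree.cons (CTree.cons CTree.nil (CTree.cons (CTree.leaf 1 228693739186686989537115709260040065515648) (CTree.cons CTree.nil (CTree.cons (CTree.leaf 1 2178488377846176001519336332002515350524034) (CTree.cons (CTree.leaf 1 135092764334854905494586549006555708788866) (CTree.cons CTree.nil (CTree.cons CTree.nil (CTree.cons CTree.nil (CTree.cons CTree.nil (CTree.cons (CTree.leaf 1 228672450575381408337801812379597848313989) (CTree.cons (CTree.leaf 1 87115775359583722102971688119475354337413) (CTree.cons (CTree.leaf 1 877588889400181266700004457100791450829189) (CTree.cons CTree.nil (CTree.cons (CTree.leaf 1 48238231156737094749218729443891571421363587516947) (CTree.cons CTree.nil (CTree.cons CTree.nil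 (CTree.cons (CTree.leaf 1 220503638572326003240363257825884940402821) (CTree.cons (CTree.leaf 1 174248519071460660330289259438974356357253) (CTree.cons CTree.nil (CTree.cons CTree.nil (CTree.cons CTree.nil (CTree.cons CTree.nil (CTree.cons CTree.nil (CTree.cons CTree.nil (CTree.cons CTree.nil (CTree.cons (CTree.leaf 1 14986330137118847887138311315174437808752429090) (CTree.cons CTree.nil (CTree.cons (CTree.leaf 1 14988203041375705278581273175581295299260979330) (CTree.cons CTree.nil (CTree.cons (CTree.leaf 1 182414709006749074553455187190694010224773) (CTree.cons CTree.nil (CTree.cons CTree.nil (CTree.cons CTree.nil (CTree.cons CTree.nil (CTree.cons CTree.nil (CTree.cons CTree.nil CTree.nil)))))))))))))))))))))))))))))))))))) (CTree.cons (CTree.cons CTree.nil (CTree.cons CTree.nil (CTree.cons CTree.nil (CTree.cons (CTree.leaf 1 2178488377846176001519336332002515350524034) (CTree.cons (CTree.leaf 1 135092764334854905494586549006555708788866) (CTree.cons (CTree.leaf 1 229065870929662004755411631621876642091138) (CTree.cons (CTree.leaf 1 11663518409246905101464567638101813274734631042) (CTree.cons CTree.nil (CTree.cons CTree.nil (CTree.cons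 (CTree.leaf 1 228670415389208360623331982932740898685445) (CTree.cons (CTree.leaf 1 877590244102720284605192989050411232139394) (CTree.cons CTree.nil (CTree.cons (CTree.leaf 1 14988932603935389686351112629876860393150349985) (CTree.cons CTree.nil (CTree.cons CTree.nil (CTree.cons CTree.nil (CTree.cons (CTree.leaf 1 874867985167357549769639887850957451565186) (CTree.cons (CTree.leaf 1 43580131874454435397372366100328688517509) (CTree.cons CTree.nil (CTree.cons CTree.nil (CTree.cons CTree.nil (CTree.cons CTree.nil (CTree.cons CTree.nil (CTree.cons CTree.nil (CTree.cons (CTree.leaf 1 11663518409246731594436208944158521306089920642) (CTree.cons CTree.nil (CTree.cons CTree.nil (CTree.cons (CTree.leaf 1 14986144331606706230177225225242913832857895585) (CTree.cons CTree.nil (CTree.cons (CTree.leaf 1 874867985167357549769639887816352882301058) (CTree.cons CTree.nil (CTree.cons CTree.nil (CTree.cons CTree.nil (CTree.cons CTree.nil (CTree.cons CTree.nil (CTree.cons CTree.nil CTree.nil)))))))))))))))))))))))))))))))))))) (CTree.cons CTree.nil (CTree.cons (CTree.cons CTree.nil (CTree.cons (CTree.leaf 1 228693739186696898991045969797816269209728)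 (CTree.cons CTree.nil (CTree.cons CTree.nil (CTree.cons (CTree.leaf 1 14562430171537198492472084371664348303683819786) (CTree.cons (CTree.leaf 1 15008580167518369863843251935551924333622925578) (CTree.cons (CTree.leaf 1 11841871650350342266920947034047277617375154306) (CTree.cons CTree.nil (CTree.cons CTree.nil (CTree.cons CTree.nil (CTree.cons (CTree.leaf 1 877588888924014908289297342502510078853253) (CTree.cons (CTree.leaf 1 133391352813042998889413142809647103213701) (CTree.cons (CTree.leaf 1 14986144374178185269973501950779719578029327009) (CTree.cons (CTree.leaf 1 11841871650350342266920979923475340429205045921) (CTree.cons CTree.nil (CTree.cons CTree.nil (CTree.cons (CTree.leaf 1 220503638572326003240363257825884940402821) (CTree.cons CTree.nil (CTree.cons CTree.nil (CTree.cons CTree.nil (CTree.cons CTree.nil (CTree.cons CTree.nil (CTree.cons CTree.nil (CTree.cons CTree.nil (CTree.cons (CTree.leaf 1 14986144374178185269973501950779719577904417299) (CTree.cons (CTree.leaf 1 11841871650350342266920979923475340429205045921) (CTree.cons CTree.nil (CTree.cons CTree.nil (CTree.cons CTree.nil (CTree.cons (CTree.leaf 1 182392013304542582780400672857874205573253)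 (CTree.cons CTree.nil (CTree.cons CTree.nil (CTree.cons CTree.nil (CTree.cons CTree.nil (CTree.cons CTree.nil (CTree.cons CTree.nil CTree.nil)))))))))))))))))))))))))))))))))))) (CTree.cons (CTree.cons CTree.nil (CTree.cons (CTree.leaf 1 1572149158626591914549737284565939121553536) (CTree.cons CTree.nil (CTree.cons (CTree.leaf 1 2178488377693592315379294229400153216848002) (CTree.cons CTree.nil (CTree.cons (CTree.leaf 1 15008536611375594693187206771032775839257860362) (CTree.cons (CTree.leaf 1 14517917526660648552244057234380206554312016545) (CTree.cons CTree.nil (CTree.cons CTree.nil (CTree.cons (CTree.leaf 1 220503638583105837613509852434738744787077) (CTree.cons CTree.nil (CTree.cons (CTree.leaf 1 133391352651340786615397463239369475883141) (CTree.cons (CTree.leaf 1 14450926446842447827373809064129486241106428577) (CTree.cons (CTree.leaf 1 14517917494749462800508581184630866329205932705) (CTree.cons CTree.nil (CTree.cons CTree.nil (CTree.cons CTree.nil (CTree.cons (CTree.leaf 1 1577209435973434818532925671882189141901445) (CTree.cons CTree.nil (CTree.cons CTree.nil (CTree.cons CTree.nil (CTree.cons CTree.nil (CTree.cons CTree.nil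 (CTree.cons CTree.nil (CTree.cons (CTree.leaf 1 14450926468779252460511583743533445620031423137) (CTree.cons (CTree.leaf 1 14517917494749147955215889093277209145041291795) (CTree.cons CTree.nil (CTree.cons (CTree.leaf 1 14450926458182109308588289340941303983221899937) (CTree.cons CTree.nil (CTree.cons CTree.nil (CTree.cons CTree.nil (CTree.cons CTree.nil (CTree.cons CTree.nil (CTree.cons CTree.nil (CTree.cons CTree.nil (CTree.cons CTree.nil CTree.nil)))))))))))))))))))))))))))))))))))) (CTree.cons CTree.nil CTree.nil)))))))))))))))))))))))))))))))))))

theorem tree6_3_2_ok : chk 6 (pk (goalL 6)) tree6_3_2 (stk [((3 : Fin 6), (2 : Fin 6))]) 1 (om [((3 : Fin 6), (2 : Fin 6))]) (im [((3 : Fin 6), (2 : Fin 6))])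
    (cm [((3 : Fin 6), (2 : Fin 6))]) (pk (goalR [((3 : Fin 6), (2 : Fin 6))])) 0 = true := by
  decide +kernel

def tree6_3_4 : CTree :=
  CTree.cons CTree.nil (CTree.cons (CTree.cons CTree.nil (CTree.cons CTree.nil (CTree.cons CTree.nil (CTree.cons CTree.nil (CTree.cons CTree.nil (CTree.cons CTree.nil (CTree.cons CTree.nil (CTree.cons CTree.nil (CTree.cons (CTree.leaf 1 853297699794594572534444016009344) (CTree.cons (CTree.leaf 1 20929255193374539308217613811840) (CTree.cons CTree.nil (CTree.cons (CTree.leaf 1 20916724677108277923873502658688) (CTree.cons (CTree.leaf 1 225948162295719506299951011340129243562112) (CTree.cons CTree.nil (CTree.cons CTree.nil (CTree.cons (CTree.leaf 1 51352859927299532272420983472256) (CTree.cons CTree.nil (CTree.cons (CTree.leaf 1 31067829332329093691934833246336) (CTree.cons CTree.nil (CTree.cons CTree.nil (CTree.cons CTree.nil (CTree.cons CTree.nil (CTree.cons CTree.nil (CTree.cons CTree.nil (CTree.cons (CTree.leaf 1 43909151704388025548258901910152856797312) (CTree.cons CTree.nil (CTree.cons (CTree.leaf 1 225948161635999146864715679336751974908032) (CTree.cons CTree.nil (CTree.cons CTree.nil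 (CTree.cons (CTree.leaf 1 31065188925057713700472714494080) (CTree.cons (CTree.leaf 1 43899831673741507245770175649653297578112) (CTree.cons CTree.nil (CTree.cons (CTree.leaf 1 225948161635999146864715679336751974908032) (CTree.cons (CTree.leaf 1 223225902700631629636808358194629646024832) (CTree.cons CTree.nil (CTree.cons CTree.nil CTree.nil)))))))))))))))))))))))))))))))))))) (CTree.cons (CTree.cons CTree.nil (CTree.cons CTree.nil (CTree.cons CTree.nil (CTree.cons CTree.nil (CTree.cons CTree.nil (CTree.cons CTree.nil (CTree.cons (CTree.leaf 1 665467919517769878167109547175972994) (CTree.cons CTree.nil (CTree.cons CTree.nil (CTree.cons (CTree.leaf 1 507852676657613167319791823818882) (CTree.cons CTree.nil (CTree.cons (CTree.leaf 1 852653639728491059975787546480770) (CTree.cons CTree.nil (CTree.cons (CTree.leaf 1 3447695268301807811038137574822118049) (CTree.cons CTree.nil (CTree.cons (CTree.leaf 1 10154215419882076725427396743298) (CTree.cons CTree.nil (CTree.cons (CTree.leaf 1 10151594428563344596036249325698) (CTree.cons CTree.nil (CTree.cons CTree.nil (CTree.cons CTree.nil (CTree.cons CTree.nil (CTree.cons CTree.nil (CTree.cons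 CTree.nil (CTree.cons (CTree.leaf 1 664645939871831624838655566439056024) (CTree.cons (CTree.leaf 1 664645939852569241221467182123257986) (CTree.cons CTree.nil (CTree.cons CTree.nil (CTree.cons CTree.nil (CTree.cons (CTree.leaf 1 10148954023653111817211934216322) (CTree.cons (CTree.leaf 1 664645939871831624838655566439056024) (CTree.cons (CTree.leaf 1 664645939871760993948081688645013634) (CTree.cons CTree.nil (CTree.cons (CTree.leaf 1 664645939852569241221467182123257986) (CTree.cons CTree.nil (CTree.cons CTree.nil CTree.nil)))))))))))))))))))))))))))))))))))) (CTree.cons (CTree.cons CTree.nil (CTree.cons CTree.nil (CTree.cons CTree.nil (CTree.cons CTree.nil (CTree.cons CTree.nil (CTree.cons CTree.nil (CTree.cons (CTree.leaf 1 43612064683936027059360349380627274990216) (CTree.cons CTree.nil (CTree.cons (CTree.leaf 1 507218851357499052619043472216194) (CTree.cons CTree.nil (CTree.cons CTree.nil (CTree.cons (CTree.leaf 1 1370776524878285928953508365507101345) (CTree.cons (CTree.leaf 1 223225898167431224317540003524673601864353) (CTree.cons (CTree.leaf 1 1370776524878285931292574213124981409) (CTree.cons CTree.nil (CTree.cons CTree.nil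 (CTree.cons CTree.nil (CTree.cons (CTree.leaf 1 853295049824087690976984878354562) (CTree.cons CTree.nil (CTree.cons CTree.nil (CTree.cons CTree.nil (CTree.cons CTree.nil (CTree.cons CTree.nil (CTree.cons CTree.nil (CTree.cons CTree.nil (CTree.cons (CTree.leaf 1 223225897335300464170827958761589438218913) (CTree.cons (CTree.leaf 1 43557530162439051949921458564158123475617) (CTree.cons CTree.nil (CTree.cons CTree.nil (CTree.cons (CTree.leaf 1 31778232713678431192081698984066) (CTree.cons (CTree.leaf 1 43557530162439051949918577104907469324433) (CTree.cons (CTree.leaf 1 43557530162439051949918542200275190416033) (CTree.cons (CTree.leaf 1 43557530162439051949921458564158123475617) (CTree.cons CTree.nil (CTree.cons CTree.nil (CTree.cons CTree.nil CTree.nil)))))))))))))))))))))))))))))))))))) (CTree.cons CTree.nil (CTree.cons (CTree.cons CTree.nil (CTree.cons CTree.nil (CTree.cons CTree.nil (CTree.cons CTree.nil (CTree.cons CTree.nil (CTree.cons CTree.nil (CTree.cons (CTree.leaf 1 229012068328301516691365321100475084970250) (CTree.cons CTree.nil (CTree.cons (CTree.leaf 1 53333554318602007590231086534786) (CTree.cons (CTree.leaf 1 3494436702183783936748614800771258634)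 (CTree.cons CTree.nil (CTree.cons CTree.nil (CTree.cons (CTree.leaf 1 229010785830990143691764546960039601635728) (CTree.cons (CTree.leaf 1 3494589771318960179195923537102246018) (CTree.cons CTree.nil (CTree.cons (CTree.leaf 1 53333554318602007590231077621890) (CTree.cons CTree.nil (CTree.cons CTree.nil (CTree.cons CTree.nil (CTree.cons CTree.nil (CTree.cons CTree.nil (CTree.cons CTree.nil (CTree.cons CTree.nil (CTree.cons CTree.nil (CTree.cons (CTree.leaf 1 229010697563277884912860597315347575286298) (CTree.cons (CTree.leaf 1 14294995453726685027588880683881283719501916698) (CTree.cons (CTree.leaf 1 3494425929672963279208998766960574861) (CTree.cons CTree.nil (CTree.cons CTree.nil (CTree.cons CTree.nil (CTree.cons CTree.nil (CTree.cons (CTree.leaf 1 229010697572943573250650853516438671065488) (CTree.cons (CTree.leaf 1 229010697572943573250650853516988426885386) (CTree.cons (CTree.leaf 1 229010785830977601053258613137128756685338) (CTree.cons CTree.nil (CTree.cons CTree.nil CTree.nil)))))))))))))))))))))))))))))))))))) (CTree.cons (CTree.cons CTree.nil (CTree.cons CTree.nil (CTree.cons (CTree.leaf 1 664665984587356902539497874904912002)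 (CTree.cons (CTree.leaf 1 33241094642565057912441640047263944834) (CTree.cons CTree.nil (CTree.cons (CTree.leaf 1 3495267815823901169433384487018500226) (CTree.cons CTree.nil (CTree.cons CTree.nil (CTree.cons CTree.nil (CTree.cons CTree.nil (CTree.cons CTree.nil (CTree.cons CTree.nil (CTree.cons CTree.nil (CTree.cons (CTree.leaf 1 225949511449135344507672865163385001149089) (CTree.cons CTree.nil (CTree.cons (CTree.leaf 1 3406167417904204326071477993707602593) (CTree.cons CTree.nil (CTree.cons (CTree.leaf 1 2076928889727811922330877769323457042) (CTree.cons CTree.nil (CTree.cons CTree.nil (CTree.cons CTree.nil (CTree.cons CTree.nil (CTree.cons CTree.nil (CTree.cons CTree.nil (CTree.cons CTree.nil (CTree.cons (CTree.leaf 1 223225897346075494272767364037759375966881) (CTree.cons (CTree.leaf 1 225949511449122801985380151233273513312929) (CTree.cons CTree.nil (CTree.cons CTree.nil (CTree.cons (CTree.leaf 1 2076939422119167735907055939219947921) (CTree.cons CTree.nil (CTree.cons (CTree.leaf 1 223225897346075494272767364037759375966881) (CTree.cons (CTree.leaf 1 225949511449122801985380151233273513312929) (CTree.cons (CTree.leaf 1 223225897346075494272767364037759375966881)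 (CTree.cons CTree.nil (CTree.cons CTree.nil CTree.nil)))))))))))))))))))))))))))))))))))) (CTree.cons CTree.nil (CTree.cons (CTree.cons CTree.nil (CTree.cons (CTree.leaf 1 853297699794594572534444016009344) (CTree.cons CTree.nil (CTree.cons (CTree.leaf 1 507218851357499052619043472216194) (CTree.cons CTree.nil (CTree.cons (CTree.leaf 1 53333554318602007590231086534786) (CTree.cons CTree.nil (CTree.cons CTree.nil (CTree.cons CTree.nil (CTree.cons CTree.nil (CTree.cons CTree.nil (CTree.cons CTree.nil (CTree.cons (CTree.leaf 1 3447715933977284919855848162283094689) (CTree.cons CTree.nil (CTree.cons CTree.nil (CTree.cons (CTree.leaf 1 51340004250274477926093823476385) (CTree.cons CTree.nil (CTree.cons (CTree.leaf 1 31057594450552366994487597148690) (CTree.cons CTree.nil (CTree.cons CTree.nil (CTree.cons CTree.nil (CTree.cons CTree.nil (CTree.cons CTree.nil (CTree.cons CTree.nil (CTree.cons (CTree.leaf 1 3364618506022569690873901532106588833) (CTree.cons (CTree.leaf 1 3447715933977093536153871936542868129) (CTree.cons CTree.nil (CTree.cons CTree.nil (CTree.cons CTree.nil (CTree.cons (CTree.leaf 1 31057594566340197960744267481489) (CTree.cons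 (CTree.leaf 1 3364618506022569690873901532106588833) (CTree.cons (CTree.leaf 1 3447715933977093536153871936542868129) (CTree.cons CTree.nil (CTree.cons (CTree.leaf 1 3364618506022569690873901532106588833) (CTree.cons CTree.nil (CTree.cons CTree.nil CTree.nil)))))))))))))))))))))))))))))))))))) (CTree.cons (CTree.cons CTree.nil (CTree.cons (CTree.leaf 1 20929255193374539308217613811840) (CTree.cons (CTree.leaf 1 507852676657613167319791823818882) (CTree.cons CTree.nil (CTree.cons CTree.nil (CTree.cons (CTree.leaf 1 3494436068383871264269396783640744066) (CTree.cons CTree.nil (CTree.cons CTree.nil (CTree.cons CTree.nil (CTree.cons CTree.nil (CTree.cons CTree.nil (CTree.cons CTree.nil (CTree.cons (CTree.leaf 1 3421744546164296351750064683918366986) (CTree.cons (CTree.leaf 1 3421744308479808808957069482587658506) (CTree.cons CTree.nil (CTree.cons CTree.nil (CTree.cons CTree.nil (CTree.cons (CTree.leaf 1 20916389804802203845606396002437) (CTree.cons CTree.nil (CTree.cons CTree.nil (CTree.cons CTree.nil (CTree.cons CTree.nil (CTree.cons CTree.nil (CTree.cons CTree.nil (CTree.cons (CTree.leaf 1 3421733776088372420580902869642844426) (CTree.cons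 CTree.nil (CTree.cons (CTree.leaf 1 3421744546164296351750064683918366986) (CTree.cons CTree.nil (CTree.cons CTree.nil (CTree.cons (CTree.leaf 1 20916389658685505712621689110661) (CTree.cons (CTree.leaf 1 3421744546164296351750064683918366986) (CTree.cons (CTree.leaf 1 3421744308479808808957069482587658506) (CTree.cons (CTree.leaf 1 3421744546164296351750064683918366986) (CTree.cons CTree.nil (CTree.cons CTree.nil (CTree.cons CTree.nil CTree.nil)))))))))))))))))))))))))))))))))))) (CTree.cons CTree.nil (CTree.cons (CTree.cons CTree.nil (CTree.cons (CTree.leaf 1 20916724677108277923873502658688) (CTree.cons (CTree.leaf 1 50703443447734517941806473674903173276050) (CTree.cons (CTree.leaf 1 1370776524878285928377047613203677857) (CTree.cons CTree.nil (CTree.cons CTree.nil (CTree.cons CTree.nil (CTree.cons CTree.nil (CTree.cons CTree.nil (CTree.cons CTree.nil (CTree.cons CTree.nil (CTree.cons CTree.nil (CTree.cons (CTree.leaf 1 2092505775355282879690622036681031944) (CTree.cons (CTree.leaf 1 2092516312694772220557801647396432394) (CTree.cons CTree.nil (CTree.cons (CTree.leaf 1 20916389648726529530714157820426) (CTree.cons CTree.nil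 (CTree.cons CTree.nil (CTree.cons CTree.nil (CTree.cons CTree.nil (CTree.cons CTree.nil (CTree.cons CTree.nil (CTree.cons CTree.nil (CTree.cons CTree.nil (CTree.cons (CTree.leaf 1 2092505775355282879690622036681031944) (CTree.cons (CTree.leaf 1 2092516312694772220557801647396432394) (CTree.cons (CTree.leaf 1 2035565762600688072209674683300258194) (CTree.cons CTree.nil (CTree.cons CTree.nil (CTree.cons CTree.nil (CTree.cons (CTree.leaf 1 664948816422931242010866423616373139) (CTree.cons CTree.nil (CTree.cons (CTree.leaf 1 2092505775355282879690622036681031944) (CTree.cons (CTree.leaf 1 2092505775355282879690622036681031944) (CTree.cons CTree.nil (CTree.cons CTree.nil CTree.nil)))))))))))))))))))))))))))))))))))) (CTree.cons (CTree.cons CTree.nil (CTree.cons (CTree.leaf 1 3448539035521905917527077034786619520) (CTree.cons CTree.nil (CTree.cons (CTree.leaf 1 43612064683936335153599263268187715469985) (CTree.cons CTree.nil (CTree.cons (CTree.leaf 1 49344437629463274252038206693316185885210) (CTree.cons CTree.nil (CTree.cons CTree.nil (CTree.cons (CTree.leaf 1 3447715933977284919855856958376116897) (CTree.cons (CTree.leaf 1 14629378684870078252896709921744050963943326369)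 (CTree.cons CTree.nil (CTree.cons (CTree.leaf 1 12726340516658667173772915775083981322) (CTree.cons CTree.nil (CTree.cons CTree.nil (CTree.cons CTree.nil (CTree.cons CTree.nil (CTree.cons CTree.nil (CTree.cons CTree.nil (CTree.cons CTree.nil (CTree.cons CTree.nil (CTree.cons CTree.nil (CTree.cons CTree.nil (CTree.cons CTree.nil (CTree.cons CTree.nil (CTree.cons CTree.nil (CTree.cons (CTree.leaf 1 8675215842447221429400356863432632169667827842) (CTree.cons (CTree.leaf 1 379333184075288388006132573091924700364341381) (CTree.cons CTree.nil (CTree.cons CTree.nil (CTree.cons (CTree.leaf 1 2035390512549235772293984614801277329) (CTree.cons CTree.nil (CTree.cons (CTree.leaf 1 8675215842447221429400356863432632169667827842) (CTree.cons (CTree.leaf 1 379333184075288388006132573091924700364341381) (CTree.cons (CTree.leaf 1 379333184075288388006132573091924700364341381) (CTree.cons CTree.nil (CTree.cons CTree.nil CTree.nil)))))))))))))))))))))))))))))))))))) (CTree.cons (CTree.cons CTree.nil (CTree.cons CTree.nil (CTree.cons (CTree.leaf 1 3447716567802585032894495874162430082) (CTree.cons (CTree.leaf 1 1370776524878285931292575243917132449)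 (CTree.cons CTree.nil (CTree.cons (CTree.leaf 1 229034094051575594155459965276693128155266) (CTree.cons (CTree.leaf 1 134414983472806205302267238949704226111877) (CTree.cons CTree.nil (CTree.cons CTree.nil (CTree.cons (CTree.leaf 1 3447695268301775069145173815931771146) (CTree.cons CTree.nil (CTree.cons (CTree.leaf 1 12726329746582743242603753960808458762) (CTree.cons CTree.nil (CTree.cons CTree.nil (CTree.cons CTree.nil (CTree.cons CTree.nil (CTree.cons CTree.nil (CTree.cons CTree.nil (CTree.cons CTree.nil (CTree.cons CTree.nil (CTree.cons CTree.nil (CTree.cons CTree.nil (CTree.cons CTree.nil (CTree.cons CTree.nil (CTree.cons (CTree.leaf 1 130681078186709374032723546933179386495237) (CTree.cons CTree.nil (CTree.cons (CTree.leaf 1 134414982811897593885534217791850028269957) (CTree.cons CTree.nil (CTree.cons CTree.nil (CTree.cons (CTree.leaf 1 2076939422119132484717029760760873361) (CTree.cons (CTree.leaf 1 130681078186709374032723546933179386495237) (CTree.cons CTree.nil (CTree.cons (CTree.leaf 1 134414982811897593885534217791850028269957) (CTree.cons (CTree.leaf 1 225949485670509650808010096078269123199237) (CTree.cons CTree.nil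 (CTree.cons CTree.nil CTree.nil)))))))))))))))))))))))))))))))))))) (CTree.cons CTree.nil (CTree.cons (CTree.cons CTree.nil (CTree.cons (CTree.leaf 1 51352859927299532272420983472256) (CTree.cons (CTree.leaf 1 10154215419882076725427396743298) (CTree.cons CTree.nil (CTree.cons CTree.nil (CTree.cons (CTree.leaf 1 53333554318602007590231077621890) (CTree.cons (CTree.leaf 1 3406167417904204326071477993573384865) (CTree.cons CTree.nil (CTree.cons (CTree.leaf 1 51340004250274477926093823476385) (CTree.cons CTree.nil (CTree.cons CTree.nil (CTree.cons (CTree.leaf 1 20916389648726529530714157820426) (CTree.cons CTree.nil (CTree.cons CTree.nil (CTree.cons CTree.nil (CTree.cons CTree.nil (CTree.cons CTree.nil (CTree.cons CTree.nil (CTree.cons CTree.nil (CTree.cons CTree.nil (CTree.cons CTree.nil (CTree.cons CTree.nil (CTree.cons CTree.nil (CTree.cons CTree.nil (CTree.cons (CTree.leaf 1 3364618505858351849236572527588082337) (CTree.cons (CTree.leaf 1 3406167417904010580530980132151755425) (CTree.cons CTree.nil (CTree.cons CTree.nil (CTree.cons CTree.nil (CTree.cons (CTree.leaf 1 20916389658685505712621286391941) (CTree.cons (CTree.leaf 1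 3364618505858351849236572527588082337) (CTree.cons (CTree.leaf 1 3406167417904010580530980132151755425) (CTree.cons (CTree.leaf 1 3364618505858351849236572527588082337) (CTree.cons CTree.nil (CTree.cons CTree.nil (CTree.cons CTree.nil CTree.nil)))))))))))))))))))))))))))))))))))) (CTree.cons CTree.nil (CTree.cons (CTree.cons CTree.nil (CTree.cons (CTree.leaf 1 31067829332329093691934833246336) (CTree.cons (CTree.leaf 1 10151594428563344596036249325698) (CTree.cons (CTree.leaf 1 853295049824087690976984878354562) (CTree.cons CTree.nil (CTree.cons CTree.nil (CTree.cons (CTree.leaf 1 2076939422119167737674435574238358034) (CTree.cons CTree.nil (CTree.cons (CTree.leaf 1 31057594450552366994487597148690) (CTree.cons (CTree.leaf 1 20916389648726531757874405841162) (CTree.cons CTree.nil (CTree.cons CTree.nil (CTree.cons CTree.nil (CTree.cons CTree.nil (CTree.cons CTree.nil (CTree.cons CTree.nil (CTree.cons CTree.nil (CTree.cons CTree.nil (CTree.cons CTree.nil (CTree.cons CTree.nil (CTree.cons CTree.nil (CTree.cons CTree.nil (CTree.cons CTree.nil (CTree.cons CTree.nil (CTree.cons (CTree.leaf 1 2035390509911399923350737422318119442) (CTree.cons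 (CTree.leaf 1 2076939422119167737674435574238358034) (CTree.cons (CTree.leaf 1 2035390509911399923350737422318119442) (CTree.cons CTree.nil (CTree.cons CTree.nil (CTree.cons CTree.nil (CTree.cons (CTree.leaf 1 1994339071329933970941343372803123730) (CTree.cons (CTree.leaf 1 2076939422119167737674435574238358034) (CTree.cons CTree.nil (CTree.cons (CTree.leaf 1 2035390509911399923350737422318119442) (CTree.cons CTree.nil (CTree.cons CTree.nil CTree.nil)))))))))))))))))))))))))))))))))))) (CTree.cons CTree.nil (CTree.cons CTree.nil (CTree.cons CTree.nil (CTree.cons CTree.nil (CTree.cons CTree.nil (CTree.cons CTree.nil (CTree.cons (CTree.cons CTree.nil (CTree.cons (CTree.leaf 1 12726340925655196910876572598537355392) (CTree.cons (CTree.leaf 1 3447695268301737179033254742605238402) (CTree.cons CTree.nil (CTree.cons CTree.nil (CTree.cons (CTree.leaf 1 3495267815823901169433393274387501186) (CTree.cons CTree.nil (CTree.cons CTree.nil (CTree.cons (CTree.leaf 1 3364618508498449769444662081904837281) (CTree.cons (CTree.leaf 1 3447695268301807811616286566724475146) (CTree.cons CTree.nil (CTree.cons (CTree.leaf 1 12726340516658667173772915775083981322)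 (CTree.cons CTree.nil (CTree.cons (CTree.leaf 1 51626236385859341689039275721245912601280447120) (CTree.cons CTree.nil (CTree.cons (CTree.leaf 1 3364618508334231927807333077386330785) (CTree.cons CTree.nil (CTree.cons (CTree.leaf 1 1994339073967810109340463656486382098) (CTree.cons CTree.nil (CTree.cons CTree.nil (CTree.cons CTree.nil (CTree.cons CTree.nil (CTree.cons CTree.nil (CTree.cons CTree.nil (CTree.cons CTree.nil (CTree.cons CTree.nil (CTree.cons CTree.nil (CTree.cons CTree.nil (CTree.cons CTree.nil (CTree.cons CTree.nil (CTree.cons CTree.nil (CTree.cons (CTree.leaf 1 736758635653335842587828283903982296439456005) (CTree.cons (CTree.leaf 1 736145107251778358270704065454298484460028037) (CTree.cons (CTree.leaf 1 736145107251778358270704065454298484460028037) (CTree.cons CTree.nil (CTree.cons CTree.nil CTree.nil)))))))))))))))))))))))))))))))))))) (CTree.cons (CTree.cons CTree.nil (CTree.cons CTree.nil (CTree.cons (CTree.leaf 1 664808199129398454584858760133546114) (CTree.cons (CTree.leaf 1 136486470250211532660936310194352430846082) (CTree.cons CTree.nil (CTree.cons (CTree.leaf 1 229010697563280360644184081463223586660754)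 (CTree.cons (CTree.leaf 1 90858715251167354450695454991095006560517) (CTree.cons CTree.nil (CTree.cons (CTree.leaf 1 3447715933977131315085734893704577697) (CTree.cons CTree.nil (CTree.cons CTree.nil (CTree.cons (CTree.leaf 1 12726329746582743242603753960808458762) (CTree.cons (CTree.leaf 1 90887968489090295808941818107302052430213) (CTree.cons CTree.nil (CTree.cons CTree.nil (CTree.cons (CTree.leaf 1 3406167417904048359462843089313464993) (CTree.cons CTree.nil (CTree.cons (CTree.leaf 1 2076928887417474108014729612205566482) (CTree.cons CTree.nil (CTree.cons CTree.nil (CTree.cons CTree.nil (CTree.cons CTree.nil (CTree.cons CTree.nil (CTree.cons CTree.nil (CTree.cons CTree.nil (CTree.cons CTree.nil (CTree.cons CTree.nil (CTree.cons CTree.nil (CTree.cons CTree.nil (CTree.cons CTree.nil (CTree.cons (CTree.leaf 1 90858715251167354455731377842036765884677) (CTree.cons CTree.nil (CTree.cons (CTree.leaf 1 90887968489090295808941818107302052430213) (CTree.cons (CTree.leaf 1 90858715251167354455731377842036765884677) (CTree.cons CTree.nil (CTree.cons CTree.nil CTree.nil)))))))))))))))))))))))))))))))))))) (CTree.cons (CTree.cons CTree.nil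 (CTree.cons (CTree.leaf 1 3447716570610919711243693672938668160) (CTree.cons CTree.nil (CTree.cons (CTree.leaf 1 2082618259123674510633480496879308930) (CTree.cons CTree.nil (CTree.cons (CTree.leaf 1 229010697735203154729170183333283827947786) (CTree.cons (CTree.leaf 1 221525841166086556169411745792089331925393) (CTree.cons CTree.nil (CTree.cons CTree.nil (CTree.cons (CTree.leaf 1 3364618508799472295688869135787301130) (CTree.cons CTree.nil (CTree.cons (CTree.leaf 1 2035390510390025822808559555878920594) (CTree.cons (CTree.leaf 1 225948157103422486977989374064502434234501) (CTree.cons (CTree.leaf 1 221525840679153378782386981459342480447618) (CTree.cons CTree.nil (CTree.cons CTree.nil (CTree.cons CTree.nil (CTree.cons (CTree.leaf 1 2035390512549276061749857706001377810) (CTree.cons CTree.nil (CTree.cons CTree.nil (CTree.cons CTree.nil (CTree.cons CTree.nil (CTree.cons CTree.nil (CTree.cons CTree.nil (CTree.cons CTree.nil (CTree.cons CTree.nil (CTree.cons CTree.nil (CTree.cons CTree.nil (CTree.cons CTree.nil (CTree.cons CTree.nil (CTree.cons (CTree.leaf 1 225949542786963517199495719336386727313541) (CTree.cons (CTree.leaf 1 221525840679153378782386981459342480447618)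 (CTree.cons CTree.nil (CTree.cons (CTree.leaf 1 225948156270420230377385970655615172804741) (CTree.cons CTree.nil (CTree.cons CTree.nil CTree.nil)))))))))))))))))))))))))))))))))))) (CTree.cons CTree.nil (CTree.cons CTree.nil (CTree.cons (CTree.cons CTree.nil (CTree.cons (CTree.leaf 1 31065188925057713700472714494080) (CTree.cons (CTree.leaf 1 10148954023653111817211934216322) (CTree.cons (CTree.leaf 1 31778232713678431192081698984066) (CTree.cons CTree.nil (CTree.cons CTree.nil (CTree.cons (CTree.leaf 1 2076939422119167735330595186916524433) (CTree.cons CTree.nil (CTree.cons (CTree.leaf 1 31057594566340197960744267481489) (CTree.cons (CTree.leaf 1 20916389658685505712621689110661) (CTree.cons CTree.nil (CTree.cons CTree.nil (CTree.cons (CTree.leaf 1 2035390510073355693723224065003028881) (CTree.cons (CTree.leaf 1 2076939422119094705785166803599163793) (CTree.cons CTree.nil (CTree.cons (CTree.leaf 1 20916389658685505712621286391941) (CTree.cons CTree.nil (CTree.cons CTree.nil (CTree.cons CTree.nil (CTree.cons CTree.nil (CTree.cons CTree.nil (CTree.cons CTree.nil (CTree.cons CTree.nil (CTree.cons CTree.nil (CTree.cons CTree.nil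 (CTree.cons CTree.nil (CTree.cons CTree.nil (CTree.cons CTree.nil (CTree.cons CTree.nil (CTree.cons CTree.nil (CTree.cons (CTree.leaf 1 1993863155181683953862983049438364049) (CTree.cons (CTree.leaf 1 2076939422119094705785166803599163793) (CTree.cons (CTree.leaf 1 2035390510073355693723224065003028881) (CTree.cons CTree.nil (CTree.cons CTree.nil (CTree.cons CTree.nil CTree.nil)))))))))))))))))))))))))))))))))))) (CTree.cons (CTree.cons CTree.nil (CTree.cons (CTree.leaf 1 12726340925655196910876572598537355392) (CTree.cons (CTree.leaf 1 3447695268301737179033254742605238402) (CTree.cons (CTree.leaf 1 43559508427542153723951848419813527192225) (CTree.cons CTree.nil (CTree.cons CTree.nil (CTree.cons CTree.nil (CTree.cons CTree.nil (CTree.cons (CTree.leaf 1 3364618508498449769444662081904837281) (CTree.cons (CTree.leaf 1 664634927157209399050665195296266506) (CTree.cons CTree.nil (CTree.cons (CTree.leaf 1 12726329746582743242603753960808458762) (CTree.cons CTree.nil (CTree.cons (CTree.leaf 1 736712348730875440044131375661952345657508496) (CTree.cons CTree.nil (CTree.cons (CTree.leaf 1 3364618508334231927807333077386330785) (CTree.cons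 CTree.nil (CTree.cons (CTree.leaf 1 1994025414458553456682247718648752658) (CTree.cons CTree.nil (CTree.cons CTree.nil (CTree.cons CTree.nil (CTree.cons CTree.nil (CTree.cons CTree.nil (CTree.cons CTree.nil (CTree.cons CTree.nil (CTree.cons (CTree.leaf 1 223237253061552181374357074253988770416674) (CTree.cons (CTree.leaf 1 787766405794977702434031452082360482398864) (CTree.cons CTree.nil (CTree.cons CTree.nil (CTree.cons (CTree.leaf 1 1994025414458513167226374627448652177) (CTree.cons CTree.nil (CTree.cons CTree.nil (CTree.cons CTree.nil (CTree.cons CTree.nil (CTree.cons CTree.nil (CTree.cons CTree.nil CTree.nil)))))))))))))))))))))))))))))))))))) (CTree.cons (CTree.cons CTree.nil (CTree.cons CTree.nil (CTree.cons (CTree.leaf 1 665467919508025442643476643923955842) (CTree.cons (CTree.leaf 1 43556812793341813996993866344763814314657) (CTree.cons CTree.nil (CTree.cons (CTree.leaf 1 3495267815823901169433393274387501186) (CTree.cons (CTree.leaf 1 223237959029890125985925747525503917621921) (CTree.cons CTree.nil (CTree.cons (CTree.leaf 1 3447715933977131315085734893704577697) (CTree.cons (CTree.leaf 1 3447695268301775069145173815931771146)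 (CTree.cons CTree.nil (CTree.cons CTree.nil (CTree.cons (CTree.leaf 1 225949511633169491051415813413669350015649) (CTree.cons CTree.nil (CTree.cons CTree.nil (CTree.cons (CTree.leaf 1 3406167417904048359462843089313464993) (CTree.cons CTree.nil (CTree.cons (CTree.leaf 1 2076928887417474108014729612205566482) (CTree.cons CTree.nil (CTree.cons CTree.nil (CTree.cons CTree.nil (CTree.cons CTree.nil (CTree.cons CTree.nil (CTree.cons CTree.nil (CTree.cons (CTree.leaf 1 223237959029877428678184795710629123064481) (CTree.cons CTree.nil (CTree.cons (CTree.leaf 1 225949511633169490857523354244003226321569) (CTree.cons CTree.nil (CTree.cons CTree.nil (CTree.cons (CTree.leaf 1 2076939422119132484717029760760873361) (CTree.cons CTree.nil (CTree.cons CTree.nil (CTree.cons CTree.nil (CTree.cons CTree.nil (CTree.cons CTree.nil (CTree.cons CTree.nil CTree.nil)))))))))))))))))))))))))))))))))))) (CTree.cons (CTree.cons CTree.nil (CTree.cons (CTree.leaf 1 3447716570610919711243693672938668160) (CTree.cons CTree.nil (CTree.cons (CTree.leaf 1 43568163986405331239125757157683204522657) (CTree.cons CTree.nil (CTree.cons (CTree.leaf 1 229010697735202872860468004073725028866314)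 (CTree.cons (CTree.leaf 1 137135814169693817223394076187971145958049) (CTree.cons CTree.nil (CTree.cons CTree.nil (CTree.cons (CTree.leaf 1 3447706030456970635737568973307320586) (CTree.cons CTree.nil (CTree.cons (CTree.leaf 1 12726340516658667173772915775083981322) (CTree.cons (CTree.leaf 1 225948157103422486977989374064502434234501) (CTree.cons (CTree.leaf 1 137135813725223825518371142288189585168514) (CTree.cons CTree.nil (CTree.cons (CTree.leaf 1 3364618508334231927807333077386330785) (CTree.cons CTree.nil (CTree.cons CTree.nil (CTree.cons CTree.nil (CTree.cons CTree.nil (CTree.cons CTree.nil (CTree.cons CTree.nil (CTree.cons CTree.nil (CTree.cons CTree.nil (CTree.cons (CTree.leaf 1 225948156443702288327432940798851344826501) (CTree.cons (CTree.leaf 1 137135813725223825518371142288189585168514) (CTree.cons CTree.nil (CTree.cons CTree.nil (CTree.cons CTree.nil (CTree.cons (CTree.leaf 1 2035390512549235772293984614801277329) (CTree.cons CTree.nil (CTree.cons CTree.nil (CTree.cons CTree.nil (CTree.cons CTree.nil (CTree.cons CTree.nil (CTree.cons CTree.nil CTree.nil)))))))))))))))))))))))))))))))))))) (CTree.cons (CTree.cons CTree.nil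 (CTree.cons (CTree.leaf 1 12726340925655196910876572598537355392) (CTree.cons (CTree.leaf 1 664808199129398454584858760133546114) (CTree.cons CTree.nil (CTree.cons CTree.nil (CTree.cons (CTree.leaf 1 229010785830980077122265782893929787566618) (CTree.cons (CTree.leaf 1 223226588224434079348444642948581492328851) (CTree.cons CTree.nil (CTree.cons (CTree.leaf 1 3364618508498449769444662081904837281) (CTree.cons CTree.nil (CTree.cons CTree.nil (CTree.cons (CTree.leaf 1 12726340516658667173772915775083981322) (CTree.cons (CTree.leaf 1 220503638399922899449221927605842397429893) (CTree.cons (CTree.leaf 1 223226587899769934713419267436772761604226) (CTree.cons CTree.nil (CTree.cons CTree.nil (CTree.cons CTree.nil (CTree.cons (CTree.leaf 1 2035390512549276061749857706001377810) (CTree.cons CTree.nil (CTree.cons CTree.nil (CTree.cons CTree.nil (CTree.cons CTree.nil (CTree.cons CTree.nil (CTree.cons CTree.nil (CTree.cons (CTree.leaf 1 220503638572954566086385202560024826675333) (CTree.cons (CTree.leaf 1 223226587899759877699668352273811226300546) (CTree.cons (CTree.leaf 1 220503638572954566086385202560024826675333) (CTree.cons CTree.nil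 (CTree.cons CTree.nil (CTree.cons CTree.nil (CTree.cons CTree.nil (CTree.cons CTree.nil (CTree.cons CTree.nil (CTree.cons CTree.nil (CTree.cons CTree.nil (CTree.cons CTree.nil CTree.nil)))))))))))))))))))))))))))))))))))) (CTree.cons CTree.nil (CTree.cons CTree.nil CTree.nil)))))))))))))))))))))))))))))))))))

theorem tree6_3_4_ok : chk 6 (pk (goalL 6)) tree6_3_4 (stk [((3 : Fin 6), (4 : Fin 6))]) 1 (om [((3 : Fin 6), (4 : Fin 6))]) (im [((3 : Fin 6), (4 : Fin 6))])
    (cm [((3 : Fin 6), (4 : Fin 6))]) (pk (goalR [((3 : Fin 6), (4 : Fin 6))])) 0 = true := by
  decide +kernel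

def tree6_3_5 : CTree :=
  CTree.cons CTree.nil (CTree.cons (CTree.cons CTree.nil (CTree.cons CTree.nil (CTree.cons CTree.nil (CTree.cons CTree.nil (CTree.cons CTree.nil (CTree.cons CTree.nil (CTree.cons CTree.nil (CTree.cons CTree.nil (CTree.cons (CTree.leaf 1 680887318418567412058118370623616) (CTree.cons (CTree.leaf 1 20926624422091857318061122650240) (CTree.cons (CTree.leaf 1 20916724636966548040940631228544) (CTree.cons CTree.nil (CTree.cons (CTree.leaf 1 182392018670113742951023961378871279681664) (CTree.cons CTree.nil (CTree.cons CTree.nil (CTree.cons (CTree.leaf 1 41209024462748371986875061764224) (CTree.cons (CTree.leaf 1 31065188925057713744458011508864) (CTree.cons CTree.nil (CTree.cons CTree.nil (CTree.cons CTree.nil (CTree.cons CTree.nil (CTree.cons CTree.nil (CTree.cons CTree.nil (CTree.cons CTree.nil (CTree.cons (CTree.leaf 1 43899208425232575252830669120132049010816) (CTree.cons CTree.nil (CTree.cons (CTree.leaf 1 182393410021699250902704995865333063090304) (CTree.cons (CTree.leaf 1 179669759561873024971469792975162944651392) (CTree.cons CTree.nil (CTree.cons CTree.nil (CTree.cons (CTree.leaf 1 43899208425232575252830669120132049010816)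 (CTree.cons CTree.nil (CTree.cons (CTree.leaf 1 182393410021699250902704995865333063090304) (CTree.cons CTree.nil (CTree.cons (CTree.leaf 1 179669759561873024971469792975162944651392) (CTree.cons CTree.nil CTree.nil)))))))))))))))))))))))))))))))))))) (CTree.cons (CTree.cons CTree.nil (CTree.cons CTree.nil (CTree.cons CTree.nil (CTree.cons CTree.nil (CTree.cons CTree.nil (CTree.cons CTree.nil (CTree.cons (CTree.leaf 1 664646093047498003891789991098454146) (CTree.cons CTree.nil (CTree.cons CTree.nil (CTree.cons (CTree.leaf 1 507852676617470783245664776753282) (CTree.cons (CTree.leaf 1 680253158097451248858047023026306) (CTree.cons CTree.nil (CTree.cons CTree.nil (CTree.cons (CTree.leaf 1 2783081257859420420956684985329913986) (CTree.cons CTree.nil (CTree.cons (CTree.leaf 1 10151584757156823707799871164546) (CTree.cons (CTree.leaf 1 10148954023653111861197231231106) (CTree.cons CTree.nil (CTree.cons CTree.nil (CTree.cons CTree.nil (CTree.cons CTree.nil (CTree.cons CTree.nil (CTree.cons CTree.nil (CTree.cons CTree.nil (CTree.cons (CTree.leaf 1 182392013315552492624239871468882424889608) (CTree.cons (CTree.leaf 1 664645927322012979147347467672621186)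 (CTree.cons CTree.nil (CTree.cons (CTree.leaf 1 664645937221906515968449554597679234) (CTree.cons CTree.nil (CTree.cons CTree.nil (CTree.cons (CTree.leaf 1 182392013315552492624239871468882424889608) (CTree.cons (CTree.leaf 1 664645937221906515968449554597679234) (CTree.cons CTree.nil (CTree.cons CTree.nil (CTree.cons (CTree.leaf 1 664645927322012979147347467672621186) (CTree.cons CTree.nil CTree.nil)))))))))))))))))))))))))))))))))))) (CTree.cons (CTree.cons CTree.nil (CTree.cons CTree.nil (CTree.cons CTree.nil (CTree.cons CTree.nil (CTree.cons CTree.nil (CTree.cons CTree.nil (CTree.cons (CTree.leaf 1 43600765739077641610606966749394552619528) (CTree.cons CTree.nil (CTree.cons (CTree.leaf 1 507218851317356668544916425150594) (CTree.cons CTree.nil (CTree.cons (CTree.leaf 1 1370776522083249434004485712942017050) (CTree.cons CTree.nil (CTree.cons (CTree.leaf 1 179669755029142884620211157114795583416858) (CTree.cons (CTree.leaf 1 1370776522247660836714882871110740506) (CTree.cons CTree.nil (CTree.cons CTree.nil (CTree.cons (CTree.leaf 1 680894568193046149095987955241090) (CTree.cons CTree.nil (CTree.cons CTree.nil (CTree.cons CTree.nil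 (CTree.cons CTree.nil (CTree.cons CTree.nil (CTree.cons CTree.nil (CTree.cons CTree.nil (CTree.cons (CTree.leaf 1 43557529350984211478823231471830993338513) (CTree.cons (CTree.leaf 1 43557529320639825235859990172880227871258) (CTree.cons (CTree.leaf 1 43557529990030835726999067548791571819034) (CTree.cons CTree.nil (CTree.cons CTree.nil (CTree.cons CTree.nil (CTree.cons CTree.nil (CTree.cons (CTree.leaf 1 43557529990030835573651212008718436270608) (CTree.cons (CTree.leaf 1 43557529990030835726999067548791571819034) (CTree.cons CTree.nil (CTree.cons (CTree.leaf 1 43557529320639825235859990172880227871258) (CTree.cons CTree.nil CTree.nil)))))))))))))))))))))))))))))))))))) (CTree.cons (CTree.cons CTree.nil (CTree.cons CTree.nil (CTree.cons CTree.nil (CTree.cons CTree.nil (CTree.cons CTree.nil (CTree.cons CTree.nil (CTree.cons (CTree.leaf 1 3667596591770168559657378614598714619203714) (CTree.cons CTree.nil (CTree.cons (CTree.leaf 1 853931505862517776462702400573570) (CTree.cons (CTree.leaf 1 55962596457678058960089415195080923402) (CTree.cons CTree.nil (CTree.cons CTree.nil (CTree.cons (CTree.leaf 1 3667564103588610666546977426672357809922450)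 (CTree.cons (CTree.leaf 1 55962596460178079407255529691244796170) (CTree.cons CTree.nil (CTree.cons (CTree.leaf 1 853931505862517776462118285021314) (CTree.cons CTree.nil (CTree.cons CTree.nil (CTree.cons CTree.nil (CTree.cons CTree.nil (CTree.cons CTree.nil (CTree.cons CTree.nil (CTree.cons CTree.nil (CTree.cons CTree.nil (CTree.cons CTree.nil (CTree.cons (CTree.leaf 1 3667564015299361058054459262565707429314960) (CTree.cons (CTree.leaf 1 3667564015299361058054459298594504448284938) (CTree.cons (CTree.leaf 1 3667564103567060774350656643889216859742610) (CTree.cons CTree.nil (CTree.cons CTree.nil (CTree.cons (CTree.leaf 1 3667564015309029225863558786291669966848400) (CTree.cons (CTree.leaf 1 3667564015309026746359119708811522557944210) (CTree.cons (CTree.leaf 1 3667564015309026746392249554796157496072458) (CTree.cons CTree.nil (CTree.cons CTree.nil (CTree.cons CTree.nil CTree.nil)))))))))))))))))))))))))))))))))))) (CTree.cons CTree.nil (CTree.cons (CTree.cons CTree.nil (CTree.cons CTree.nil (CTree.cons (CTree.leaf 1 665294885210763185474259579139920002) (CTree.cons (CTree.leaf 1 33241094639934286630221781350213095554) (CTree.cons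 (CTree.leaf 1 55963255168205964998259671576092938370) (CTree.cons CTree.nil (CTree.cons CTree.nil (CTree.cons CTree.nil (CTree.cons CTree.nil (CTree.cons CTree.nil (CTree.cons CTree.nil (CTree.cons CTree.nil (CTree.cons CTree.nil (CTree.cons (CTree.leaf 1 182393368483242678578984104437028195740186) (CTree.cons CTree.nil (CTree.cons (CTree.leaf 1 2741553420011625674126347900471552538) (CTree.cons (CTree.leaf 1 2076928884934340472758901678781637010) (CTree.cons CTree.nil (CTree.cons CTree.nil (CTree.cons CTree.nil (CTree.cons CTree.nil (CTree.cons CTree.nil (CTree.cons CTree.nil (CTree.cons CTree.nil (CTree.cons CTree.nil (CTree.cons (CTree.leaf 1 179670444933881900028448822685979170122266) (CTree.cons (CTree.leaf 1 182393368505030090815806403252229737884186) (CTree.cons (CTree.leaf 1 179670444933881900179543797832199870425626) (CTree.cons CTree.nil (CTree.cons CTree.nil (CTree.cons CTree.nil (CTree.cons (CTree.leaf 1 136114302000321912903467538954778203728410) (CTree.cons (CTree.leaf 1 182393368505030090815806403252229737884186) (CTree.cons CTree.nil (CTree.cons (CTree.leaf 1 179670444933881900179543797832199870425626) (CTree.cons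 CTree.nil CTree.nil)))))))))))))))))))))))))))))))))))) (CTree.cons CTree.nil (CTree.cons (CTree.cons CTree.nil (CTree.cons (CTree.leaf 1 680887318418567412058118370623616) (CTree.cons CTree.nil (CTree.cons (CTree.leaf 1 507218851317356668544916425150594) (CTree.cons (CTree.leaf 1 853931505862517776462702400573570) (CTree.cons CTree.nil (CTree.cons CTree.nil (CTree.cons CTree.nil (CTree.cons CTree.nil (CTree.cons CTree.nil (CTree.cons CTree.nil (CTree.cons CTree.nil (CTree.cons (CTree.leaf 1 2783101936084743897616122855546759706) (CTree.cons CTree.nil (CTree.cons CTree.nil (CTree.cons (CTree.leaf 1 41198799408307915093219416812058) (CTree.cons (CTree.leaf 1 31057594566340197960744938643858) (CTree.cons CTree.nil (CTree.cons CTree.nil (CTree.cons CTree.nil (CTree.cons CTree.nil (CTree.cons CTree.nil (CTree.cons CTree.nil (CTree.cons CTree.nil (CTree.cons (CTree.leaf 1 2783081257540264004578422883207479688) (CTree.cons (CTree.leaf 1 2783101936084743897616122855546759706) (CTree.cons CTree.nil (CTree.cons (CTree.leaf 1 2700004507803706763134449130827491866) (CTree.cons CTree.nil (CTree.cons CTree.nil (CTree.cons (CTree.leaf 1 2659115328499070024088446659322784282)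 (CTree.cons (CTree.leaf 1 2783101936084743897616122855546759706) (CTree.cons CTree.nil (CTree.cons CTree.nil (CTree.cons (CTree.leaf 1 2700004507803706763134449130827491866) (CTree.cons CTree.nil CTree.nil)))))))))))))))))))))))))))))))))))) (CTree.cons (CTree.cons CTree.nil (CTree.cons (CTree.leaf 1 20926624422091857318061122650240) (CTree.cons (CTree.leaf 1 507852676617470783245664776753282) (CTree.cons CTree.nil (CTree.cons (CTree.leaf 1 55962596457678021181157552237919213834) (CTree.cons CTree.nil (CTree.cons CTree.nil (CTree.cons CTree.nil (CTree.cons CTree.nil (CTree.cons CTree.nil (CTree.cons CTree.nil (CTree.cons CTree.nil (CTree.cons (CTree.leaf 1 2757130548271642197281451425222236426) (CTree.cons (CTree.leaf 1 2757130310587230157011932337785149706) (CTree.cons CTree.nil (CTree.cons CTree.nil (CTree.cons (CTree.leaf 1 20916389658688388333046849994885) (CTree.cons CTree.nil (CTree.cons CTree.nil (CTree.cons CTree.nil (CTree.cons CTree.nil (CTree.cons CTree.nil (CTree.cons CTree.nil (CTree.cons CTree.nil (CTree.cons (CTree.leaf 1 2757130548271642197281451425222236426) (CTree.cons (CTree.leaf 1 2757130310587230157011932337785149706)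 (CTree.cons (CTree.leaf 1 2757130548271642197281451425222236426) (CTree.cons CTree.nil (CTree.cons CTree.nil (CTree.cons CTree.nil (CTree.cons (CTree.leaf 1 2757119778195720627295530496013506826) (CTree.cons CTree.nil (CTree.cons (CTree.leaf 1 44622620118637964705545424886176553226) (CTree.cons CTree.nil (CTree.cons (CTree.leaf 1 2757130548271642197281451425222236426) (CTree.cons CTree.nil CTree.nil)))))))))))))))))))))))))))))))))))) (CTree.cons (CTree.cons CTree.nil (CTree.cons (CTree.leaf 1 20916724636966548040940631228544) (CTree.cons (CTree.leaf 1 680253158097451248858047023026306) (CTree.cons (CTree.leaf 1 1370776522083249433428024960638593562) (CTree.cons CTree.nil (CTree.cons CTree.nil (CTree.cons CTree.nil (CTree.cons CTree.nil (CTree.cons CTree.nil (CTree.cons CTree.nil (CTree.cons CTree.nil (CTree.cons CTree.nil (CTree.cons (CTree.leaf 1 2092516550379184260214806545945993610) (CTree.cons (CTree.leaf 1 2092516312694772219945287458508906890) (CTree.cons CTree.nil (CTree.cons (CTree.leaf 1 20916389764514514788659237617797) (CTree.cons CTree.nil (CTree.cons CTree.nil (CTree.cons CTree.nil (CTree.cons CTree.nil (CTree.cons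 CTree.nil (CTree.cons CTree.nil (CTree.cons CTree.nil (CTree.cons CTree.nil (CTree.cons (CTree.leaf 1 2092505780303262690228885616737264010) (CTree.cons CTree.nil (CTree.cons (CTree.leaf 1 2092516550379184260214806545945993610) (CTree.cons (CTree.leaf 1 2092516550379184260214806545945993610) (CTree.cons CTree.nil (CTree.cons CTree.nil (CTree.cons (CTree.leaf 1 2092516550379184260214806545945993610) (CTree.cons (CTree.leaf 1 2092516312694772219945287458508906890) (CTree.cons (CTree.leaf 1 2092516550379184260214806545945993610) (CTree.cons CTree.nil (CTree.cons CTree.nil (CTree.cons CTree.nil CTree.nil)))))))))))))))))))))))))))))))))))) (CTree.cons CTree.nil (CTree.cons (CTree.cons CTree.nil (CTree.cons (CTree.leaf 1 2783265304720264730981041339542339712) (CTree.cons CTree.nil (CTree.cons (CTree.leaf 1 43600765759271226751862230135479445039642) (CTree.cons (CTree.leaf 1 55963255168205964998835560590939852930) (CTree.cons CTree.nil (CTree.cons CTree.nil (CTree.cons CTree.nil (CTree.cons (CTree.leaf 1 2783101936084743898192583607850183194) (CTree.cons (CTree.leaf 1 379202503611144093137320804893766286365557264) (CTree.cons (CTree.leaf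 1 12726340516658511243445263028188750218) (CTree.cons CTree.nil (CTree.cons CTree.nil (CTree.cons CTree.nil (CTree.cons CTree.nil (CTree.cons CTree.nil (CTree.cons CTree.nil (CTree.cons CTree.nil (CTree.cons CTree.nil (CTree.cons CTree.nil (CTree.cons CTree.nil (CTree.cons CTree.nil (CTree.cons CTree.nil (CTree.cons CTree.nil (CTree.cons CTree.nil (CTree.cons (CTree.leaf 1 8675172274257274268005554775224343545599625619) (CTree.cons (CTree.leaf 1 11596432080314270270857949002184975958245247379) (CTree.cons (CTree.leaf 1 11596432080314270270857949002184975958245247379) (CTree.cons CTree.nil (CTree.cons CTree.nil (CTree.cons CTree.nil (CTree.cons (CTree.leaf 1 8675172274257274268005554775224343545599625619) (CTree.cons (CTree.leaf 1 11596432080314270270857949002184975958245247379) (CTree.cons CTree.nil (CTree.cons (CTree.leaf 1 11596432080314270270857949002184975958245247379) (CTree.cons CTree.nil CTree.nil)))))))))))))))))))))))))))))))))))) (CTree.cons (CTree.cons CTree.nil (CTree.cons CTree.nil (CTree.cons (CTree.leaf 1 2061351997006215467496356123785171074) (CTree.cons (CTree.leaf 1 1370776522247660836782436865521297946) (CTree.cons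 (CTree.leaf 1 3667564015319329195266312645872441300226178) (CTree.cons CTree.nil (CTree.cons (CTree.leaf 1 132372624138179761232440794818982962661764) (CTree.cons CTree.nil (CTree.cons CTree.nil (CTree.cons (CTree.leaf 1 2783081257695044287806217025595513098) (CTree.cons (CTree.leaf 1 12726329741789271940027589679642190218) (CTree.cons CTree.nil (CTree.cons CTree.nil (CTree.cons CTree.nil (CTree.cons CTree.nil (CTree.cons CTree.nil (CTree.cons CTree.nil (CTree.cons CTree.nil (CTree.cons CTree.nil (CTree.cons CTree.nil (CTree.cons CTree.nil (CTree.cons CTree.nil (CTree.cons CTree.nil (CTree.cons CTree.nil (CTree.cons (CTree.leaf 1 130671212161761457450094627567204034019589) (CTree.cons CTree.nil (CTree.cons (CTree.leaf 1 134414318197891780545627650822707856671109) (CTree.cons (CTree.leaf 1 182393342704621606602728031261390760706309) (CTree.cons CTree.nil (CTree.cons CTree.nil (CTree.cons (CTree.leaf 1 130681077667606453130908047072697970721029) (CTree.cons CTree.nil (CTree.cons (CTree.leaf 1 134414318197891780545627650822707856671109) (CTree.cons CTree.nil (CTree.cons (CTree.leaf 1 182393342704621606602728031261390760706309) (CTree.cons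 CTree.nil CTree.nil)))))))))))))))))))))))))))))))))))) (CTree.cons CTree.nil (CTree.cons (CTree.cons CTree.nil (CTree.cons (CTree.leaf 1 41209024462748371986875061764224) (CTree.cons (CTree.leaf 1 10151584757156823707799871164546) (CTree.cons CTree.nil (CTree.cons (CTree.leaf 1 853931505862517776462118285021314) (CTree.cons CTree.nil (CTree.cons (CTree.leaf 1 2741553420011625674126339104378530330) (CTree.cons CTree.nil (CTree.cons (CTree.leaf 1 41198799408307915093219416812058) (CTree.cons CTree.nil (CTree.cons (CTree.leaf 1 20916389764514514788659237617797) (CTree.cons CTree.nil (CTree.cons CTree.nil (CTree.cons CTree.nil (CTree.cons CTree.nil (CTree.cons CTree.nil (CTree.cons CTree.nil (CTree.cons CTree.nil (CTree.cons CTree.nil (CTree.cons CTree.nil (CTree.cons CTree.nil (CTree.cons CTree.nil (CTree.cons CTree.nil (CTree.cons CTree.nil (CTree.cons (CTree.leaf 1 2076939659803579775675829299340978714) (CTree.cons (CTree.leaf 1 2741553420011625674126339104378530330) (CTree.cons (CTree.leaf 1 2700004507803857712228688362781878810) (CTree.cons CTree.nil (CTree.cons CTree.nil (CTree.cons CTree.nil (CTree.cons (CTree.leaf 1 2659115328499220973182685891277171226)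 (CTree.cons (CTree.leaf 1 2741553420011625674126339104378530330) (CTree.cons CTree.nil (CTree.cons CTree.nil (CTree.cons (CTree.leaf 1 2700004507803857712228688362781878810) (CTree.cons CTree.nil CTree.nil)))))))))))))))))))))))))))))))))))) (CTree.cons (CTree.cons CTree.nil (CTree.cons (CTree.leaf 1 31065188925057713744458011508864) (CTree.cons (CTree.leaf 1 10148954023653111861197231231106) (CTree.cons (CTree.leaf 1 680894568193046149095987955241090) (CTree.cons CTree.nil (CTree.cons CTree.nil (CTree.cons (CTree.leaf 1 2076939422119167735330595187587686802) (CTree.cons CTree.nil (CTree.cons (CTree.leaf 1 31057594566340197960744938643858) (CTree.cons (CTree.leaf 1 20916389658688388333046849994885) (CTree.cons CTree.nil (CTree.cons CTree.nil (CTree.cons CTree.nil (CTree.cons CTree.nil (CTree.cons CTree.nil (CTree.cons CTree.nil (CTree.cons CTree.nil (CTree.cons CTree.nil (CTree.cons CTree.nil (CTree.cons CTree.nil (CTree.cons CTree.nil (CTree.cons CTree.nil (CTree.cons CTree.nil (CTree.cons CTree.nil (CTree.cons (CTree.leaf 1 2076939659803579775600114275024773522) (CTree.cons (CTree.leaf 1 2076939422119167735330595187587686802)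 (CTree.cons CTree.nil (CTree.cons (CTree.leaf 1 2035390509911359633932581403142791570) (CTree.cons CTree.nil (CTree.cons CTree.nil (CTree.cons (CTree.leaf 1 2076939659803579775600114275024773522) (CTree.cons (CTree.leaf 1 2076939422119167735330595187587686802) (CTree.cons (CTree.leaf 1 2035390509911359633932581403142791570) (CTree.cons CTree.nil (CTree.cons CTree.nil (CTree.cons CTree.nil CTree.nil)))))))))))))))))))))))))))))))))))) (CTree.cons CTree.nil (CTree.cons CTree.nil (CTree.cons CTree.nil (CTree.cons CTree.nil (CTree.cons CTree.nil (CTree.cons CTree.nil (CTree.cons CTree.nil (CTree.cons (CTree.cons CTree.nil (CTree.cons (CTree.leaf 1 2035401683884564195146609288543862912) (CTree.cons (CTree.leaf 1 664656464667554347297843606101561474) (CTree.cons (CTree.leaf 1 33241094630192797756046335033000726658) (CTree.cons CTree.nil (CTree.cons CTree.nil (CTree.cons CTree.nil (CTree.cons CTree.nil (CTree.cons (CTree.leaf 1 2783081257540301783510285840369189256) (CTree.cons (CTree.leaf 1 2783092032564316333695003124934777098) (CTree.cons (CTree.leaf 1 12726329741789271940027589679642190218) (CTree.cons CTree.nil (CTree.cons CTree.nil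 (CTree.cons (CTree.leaf 1 737362626189988816681924509623667050811492755) (CTree.cons CTree.nil (CTree.cons (CTree.leaf 1 2076939659803579775675838095434000922) (CTree.cons (CTree.leaf 1 2076939659803579776176575027328197010) (CTree.cons CTree.nil (CTree.cons CTree.nil (CTree.cons CTree.nil (CTree.cons CTree.nil (CTree.cons CTree.nil (CTree.cons CTree.nil (CTree.cons CTree.nil (CTree.cons CTree.nil (CTree.cons CTree.nil (CTree.cons CTree.nil (CTree.cons CTree.nil (CTree.cons CTree.nil (CTree.cons CTree.nil (CTree.cons CTree.nil (CTree.cons (CTree.leaf 1 736013405929802645682041542368233672617757075) (CTree.cons (CTree.leaf 1 736014426786963552983067509364399940562323859) (CTree.cons CTree.nil (CTree.cons (CTree.leaf 1 735969849787182824102228459655229980959312275) (CTree.cons CTree.nil CTree.nil)))))))))))))))))))))))))))))))))))) (CTree.cons (CTree.cons CTree.nil (CTree.cons CTree.nil (CTree.cons (CTree.leaf 1 664645454436171527049770231255404674) (CTree.cons (CTree.leaf 1 43557529990031143852022570597801231254032) (CTree.cons (CTree.leaf 1 55963255168205964998835560590939852930) (CTree.cons CTree.nil (CTree.cons (CTree.leaf 1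 179670444933877113961650870963452239751706) (CTree.cons CTree.nil (CTree.cons (CTree.leaf 1 2783101936084743898192583607850183194) (CTree.cons (CTree.leaf 1 2783081257695044287806217025595513098) (CTree.cons CTree.nil (CTree.cons CTree.nil (CTree.cons (CTree.leaf 1 182392013314443627285272891766756996098586) (CTree.cons CTree.nil (CTree.cons CTree.nil (CTree.cons (CTree.leaf 1 2741553420011625674126347900471552538) (CTree.cons (CTree.leaf 1 2076928884934340472758901678781637010) (CTree.cons CTree.nil (CTree.cons CTree.nil (CTree.cons CTree.nil (CTree.cons CTree.nil (CTree.cons CTree.nil (CTree.cons CTree.nil (CTree.cons CTree.nil (CTree.cons CTree.nil (CTree.cons CTree.nil (CTree.cons CTree.nil (CTree.cons CTree.nil (CTree.cons CTree.nil (CTree.cons CTree.nil (CTree.cons (CTree.leaf 1 43557529329825011617557459395489103424026) (CTree.cons CTree.nil (CTree.cons (CTree.leaf 1 182392013304775298653493211956335526095386) (CTree.cons CTree.nil (CTree.cons (CTree.leaf 1 43557529329825011617557459395489103424026) (CTree.cons CTree.nil CTree.nil)))))))))))))))))))))))))))))))))))) (CTree.cons (CTree.cons CTree.nil (CTree.cons (CTree.leaf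 1 2783265304880938492915488542298865792) (CTree.cons CTree.nil (CTree.cons (CTree.leaf 1 43568163813994639173903727244724016327194) (CTree.cons (CTree.leaf 1 3667564721450389580284171796840233379633418) (CTree.cons CTree.nil (CTree.cons (CTree.leaf 1 137135814169693817298931111021855220247066) (CTree.cons CTree.nil (CTree.cons CTree.nil (CTree.cons (CTree.leaf 1 2783092032564316333695003124934777098) (CTree.cons (CTree.leaf 1 12726340516658511243445263028188750218) (CTree.cons CTree.nil (CTree.cons (CTree.leaf 1 182392013294158573763362517346986615245203) (CTree.cons (CTree.leaf 1 137135813715082620789574737363745911155226) (CTree.cons CTree.nil (CTree.cons (CTree.leaf 1 2700004507803857712228697158874901018) (CTree.cons CTree.nil (CTree.cons CTree.nil (CTree.cons CTree.nil (CTree.cons CTree.nil (CTree.cons CTree.nil (CTree.cons CTree.nil (CTree.cons CTree.nil (CTree.cons CTree.nil (CTree.cons CTree.nil (CTree.cons CTree.nil (CTree.cons CTree.nil (CTree.cons CTree.nil (CTree.cons CTree.nil (CTree.cons CTree.nil (CTree.cons (CTree.leaf 1 182392013294158573652407044815608576870803) (CTree.cons (CTree.leaf 1 137135813715082620789574737363745911155226)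 (CTree.cons CTree.nil (CTree.cons CTree.nil (CTree.cons (CTree.leaf 1 182392013304537304572493303523940947855763) (CTree.cons CTree.nil CTree.nil)))))))))))))))))))))))))))))))))))) (CTree.cons (CTree.cons CTree.nil (CTree.cons (CTree.leaf 1 1396922053552146424953233740144443520) (CTree.cons (CTree.leaf 1 2725966002315541662344339177856438402) (CTree.cons CTree.nil (CTree.cons (CTree.leaf 1 3667564103567063250226086092741474370265490) (CTree.cons CTree.nil (CTree.cons (CTree.leaf 1 179670445258553955984990234252536526277011) (CTree.cons CTree.nil (CTree.cons (CTree.leaf 1 2700004507803744542066312087989201434) (CTree.cons CTree.nil (CTree.cons (CTree.leaf 1 12726340516658511243445263028188750218) (CTree.cons CTree.nil (CTree.cons (CTree.leaf 1 176947495423423562014867790648342746892691) (CTree.cons (CTree.leaf 1 179670444933881900179543759544551363709331) (CTree.cons CTree.nil (CTree.cons CTree.nil (CTree.cons (CTree.leaf 1 2035390509911359634509042155446215058) (CTree.cons CTree.nil (CTree.cons CTree.nil (CTree.cons CTree.nil (CTree.cons CTree.nil (CTree.cons CTree.nil (CTree.cons CTree.nil (CTree.cons CTree.nil (CTree.cons CTree.nil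 (CTree.cons CTree.nil (CTree.cons CTree.nil (CTree.cons CTree.nil (CTree.cons CTree.nil (CTree.cons CTree.nil (CTree.cons (CTree.leaf 1 182393384060132927662686102420815062108563) (CTree.cons (CTree.leaf 1 179670444933881900179543759544551363709331) (CTree.cons (CTree.leaf 1 176947495423423562014867790648342746892691) (CTree.cons CTree.nil (CTree.cons CTree.nil (CTree.cons CTree.nil CTree.nil)))))))))))))))))))))))))))))))))))) (CTree.cons CTree.nil (CTree.cons CTree.nil (CTree.cons (CTree.cons CTree.nil (CTree.cons (CTree.leaf 1 2035401683884564195146609288543862912) (CTree.cons (CTree.leaf 1 2783081257859458199888547942491623554) (CTree.cons CTree.nil (CTree.cons (CTree.leaf 1 55963255168205964998835560590939852930) (CTree.cons CTree.nil (CTree.cons CTree.nil (CTree.cons CTree.nil (CTree.cons (CTree.leaf 1 2783081257540301783510285840369189256) (CTree.cons (CTree.leaf 1 664656464503173177686625439998155018) (CTree.cons (CTree.leaf 1 12726340516658511243445263028188750218) (CTree.cons CTree.nil (CTree.cons CTree.nil (CTree.cons (CTree.leaf 1 736013427191976862948912522878074436486638106) (CTree.cons CTree.nil (CTree.cons (CTree.leaf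 1 2659115328499220973182694687370193434) (CTree.cons (CTree.leaf 1 2076939659803579776176575027328197010) (CTree.cons CTree.nil (CTree.cons CTree.nil (CTree.cons CTree.nil (CTree.cons CTree.nil (CTree.cons CTree.nil (CTree.cons CTree.nil (CTree.cons CTree.nil (CTree.cons CTree.nil (CTree.cons (CTree.leaf 1 182393425609045795618052924839180154645018) (CTree.cons (CTree.leaf 1 182393425598904590854006021490163690711578) (CTree.cons (CTree.leaf 1 182423426863029055733717775020020073835034) (CTree.cons CTree.nil (CTree.cons CTree.nil (CTree.cons CTree.nil (CTree.cons CTree.nil (CTree.cons CTree.nil (CTree.cons CTree.nil (CTree.cons CTree.nil (CTree.cons CTree.nil CTree.nil)))))))))))))))))))))))))))))))))))) (CTree.cons (CTree.cons CTree.nil (CTree.cons CTree.nil (CTree.cons (CTree.leaf 1 664655603057733256759756772104343682) (CTree.cons (CTree.leaf 1 43556812793339183261091421890218525590032) (CTree.cons (CTree.leaf 1 55963255168205964998221391563375841410) (CTree.cons CTree.nil (CTree.cons (CTree.leaf 1 179670444933877113961650870963452239751706) (CTree.cons CTree.nil (CTree.cons (CTree.leaf 1 2783101936084743898192583607850183194)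 (CTree.cons CTree.nil (CTree.cons (CTree.leaf 1 12726329741789271940027589679642190218) (CTree.cons CTree.nil (CTree.cons (CTree.leaf 1 182392013780698870806156570545613283863066) (CTree.cons CTree.nil (CTree.cons CTree.nil (CTree.cons (CTree.leaf 1 2741553420011625674126347900471552538) (CTree.cons (CTree.leaf 1 2076928884934340472758901678781637010) (CTree.cons CTree.nil (CTree.cons CTree.nil (CTree.cons CTree.nil (CTree.cons CTree.nil (CTree.cons CTree.nil (CTree.cons CTree.nil (CTree.cons CTree.nil (CTree.cons (CTree.leaf 1 43557498176519229383677274238072391805466) (CTree.cons CTree.nil (CTree.cons (CTree.leaf 1 182404074999364960357783029801868383562266) (CTree.cons (CTree.leaf 1 179670444933877114042224519984257194600986) (CTree.cons CTree.nil (CTree.cons CTree.nil (CTree.cons CTree.nil (CTree.cons CTree.nil (CTree.cons CTree.nil (CTree.cons CTree.nil (CTree.cons CTree.nil (CTree.cons CTree.nil CTree.nil)))))))))))))))))))))))))))))))))))) (CTree.cons (CTree.cons CTree.nil (CTree.cons (CTree.leaf 1 2783265304880938492915488542298865792) (CTree.cons CTree.nil (CTree.cons (CTree.leaf 1 834033411232113012609190755685710484344962)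 (CTree.cons (CTree.leaf 1 3667564015471286026815054613511325416036618) (CTree.cons CTree.nil (CTree.cons (CTree.leaf 1 180691957135573940662531902477773588998682) (CTree.cons CTree.nil (CTree.cons CTree.nil (CTree.cons (CTree.leaf 1 2783092032564316333695003124934777098) (CTree.cons (CTree.leaf 1 12726340516658511243445263028188750218) (CTree.cons CTree.nil (CTree.cons (CTree.leaf 1 182392013294158573763362517346986615245203) (CTree.cons (CTree.leaf 1 180691956648645083907950635138760214391322) (CTree.cons CTree.nil (CTree.cons CTree.nil (CTree.cons (CTree.leaf 1 2035390509911359634509042155446215058) (CTree.cons CTree.nil (CTree.cons CTree.nil (CTree.cons CTree.nil (CTree.cons CTree.nil (CTree.cons CTree.nil (CTree.cons CTree.nil (CTree.cons CTree.nil (CTree.cons (CTree.leaf 1 182392013294158573652407044815608576870803) (CTree.cons (CTree.leaf 1 2924388681132171914772851253157044338426387) (CTree.cons CTree.nil (CTree.cons (CTree.leaf 1 182392719446140641107535159893582759463179) (CTree.cons CTree.nil (CTree.cons CTree.nil (CTree.cons CTree.nil (CTree.cons CTree.nil (CTree.cons CTree.nil (CTree.cons CTree.nil (CTree.cons CTree.nil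 (CTree.cons CTree.nil CTree.nil)))))))))))))))))))))))))))))))))))) (CTree.cons CTree.nil (CTree.cons (CTree.cons CTree.nil (CTree.cons (CTree.leaf 1 1396922053552146424953233740144443520) (CTree.cons (CTree.leaf 1 2061351997006323822017661080492970114) (CTree.cons (CTree.leaf 1 43568163813994639027620939780248697907738) (CTree.cons CTree.nil (CTree.cons CTree.nil (CTree.cons (CTree.leaf 1 179670445258553955984990234252536526277011) (CTree.cons CTree.nil (CTree.cons (CTree.leaf 1 2700004507803744542066312087989201434) (CTree.cons (CTree.leaf 1 2783092032564316333695003124934777098) (CTree.cons CTree.nil (CTree.cons CTree.nil (CTree.cons (CTree.leaf 1 176947495423423562014867790648342746892691) (CTree.cons (CTree.leaf 1 179670444933881900179543759544551363709331) (CTree.cons CTree.nil (CTree.cons (CTree.leaf 1 2700004507803857712228697158874901018) (CTree.cons CTree.nil (CTree.cons CTree.nil (CTree.cons CTree.nil (CTree.cons CTree.nil (CTree.cons CTree.nil (CTree.cons CTree.nil (CTree.cons CTree.nil (CTree.cons CTree.nil (CTree.cons (CTree.leaf 1 182393384060132927662686102420815062108563) (CTree.cons (CTree.leaf 1 179670444933881900179543759544551363709331)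 (CTree.cons (CTree.leaf 1 176947495423423562014867790648342746892691) (CTree.cons CTree.nil (CTree.cons CTree.nil (CTree.cons CTree.nil (CTree.cons CTree.nil (CTree.cons CTree.nil (CTree.cons CTree.nil (CTree.cons CTree.nil (CTree.cons CTree.nil (CTree.cons CTree.nil CTree.nil)))))))))))))))))))))))))))))))))))) (CTree.cons CTree.nil CTree.nil)))))))))))))))))))))))))))))))))))

theorem tree6_3_5_ok : chk 6 (pk (goalL 6)) tree6_3_5 (stk [((3 : Fin 6), (5 : Fin 6))]) 1 (om [((3 : Fin 6), (5 : Fin 6))]) (im [((3 : Fin 6), (5 : Fin 6))])
    (cm [((3 : Fin 6), (5 : Fin 6))]) (pk (goalR [((3 : Fin 6), (5 : Fin 6))])) 0 = true := by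
  decide +kernel

end Vale.Agent.Lib.P333
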