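import Vale.Agent.Lib.P333.CertSound

namespace Vale.Agent.Lib.P333

def tree6_4_0 : CTree :=
  CTree.cons CTree.nil (CTree.cons (CTree.cons CTree.nil (CTree.cons CTree.nil (CTree.cons CTree.nil (CTree.cons CTree.nil (CTree.cons CTree.nil (CTree.cons CTree.nil (CTree.cons CTree.nil (CTree.cons CTree.nil (CTree.cons (CTree.leaf 1 24066328039735033946820880431212200064) (CTree.cons (CTree.leaf 1 1370808604867344302245518149771985024) (CTree.cons CTree.nil (CTree.cons (CTree.leaf 1 1371133593676221451629596285023682688) (CTree.cons CTree.nil (CTree.cons CTree.nil (CTree.cons CTree.nil (CTree.cons (CTree.leaf 1 24066317264695260451587176581554045056) (CTree.cons (CTree.leaf 1 2878327116942170451549756612690430414946107425) (CTree.cons (CTree.leaf 1 2036061255699619308511720612257988736) (CTree.cons CTree.nil (CTree.cons CTree.nil (CTree.cons (CTree.leaf 1 2878373362742126423200090434292182907161673995) (CTree.cons CTree.nil (CTree.cons (CTree.leaf 1 23360164891934523894107029080780112000) (CTree.cons (CTree.leaf 1 2035736816374123394895509120244908160) (CTree.cons CTree.nil (CTree.cons CTree.nil (CTree.cons CTree.nil (CTree.cons CTree.nil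 (CTree.cons CTree.nil (CTree.cons CTree.nil (CTree.cons CTree.nil (CTree.cons CTree.nil (CTree.cons (CTree.leaf 1 8853439764308642588093352073950840472846467105) (CTree.cons (CTree.leaf 1 2878373362742125799284241945276180800604209185) (CTree.cons (CTree.leaf 1 2878373362742125799284241945276180800604209185) (CTree.cons CTree.nil CTree.nil)))))))))))))))))))))))))))))))))))) (CTree.cons (CTree.cons CTree.nil (CTree.cons CTree.nil (CTree.cons CTree.nil (CTree.cons CTree.nil (CTree.cons CTree.nil (CTree.cons CTree.nil (CTree.cons CTree.nil (CTree.cons CTree.nil (CTree.cons CTree.nil (CTree.cons (CTree.leaf 1 2181234744423338220207178152842321903816834) (CTree.cons (CTree.leaf 1 43612105908644434576313149386684358529154) (CTree.cons (CTree.leaf 1 106398432551734097475991246379547211275206529154) (CTree.cons CTree.nil (CTree.cons (CTree.leaf 1 180351716177180506588807903182219032727682) (CTree.cons CTree.nil (CTree.cons (CTree.leaf 1 3489233635743586853078922109961441410) (CTree.cons CTree.nil (CTree.cons (CTree.leaf 1 664981230815227370586427488400969858) (CTree.cons CTree.nil (CTree.cons (CTree.leaf 1 1623489966716399568564133259945692419985538)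 (CTree.cons CTree.nil (CTree.cons CTree.nil (CTree.cons (CTree.leaf 1 3447695268301737179609715494908661890) (CTree.cons (CTree.leaf 1 664970446043601176181832876641882242) (CTree.cons CTree.nil (CTree.cons CTree.nil (CTree.cons CTree.nil (CTree.cons CTree.nil (CTree.cons CTree.nil (CTree.cons CTree.nil (CTree.cons CTree.nil (CTree.cons (CTree.leaf 1 11820972166053931556956786336597020837690937474) (CTree.cons CTree.nil (CTree.cons (CTree.leaf 1 137134458850359261331732469999287142453378) (CTree.cons (CTree.leaf 1 11820972166053931556956786336597020837690937474) (CTree.cons CTree.nil CTree.nil)))))))))))))))))))))))))))))))))))) (CTree.cons (CTree.cons CTree.nil (CTree.cons CTree.nil (CTree.cons CTree.nil (CTree.cons CTree.nil (CTree.cons CTree.nil (CTree.cons CTree.nil (CTree.cons CTree.nil (CTree.cons CTree.nil (CTree.cons (CTree.leaf 1 33241451711027972432501246233543774338) (CTree.cons CTree.nil (CTree.cons (CTree.leaf 1 228670524244024407570176022893857278591104) (CTree.cons (CTree.leaf 1 50703443804826037793761139594283886641280) (CTree.cons CTree.nil (CTree.cons (CTree.leaf 1 228670415226468928601357437731933396796065) (CTree.cons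 CTree.nil (CTree.cons CTree.nil (CTree.cons (CTree.leaf 1 210471047138049261546065047421720529353195117150881) (CTree.cons (CTree.leaf 1 55921544385271337887551170617446305922) (CTree.cons CTree.nil (CTree.cons (CTree.leaf 1 91569197828850977116071848333792558256258) (CTree.cons (CTree.leaf 1 5955046228838685026831507007153753412935418528) (CTree.cons CTree.nil (CTree.cons CTree.nil (CTree.cons (CTree.leaf 1 43578796998916770132789657480162537712154) (CTree.cons CTree.nil (CTree.cons CTree.nil (CTree.cons CTree.nil (CTree.cons CTree.nil (CTree.cons CTree.nil (CTree.cons CTree.nil (CTree.cons CTree.nil (CTree.cons (CTree.leaf 1 48332918077454349440751962922516349137299706019969) (CTree.cons (CTree.leaf 1 767289095567236075877130846328458484130608469574304) (CTree.cons CTree.nil (CTree.cons (CTree.leaf 1 48332918077454349440751962922516349137299706019969) (CTree.cons CTree.nil CTree.nil)))))))))))))))))))))))))))))))))))) (CTree.cons CTree.nil (CTree.cons (CTree.cons CTree.nil (CTree.cons CTree.nil (CTree.cons CTree.nil (CTree.cons CTree.nil (CTree.cons CTree.nil (CTree.cons CTree.nil (CTree.cons CTree.nil (CTree.cons CTree.nil (CTree.cons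 (CTree.leaf 1 3495267815823901169433402654604988546) (CTree.cons (CTree.leaf 1 15008491377928792036790977017557480471169997066) (CTree.cons (CTree.leaf 1 983599343866520354103437514252397114036502432782602) (CTree.cons CTree.nil (CTree.cons CTree.nil (CTree.cons (CTree.leaf 1 15009104544042877114258428775392728057293969674) (CTree.cons CTree.nil (CTree.cons (CTree.leaf 1 3495267815823901169433402654596075650) (CTree.cons (CTree.leaf 1 229013522171422200101265341949495156545802) (CTree.cons CTree.nil (CTree.cons CTree.nil (CTree.cons (CTree.leaf 1 15009932459748731674028015920766270205918912914) (CTree.cons (CTree.leaf 1 15009932451041606527452754223100191877062332546) (CTree.cons CTree.nil (CTree.cons (CTree.leaf 1 3495267815823901169433402070480523394) (CTree.cons CTree.nil (CTree.cons CTree.nil (CTree.cons CTree.nil (CTree.cons CTree.nil (CTree.cons CTree.nil (CTree.cons CTree.nil (CTree.cons CTree.nil (CTree.cons CTree.nil (CTree.cons (CTree.leaf 1 983591339379220980977026692618940351600350644611610) (CTree.cons (CTree.leaf 1 983591339379220254412463474420662213875903883778314) (CTree.cons (CTree.leaf 1 983591339379220254066558440495069364593960706845210)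 (CTree.cons CTree.nil (CTree.cons CTree.nil CTree.nil)))))))))))))))))))))))))))))))))))) (CTree.cons CTree.nil (CTree.cons CTree.nil (CTree.cons (CTree.cons CTree.nil (CTree.cons (CTree.leaf 1 24066328039735033946820880431212200064) (CTree.cons CTree.nil (CTree.cons (CTree.leaf 1 33241451711027972432501246233543774338) (CTree.cons CTree.nil (CTree.cons (CTree.leaf 1 3495267815823901169433402654604988546) (CTree.cons CTree.nil (CTree.cons CTree.nil (CTree.cons CTree.nil (CTree.cons CTree.nil (CTree.cons CTree.nil (CTree.cons CTree.nil (CTree.cons CTree.nil (CTree.cons CTree.nil (CTree.cons CTree.nil (CTree.cons (CTree.leaf 1 3364618511138743759483012199463125665) (CTree.cons (CTree.leaf 1 738059546482570024877589747620510222752678561) (CTree.cons (CTree.leaf 1 24066306090903238833063404882290147720) (CTree.cons CTree.nil (CTree.cons (CTree.leaf 1 738059546482570019744573803366838890664099971) (CTree.cons CTree.nil (CTree.cons CTree.nil (CTree.cons (CTree.leaf 1 3364618510974329848015422631703085729) (CTree.cons (CTree.leaf 1 2783081262818429152394993958395707784) (CTree.cons CTree.nil (CTree.cons CTree.nil (CTree.cons CTree.nil (CTree.cons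 CTree.nil (CTree.cons CTree.nil (CTree.cons CTree.nil (CTree.cons CTree.nil (CTree.cons (CTree.leaf 1 737501832899016064429296563092212671553012376) (CTree.cons CTree.nil (CTree.cons (CTree.leaf 1 736145118591927718765648511882704920533861025) (CTree.cons (CTree.leaf 1 736145118591927718765648511882704920533861025) (CTree.cons CTree.nil CTree.nil)))))))))))))))))))))))))))))))))))) (CTree.cons (CTree.cons CTree.nil (CTree.cons (CTree.leaf 1 3489244405814750897089996063513378944) (CTree.cons (CTree.leaf 1 1623520455214471217173190332745137396977794) (CTree.cons CTree.nil (CTree.cons CTree.nil (CTree.cons (CTree.leaf 1 15010025006464247282983232719787346119225383178) (CTree.cons CTree.nil (CTree.cons CTree.nil (CTree.cons CTree.nil (CTree.cons CTree.nil (CTree.cons CTree.nil (CTree.cons CTree.nil (CTree.cons CTree.nil (CTree.cons (CTree.leaf 1 14807706065209592017709123619796221185023351050) (CTree.cons CTree.nil (CTree.cons CTree.nil (CTree.cons (CTree.leaf 1 736014482059320455405111103708736533044003480) (CTree.cons (CTree.leaf 1 24066316855698730860290656238908348682) (CTree.cons CTree.nil (CTree.cons CTree.nil (CTree.cons (CTree.leaf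 1 736014482058963775662473777354643413278071050) (CTree.cons CTree.nil (CTree.cons (CTree.leaf 1 3447695268301807812192747319027898634) (CTree.cons (CTree.leaf 1 2783092032564396871527169944821831946) (CTree.cons CTree.nil (CTree.cons CTree.nil (CTree.cons CTree.nil (CTree.cons CTree.nil (CTree.cons CTree.nil (CTree.cons CTree.nil (CTree.cons CTree.nil (CTree.cons (CTree.leaf 1 14807706065209592017709123619796221185023351050) (CTree.cons (CTree.leaf 1 736014450163527552030407959110401031151294730) (CTree.cons CTree.nil (CTree.cons (CTree.leaf 1 736014450163527552030407959110401031151294730) (CTree.cons CTree.nil CTree.nil)))))))))))))))))))))))))))))))))))) (CTree.cons (CTree.cons CTree.nil (CTree.cons CTree.nil (CTree.cons (CTree.leaf 1 225948157103424986998841760843655863668866) (CTree.cons (CTree.leaf 1 142770994260274412374137231377928826584532324482) (CTree.cons CTree.nil (CTree.cons (CTree.leaf 1 983596377912348200947374974724649799521239697657986) (CTree.cons CTree.nil (CTree.cons CTree.nil (CTree.cons CTree.nil (CTree.cons CTree.nil (CTree.cons CTree.nil (CTree.cons CTree.nil (CTree.cons CTree.nil (CTree.cons (CTree.leaf 1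 46073471952798952445657103651920922967577531043) (CTree.cons CTree.nil (CTree.cons (CTree.leaf 1 737409299481329387117512026471246651587625616) (CTree.cons CTree.nil (CTree.cons (CTree.leaf 1 103363965279764315506017914283073191487369183905) (CTree.cons CTree.nil (CTree.cons (CTree.leaf 1 1623510533058182822565449458567510738674058) (CTree.cons (CTree.leaf 1 225970852632990978293445355994033972445857) (CTree.cons CTree.nil (CTree.cons CTree.nil (CTree.cons (CTree.leaf 1 23360153712862030083988318189461840266) (CTree.cons CTree.nil (CTree.cons CTree.nil (CTree.cons CTree.nil (CTree.cons CTree.nil (CTree.cons CTree.nil (CTree.cons CTree.nil (CTree.cons CTree.nil (CTree.cons (CTree.leaf 1 381552260019513132275565888129804658237573292949651) (CTree.cons (CTree.leaf 1 568630534570602667743358740103324548740411009139361) (CTree.cons (CTree.leaf 1 381552260019513131952398671757283977172847190671641) (CTree.cons CTree.nil (CTree.cons CTree.nil CTree.nil)))))))))))))))))))))))))))))))))))) (CTree.cons (CTree.cons CTree.nil (CTree.cons (CTree.leaf 1 1371133593676221451629596285023682688) (CTree.cons (CTree.leaf 1 3383479654425738197972959642266964592456118929793426)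 (CTree.cons (CTree.leaf 1 142770158538738779079349323281101795202636517506) (CTree.cons CTree.nil (CTree.cons CTree.nil (CTree.cons CTree.nil (CTree.cons CTree.nil (CTree.cons CTree.nil (CTree.cons CTree.nil (CTree.cons CTree.nil (CTree.cons CTree.nil (CTree.cons CTree.nil (CTree.cons (CTree.leaf 1 106397558387502328875454438870181797671520567696) (CTree.cons CTree.nil (CTree.cons (CTree.leaf 1 24066316855698730714483519758100670986) (CTree.cons (CTree.leaf 1 8743376793857178882470748899859602100825752224) (CTree.cons CTree.nil (CTree.cons CTree.nil (CTree.cons (CTree.leaf 1 783416884478120666826028200101909636616138589339909) (CTree.cons (CTree.leaf 1 43558843316696883802821215491431365421594) (CTree.cons CTree.nil (CTree.cons (CTree.leaf 1 23360164482937994157003372257326737930) (CTree.cons CTree.nil (CTree.cons CTree.nil (CTree.cons CTree.nil (CTree.cons CTree.nil (CTree.cons CTree.nil (CTree.cons CTree.nil (CTree.cons CTree.nil (CTree.cons CTree.nil (CTree.cons CTree.nil (CTree.cons (CTree.leaf 1 103364043853094451580229916326980955824559095941) (CTree.cons (CTree.leaf 1 103364043853094451580229916326980955824559095941) (CTree.cons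 (CTree.leaf 1 103365484947500864712242675775854603865057526021) (CTree.cons CTree.nil CTree.nil)))))))))))))))))))))))))))))))))))) (CTree.cons CTree.nil (CTree.cons (CTree.cons CTree.nil (CTree.cons CTree.nil (CTree.cons (CTree.leaf 1 182415415158569878449002231136134205804674) (CTree.cons (CTree.leaf 1 228670415226468928601357505285927807353505) (CTree.cons CTree.nil (CTree.cons (CTree.leaf 1 229065871577833050910638109752421203319050) (CTree.cons CTree.nil (CTree.cons CTree.nil (CTree.cons CTree.nil (CTree.cons (CTree.leaf 1 225971558124455282357786500755678384101642) (CTree.cons (CTree.leaf 1 89835209848348992471209803187645627572618) (CTree.cons (CTree.leaf 1 1577230713355500505841459111070685549166853) (CTree.cons CTree.nil (CTree.cons CTree.nil (CTree.cons CTree.nil (CTree.cons CTree.nil (CTree.cons CTree.nil (CTree.cons CTree.nil (CTree.cons CTree.nil (CTree.cons CTree.nil (CTree.cons (CTree.leaf 1 3164332325350533861423251711187904432865423938740748432) (CTree.cons CTree.nil (CTree.cons (CTree.leaf 1 97298162552450220142181255956993157339631649424) (CTree.cons (CTree.leaf 1 11776231520761448985333533544607383176225620229)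 (CTree.cons CTree.nil (CTree.cons CTree.nil (CTree.cons CTree.nil (CTree.cons CTree.nil (CTree.cons CTree.nil (CTree.cons CTree.nil (CTree.cons CTree.nil (CTree.cons CTree.nil (CTree.cons (CTree.leaf 1 6176360244108091848017419287352144059094950143328929) (CTree.cons (CTree.leaf 1 958799398793212287064376400061280632237008206627489) (CTree.cons (CTree.leaf 1 958799398793212287064376400061280632237008206627489) (CTree.cons CTree.nil CTree.nil)))))))))))))))))))))))))))))))))))) (CTree.cons CTree.nil (CTree.cons (CTree.cons CTree.nil (CTree.cons (CTree.leaf 1 24066317264695260451587176581554045056) (CTree.cons (CTree.leaf 1 3489233635743586853078922109961441410) (CTree.cons CTree.nil (CTree.cons CTree.nil (CTree.cons (CTree.leaf 1 3495267815823901169433402654596075650) (CTree.cons CTree.nil (CTree.cons CTree.nil (CTree.cons (CTree.leaf 1 3364618511138743759483012199463125665) (CTree.cons CTree.nil (CTree.cons (CTree.leaf 1 737409299481329387117512025894785899284202128) (CTree.cons (CTree.leaf 1 24066316855698730714483519758100670986) (CTree.cons CTree.nil (CTree.cons CTree.nil (CTree.cons CTree.nil (CTree.cons CTree.nil (CTree.cons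 CTree.nil (CTree.cons CTree.nil (CTree.cons CTree.nil (CTree.cons (CTree.leaf 1 735969191195935628039218151098366636490818192) (CTree.cons CTree.nil (CTree.cons CTree.nil (CTree.cons (CTree.leaf 1 3364618510810112006378093627184579233) (CTree.cons (CTree.leaf 1 2076939659803657805403260515218696730) (CTree.cons CTree.nil (CTree.cons CTree.nil (CTree.cons CTree.nil (CTree.cons CTree.nil (CTree.cons CTree.nil (CTree.cons CTree.nil (CTree.cons CTree.nil (CTree.cons (CTree.leaf 1 736147840850852316193805657827735544549933317) (CTree.cons (CTree.leaf 1 736145118591916956587596819528294045487005829) (CTree.cons CTree.nil (CTree.cons (CTree.leaf 1 736145118591916956587596819528294045487005829) (CTree.cons CTree.nil CTree.nil)))))))))))))))))))))))))))))))))))) (CTree.cons (CTree.cons CTree.nil (CTree.cons (CTree.leaf 1 14809225798156053834582714422390871973043896717) (CTree.cons CTree.nil (CTree.cons (CTree.leaf 1 14809873299709561337093448880682879729109373058) (CTree.cons CTree.nil (CTree.cons (CTree.leaf 1 15012060959725006820332123599991042172650590338) (CTree.cons CTree.nil (CTree.cons CTree.nil (CTree.cons (CTree.leaf 1 738059546482570024877627526552373179914388129)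 (CTree.cons (CTree.leaf 1 736014482059320457880991182279497082842251928) (CTree.cons CTree.nil (CTree.cons (CTree.leaf 1 736014450163030088617066098841497194396778629) (CTree.cons CTree.nil (CTree.cons CTree.nil (CTree.cons CTree.nil (CTree.cons CTree.nil (CTree.cons CTree.nil (CTree.cons CTree.nil (CTree.cons CTree.nil (CTree.cons (CTree.leaf 1 142770808816930015654537347619411515215354920993) (CTree.cons (CTree.leaf 1 736060705869390987785681872552059243844469408) (CTree.cons CTree.nil (CTree.cons CTree.nil (CTree.cons (CTree.leaf 1 1994339076443649898455351115755692434) (CTree.cons CTree.nil (CTree.cons CTree.nil (CTree.cons CTree.nil (CTree.cons CTree.nil (CTree.cons CTree.nil (CTree.cons CTree.nil (CTree.cons CTree.nil (CTree.cons (CTree.leaf 1 14986112035307503310605233598788504843330855314) (CTree.cons (CTree.leaf 1 736058004893701988681463510329058515606380946) (CTree.cons (CTree.leaf 1 8743376793857186802692539671749688401315570066) (CTree.cons CTree.nil (CTree.cons CTree.nil CTree.nil)))))))))))))))))))))))))))))))))))) (CTree.cons (CTree.cons CTree.nil (CTree.cons (CTree.leaf 1 2036061255699619308511720612257988736) (CTree.cons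 (CTree.leaf 1 664981230815227370586427488400969858) (CTree.cons (CTree.leaf 1 55921544385271337887551170617446305922) (CTree.cons CTree.nil (CTree.cons CTree.nil (CTree.cons CTree.nil (CTree.cons CTree.nil (CTree.cons (CTree.leaf 1 24066306090903238833063404882290147720) (CTree.cons (CTree.leaf 1 24066316855698730860290656238908348682) (CTree.cons (CTree.leaf 1 103363965279764823746759566354569212604887662853) (CTree.cons CTree.nil (CTree.cons CTree.nil (CTree.cons CTree.nil (CTree.cons CTree.nil (CTree.cons CTree.nil (CTree.cons CTree.nil (CTree.cons CTree.nil (CTree.cons CTree.nil (CTree.cons (CTree.leaf 1 8921736135348858725627219836673515180821381381) (CTree.cons (CTree.leaf 1 736014450162694636586616858041260354417393797) (CTree.cons CTree.nil (CTree.cons (CTree.leaf 1 1994339076443690187911224206284630546) (CTree.cons CTree.nil (CTree.cons CTree.nil (CTree.cons CTree.nil (CTree.cons CTree.nil (CTree.cons CTree.nil (CTree.cons CTree.nil (CTree.cons CTree.nil (CTree.cons CTree.nil (CTree.cons (CTree.leaf 1 103365392051126718227620647914572231968644137221) (CTree.cons CTree.nil (CTree.cons (CTree.leaf 1 103364043852388977469428406024377587302990348421)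 (CTree.cons (CTree.leaf 1 103365438647328340999013600629687380354723217541) (CTree.cons CTree.nil CTree.nil)))))))))))))))))))))))))))))))))))) (CTree.cons CTree.nil (CTree.cons (CTree.cons CTree.nil (CTree.cons CTree.nil (CTree.cons (CTree.leaf 1 188619921746572104262622926476652738211301363842) (CTree.cons (CTree.leaf 1 14341557652362081837203418313556568184132341890) (CTree.cons CTree.nil (CTree.cons (CTree.leaf 1 229065871577835187120617611783115852746882) (CTree.cons CTree.nil (CTree.cons CTree.nil (CTree.cons (CTree.leaf 1 738059546482570019744573803366838890664102019) (CTree.cons CTree.nil (CTree.cons (CTree.leaf 1 14987631703953069077232988037745038917403484554) (CTree.cons (CTree.leaf 1 103365392051832192338422158217752061242516308229) (CTree.cons CTree.nil (CTree.cons CTree.nil (CTree.cons CTree.nil (CTree.cons (CTree.leaf 1 736666089483389710012391142294386897787880080) (CTree.cons (CTree.leaf 1 48595458741822648210117078641248010868535337362) (CTree.cons (CTree.leaf 1 103365392051126718227620685693504094925805846789) (CTree.cons CTree.nil (CTree.cons CTree.nil (CTree.cons CTree.nil (CTree.cons CTree.nil (CTree.cons CTree.nil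 (CTree.cons CTree.nil (CTree.cons CTree.nil (CTree.cons CTree.nil (CTree.cons CTree.nil (CTree.cons CTree.nil (CTree.cons CTree.nil (CTree.cons CTree.nil (CTree.cons CTree.nil (CTree.cons CTree.nil (CTree.cons (CTree.leaf 1 783379220647955770031795673521690330028565458059653) (CTree.cons (CTree.leaf 1 48243897070481767237592731473848361898375662272773) (CTree.cons (CTree.leaf 1 48243897070481767237592731473848361898375662272773) (CTree.cons CTree.nil CTree.nil)))))))))))))))))))))))))))))))))))) (CTree.cons (CTree.cons CTree.nil (CTree.cons (CTree.leaf 1 5888973964543760547307412401279855657008431137) (CTree.cons CTree.nil (CTree.cons (CTree.leaf 1 225980732923779343497692723935643728679042) (CTree.cons CTree.nil (CTree.cons (CTree.leaf 1 983690933020946909618629645724530496158001141514904) (CTree.cons CTree.nil (CTree.cons CTree.nil (CTree.cons CTree.nil (CTree.cons (CTree.leaf 1 45270910241926731520448571034678694904472) (CTree.cons (CTree.leaf 1 225948156605961565267511234368090191561377) (CTree.cons (CTree.leaf 1 176947495769336506126160100302003330744453) (CTree.cons CTree.nil (CTree.cons (CTree.leaf 1 139917799775597077651811956509662464670481711493)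 (CTree.cons CTree.nil (CTree.cons CTree.nil (CTree.cons (CTree.leaf 1 220505051029184166095003436647459458195858) (CTree.cons (CTree.leaf 1 103365484970180817380262008831776995646295376005) (CTree.cons CTree.nil (CTree.cons CTree.nil (CTree.cons CTree.nil (CTree.cons CTree.nil (CTree.cons CTree.nil (CTree.cons CTree.nil (CTree.cons CTree.nil (CTree.cons CTree.nil (CTree.cons CTree.nil (CTree.cons CTree.nil (CTree.cons CTree.nil (CTree.cons CTree.nil (CTree.cons CTree.nil (CTree.cons (CTree.leaf 1 970488714990095484082786184311117616319661621707141) (CTree.cons CTree.nil (CTree.cons (CTree.leaf 1 48281181834266530336656025107967014656118249029765) (CTree.cons (CTree.leaf 1 48281180477580728612020827088630894662597268406405) (CTree.cons CTree.nil CTree.nil)))))))))))))))))))))))))))))))))))) (CTree.cons CTree.nil (CTree.cons (CTree.cons CTree.nil (CTree.cons (CTree.leaf 1 23360164891934523894107029080780112000) (CTree.cons (CTree.leaf 1 3447695268301737179609715494908661890) (CTree.cons CTree.nil (CTree.cons CTree.nil (CTree.cons (CTree.leaf 1 3495267815823901169433402070480523394) (CTree.cons CTree.nil (CTree.cons CTree.nil (CTree.cons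 (CTree.leaf 1 3364618510974329848015422631703085729) (CTree.cons (CTree.leaf 1 3447695268301807812192747319027898634) (CTree.cons CTree.nil (CTree.cons (CTree.leaf 1 23360164482937994157003372257326737930) (CTree.cons CTree.nil (CTree.cons (CTree.leaf 1 97298162552450220142181255956993148543538627216) (CTree.cons CTree.nil (CTree.cons (CTree.leaf 1 3364618510810112006378093627184579233) (CTree.cons CTree.nil (CTree.cons (CTree.leaf 1 1994339076443690187911224206284630546) (CTree.cons CTree.nil (CTree.cons CTree.nil (CTree.cons CTree.nil (CTree.cons CTree.nil (CTree.cons CTree.nil (CTree.cons CTree.nil (CTree.cons CTree.nil (CTree.cons CTree.nil (CTree.cons CTree.nil (CTree.cons CTree.nil (CTree.cons CTree.nil (CTree.cons CTree.nil (CTree.cons CTree.nil (CTree.cons (CTree.leaf 1 737455544574613890840328258330459039979274501) (CTree.cons (CTree.leaf 1 736145117885764583826860262048146544713072773) (CTree.cons (CTree.leaf 1 736145117885764583826860262048146544713072773) (CTree.cons CTree.nil (CTree.cons CTree.nil CTree.nil)))))))))))))))))))))))))))))))))))) (CTree.cons (CTree.cons CTree.nil (CTree.cons (CTree.leaf 1 2035736816374123394895509120244908160)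 (CTree.cons (CTree.leaf 1 664970446043601176181832876641882242) (CTree.cons (CTree.leaf 1 33241094630192835534978197990162436226) (CTree.cons CTree.nil (CTree.cons CTree.nil (CTree.cons CTree.nil (CTree.cons CTree.nil (CTree.cons (CTree.leaf 1 2783081262818429152394993958395707784) (CTree.cons (CTree.leaf 1 2783092032564396871527169944821831946) (CTree.cons (CTree.leaf 1 23360153712862030083988318189461840266) (CTree.cons CTree.nil (CTree.cons CTree.nil (CTree.cons (CTree.leaf 1 737362647488790535672335134243406246728171781) (CTree.cons CTree.nil (CTree.cons (CTree.leaf 1 2076939659803657805403260515218696730) (CTree.cons (CTree.leaf 1 1994339076443649898455351115755692434) (CTree.cons CTree.nil (CTree.cons CTree.nil (CTree.cons CTree.nil (CTree.cons CTree.nil (CTree.cons CTree.nil (CTree.cons CTree.nil (CTree.cons CTree.nil (CTree.cons CTree.nil (CTree.cons CTree.nil (CTree.cons CTree.nil (CTree.cons CTree.nil (CTree.cons CTree.nil (CTree.cons CTree.nil (CTree.cons CTree.nil (CTree.cons (CTree.leaf 1 11954730378724183502691394978733390781154853125) (CTree.cons (CTree.leaf 1 11953210657101645218427747605558723703905845381) (CTree.cons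 CTree.nil (CTree.cons (CTree.leaf 1 11953332840460736250802074668762929991920517253) (CTree.cons CTree.nil CTree.nil)))))))))))))))))))))))))))))))))))) (CTree.cons CTree.nil (CTree.cons CTree.nil (CTree.cons CTree.nil (CTree.cons CTree.nil (CTree.cons CTree.nil (CTree.cons CTree.nil (CTree.cons CTree.nil (CTree.cons (CTree.cons CTree.nil (CTree.cons CTree.nil (CTree.cons (CTree.leaf 1 48594901052331513370856100554882991695899725954) (CTree.cons (CTree.leaf 1 94243690687716126453845354034854895839343739553) (CTree.cons CTree.nil (CTree.cons (CTree.leaf 1 15012060959725006823136834009025255120677572738) (CTree.cons CTree.nil (CTree.cons CTree.nil (CTree.cons (CTree.leaf 1 737501832899016064429334342024075628714721944) (CTree.cons (CTree.leaf 1 737501856285099478390958417392820393756721413) (CTree.cons (CTree.leaf 1 737455545986918631090766464060297426636505349) (CTree.cons CTree.nil (CTree.cons CTree.nil (CTree.cons CTree.nil (CTree.cons CTree.nil (CTree.cons (CTree.leaf 1 736147840850852316193805657827744340642955525) (CTree.cons (CTree.leaf 1 14988235727636999135392491246280159512694489477) (CTree.cons (CTree.leaf 1 103365484947501542974201939809663245801415573765)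 (CTree.cons CTree.nil (CTree.cons CTree.nil (CTree.cons (CTree.leaf 1 48372327070245526398034893416060292839456252627075) (CTree.cons CTree.nil (CTree.cons (CTree.leaf 1 737455544574613890840328258906919792282697989) (CTree.cons (CTree.leaf 1 11954730380141669690813176246039828920663605509) (CTree.cons CTree.nil (CTree.cons CTree.nil (CTree.cons CTree.nil (CTree.cons CTree.nil (CTree.cons CTree.nil (CTree.cons CTree.nil (CTree.cons CTree.nil (CTree.cons CTree.nil (CTree.cons CTree.nil (CTree.cons CTree.nil (CTree.cons CTree.nil (CTree.cons CTree.nil CTree.nil)))))))))))))))))))))))))))))))))))) (CTree.cons (CTree.cons CTree.nil (CTree.cons (CTree.leaf 1 103363997914975768550243671005042223015961231393) (CTree.cons CTree.nil (CTree.cons (CTree.leaf 1 188536632842001301010140426784950193473015576068769) (CTree.cons CTree.nil (CTree.cons (CTree.leaf 1 983690933158761268200535032198402898323398520865440) (CTree.cons CTree.nil (CTree.cons CTree.nil (CTree.cons CTree.nil (CTree.cons (CTree.leaf 1 736014450163527557308507344860810084467998853) (CTree.cons (CTree.leaf 1 3383377027876618138872167611967426643085040591307141) (CTree.cons (CTree.leaf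 1 103364043853094451580229916327557416576862519429) (CTree.cons CTree.nil (CTree.cons (CTree.leaf 1 48238498207977244552168746436813700462431759827333) (CTree.cons CTree.nil (CTree.cons (CTree.leaf 1 736145118591916956587596819528302841580028037) (CTree.cons (CTree.leaf 1 14986190608128812676100115365625364752941318277) (CTree.cons CTree.nil (CTree.cons CTree.nil (CTree.cons (CTree.leaf 1 51626407558523563506524815844856719796015796899) (CTree.cons CTree.nil (CTree.cons CTree.nil (CTree.cons (CTree.leaf 1 736145117885764583826860262048155340806094981) (CTree.cons (CTree.leaf 1 11954730380141355788833259424089984134421282949) (CTree.cons CTree.nil (CTree.cons CTree.nil (CTree.cons CTree.nil (CTree.cons CTree.nil (CTree.cons CTree.nil (CTree.cons CTree.nil (CTree.cons CTree.nil (CTree.cons CTree.nil (CTree.cons CTree.nil (CTree.cons CTree.nil (CTree.cons CTree.nil (CTree.cons CTree.nil CTree.nil)))))))))))))))))))))))))))))))))))) (CTree.cons (CTree.cons CTree.nil (CTree.cons (CTree.leaf 1 48594900996540608619344683416155393891300868744) (CTree.cons (CTree.leaf 1 48593552481415097255331182180794055961130897538) (CTree.cons CTree.nil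 (CTree.cons CTree.nil (CTree.cons (CTree.leaf 1 15012060959725006823136753471078266275591426178) (CTree.cons CTree.nil (CTree.cons CTree.nil (CTree.cons (CTree.leaf 1 736145118591927721241528590453465470332109473) (CTree.cons CTree.nil (CTree.cons (CTree.leaf 1 14986112026091197936271778844479465477603197189) (CTree.cons (CTree.leaf 1 103364043853094451580229916327557416576862519429) (CTree.cons CTree.nil (CTree.cons (CTree.leaf 1 6774060825176563830586829664417825973632757269594373) (CTree.cons CTree.nil (CTree.cons CTree.nil (CTree.cons (CTree.leaf 1 14986190631317956667987699567127309141322891397) (CTree.cons (CTree.leaf 1 103365484925730242246644634120921554901600960645) (CTree.cons CTree.nil (CTree.cons (CTree.leaf 1 106397643097224549279752765506696271931008680464) (CTree.cons (CTree.leaf 1 958750963063013668633886080282036850748954807173253) (CTree.cons CTree.nil (CTree.cons (CTree.leaf 1 736145117885764583826860262048155340806094981) (CTree.cons CTree.nil (CTree.cons CTree.nil (CTree.cons CTree.nil (CTree.cons CTree.nil (CTree.cons CTree.nil (CTree.cons CTree.nil (CTree.cons CTree.nil (CTree.cons CTree.nil (CTree.cons CTree.nil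 (CTree.cons CTree.nil (CTree.cons CTree.nil (CTree.cons CTree.nil (CTree.cons CTree.nil CTree.nil)))))))))))))))))))))))))))))))))))) (CTree.cons (CTree.cons CTree.nil (CTree.cons (CTree.leaf 1 14451624387992016907764509439192244109988397089) (CTree.cons (CTree.leaf 1 48593549735262063046493324393705056904347848834) (CTree.cons (CTree.leaf 1 3184612803713209364972725586455435999900767665328667) (CTree.cons CTree.nil (CTree.cons CTree.nil (CTree.cons CTree.nil (CTree.cons CTree.nil (CTree.cons (CTree.leaf 1 736145118591927721241528590453465470332109473) (CTree.cons (CTree.leaf 1 736014450163527557308507344860810084467998853) (CTree.cons CTree.nil (CTree.cons (CTree.leaf 1 103365484947500864712242675776431064617360949509) (CTree.cons CTree.nil (CTree.cons (CTree.leaf 1 958848438054308842390320399677544185751460607230213) (CTree.cons CTree.nil (CTree.cons (CTree.leaf 1 736145118591916956587596819528302841580028037) (CTree.cons CTree.nil (CTree.cons (CTree.leaf 1 103365484926934176855595781572689608671814090885) (CTree.cons CTree.nil (CTree.cons (CTree.leaf 1 48281180480280982917728337642660622416177436627483) (CTree.cons (CTree.leaf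 1 958750961497046064712137002690735512915216590110853) (CTree.cons CTree.nil (CTree.cons CTree.nil (CTree.cons (CTree.leaf 1 11954730380141337487406980493358979365125881989) (CTree.cons CTree.nil (CTree.cons CTree.nil (CTree.cons CTree.nil (CTree.cons CTree.nil (CTree.cons CTree.nil (CTree.cons CTree.nil (CTree.cons CTree.nil (CTree.cons CTree.nil (CTree.cons CTree.nil (CTree.cons CTree.nil (CTree.cons CTree.nil (CTree.cons CTree.nil CTree.nil)))))))))))))))))))))))))))))))))))) (CTree.cons CTree.nil CTree.nil)))))))))))))))))))))))))))))))))))

theorem tree6_4_0_ok : chk 6 (pk (goalL 6)) tree6_4_0 (stk [((4 : Fin 6), (0 : Fin 6))]) 1 (om [((4 : Fin 6), (0 : Fin 6))]) (im [((4 : Fin 6), (0 : Fin 6))])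
    (cm [((4 : Fin 6), (0 : Fin 6))]) (pk (goalR [((4 : Fin 6), (0 : Fin 6))])) 0 = true := by
  decide +kernel

def tree6_4_1 : CTree :=
  CTree.cons CTree.nil (CTree.cons CTree.nil (CTree.cons (CTree.cons CTree.nil (CTree.cons CTree.nil (CTree.cons CTree.nil (CTree.cons CTree.nil (CTree.cons CTree.nil (CTree.cons CTree.nil (CTree.cons (CTree.leaf 1 3932909940037777482497079811696184844586285815828610) (CTree.cons CTree.nil (CTree.cons CTree.nil (CTree.cons (CTree.leaf 1 915733132049342954512059204989950063349890) (CTree.cons CTree.nil (CTree.cons (CTree.leaf 1 2856108324625751314307143613661401743124202000) (CTree.cons CTree.nil (CTree.cons CTree.nil (CTree.cons CTree.nil (CTree.cons (CTree.leaf 1 664981233436329607898163060121079938) (CTree.cons (CTree.leaf 1 915701178987783160475221138554573733105794) (CTree.cons (CTree.leaf 1 2061351999646658101398452192909856898) (CTree.cons (CTree.leaf 1 223624269215539392299356901921378067011140178739328) (CTree.cons CTree.nil (CTree.cons CTree.nil (CTree.cons CTree.nil (CTree.cons (CTree.leaf 1 664970458406227667948250338143834242) (CTree.cons (CTree.leaf 1 2061351999482203900588421630291218562)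 (CTree.cons CTree.nil (CTree.cons CTree.nil (CTree.cons CTree.nil (CTree.cons CTree.nil (CTree.cons CTree.nil (CTree.cons CTree.nil (CTree.cons (CTree.leaf 1 187075621774776316962097990686321953107155683574433) (CTree.cons CTree.nil (CTree.cons CTree.nil (CTree.cons (CTree.leaf 1 235304619024447783955499244341971812657888008667672) (CTree.cons (CTree.leaf 1 223624269215517564054023561859683317970873954140288) (CTree.cons CTree.nil CTree.nil)))))))))))))))))))))))))))))))))))) (CTree.cons (CTree.cons CTree.nil (CTree.cons CTree.nil (CTree.cons CTree.nil (CTree.cons CTree.nil (CTree.cons CTree.nil (CTree.cons CTree.nil (CTree.cons (CTree.leaf 1 60011486732988590651758482722087443822917783682) (CTree.cons CTree.nil (CTree.cons (CTree.leaf 1 33241094635148338151453928338795597954) (CTree.cons CTree.nil (CTree.cons CTree.nil (CTree.cons (CTree.leaf 1 918765158201047590484805598590979034189954) (CTree.cons (CTree.leaf 1 3932903760732515651643533072747065440862844437463193) (CTree.cons CTree.nil (CTree.cons CTree.nil (CTree.cons CTree.nil (CTree.cons (CTree.leaf 1 222249008412496834051844450501090521780354) (CTree.cons (CTree.leaf 1 2856108346485158039816980935112401486144406177)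 (CTree.cons CTree.nil (CTree.cons CTree.nil (CTree.cons (CTree.leaf 1 94778210673258462685490764509718289189618653450) (CTree.cons CTree.nil (CTree.cons (CTree.leaf 1 915701932002504838377092773248430289522818) (CTree.cons (CTree.leaf 1 43580754667549832015514670203246851140122) (CTree.cons CTree.nil (CTree.cons CTree.nil (CTree.cons CTree.nil (CTree.cons CTree.nil (CTree.cons CTree.nil (CTree.cons CTree.nil (CTree.cons (CTree.leaf 1 3932903760732515651643533072747065440862844437463193) (CTree.cons CTree.nil (CTree.cons (CTree.leaf 1 14563220647392479724047555012107053636735664801) (CTree.cons CTree.nil (CTree.cons (CTree.leaf 1 3932912680942485145448870935306745890062863091957888) (CTree.cons CTree.nil CTree.nil)))))))))))))))))))))))))))))))))))) (CTree.cons (CTree.cons CTree.nil (CTree.cons CTree.nil (CTree.cons CTree.nil (CTree.cons CTree.nil (CTree.cons CTree.nil (CTree.cons CTree.nil (CTree.cons CTree.nil (CTree.cons CTree.nil (CTree.cons (CTree.leaf 1 182776171066215782105007311662016930975874) (CTree.cons (CTree.leaf 1 43580210115107541640379177915394260865154) (CTree.cons CTree.nil (CTree.cons (CTree.leaf 1 43580210115741057639231488955274295382146)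 (CTree.cons (CTree.leaf 1 187177915990590169716330181105411798848808013136025) (CTree.cons CTree.nil (CTree.cons CTree.nil (CTree.cons (CTree.leaf 1 182776171066215782105007273381420098326658) (CTree.cons CTree.nil (CTree.cons (CTree.leaf 1 3621309015922487727431915525751275390046338) (CTree.cons (CTree.leaf 1 223621526918044817495554824092766787619345224499328) (CTree.cons CTree.nil (CTree.cons (CTree.leaf 1 11954645627136798440854763442142866255256951050) (CTree.cons CTree.nil (CTree.cons CTree.nil (CTree.cons (CTree.leaf 1 3667596591972918693583861789626676716638338) (CTree.cons CTree.nil (CTree.cons CTree.nil (CTree.cons CTree.nil (CTree.cons CTree.nil (CTree.cons CTree.nil (CTree.cons CTree.nil (CTree.cons (CTree.leaf 1 223715456923840047466847243629036004217458930090253) (CTree.cons CTree.nil (CTree.cons (CTree.leaf 1 223612606537968538874222006397537288390660935850250) (CTree.cons (CTree.leaf 1 223612605186706008304066058948118187910863022924178) (CTree.cons CTree.nil (CTree.cons CTree.nil CTree.nil)))))))))))))))))))))))))))))))))))) (CTree.cons (CTree.cons CTree.nil (CTree.cons CTree.nil (CTree.cons CTree.nil (CTree.cons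 CTree.nil (CTree.cons CTree.nil (CTree.cons CTree.nil (CTree.cons (CTree.leaf 1 15008445097408271332682194319668595129051259282) (CTree.cons CTree.nil (CTree.cons (CTree.leaf 1 229010827369355272830944714597917117391250) (CTree.cons (CTree.leaf 1 229010697897462595823688045483735565605130) (CTree.cons CTree.nil (CTree.cons CTree.nil (CTree.cons (CTree.leaf 1 15008493055232466940188760506425530751159378322) (CTree.cons CTree.nil (CTree.cons CTree.nil (CTree.cons (CTree.leaf 1 229010827369357421132358445700230934700434) (CTree.cons (CTree.leaf 1 229032686941107437018685135621948343195914) (CTree.cons CTree.nil (CTree.cons (CTree.leaf 1 15008493055232437227139893201460357665971773842) (CTree.cons CTree.nil (CTree.cons (CTree.leaf 1 229010697908240107812519907556838164666634) (CTree.cons CTree.nil (CTree.cons (CTree.leaf 1 229010697563282836524262652223773519126930) (CTree.cons CTree.nil (CTree.cons CTree.nil (CTree.cons CTree.nil (CTree.cons CTree.nil (CTree.cons CTree.nil (CTree.cons CTree.nil (CTree.cons CTree.nil (CTree.cons CTree.nil (CTree.cons CTree.nil (CTree.cons (CTree.leaf 1 15008536611375403109751221137607227834127096074)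 (CTree.cons (CTree.leaf 1 15008493055232466937711751670393697357191717266) (CTree.cons (CTree.leaf 1 15008493055232437227139893201460357665971773842) (CTree.cons CTree.nil CTree.nil)))))))))))))))))))))))))))))))))))) (CTree.cons (CTree.cons CTree.nil (CTree.cons CTree.nil (CTree.cons (CTree.leaf 1 105705709199886151894571747491815001025323008537) (CTree.cons (CTree.leaf 1 1612941187206703001847040096055633846538370) (CTree.cons CTree.nil (CTree.cons (CTree.leaf 1 15008453582478207951330245606670506253753786770) (CTree.cons CTree.nil (CTree.cons CTree.nil (CTree.cons CTree.nil (CTree.cons CTree.nil (CTree.cons CTree.nil (CTree.cons CTree.nil (CTree.cons CTree.nil (CTree.cons CTree.nil (CTree.cons CTree.nil (CTree.cons (CTree.leaf 1 787757003172854564241323255420573743382789) (CTree.cons (CTree.leaf 1 217782735008422875761129291755286481674642) (CTree.cons (CTree.leaf 1 1577209435973437297999493935543610422460677) (CTree.cons CTree.nil (CTree.cons CTree.nil (CTree.cons (CTree.leaf 1 3582154853264959433903109074757721302481881609535877) (CTree.cons CTree.nil (CTree.cons (CTree.leaf 1 787757002867508604452900014402934313910533) (CTree.cons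 (CTree.leaf 1 179669755029143028560451460876721981096197) (CTree.cons CTree.nil (CTree.cons CTree.nil (CTree.cons CTree.nil (CTree.cons CTree.nil (CTree.cons CTree.nil (CTree.cons CTree.nil (CTree.cons CTree.nil (CTree.cons CTree.nil (CTree.cons (CTree.leaf 1 13167856250074371503377987425606879745216607748632) (CTree.cons (CTree.leaf 1 3582140713984422267694664285379323379820277713142297) (CTree.cons (CTree.leaf 1 3582152287894573756656107679879615463062811615232537) (CTree.cons CTree.nil CTree.nil)))))))))))))))))))))))))))))))))))) (CTree.cons CTree.nil (CTree.cons (CTree.cons CTree.nil (CTree.cons CTree.nil (CTree.cons CTree.nil (CTree.cons (CTree.leaf 1 33241094635148338151453928338795597954) (CTree.cons (CTree.leaf 1 182776171066215782105007311662016796758146) (CTree.cons (CTree.leaf 1 229010827369355272830944714597917117391250) (CTree.cons CTree.nil (CTree.cons CTree.nil (CTree.cons CTree.nil (CTree.cons CTree.nil (CTree.cons CTree.nil (CTree.cons CTree.nil (CTree.cons (CTree.leaf 1 137136577437337597484472025554352617357952) (CTree.cons CTree.nil (CTree.cons CTree.nil (CTree.cons (CTree.leaf 1 3489264450050252048946955206787728033)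 (CTree.cons CTree.nil (CTree.cons (CTree.leaf 1 665111085773588102261790717259158043) (CTree.cons (CTree.leaf 1 217782807700586476425037992983776416309378) (CTree.cons CTree.nil (CTree.cons CTree.nil (CTree.cons CTree.nil (CTree.cons (CTree.leaf 1 3447715933977169094017597850866287265) (CTree.cons (CTree.leaf 1 2783081262818542432155614413542468122) (CTree.cons CTree.nil (CTree.cons CTree.nil (CTree.cons CTree.nil (CTree.cons CTree.nil (CTree.cons CTree.nil (CTree.cons CTree.nil (CTree.cons (CTree.leaf 1 137136577315803450679797820527010196816512) (CTree.cons CTree.nil (CTree.cons CTree.nil (CTree.cons (CTree.leaf 1 137177004214306682087164295861302062023193) (CTree.cons (CTree.leaf 1 137158405406961264786664378600048041722392) (CTree.cons CTree.nil CTree.nil)))))))))))))))))))))))))))))))))))) (CTree.cons (CTree.cons CTree.nil (CTree.cons CTree.nil (CTree.cons (CTree.leaf 1 218834844595260981339068008969688766288002) (CTree.cons CTree.nil (CTree.cons (CTree.leaf 1 43580210115107541640378601454641957441666) (CTree.cons (CTree.leaf 1 229010697897462595823688045483735565605130) (CTree.cons CTree.nil (CTree.cons CTree.nil (CTree.cons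 CTree.nil (CTree.cons CTree.nil (CTree.cons CTree.nil (CTree.cons CTree.nil (CTree.cons (CTree.leaf 1 14874773016613928361320434096829010028505203361) (CTree.cons CTree.nil (CTree.cons CTree.nil (CTree.cons CTree.nil (CTree.cons (CTree.leaf 1 3489233635743655122135435088187496714) (CTree.cons (CTree.leaf 1 24066306090903314333856108943691094282) (CTree.cons (CTree.leaf 1 217783472314584378514093356656870929596677) (CTree.cons CTree.nil (CTree.cons (CTree.leaf 1 14874773016613928371551533019385936726018033931) (CTree.cons CTree.nil (CTree.cons CTree.nil (CTree.cons (CTree.leaf 1 2783081262818504653187698019796654346) (CTree.cons CTree.nil (CTree.cons CTree.nil (CTree.cons CTree.nil (CTree.cons CTree.nil (CTree.cons CTree.nil (CTree.cons CTree.nil (CTree.cons (CTree.leaf 1 217783472314584378514093356656870929596677) (CTree.cons CTree.nil (CTree.cons (CTree.leaf 1 14876731979654785027442657236659472728045781509) (CTree.cons CTree.nil (CTree.cons (CTree.leaf 1 217783472314584378514093356656870929596677) (CTree.cons CTree.nil CTree.nil)))))))))))))))))))))))))))))))))))) (CTree.cons CTree.nil (CTree.cons (CTree.cons CTree.nil (CTree.cons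 CTree.nil (CTree.cons (CTree.leaf 1 11774837021761739179935383750953409006050288018) (CTree.cons (CTree.leaf 1 1612971660340453070343200798206767289405570) (CTree.cons (CTree.leaf 1 182776171066215652674314182388510091841666) (CTree.cons CTree.nil (CTree.cons CTree.nil (CTree.cons CTree.nil (CTree.cons CTree.nil (CTree.cons CTree.nil (CTree.cons CTree.nil (CTree.cons CTree.nil (CTree.cons (CTree.leaf 1 11976285544643523226902956225357804172084314501) (CTree.cons CTree.nil (CTree.cons CTree.nil (CTree.cons (CTree.leaf 1 24066306085622806783314357943825148426) (CTree.cons (CTree.leaf 1 217782791768823230199704688169425399059076) (CTree.cons CTree.nil (CTree.cons (CTree.leaf 1 24520700378189637743755901267582493218347570931164119301) (CTree.cons CTree.nil (CTree.cons (CTree.leaf 1 11955377937485595564797251016627202484460388741) (CTree.cons CTree.nil (CTree.cons (CTree.leaf 1 23360153712862070225834210443051215370) (CTree.cons CTree.nil (CTree.cons CTree.nil (CTree.cons CTree.nil (CTree.cons CTree.nil (CTree.cons CTree.nil (CTree.cons CTree.nil (CTree.cons CTree.nil (CTree.cons (CTree.leaf 1 50572727098700634228410874989697258666177240707599237381)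 (CTree.cons CTree.nil (CTree.cons (CTree.leaf 1 51472254852567046063642832886848561055789023621) (CTree.cons (CTree.leaf 1 11975543730454280417846640232283170405554913541) (CTree.cons CTree.nil (CTree.cons CTree.nil CTree.nil)))))))))))))))))))))))))))))))))))) (CTree.cons (CTree.cons CTree.nil (CTree.cons CTree.nil (CTree.cons CTree.nil (CTree.cons (CTree.leaf 1 6927529535833494041116785723277536619120989751541913) (CTree.cons (CTree.leaf 1 580228104750738667007991995072243447544525726810265) (CTree.cons (CTree.leaf 1 11775022475521732933244457879465437174486540690) (CTree.cons CTree.nil (CTree.cons CTree.nil (CTree.cons (CTree.leaf 1 217783498094710748033259244895563161344130) (CTree.cons (CTree.leaf 1 3582280427979215454102654420906361445787569926832645) (CTree.cons CTree.nil (CTree.cons (CTree.leaf 1 3582152467085223233119337748077126556944610246066565) (CTree.cons CTree.nil (CTree.cons CTree.nil (CTree.cons CTree.nil (CTree.cons CTree.nil (CTree.cons CTree.nil (CTree.cons CTree.nil (CTree.cons CTree.nil (CTree.cons CTree.nil (CTree.cons (CTree.leaf 1 3582234756835005810672591150791181549301053532471813) (CTree.cons CTree.nil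 (CTree.cons (CTree.leaf 1 787786255943174744862011584888113147740549) (CTree.cons (CTree.leaf 1 182392013467041689978413151044565460451717) (CTree.cons CTree.nil (CTree.cons CTree.nil (CTree.cons CTree.nil (CTree.cons CTree.nil (CTree.cons CTree.nil (CTree.cons CTree.nil (CTree.cons CTree.nil (CTree.cons CTree.nil (CTree.cons (CTree.leaf 1 3383390629932605328410495144545370125907239019675665) (CTree.cons (CTree.leaf 1 3383390632632035453141288020926076427523738488602641) (CTree.cons (CTree.leaf 1 783416504053302144780472349619749496785792176160785) (CTree.cons CTree.nil CTree.nil)))))))))))))))))))))))))))))))))))) (CTree.cons CTree.nil (CTree.cons CTree.nil (CTree.cons (CTree.cons CTree.nil (CTree.cons CTree.nil (CTree.cons (CTree.leaf 1 664981233436329607898163060121079938) (CTree.cons CTree.nil (CTree.cons (CTree.leaf 1 182776171066215782105007273381419964108930) (CTree.cons (CTree.leaf 1 229010827369357421132358445700230934700434) (CTree.cons (CTree.leaf 1 90858715718772591068332059400312446320901) (CTree.cons CTree.nil (CTree.cons (CTree.leaf 1 3489264450050252048946955206787728033) (CTree.cons CTree.nil (CTree.cons CTree.nil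 (CTree.cons (CTree.leaf 1 24066306085622806783314357943825148426) (CTree.cons CTree.nil (CTree.cons CTree.nil (CTree.cons CTree.nil (CTree.cons CTree.nil (CTree.cons CTree.nil (CTree.cons CTree.nil (CTree.cons (CTree.leaf 1 90899931987421346910576933373235256951301) (CTree.cons CTree.nil (CTree.cons CTree.nil (CTree.cons CTree.nil (CTree.cons (CTree.leaf 1 3406167417904086138394706046475174561) (CTree.cons (CTree.leaf 1 2783081262654090741759231703610632730) (CTree.cons CTree.nil (CTree.cons CTree.nil (CTree.cons CTree.nil (CTree.cons CTree.nil (CTree.cons CTree.nil (CTree.cons CTree.nil (CTree.cons (CTree.leaf 1 90858715413431911938466137908920886231301) (CTree.cons CTree.nil (CTree.cons (CTree.leaf 1 217782101852286753889524846566004031095301) (CTree.cons CTree.nil (CTree.cons (CTree.leaf 1 90880003505716438423259328810340492247301) (CTree.cons CTree.nil CTree.nil)))))))))))))))))))))))))))))))))))) (CTree.cons (CTree.cons CTree.nil (CTree.cons CTree.nil (CTree.cons (CTree.leaf 1 3323445531432669089425666275896594562) (CTree.cons (CTree.leaf 1 5775936618525024563915330718420958789770023042) (CTree.cons CTree.nil (CTree.cons (CTree.leaf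 1 229032686941107437018685135621948343195914) (CTree.cons (CTree.leaf 1 226970358549890404722015948987100546802066) (CTree.cons CTree.nil (CTree.cons CTree.nil (CTree.cons (CTree.leaf 1 3489233635743655122135435088187496714) (CTree.cons CTree.nil (CTree.cons (CTree.leaf 1 1577209435486746276888471679026267073151237) (CTree.cons CTree.nil (CTree.cons CTree.nil (CTree.cons CTree.nil (CTree.cons CTree.nil (CTree.cons CTree.nil (CTree.cons CTree.nil (CTree.cons (CTree.leaf 1 217813997787082355183865292670414848397956) (CTree.cons CTree.nil (CTree.cons (CTree.leaf 1 226970359036821571615503904412915116089746) (CTree.cons CTree.nil (CTree.cons CTree.nil (CTree.cons (CTree.leaf 1 2076928889893354184239960951262683538) (CTree.cons CTree.nil (CTree.cons CTree.nil (CTree.cons CTree.nil (CTree.cons CTree.nil (CTree.cons CTree.nil (CTree.cons CTree.nil (CTree.cons (CTree.leaf 1 217782766121485701878072628383912777880196) (CTree.cons CTree.nil (CTree.cons (CTree.leaf 1 226970358549892869603427547737055895298450) (CTree.cons (CTree.leaf 1 217782766121485701878072628383912777880196) (CTree.cons CTree.nil (CTree.cons CTree.nil CTree.nil))))))))))))))))))))))))))))))))))))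 (CTree.cons (CTree.cons CTree.nil (CTree.cons CTree.nil (CTree.cons (CTree.leaf 1 665294890324594941901980065988415618) (CTree.cons (CTree.leaf 1 2854675077155850101171462348524872582041240225) (CTree.cons (CTree.leaf 1 182776171066215488293809768316288488247426) (CTree.cons CTree.nil (CTree.cons (CTree.leaf 1 5820585354202345072656232414427095342482788996) (CTree.cons CTree.nil (CTree.cons (CTree.leaf 1 24066326759219045145061417903447943698) (CTree.cons (CTree.leaf 1 24066306085622806929157522671895976202) (CTree.cons CTree.nil (CTree.cons CTree.nil (CTree.cons CTree.nil (CTree.cons CTree.nil (CTree.cons CTree.nil (CTree.cons CTree.nil (CTree.cons CTree.nil (CTree.cons CTree.nil (CTree.cons (CTree.leaf 1 54324706161800871114584150744615514214513049861) (CTree.cons CTree.nil (CTree.cons (CTree.leaf 1 11774837043621501637258393817674526826799628677) (CTree.cons CTree.nil (CTree.cons (CTree.leaf 1 2076928889893354186585490162003814930) (CTree.cons CTree.nil (CTree.cons CTree.nil (CTree.cons CTree.nil (CTree.cons CTree.nil (CTree.cons CTree.nil (CTree.cons CTree.nil (CTree.cons CTree.nil (CTree.cons (CTree.leaf 1 3560221400595675638728179597278306096001574976422277)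 (CTree.cons CTree.nil (CTree.cons CTree.nil (CTree.cons (CTree.leaf 1 54324706161006783403627524900666110345765519621) (CTree.cons (CTree.leaf 1 54324706161801204818512665273788640137769451781) (CTree.cons CTree.nil CTree.nil)))))))))))))))))))))))))))))))))))) (CTree.cons (CTree.cons CTree.nil (CTree.cons CTree.nil (CTree.cons (CTree.leaf 1 182415960350921471652558210201410826997890) (CTree.cons CTree.nil (CTree.cons (CTree.leaf 1 771678863630000067827784828070694114283240164499858) (CTree.cons (CTree.leaf 1 11774837021803451141385419858946826124846563597) (CTree.cons CTree.nil (CTree.cons CTree.nil (CTree.cons (CTree.leaf 1 834056693490590381603204876552026094903426) (CTree.cons (CTree.leaf 1 834035404768751774618221825858013263167749) (CTree.cons CTree.nil (CTree.cons (CTree.leaf 1 1577209435486746276888471679026267073151237) (CTree.cons CTree.nil (CTree.cons CTree.nil (CTree.cons CTree.nil (CTree.cons (CTree.leaf 1 787796889767141024229136545271512888312325) (CTree.cons (CTree.leaf 1 136124967311149492761851352638580074742021) (CTree.cons (CTree.leaf 1 1577209435475971256417649596936370185568517) (CTree.cons CTree.nil (CTree.cons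 CTree.nil (CTree.cons CTree.nil (CTree.cons CTree.nil (CTree.cons CTree.nil (CTree.cons CTree.nil (CTree.cons CTree.nil (CTree.cons CTree.nil (CTree.cons CTree.nil (CTree.cons CTree.nil (CTree.cons CTree.nil (CTree.cons CTree.nil (CTree.cons CTree.nil (CTree.cons CTree.nil (CTree.cons (CTree.leaf 1 12162671285002766082043832870530413977939284911522329) (CTree.cons (CTree.leaf 1 771673422248172878175286644472739272583433969797523) (CTree.cons (CTree.leaf 1 771673422248172878175286644472739272583433969797523) (CTree.cons CTree.nil CTree.nil)))))))))))))))))))))))))))))))))))) (CTree.cons CTree.nil (CTree.cons (CTree.cons CTree.nil (CTree.cons CTree.nil (CTree.cons CTree.nil (CTree.cons (CTree.leaf 1 2178543592883087252813689095321638334959746) (CTree.cons (CTree.leaf 1 182733692410168060174582999888640483135618) (CTree.cons (CTree.leaf 1 229010697908240107812519907556838164666634) (CTree.cons (CTree.leaf 1 2856026319161086107014319983587810257376712834) (CTree.cons CTree.nil (CTree.cons CTree.nil (CTree.cons (CTree.leaf 1 175929306971899542655043397138810835900682) (CTree.cons CTree.nil (CTree.cons (CTree.leaf 1 182414708823338354255734475696901555093893)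 (CTree.cons (CTree.leaf 1 8808970282726739800154302031608632430357447057) (CTree.cons CTree.nil (CTree.cons CTree.nil (CTree.cons CTree.nil (CTree.cons (CTree.leaf 1 132372545969620113297408166096774351689858) (CTree.cons (CTree.leaf 1 1577209435789635551776371996322927515664773) (CTree.cons CTree.nil (CTree.cons CTree.nil (CTree.cons CTree.nil (CTree.cons CTree.nil (CTree.cons CTree.nil (CTree.cons CTree.nil (CTree.cons CTree.nil (CTree.cons CTree.nil (CTree.cons CTree.nil (CTree.cons CTree.nil (CTree.cons CTree.nil (CTree.cons CTree.nil (CTree.cons (CTree.leaf 1 2856026329135336174959533956202377096281462914) (CTree.cons CTree.nil (CTree.cons CTree.nil (CTree.cons (CTree.leaf 1 8808970282726568036118922283449245677836108177) (CTree.cons (CTree.leaf 1 2856026329135336174959533956202377096281462914) (CTree.cons CTree.nil CTree.nil)))))))))))))))))))))))))))))))))))) (CTree.cons CTree.nil (CTree.cons (CTree.cons CTree.nil (CTree.cons CTree.nil (CTree.cons (CTree.leaf 1 664970458406227667948250338143834242) (CTree.cons (CTree.leaf 1 136486470250214008541014880954902229094530) (CTree.cons CTree.nil (CTree.cons (CTree.leaf 1 229010697563282836524262652223773519126930)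 (CTree.cons (CTree.leaf 1 90858715413426631279908818382673016848645) (CTree.cons CTree.nil (CTree.cons (CTree.leaf 1 3447715933977169094017597850866287265) (CTree.cons CTree.nil (CTree.cons CTree.nil (CTree.cons (CTree.leaf 1 23360153712862070225834210443051215370) (CTree.cons (CTree.leaf 1 90887968489092771689020388867851850678661) (CTree.cons CTree.nil (CTree.cons CTree.nil (CTree.cons (CTree.leaf 1 3406167417904086138394706046475174561) (CTree.cons CTree.nil (CTree.cons (CTree.leaf 1 2076928889893354186585490162003814930) (CTree.cons CTree.nil (CTree.cons CTree.nil (CTree.cons CTree.nil (CTree.cons CTree.nil (CTree.cons CTree.nil (CTree.cons CTree.nil (CTree.cons CTree.nil (CTree.cons CTree.nil (CTree.cons CTree.nil (CTree.cons CTree.nil (CTree.cons CTree.nil (CTree.cons CTree.nil (CTree.cons (CTree.leaf 1 90858715413426631284944741233614776172805) (CTree.cons CTree.nil (CTree.cons (CTree.leaf 1 90887968489092771689020388867851850678661) (CTree.cons (CTree.leaf 1 90858715413426631284944741233614776172805) (CTree.cons CTree.nil (CTree.cons CTree.nil CTree.nil)))))))))))))))))))))))))))))))))))) (CTree.cons (CTree.cons CTree.nil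 (CTree.cons CTree.nil (CTree.cons (CTree.leaf 1 2061351999482203900588421630291218562) (CTree.cons (CTree.leaf 1 33241094634983730528458695436901421186) (CTree.cons (CTree.leaf 1 130701670024046138219806873020071572279426) (CTree.cons CTree.nil (CTree.cons (CTree.leaf 1 381463346197413240966910063352431471860359862817412) (CTree.cons CTree.nil (CTree.cons (CTree.leaf 1 2783101936084711156297931609360902682) (CTree.cons (CTree.leaf 1 2783081262488472940394036377809459466) (CTree.cons CTree.nil (CTree.cons CTree.nil (CTree.cons (CTree.leaf 1 57179284914991100065859215900044557371202142597) (CTree.cons CTree.nil (CTree.cons CTree.nil (CTree.cons (CTree.leaf 1 2783081262654090741759231703610632730) (CTree.cons (CTree.leaf 1 2076928889893354184239960951262683538) (CTree.cons CTree.nil (CTree.cons CTree.nil (CTree.cons CTree.nil (CTree.cons CTree.nil (CTree.cons CTree.nil (CTree.cons CTree.nil (CTree.cons CTree.nil (CTree.cons CTree.nil (CTree.cons CTree.nil (CTree.cons CTree.nil (CTree.cons CTree.nil (CTree.cons CTree.nil (CTree.cons CTree.nil (CTree.cons (CTree.leaf 1 57179293423322385812235471991969393147594670341) (CTree.cons CTree.nil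 (CTree.cons (CTree.leaf 1 57179284946181227287651602490847704755414827397) (CTree.cons CTree.nil (CTree.cons (CTree.leaf 1 57179293423322385812235471991969393147594670341) (CTree.cons CTree.nil CTree.nil)))))))))))))))))))))))))))))))))))) (CTree.cons CTree.nil (CTree.cons CTree.nil (CTree.cons CTree.nil (CTree.cons CTree.nil (CTree.cons CTree.nil (CTree.cons CTree.nil (CTree.cons (CTree.cons CTree.nil (CTree.cons CTree.nil (CTree.cons (CTree.leaf 1 182415960350921471652558210201410826997890) (CTree.cons (CTree.leaf 1 3933006611769370672205623158689216237163667896074913) (CTree.cons (CTree.leaf 1 3932912680894482116953759152197297368260520101150873) (CTree.cons CTree.nil (CTree.cons CTree.nil (CTree.cons CTree.nil (CTree.cons (CTree.leaf 1 217783498276061244797209215761004361226370) (CTree.cons (CTree.leaf 1 834056692861036301103015016759432869183749) (CTree.cons CTree.nil (CTree.cons (CTree.leaf 1 834056147629311067631947267112438497673477) (CTree.cons CTree.nil (CTree.cons CTree.nil (CTree.cons CTree.nil (CTree.cons (CTree.leaf 1 787757002867513885111457333929182183293189) (CTree.cons (CTree.leaf 1 136137558438903145621759520427834353910021)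 (CTree.cons (CTree.leaf 1 1577209435475971256455430143577903131132293) (CTree.cons CTree.nil (CTree.cons CTree.nil (CTree.cons (CTree.leaf 1 3932955566796881156993939068481451798618669428769157) (CTree.cons CTree.nil (CTree.cons (CTree.leaf 1 787757002867508604457935937253876073234693) (CTree.cons (CTree.leaf 1 182392013640071210767209034121298654003461) (CTree.cons CTree.nil (CTree.cons CTree.nil (CTree.cons CTree.nil (CTree.cons CTree.nil (CTree.cons CTree.nil (CTree.cons CTree.nil (CTree.cons CTree.nil (CTree.cons CTree.nil (CTree.cons CTree.nil (CTree.cons CTree.nil (CTree.cons CTree.nil (CTree.cons CTree.nil CTree.nil)))))))))))))))))))))))))))))))))))) (CTree.cons CTree.nil (CTree.cons (CTree.cons CTree.nil (CTree.cons CTree.nil (CTree.cons CTree.nil (CTree.cons (CTree.leaf 1 454005386136596636158462659134797408600385129238454010152) (CTree.cons (CTree.leaf 1 187081063156604166493211269251219267504113726390425) (CTree.cons (CTree.leaf 1 15008453582478218726360347399046466420414355722) (CTree.cons (CTree.leaf 1 51627838075037898376920981987886963345753440792) (CTree.cons CTree.nil (CTree.cons CTree.nil (CTree.cons (CTree.leaf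 1 14272614085465138481805220331353870501665178117) (CTree.cons CTree.nil (CTree.cons (CTree.leaf 1 11975717976937293068824546641590476798485987717) (CTree.cons (CTree.leaf 1 51626362293003779647651076949192276485516886552) (CTree.cons CTree.nil (CTree.cons CTree.nil (CTree.cons (CTree.leaf 1 787796889767141024229136545271512888312325) (CTree.cons (CTree.leaf 1 217805326823731566857067810339802825490821) (CTree.cons CTree.nil (CTree.cons (CTree.leaf 1 11530273045931273185182299323319828594095096448) (CTree.cons CTree.nil (CTree.cons CTree.nil (CTree.cons CTree.nil (CTree.cons (CTree.leaf 1 787786255943174744862011584888113147740549) (CTree.cons (CTree.leaf 1 182403368846999314227740640922956845416837) (CTree.cons CTree.nil (CTree.cons CTree.nil (CTree.cons CTree.nil (CTree.cons CTree.nil (CTree.cons CTree.nil (CTree.cons CTree.nil (CTree.cons CTree.nil (CTree.cons CTree.nil (CTree.cons CTree.nil (CTree.cons CTree.nil (CTree.cons CTree.nil (CTree.cons CTree.nil CTree.nil)))))))))))))))))))))))))))))))))))) (CTree.cons (CTree.cons CTree.nil (CTree.cons CTree.nil (CTree.cons (CTree.leaf 1 43568869652715936057500924257299230429314) (CTree.cons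 CTree.nil (CTree.cons (CTree.leaf 1 182776171066215936805287586886700796809346) (CTree.cons (CTree.leaf 1 15008453582478218726360345037863224951232012690) (CTree.cons (CTree.leaf 1 5955133002830907892150205420342065612156109337) (CTree.cons CTree.nil (CTree.cons (CTree.leaf 1 2831842584211192425993244073723439578415641) (CTree.cons CTree.nil (CTree.cons CTree.nil (CTree.cons (CTree.leaf 1 1577209435486746276888471679026267073151237) (CTree.cons (CTree.leaf 1 5954474906718069655795519953123517494345138713) (CTree.cons CTree.nil (CTree.cons CTree.nil (CTree.cons CTree.nil (CTree.cons (CTree.leaf 1 217805326499928376852969426211458708930821) (CTree.cons (CTree.leaf 1 1577209435475971256417649596936370185568517) (CTree.cons (CTree.leaf 1 5955133024700537424832590907928382139598438937) (CTree.cons CTree.nil (CTree.cons (CTree.leaf 1 12536775318335468985135892996037726336184491768283653) (CTree.cons CTree.nil (CTree.cons (CTree.leaf 1 787757002867508604457935937253876073234693) (CTree.cons CTree.nil (CTree.cons CTree.nil (CTree.cons CTree.nil (CTree.cons CTree.nil (CTree.cons CTree.nil (CTree.cons CTree.nil (CTree.cons CTree.nil (CTree.cons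 CTree.nil (CTree.cons CTree.nil (CTree.cons CTree.nil (CTree.cons CTree.nil (CTree.cons CTree.nil (CTree.cons CTree.nil CTree.nil)))))))))))))))))))))))))))))))))))) (CTree.cons (CTree.cons CTree.nil (CTree.cons CTree.nil (CTree.cons (CTree.leaf 1 6927521173181297434219854913513117243577957003362840) (CTree.cons (CTree.leaf 1 6927529537272876421971766966230167226726909890724513) (CTree.cons CTree.nil (CTree.cons (CTree.leaf 1 11775022498217260518254774779419991002476454290) (CTree.cons (CTree.leaf 1 105705711913447978624790305629796063760090726667) (CTree.cons CTree.nil (CTree.cons (CTree.leaf 1 2134934353508626358512173466909949969891865) (CTree.cons (CTree.leaf 1 834056692861036301103015016759432869183749) (CTree.cons CTree.nil (CTree.cons CTree.nil (CTree.cons (CTree.leaf 1 139915709432273961074013803393121880843482628632) (CTree.cons CTree.nil (CTree.cons CTree.nil (CTree.cons (CTree.leaf 1 787778290959798411596250524830601789309189) (CTree.cons CTree.nil (CTree.cons (CTree.leaf 1 1577209435475971256417649596936370185568517) (CTree.cons (CTree.leaf 1 105705623099750872458055594198358709777284532627) (CTree.cons CTree.nil (CTree.cons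 (CTree.leaf 1 54660564516267884016309311300384547055987065221) (CTree.cons CTree.nil (CTree.cons CTree.nil (CTree.cons (CTree.leaf 1 179669754531676986978607045383447497015557) (CTree.cons CTree.nil (CTree.cons CTree.nil (CTree.cons CTree.nil (CTree.cons CTree.nil (CTree.cons CTree.nil (CTree.cons CTree.nil (CTree.cons CTree.nil (CTree.cons CTree.nil (CTree.cons CTree.nil (CTree.cons CTree.nil (CTree.cons CTree.nil (CTree.cons CTree.nil CTree.nil)))))))))))))))))))))))))))))))))))) (CTree.cons CTree.nil CTree.nil)))))))))))))))))))))))))))))))))))

theorem tree6_4_1_ok : chk 6 (pk (goalL 6)) tree6_4_1 (stk [((4 : Fin 6), (1 : Fin 6))]) 1 (om [((4 : Fin 6), (1 : Fin 6))]) (im [((4 : Fin 6), (1 : Fin 6))])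
    (cm [((4 : Fin 6), (1 : Fin 6))]) (pk (goalR [((4 : Fin 6), (1 : Fin 6))])) 0 = true := by
  decide +kernel

def tree6_4_2 : CTree :=
  CTree.cons CTree.nil (CTree.cons (CTree.cons CTree.nil (CTree.cons CTree.nil (CTree.cons CTree.nil (CTree.cons CTree.nil (CTree.cons CTree.nil (CTree.cons CTree.nil (CTree.cons CTree.nil (CTree.cons CTree.nil (CTree.cons CTree.nil (CTree.cons (CTree.leaf 1 1371133606206737717890980629134835840) (CTree.cons (CTree.leaf 1 176948934055291810352823813680716726272128) (CTree.cons (CTree.leaf 1 89857905377838097259778330667858664161408) (CTree.cons (CTree.leaf 1 11953243335564442580989473808266784475870462080) (CTree.cons CTree.nil (CTree.cons CTree.nil (CTree.cons (CTree.leaf 1 3489265089324100201420743508716748928) (CTree.cons CTree.nil (CTree.cons (CTree.leaf 1 24066327403278957586693691201564049536) (CTree.cons (CTree.leaf 1 2878411804014952206516769597137169455871754368) (CTree.cons CTree.nil (CTree.cons CTree.nil (CTree.cons CTree.nil (CTree.cons (CTree.leaf 1 3447716573086799789814454222736916608) (CTree.cons (CTree.leaf 1 2783427564157767706278880120309153920) (CTree.cons CTree.nil (CTree.cons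 CTree.nil (CTree.cons CTree.nil (CTree.cons CTree.nil (CTree.cons CTree.nil (CTree.cons CTree.nil (CTree.cons (CTree.leaf 1 11954033483146772929273481439864446530369421440) (CTree.cons CTree.nil (CTree.cons CTree.nil (CTree.cons (CTree.leaf 1 105883982111775092682507514971188223914626580608) (CTree.cons (CTree.leaf 1 11954815087760555103145046116947246966336192640) (CTree.cons CTree.nil CTree.nil)))))))))))))))))))))))))))))))))))) (CTree.cons CTree.nil (CTree.cons (CTree.cons CTree.nil (CTree.cons CTree.nil (CTree.cons CTree.nil (CTree.cons CTree.nil (CTree.cons CTree.nil (CTree.cons CTree.nil (CTree.cons (CTree.leaf 1 2857419783475563655168234780260128338556813849) (CTree.cons CTree.nil (CTree.cons CTree.nil (CTree.cons CTree.nil (CTree.cons (CTree.leaf 1 224927309829627700343502180042446836138521) (CTree.cons (CTree.leaf 1 43600765739068045310726123618577814716953) (CTree.cons (CTree.leaf 1 14517828725009174732731716139262218228247101965) (CTree.cons (CTree.leaf 1 89835209848361200355494078322801743037089) (CTree.cons CTree.nil (CTree.cons CTree.nil (CTree.cons CTree.nil (CTree.cons (CTree.leaf 1 3534173327496469948857538056514995249283745)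 (CTree.cons CTree.nil (CTree.cons (CTree.leaf 1 14517828725009174733191107950715777314635448465) (CTree.cons CTree.nil (CTree.cons CTree.nil (CTree.cons (CTree.leaf 1 2082618259123712289565343454041018498) (CTree.cons (CTree.leaf 1 178648907593173448374948624550810139830810) (CTree.cons CTree.nil (CTree.cons CTree.nil (CTree.cons CTree.nil (CTree.cons CTree.nil (CTree.cons CTree.nil (CTree.cons CTree.nil (CTree.cons (CTree.leaf 1 14517834465851934088593017432752890576645980685) (CTree.cons (CTree.leaf 1 3233651654552679433164374593184843193533399565) (CTree.cons CTree.nil (CTree.cons CTree.nil (CTree.cons (CTree.leaf 1 3233651654552679423571616653116477048369512985) (CTree.cons CTree.nil CTree.nil)))))))))))))))))))))))))))))))))))) (CTree.cons (CTree.cons CTree.nil (CTree.cons CTree.nil (CTree.cons CTree.nil (CTree.cons CTree.nil (CTree.cons CTree.nil (CTree.cons CTree.nil (CTree.cons (CTree.leaf 1 11975543739197764871222110897535137093536979210) (CTree.cons CTree.nil (CTree.cons CTree.nil (CTree.cons (CTree.leaf 1 182732295825163679390214019257697022253322) (CTree.cons CTree.nil (CTree.cons (CTree.leaf 1 182733707967095029543209988374603582148738)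 (CTree.cons CTree.nil (CTree.cons (CTree.leaf 1 182734995839019948087912903128315130026250) (CTree.cons CTree.nil (CTree.cons (CTree.leaf 1 2788943039950795254548657410704937090) (CTree.cons CTree.nil (CTree.cons (CTree.leaf 1 3621285743539731986898735584533264321288458) (CTree.cons (CTree.leaf 1 14517967856539260826032611241266788771914449293) (CTree.cons (CTree.leaf 1 89857905864616227747295606512554797177098) (CTree.cons CTree.nil (CTree.cons CTree.nil (CTree.cons CTree.nil (CTree.cons (CTree.leaf 1 3667564015633547789233624341093238200932618) (CTree.cons CTree.nil (CTree.cons CTree.nil (CTree.cons CTree.nil (CTree.cons CTree.nil (CTree.cons CTree.nil (CTree.cons CTree.nil (CTree.cons (CTree.leaf 1 14517967856539097697735172633582205135640723853) (CTree.cons (CTree.leaf 1 11975543728506968173447615736174586048845316493) (CTree.cons CTree.nil (CTree.cons (CTree.leaf 1 11975543728506968173447611013802456177565243658) (CTree.cons CTree.nil (CTree.cons CTree.nil CTree.nil)))))))))))))))))))))))))))))))))))) (CTree.cons (CTree.cons CTree.nil (CTree.cons CTree.nil (CTree.cons CTree.nil (CTree.cons CTree.nil (CTree.cons CTree.nil (CTree.cons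 CTree.nil (CTree.cons (CTree.leaf 1 15008491353820621807889972880684791483141331210) (CTree.cons CTree.nil (CTree.cons CTree.nil (CTree.cons (CTree.leaf 1 229011403714316464078758482243819874162954) (CTree.cons (CTree.leaf 1 3494425937223842873219291836425834626) (CTree.cons CTree.nil (CTree.cons (CTree.leaf 1 15008451540784503898860488851699076785167270285) (CTree.cons (CTree.leaf 1 229011404071387427356370483502888049580298) (CTree.cons CTree.nil (CTree.cons (CTree.leaf 1 3494425927633582897846464176500904066) (CTree.cons CTree.nil (CTree.cons CTree.nil (CTree.cons (CTree.leaf 1 15009978728145065716306541707490213702033605005) (CTree.cons (CTree.leaf 1 229033393102277033486311006626562818318738) (CTree.cons CTree.nil (CTree.cons CTree.nil (CTree.cons (CTree.leaf 1 229010697897462431558384123185614141659402) (CTree.cons CTree.nil (CTree.cons CTree.nil (CTree.cons CTree.nil (CTree.cons CTree.nil (CTree.cons CTree.nil (CTree.cons CTree.nil (CTree.cons CTree.nil (CTree.cons CTree.nil (CTree.cons (CTree.leaf 1 103364183005887833199256703593987991373473251725) (CTree.cons CTree.nil (CTree.cons (CTree.leaf 1 229012821211350932991649833143184441606669)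 (CTree.cons (CTree.leaf 1 15008445075518186041341844772523615011826434445) (CTree.cons CTree.nil CTree.nil)))))))))))))))))))))))))))))))))))) (CTree.cons (CTree.cons CTree.nil (CTree.cons CTree.nil (CTree.cons CTree.nil (CTree.cons (CTree.leaf 1 2178488377694221025714414247139044870918274) (CTree.cons (CTree.leaf 1 182776171066215317797526589788479646601346) (CTree.cons (CTree.leaf 1 229012816019049455005149371515710548349058) (CTree.cons CTree.nil (CTree.cons CTree.nil (CTree.cons CTree.nil (CTree.cons CTree.nil (CTree.cons CTree.nil (CTree.cons CTree.nil (CTree.cons CTree.nil (CTree.cons (CTree.leaf 1 139914918945738136625993510807788076423425098117) (CTree.cons CTree.nil (CTree.cons (CTree.leaf 1 918424793396425698667332301484605499834905) (CTree.cons CTree.nil (CTree.cons (CTree.leaf 1 880312503525023421465182535940560946014738) (CTree.cons CTree.nil (CTree.cons (CTree.leaf 1 94243125135638757458547065452730795826265792770) (CTree.cons CTree.nil (CTree.cons CTree.nil (CTree.cons (CTree.leaf 1 918424128620168529380181873675307790696849) (CTree.cons (CTree.leaf 1 834034101623775790434162974563262695287322) (CTree.cons CTree.nil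 (CTree.cons CTree.nil (CTree.cons CTree.nil (CTree.cons CTree.nil (CTree.cons CTree.nil (CTree.cons CTree.nil (CTree.cons CTree.nil (CTree.cons (CTree.leaf 1 139914918933816804946658679323601171628445729157) (CTree.cons CTree.nil (CTree.cons (CTree.leaf 1 94242992767817828691454826147506867940498153730) (CTree.cons (CTree.leaf 1 139914918933816804946658679323601171628445729157) (CTree.cons CTree.nil CTree.nil)))))))))))))))))))))))))))))))))))) (CTree.cons CTree.nil (CTree.cons CTree.nil (CTree.cons (CTree.cons CTree.nil (CTree.cons (CTree.leaf 1 1371133606206737717890980629134835840) (CTree.cons CTree.nil (CTree.cons CTree.nil (CTree.cons (CTree.leaf 1 182734995655049678887583859480246396518549) (CTree.cons (CTree.leaf 1 229011403714316464040979550380862712453386) (CTree.cons CTree.nil (CTree.cons CTree.nil (CTree.cons CTree.nil (CTree.cons CTree.nil (CTree.cons CTree.nil (CTree.cons CTree.nil (CTree.cons (CTree.leaf 1 1577209435344772049997186598261877520334981) (CTree.cons (CTree.leaf 1 60390593924269291812105486564943886201906602114) (CTree.cons CTree.nil (CTree.cons CTree.nil (CTree.cons CTree.nil (CTree.cons (CTree.leaf 1 960209431798671178445655141744168426770781007511833)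 (CTree.cons (CTree.leaf 1 60390593924269291812105486564943886201906602114) (CTree.cons CTree.nil (CTree.cons CTree.nil (CTree.cons CTree.nil (CTree.cons (CTree.leaf 1 3364618511275352374259629685585549578) (CTree.cons (CTree.leaf 1 176947495464942070160415089031789240723994) (CTree.cons CTree.nil (CTree.cons CTree.nil (CTree.cons CTree.nil (CTree.cons CTree.nil (CTree.cons CTree.nil (CTree.cons CTree.nil (CTree.cons (CTree.leaf 1 1577209435973435296139052108655455296422021) (CTree.cons (CTree.leaf 1 60390593968144158186977686721708419827864508682) (CTree.cons CTree.nil (CTree.cons CTree.nil (CTree.cons (CTree.leaf 1 1577209435344772049997186598261877520334981) (CTree.cons CTree.nil CTree.nil)))))))))))))))))))))))))))))))))))) (CTree.cons (CTree.cons CTree.nil (CTree.cons (CTree.leaf 1 3364640457476484615693693772651692160) (CTree.cons CTree.nil (CTree.cons (CTree.leaf 1 43559575754990622604572649082438214025753) (CTree.cons CTree.nil (CTree.cons (CTree.leaf 1 3494425937223842873219291836425834626) (CTree.cons CTree.nil (CTree.cons CTree.nil (CTree.cons CTree.nil (CTree.cons CTree.nil (CTree.cons CTree.nil (CTree.cons CTree.nil (CTree.cons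 (CTree.leaf 1 11953331796917974084115800875010696251923044482) (CTree.cons CTree.nil (CTree.cons CTree.nil (CTree.cons (CTree.leaf 1 3364618511275468164320184457141756298) (CTree.cons CTree.nil (CTree.cons (CTree.leaf 1 43568828590264659191365081588169630093851) (CTree.cons (CTree.leaf 1 137137158487649476243904438975363566665861) (CTree.cons (CTree.leaf 1 11953331796917974084115800875010696251923044482) (CTree.cons CTree.nil (CTree.cons CTree.nil (CTree.cons CTree.nil (CTree.cons (CTree.leaf 1 180010036930358503005311794190782319108498) (CTree.cons CTree.nil (CTree.cons CTree.nil (CTree.cons CTree.nil (CTree.cons CTree.nil (CTree.cons CTree.nil (CTree.cons CTree.nil (CTree.cons (CTree.leaf 1 137137158487649476243904438975363566665861) (CTree.cons (CTree.leaf 1 11953331796917792179030361805926770060138453122) (CTree.cons CTree.nil (CTree.cons (CTree.leaf 1 137137158487649476243904438975363566665861) (CTree.cons CTree.nil (CTree.cons CTree.nil CTree.nil)))))))))))))))))))))))))))))))))))) (CTree.cons (CTree.cons CTree.nil (CTree.cons (CTree.leaf 1 89857905377838097259778330667858664161408) (CTree.cons CTree.nil (CTree.cons (CTree.leaf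 1 43600765576808768481512760226999804428825) (CTree.cons (CTree.leaf 1 182733707967092553663131417614053783900290) (CTree.cons CTree.nil (CTree.cons CTree.nil (CTree.cons CTree.nil (CTree.cons CTree.nil (CTree.cons CTree.nil (CTree.cons CTree.nil (CTree.cons CTree.nil (CTree.cons (CTree.leaf 1 948526515835713526627204060589238716873557798551685) (CTree.cons (CTree.leaf 1 182733650850163777721280185538984280720033) (CTree.cons CTree.nil (CTree.cons (CTree.leaf 1 2788273554866733276113329327001895585) (CTree.cons CTree.nil (CTree.cons CTree.nil (CTree.cons (CTree.leaf 1 948515120242029363398417073619144149544465804362264) (CTree.cons (CTree.leaf 1 132372623813503090957287957236672155484833) (CTree.cons CTree.nil (CTree.cons CTree.nil (CTree.cons (CTree.leaf 1 2035390510390063601740422513040630162) (CTree.cons CTree.nil (CTree.cons CTree.nil (CTree.cons CTree.nil (CTree.cons CTree.nil (CTree.cons CTree.nil (CTree.cons CTree.nil (CTree.cons CTree.nil (CTree.cons (CTree.leaf 1 182392013780699049689400202911284996997793) (CTree.cons CTree.nil (CTree.cons CTree.nil (CTree.cons (CTree.leaf 1 182733001813056451196420062283533960421778) (CTree.cons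 (CTree.leaf 1 182732295671458720561802532048755163734418) (CTree.cons CTree.nil CTree.nil)))))))))))))))))))))))))))))))))))) (CTree.cons (CTree.cons CTree.nil (CTree.cons (CTree.leaf 1 182394713472181313294250660700900778639488) (CTree.cons CTree.nil (CTree.cons (CTree.leaf 1 2921441221773128056725353496321810315974607373) (CTree.cons CTree.nil (CTree.cons (CTree.leaf 1 229012094289788592126335400535231648370818) (CTree.cons CTree.nil (CTree.cons CTree.nil (CTree.cons CTree.nil (CTree.cons (CTree.leaf 1 24905720470315571441305280716293292071627483840645) (CTree.cons (CTree.leaf 1 568536091039569844560072245156599748465810218752130) (CTree.cons (CTree.leaf 1 188545665991982841595813342476172097459469337035401) (CTree.cons CTree.nil (CTree.cons CTree.nil (CTree.cons CTree.nil (CTree.cons CTree.nil (CTree.cons CTree.nil (CTree.cons CTree.nil (CTree.cons CTree.nil (CTree.cons (CTree.leaf 1 568584328767944319780142759082380799461506792096280) (CTree.cons CTree.nil (CTree.cons CTree.nil (CTree.cons (CTree.leaf 1 225948157103422487015768305936255688966277) (CTree.cons (CTree.leaf 1 182392013477175629171313215481516899106949) (CTree.cons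 CTree.nil (CTree.cons CTree.nil (CTree.cons CTree.nil (CTree.cons CTree.nil (CTree.cons CTree.nil (CTree.cons CTree.nil (CTree.cons CTree.nil (CTree.cons (CTree.leaf 1 783365258856977923279783077028204701387978561880195) (CTree.cons CTree.nil (CTree.cons (CTree.leaf 1 572920595951562552949052920423608879536252119679107) (CTree.cons (CTree.leaf 1 572920595951562552949052920423608879536252119679107) (CTree.cons CTree.nil CTree.nil)))))))))))))))))))))))))))))))))))) (CTree.cons (CTree.cons CTree.nil (CTree.cons CTree.nil (CTree.cons CTree.nil (CTree.cons (CTree.leaf 1 2178488377693584888837044468321852650492034) (CTree.cons (CTree.leaf 1 182776170569138151388559600620943604058500) (CTree.cons (CTree.leaf 1 229012094289788592126316954072632915529858) (CTree.cons (CTree.leaf 1 8808976745433072767359465806133236082046206600) (CTree.cons CTree.nil (CTree.cons CTree.nil (CTree.cons (CTree.leaf 1 175929348316641091233960275842786521585930) (CTree.cons CTree.nil (CTree.cons (CTree.leaf 1 182733650850163777759059117401941442429601) (CTree.cons CTree.nil (CTree.cons CTree.nil (CTree.cons CTree.nil (CTree.cons CTree.nil (CTree.cons CTree.nil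 (CTree.cons CTree.nil (CTree.cons (CTree.leaf 1 191295968239644190431452957877520866613892022920) (CTree.cons CTree.nil (CTree.cons CTree.nil (CTree.cons CTree.nil (CTree.cons (CTree.leaf 1 918424128133237827835456748240153575757954) (CTree.cons (CTree.leaf 1 834034101169164593927314205452096581015682) (CTree.cons CTree.nil (CTree.cons CTree.nil (CTree.cons CTree.nil (CTree.cons CTree.nil (CTree.cons CTree.nil (CTree.cons CTree.nil (CTree.cons (CTree.leaf 1 8808976745433072767359465806133236082046206600) (CTree.cons CTree.nil (CTree.cons CTree.nil (CTree.cons (CTree.leaf 1 191295968239644190431452957877520866613892022920) (CTree.cons (CTree.leaf 1 8808976745433072767359465806133236082046206600) (CTree.cons CTree.nil CTree.nil)))))))))))))))))))))))))))))))))))) (CTree.cons CTree.nil (CTree.cons (CTree.cons CTree.nil (CTree.cons (CTree.leaf 1 3489265089324100201420743508716748928) (CTree.cons CTree.nil (CTree.cons CTree.nil (CTree.cons (CTree.leaf 1 2788943039950795254548657410704937090) (CTree.cons (CTree.leaf 1 229010697564154346274050699351500615459218) (CTree.cons (CTree.leaf 1 221526505942343725494341105464344202773017) (CTree.cons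 CTree.nil (CTree.cons CTree.nil (CTree.cons CTree.nil (CTree.cons (CTree.leaf 1 3364618511275468164320184457141756298) (CTree.cons (CTree.leaf 1 2788273554866733276113329327001895585) (CTree.cons CTree.nil (CTree.cons CTree.nil (CTree.cons CTree.nil (CTree.cons CTree.nil (CTree.cons CTree.nil (CTree.cons CTree.nil (CTree.cons (CTree.leaf 1 228670415205790378338649435902315981766789) (CTree.cons (CTree.leaf 1 221526505293153747160543734050339916685442) (CTree.cons CTree.nil (CTree.cons CTree.nil (CTree.cons CTree.nil (CTree.cons (CTree.leaf 1 2700004512917613929198569196263385626) (CTree.cons CTree.nil (CTree.cons CTree.nil (CTree.cons CTree.nil (CTree.cons CTree.nil (CTree.cons CTree.nil (CTree.cons CTree.nil (CTree.cons (CTree.leaf 1 228672466509350503978820840962050742091909) (CTree.cons (CTree.leaf 1 1615663362568233679000906539562565507817602) (CTree.cons CTree.nil (CTree.cons CTree.nil (CTree.cons (CTree.leaf 1 228670415552091392325005835028087628169349) (CTree.cons CTree.nil CTree.nil)))))))))))))))))))))))))))))))))))) (CTree.cons CTree.nil (CTree.cons (CTree.cons CTree.nil (CTree.cons (CTree.leaf 1 24066327403278957586693691201564049536)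 (CTree.cons CTree.nil (CTree.cons (CTree.leaf 1 43609987125908304401889877945726887592609) (CTree.cons (CTree.leaf 1 11977115832953730694490818538629302294453226123) (CTree.cons CTree.nil (CTree.cons (CTree.leaf 1 231259556638628195003474858325280582512048472737) (CTree.cons CTree.nil (CTree.cons CTree.nil (CTree.cons (CTree.leaf 1 960209431798659153247761492650848293292624064282905) (CTree.cons (CTree.leaf 1 834035445941731449416895634995624863727749) (CTree.cons CTree.nil (CTree.cons CTree.nil (CTree.cons CTree.nil (CTree.cons CTree.nil (CTree.cons CTree.nil (CTree.cons CTree.nil (CTree.cons CTree.nil (CTree.cons (CTree.leaf 1 43558194290372167347205936859471263432837) (CTree.cons (CTree.leaf 1 231259556638628195003474780628779835178640605857) (CTree.cons CTree.nil (CTree.cons CTree.nil (CTree.cons (CTree.leaf 1 2035390515025156140320618255799626258) (CTree.cons CTree.nil (CTree.cons CTree.nil (CTree.cons CTree.nil (CTree.cons CTree.nil (CTree.cons CTree.nil (CTree.cons CTree.nil (CTree.cons CTree.nil (CTree.cons (CTree.leaf 1 1577230713356379460040651827536671808815237) (CTree.cons (CTree.leaf 1 231259556638628195003646445494174198124107137697)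 (CTree.cons CTree.nil (CTree.cons (CTree.leaf 1 43580209293114875757454103040256069730437) (CTree.cons CTree.nil (CTree.cons CTree.nil CTree.nil)))))))))))))))))))))))))))))))))))) (CTree.cons (CTree.cons CTree.nil (CTree.cons (CTree.leaf 1 834056734400044981463995562927129697517696) (CTree.cons CTree.nil (CTree.cons CTree.nil (CTree.cons (CTree.leaf 1 11975543729815262739639049105786210611572113944) (CTree.cons (CTree.leaf 1 229012816040361495849034447327892291063938) (CTree.cons CTree.nil (CTree.cons CTree.nil (CTree.cons CTree.nil (CTree.cons (CTree.leaf 1 12349689393883226353381710960582493968534216759640581) (CTree.cons (CTree.leaf 1 834035445941731449416895634995624863727749) (CTree.cons (CTree.leaf 1 36549495709568932910333261425975007125064995373185) (CTree.cons CTree.nil (CTree.cons (CTree.leaf 1 755787644427346027494444314667212086631620637428363) (CTree.cons CTree.nil (CTree.cons (CTree.leaf 1 225948157103427771152403880328218378567813) (CTree.cons CTree.nil (CTree.cons (CTree.leaf 1 43568828114338446674189167315953506189445) (CTree.cons CTree.nil (CTree.cons CTree.nil (CTree.cons CTree.nil (CTree.cons CTree.nil (CTree.cons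 CTree.nil (CTree.cons CTree.nil (CTree.cons CTree.nil (CTree.cons CTree.nil (CTree.cons CTree.nil (CTree.cons CTree.nil (CTree.cons CTree.nil (CTree.cons CTree.nil (CTree.cons CTree.nil (CTree.cons (CTree.leaf 1 12536761604678049450472413880585772759937927523008643) (CTree.cons CTree.nil (CTree.cons (CTree.leaf 1 572920596648815048501666192561884059718576321921155) (CTree.cons (CTree.leaf 1 572920596648815048501666192561884059718576321921155) (CTree.cons CTree.nil CTree.nil)))))))))))))))))))))))))))))))))))) (CTree.cons (CTree.cons CTree.nil (CTree.cons CTree.nil (CTree.cons CTree.nil (CTree.cons (CTree.leaf 1 223612605235696622705831618603752979940802994307597) (CTree.cons (CTree.leaf 1 11975543731144683499721846363046355657623869706) (CTree.cons (CTree.leaf 1 229012758903784170846370308870955303309442) (CTree.cons (CTree.leaf 1 11663333298463726193755927696847975045036049057) (CTree.cons CTree.nil (CTree.cons CTree.nil (CTree.cons CTree.nil (CTree.cons (CTree.leaf 1 8675211408131429543828809338097549433510631554) (CTree.cons (CTree.leaf 1 132372623813503090995066889099629317194401) (CTree.cons (CTree.leaf 1 14517959362128724513981183289622827789146200194)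 (CTree.cons CTree.nil (CTree.cons CTree.nil (CTree.cons (CTree.leaf 1 918424792747235720333534930070601213747330) (CTree.cons CTree.nil (CTree.cons (CTree.leaf 1 880312503038092254531407544455071119054978) (CTree.cons CTree.nil (CTree.cons CTree.nil (CTree.cons CTree.nil (CTree.cons CTree.nil (CTree.cons CTree.nil (CTree.cons CTree.nil (CTree.cons CTree.nil (CTree.cons CTree.nil (CTree.cons CTree.nil (CTree.cons CTree.nil (CTree.cons CTree.nil (CTree.cons CTree.nil (CTree.cons (CTree.leaf 1 14518657610891053125994743840572699309956470914) (CTree.cons CTree.nil (CTree.cons CTree.nil (CTree.cons (CTree.leaf 1 11666167850580166833787050543931193964494127777) (CTree.cons (CTree.leaf 1 14518657610891053125994743840572699309956470914) (CTree.cons CTree.nil CTree.nil)))))))))))))))))))))))))))))))))))) (CTree.cons CTree.nil (CTree.cons CTree.nil (CTree.cons (CTree.cons CTree.nil (CTree.cons (CTree.leaf 1 3447716573086799789814454222736916608) (CTree.cons CTree.nil (CTree.cons (CTree.leaf 1 2082618259123712289565343454041018498) (CTree.cons CTree.nil (CTree.cons (CTree.leaf 1 229010697897462431558383546724861838235914) (CTree.cons (CTree.leaf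 1 221525841166086556207190677655046493634961) (CTree.cons CTree.nil (CTree.cons CTree.nil (CTree.cons (CTree.leaf 1 3364618511275352374259629685585549578) (CTree.cons CTree.nil (CTree.cons (CTree.leaf 1 2035390510390063601740422513040630162) (CTree.cons (CTree.leaf 1 225948157103422487015768305927459595944069) (CTree.cons (CTree.leaf 1 221525840679155854662465552219892278696066) (CTree.cons CTree.nil (CTree.cons CTree.nil (CTree.cons CTree.nil (CTree.cons (CTree.leaf 1 2035390515025156140320618255799626258) (CTree.cons CTree.nil (CTree.cons CTree.nil (CTree.cons CTree.nil (CTree.cons CTree.nil (CTree.cons CTree.nil (CTree.cons CTree.nil (CTree.cons CTree.nil (CTree.cons CTree.nil (CTree.cons CTree.nil (CTree.cons CTree.nil (CTree.cons CTree.nil (CTree.cons CTree.nil (CTree.cons (CTree.leaf 1 225949542949222794028709082727964737601669) (CTree.cons (CTree.leaf 1 221525840679155854662465552219892278696066) (CTree.cons CTree.nil (CTree.cons (CTree.leaf 1 225948156270422706257464541416164971053189) (CTree.cons CTree.nil (CTree.cons CTree.nil CTree.nil)))))))))))))))))))))))))))))))))))) (CTree.cons (CTree.cons CTree.nil (CTree.cons (CTree.leaf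 1 2783427564157767706278880120309153920) (CTree.cons CTree.nil (CTree.cons (CTree.leaf 1 43578796998679085607470272505373563890202) (CTree.cons (CTree.leaf 1 43609987115762449993532800340823335115018) (CTree.cons CTree.nil (CTree.cons (CTree.leaf 1 57357649053037975602484603340205465161037382305) (CTree.cons CTree.nil (CTree.cons CTree.nil (CTree.cons (CTree.leaf 1 180010036756383373733558707722890128726282) (CTree.cons (CTree.leaf 1 180010036746237519362891599843679214313874) (CTree.cons CTree.nil (CTree.cons (CTree.leaf 1 182392013314916352342099852089938888818821) (CTree.cons (CTree.leaf 1 57357649021126485148689748455064875899017042050) (CTree.cons CTree.nil (CTree.cons (CTree.leaf 1 2700004512917613929198569196263385626) (CTree.cons CTree.nil (CTree.cons CTree.nil (CTree.cons CTree.nil (CTree.cons CTree.nil (CTree.cons CTree.nil (CTree.cons CTree.nil (CTree.cons CTree.nil (CTree.cons CTree.nil (CTree.cons CTree.nil (CTree.cons CTree.nil (CTree.cons CTree.nil (CTree.cons CTree.nil (CTree.cons CTree.nil (CTree.cons CTree.nil (CTree.cons (CTree.leaf 1 182413291347442618394315013146862635122821) (CTree.cons (CTree.leaf 1 11797226580528087326896162354628779531231631490)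 (CTree.cons CTree.nil (CTree.cons CTree.nil (CTree.cons (CTree.leaf 1 182392013304537621386763480235288720703621) (CTree.cons CTree.nil CTree.nil)))))))))))))))))))))))))))))))))))) (CTree.cons CTree.nil (CTree.cons CTree.nil (CTree.cons CTree.nil (CTree.cons CTree.nil (CTree.cons CTree.nil (CTree.cons CTree.nil (CTree.cons (CTree.cons CTree.nil (CTree.cons (CTree.leaf 1 182416001746450152171701380251476538491008) (CTree.cons CTree.nil (CTree.cons (CTree.leaf 1 54659346985236946475199781575752822764139512333) (CTree.cons (CTree.leaf 1 11975543728434132849960013750910898470690357784) (CTree.cons CTree.nil (CTree.cons CTree.nil (CTree.cons CTree.nil (CTree.cons CTree.nil (CTree.cons (CTree.leaf 1 36549316645215468072041398725191524102894095171717) (CTree.cons (CTree.leaf 1 834035445941731449416895634995624863727749) (CTree.cons (CTree.leaf 1 182392013780701363653568821388229526749721) (CTree.cons CTree.nil (CTree.cons (CTree.leaf 1 568664052631153551513449833059143337732692572307992) (CTree.cons CTree.nil (CTree.cons (CTree.leaf 1 225960176783964103457632263097168957603973) (CTree.cons CTree.nil (CTree.cons (CTree.leaf 1 1577230713518638736869865190928249819103365)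 (CTree.cons CTree.nil (CTree.cons (CTree.leaf 1 54659308876405793733936450160753496988834269210) (CTree.cons CTree.nil (CTree.cons CTree.nil (CTree.cons (CTree.leaf 1 225960176773189073355692313184446980358277) (CTree.cons (CTree.leaf 1 182413291509701895223528376538440645410949) (CTree.cons CTree.nil (CTree.cons CTree.nil (CTree.cons CTree.nil (CTree.cons CTree.nil (CTree.cons CTree.nil (CTree.cons CTree.nil (CTree.cons CTree.nil (CTree.cons CTree.nil (CTree.cons CTree.nil (CTree.cons CTree.nil (CTree.cons CTree.nil (CTree.cons CTree.nil CTree.nil)))))))))))))))))))))))))))))))))))) (CTree.cons (CTree.cons CTree.nil (CTree.cons CTree.nil (CTree.cons CTree.nil (CTree.cons (CTree.leaf 1 14339422763420949960830603433105468875869848077) (CTree.cons (CTree.leaf 1 14339561894950883700686480337064940840709527818) (CTree.cons (CTree.leaf 1 229012094289786277033391377544942486950018) (CTree.cons (CTree.leaf 1 8987382707021155572443084853865576185829333122) (CTree.cons CTree.nil (CTree.cons CTree.nil (CTree.cons (CTree.leaf 1 8989335247243196714292147344574278632441774597) (CTree.cons (CTree.leaf 1 11953243015132064211731887539186586999806558597)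 (CTree.cons CTree.nil (CTree.cons (CTree.leaf 1 8987243873170824326682989758121775765919373442) (CTree.cons CTree.nil (CTree.cons CTree.nil (CTree.cons (CTree.leaf 1 1615663362568236154880985110323115306066050) (CTree.cons CTree.nil (CTree.cons (CTree.leaf 1 880312503038092254531407544455071119054978) (CTree.cons (CTree.leaf 1 8987376241656832871557988698574116467968120962) (CTree.cons CTree.nil (CTree.cons CTree.nil (CTree.cons CTree.nil (CTree.cons (CTree.leaf 1 918424128133237827835456748240153575757954) (CTree.cons (CTree.leaf 1 834034101169164593927314205452096581015682) (CTree.cons CTree.nil (CTree.cons CTree.nil (CTree.cons CTree.nil (CTree.cons CTree.nil (CTree.cons CTree.nil (CTree.cons CTree.nil (CTree.cons CTree.nil (CTree.cons CTree.nil (CTree.cons CTree.nil (CTree.cons CTree.nil (CTree.cons CTree.nil (CTree.cons CTree.nil CTree.nil)))))))))))))))))))))))))))))))))))) (CTree.cons CTree.nil (CTree.cons (CTree.cons CTree.nil (CTree.cons (CTree.leaf 1 834056734400044981463995562927129697517696) (CTree.cons CTree.nil (CTree.cons CTree.nil (CTree.cons (CTree.leaf 1 11975543731144492718306512014521430403791460618) (CTree.cons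 (CTree.leaf 1 229012758903784170846370308870955303309442) (CTree.cons (CTree.leaf 1 14517961094766666391626804562743245593016074777) (CTree.cons CTree.nil (CTree.cons CTree.nil (CTree.cons CTree.nil (CTree.cons (CTree.leaf 1 834035445941731449416895634995624863727749) (CTree.cons (CTree.leaf 1 89835209523671808440474360245877102158226) (CTree.cons (CTree.leaf 1 14450926457517139823832792403973667603857080857) (CTree.cons (CTree.leaf 1 14517961094766666391626804562743245593016074777) (CTree.cons CTree.nil (CTree.cons CTree.nil (CTree.cons CTree.nil (CTree.cons (CTree.leaf 1 43580209455374152586667466431834080018565) (CTree.cons (CTree.leaf 1 14450926457517505451583894515129631665851269657) (CTree.cons (CTree.leaf 1 14517961094766666391626804562743245593016074777) (CTree.cons CTree.nil (CTree.cons CTree.nil (CTree.cons (CTree.leaf 1 225948156270422706257465117876917274476677) (CTree.cons CTree.nil (CTree.cons CTree.nil (CTree.cons CTree.nil (CTree.cons CTree.nil (CTree.cons CTree.nil (CTree.cons CTree.nil (CTree.cons CTree.nil (CTree.cons CTree.nil (CTree.cons CTree.nil (CTree.cons CTree.nil (CTree.cons CTree.nil (CTree.cons CTree.nil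 (CTree.cons CTree.nil CTree.nil)))))))))))))))))))))))))))))))))))) (CTree.cons (CTree.cons CTree.nil (CTree.cons (CTree.leaf 1 182416001746450152171701380251476538491008) (CTree.cons CTree.nil (CTree.cons (CTree.leaf 1 2854717590550413908142309002386803554472499466) (CTree.cons CTree.nil (CTree.cons (CTree.leaf 1 15008536634777093208730695986273556066929873026) (CTree.cons (CTree.leaf 1 14517917526660648547594448251301589511175209497) (CTree.cons CTree.nil (CTree.cons CTree.nil (CTree.cons (CTree.leaf 1 182394713288131514951267118310069021311109) (CTree.cons CTree.nil (CTree.cons (CTree.leaf 1 182732295671458720599581463911712325443986) (CTree.cons (CTree.leaf 1 8808976745432931107404774512979836621843137049) (CTree.cons (CTree.leaf 1 14517917496867249173321604811150775207271137817) (CTree.cons CTree.nil (CTree.cons (CTree.leaf 1 225948156616723884806468469543743000739973) (CTree.cons CTree.nil (CTree.cons CTree.nil (CTree.cons (CTree.leaf 1 8808976745432931107404774512979836621843137049) (CTree.cons (CTree.leaf 1 14517917496867249173321604811150775207271137817) (CTree.cons CTree.nil (CTree.cons CTree.nil (CTree.cons CTree.nil (CTree.cons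 (CTree.leaf 1 182392013304540097266842050995838518952069) (CTree.cons CTree.nil (CTree.cons CTree.nil (CTree.cons CTree.nil (CTree.cons CTree.nil (CTree.cons CTree.nil (CTree.cons CTree.nil (CTree.cons CTree.nil (CTree.cons CTree.nil (CTree.cons CTree.nil (CTree.cons CTree.nil (CTree.cons CTree.nil (CTree.cons CTree.nil CTree.nil)))))))))))))))))))))))))))))))))))) (CTree.cons CTree.nil CTree.nil)))))))))))))))))))))))))))))))))))

theorem tree6_4_2_ok : chk 6 (pk (goalL 6)) tree6_4_2 (stk [((4 : Fin 6), (2 : Fin 6))]) 1 (om [((4 : Fin 6), (2 : Fin 6))]) (im [((4 : Fin 6), (2 : Fin 6))])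
    (cm [((4 : Fin 6), (2 : Fin 6))]) (pk (goalR [((4 : Fin 6), (2 : Fin 6))])) 0 = true := by
  decide +kernel

def tree6_4_3 : CTree :=
  CTree.cons CTree.nil (CTree.cons (CTree.cons CTree.nil (CTree.cons CTree.nil (CTree.cons CTree.nil (CTree.cons CTree.nil (CTree.cons CTree.nil (CTree.cons CTree.nil (CTree.cons CTree.nil (CTree.cons CTree.nil (CTree.cons (CTree.leaf 1 24066327007138258387446257709402292352) (CTree.cons CTree.nil (CTree.cons (CTree.leaf 1 1577264734097237645912837349754884778426496) (CTree.cons (CTree.leaf 1 89857905052923256504051042120679942127744) (CTree.cons (CTree.leaf 1 2878414514934549890571750356480220319525437568) (CTree.cons CTree.nil (CTree.cons CTree.nil (CTree.cons CTree.nil (CTree.cons (CTree.leaf 1 24653046804448304374778976974402617472) (CTree.cons (CTree.leaf 1 2035747601468419503335237084492464256) (CTree.cons (CTree.leaf 1 57513665765513095859419102286339370777535643776) (CTree.cons CTree.nil (CTree.cons (CTree.leaf 1 11707935150348494973859025709364080044898713728) (CTree.cons CTree.nil (CTree.cons CTree.nil (CTree.cons (CTree.leaf 1 23360164889303861168852604099845816448) (CTree.cons CTree.nil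 (CTree.cons CTree.nil (CTree.cons CTree.nil (CTree.cons CTree.nil (CTree.cons CTree.nil (CTree.cons CTree.nil (CTree.cons (CTree.leaf 1 57513665766925400595034790841301298735409594496) (CTree.cons CTree.nil (CTree.cons (CTree.leaf 1 11707935139709834355885676679472377298085806208) (CTree.cons CTree.nil (CTree.cons (CTree.leaf 1 14986144693904239193137234637642456000925728896) (CTree.cons CTree.nil CTree.nil)))))))))))))))))))))))))))))))))))) (CTree.cons (CTree.cons CTree.nil (CTree.cons CTree.nil (CTree.cons CTree.nil (CTree.cons CTree.nil (CTree.cons CTree.nil (CTree.cons CTree.nil (CTree.cons (CTree.leaf 1 1615661343435508294856139554868442860687490) (CTree.cons CTree.nil (CTree.cons CTree.nil (CTree.cons CTree.nil (CTree.cons (CTree.leaf 1 44581070969384019545682395394681147522) (CTree.cons (CTree.leaf 1 664656232243067738579925284391358594) (CTree.cons CTree.nil (CTree.cons (CTree.leaf 1 224246744456496875009872731488392341688450) (CTree.cons CTree.nil (CTree.cons CTree.nil (CTree.cons (CTree.leaf 1 664990180957302213169885785307091074) (CTree.cons (CTree.leaf 1 664655593327129475911087905365364866) (CTree.cons (CTree.leaf 1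 2855236885384684606972665680921846240772948627) (CTree.cons (CTree.leaf 1 60212055616787816366302823433843685279042568845) (CTree.cons CTree.nil (CTree.cons CTree.nil (CTree.cons CTree.nil (CTree.cons (CTree.leaf 1 2725966002315541662920799930159861890) (CTree.cons CTree.nil (CTree.cons CTree.nil (CTree.cons CTree.nil (CTree.cons CTree.nil (CTree.cons CTree.nil (CTree.cons CTree.nil (CTree.cons (CTree.leaf 1 2854719642805756441926242802148517543001526932) (CTree.cons (CTree.leaf 1 43559565369770650424429387949053896888450) (CTree.cons CTree.nil (CTree.cons CTree.nil (CTree.cons (CTree.leaf 1 60212055616787816366302823433843685279042568845) (CTree.cons CTree.nil CTree.nil)))))))))))))))))))))))))))))))))))) (CTree.cons CTree.nil (CTree.cons (CTree.cons CTree.nil (CTree.cons CTree.nil (CTree.cons CTree.nil (CTree.cons CTree.nil (CTree.cons CTree.nil (CTree.cons CTree.nil (CTree.cons (CTree.leaf 1 11975543752407109976676381801695719492160723210) (CTree.cons CTree.nil (CTree.cons (CTree.leaf 1 182732296473411283231218792643975500142858) (CTree.cons CTree.nil (CTree.cons CTree.nil (CTree.cons (CTree.leaf 1 182733001813061552896452553641714355673354)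 (CTree.cons (CTree.leaf 1 14986144330308794900910938091157630103629988109) (CTree.cons (CTree.leaf 1 182733001813061552867989803715257844242698) (CTree.cons CTree.nil (CTree.cons CTree.nil (CTree.cons CTree.nil (CTree.cons (CTree.leaf 1 2788943039950880625932454440302874754) (CTree.cons CTree.nil (CTree.cons (CTree.leaf 1 14986144330308448993702004017489568057832579474) (CTree.cons (CTree.leaf 1 11975549513219138338944764590595244810891827466) (CTree.cons CTree.nil (CTree.cons CTree.nil (CTree.cons (CTree.leaf 1 3667564103567066191580384253957142620543242) (CTree.cons CTree.nil (CTree.cons CTree.nil (CTree.cons CTree.nil (CTree.cons CTree.nil (CTree.cons CTree.nil (CTree.cons CTree.nil (CTree.cons (CTree.leaf 1 14986150115020417603060790825172875960295432594) (CTree.cons (CTree.leaf 1 3233651611327001315779933187409725129987531154) (CTree.cons (CTree.leaf 1 11975549513219138338944764590595244810891827466) (CTree.cons CTree.nil (CTree.cons CTree.nil (CTree.cons CTree.nil CTree.nil)))))))))))))))))))))))))))))))))))) (CTree.cons (CTree.cons CTree.nil (CTree.cons CTree.nil (CTree.cons CTree.nil (CTree.cons CTree.nil (CTree.cons CTree.nil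 (CTree.cons CTree.nil (CTree.cons (CTree.leaf 1 983593924778290465741700278777270769001801683964443) (CTree.cons CTree.nil (CTree.cons (CTree.leaf 1 229010697908237625882813679686854035251602) (CTree.cons CTree.nil (CTree.cons (CTree.leaf 1 229011403714313669042263567279639607452050) (CTree.cons CTree.nil (CTree.cons (CTree.leaf 1 15008493055232466939726950843332742406817325458) (CTree.cons (CTree.leaf 1 229011403746707917205742765438130762031506) (CTree.cons CTree.nil (CTree.cons CTree.nil (CTree.cons (CTree.leaf 1 3494923005139550840682332327018369154) (CTree.cons CTree.nil (CTree.cons (CTree.leaf 1 15008453582477904110865269260236867706234732813) (CTree.cons (CTree.leaf 1 229012733288605682071420749267230732722578) (CTree.cons (CTree.leaf 1 229033393418077979569139219605725753516434) (CTree.cons CTree.nil (CTree.cons CTree.nil (CTree.cons CTree.nil (CTree.cons CTree.nil (CTree.cons CTree.nil (CTree.cons CTree.nil (CTree.cons CTree.nil (CTree.cons CTree.nil (CTree.cons CTree.nil (CTree.cons CTree.nil (CTree.cons (CTree.leaf 1 15008493055232437227139886154804121509318762898) (CTree.cons (CTree.leaf 1 15008445075548538271182638854451692387786432914)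 (CTree.cons CTree.nil (CTree.cons (CTree.leaf 1 15008493055232437229166088162564688189094240658) (CTree.cons CTree.nil CTree.nil)))))))))))))))))))))))))))))))))))) (CTree.cons (CTree.cons CTree.nil (CTree.cons CTree.nil (CTree.cons (CTree.leaf 1 228670415216565408440735807128242241212546) (CTree.cons CTree.nil (CTree.cons (CTree.leaf 1 182776171066215317877787799614239438606466) (CTree.cons (CTree.leaf 1 229043274032421775124054370919792598192258) (CTree.cons CTree.nil (CTree.cons CTree.nil (CTree.cons CTree.nil (CTree.cons CTree.nil (CTree.cons CTree.nil (CTree.cons CTree.nil (CTree.cons CTree.nil (CTree.cons (CTree.leaf 1 14699110028640239541545393504067749848821596677) (CTree.cons CTree.nil (CTree.cons CTree.nil (CTree.cons (CTree.leaf 1 228671106095169094650685555378118610461074) (CTree.cons (CTree.leaf 1 1577210126202848225313244984778117365236112) (CTree.cons CTree.nil (CTree.cons (CTree.leaf 1 14987538807359821319105002765638714175874335120) (CTree.cons (CTree.leaf 1 14696367056354911376759090455345762048885719577) (CTree.cons CTree.nil (CTree.cons CTree.nil (CTree.cons (CTree.leaf 1 179670445258553955869165472072277203954202)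 (CTree.cons CTree.nil (CTree.cons CTree.nil (CTree.cons CTree.nil (CTree.cons CTree.nil (CTree.cons CTree.nil (CTree.cons CTree.nil (CTree.cons CTree.nil (CTree.cons (CTree.leaf 1 14987538807360167857799998622856960326948290960) (CTree.cons (CTree.leaf 1 14696367056354911376759090455345762048885719577) (CTree.cons CTree.nil (CTree.cons (CTree.leaf 1 14987538807360167857799998622856960326948290960) (CTree.cons CTree.nil CTree.nil)))))))))))))))))))))))))))))))))))) (CTree.cons CTree.nil (CTree.cons (CTree.cons CTree.nil (CTree.cons (CTree.leaf 1 24066327007138258387446257709402292352) (CTree.cons CTree.nil (CTree.cons CTree.nil (CTree.cons (CTree.leaf 1 182732296473411283193439860781018338433290) (CTree.cons (CTree.leaf 1 229010697908237625882813103226101731828114) (CTree.cons CTree.nil (CTree.cons CTree.nil (CTree.cons CTree.nil (CTree.cons CTree.nil (CTree.cons CTree.nil (CTree.cons CTree.nil (CTree.cons (CTree.leaf 1 224248764228521264539657287826827460026498) (CTree.cons CTree.nil (CTree.cons CTree.nil (CTree.cons CTree.nil (CTree.cons (CTree.leaf 1 3364618511275352375874452211099050386) (CTree.cons (CTree.leaf 1 664981230815222500645992029079339400)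 (CTree.cons (CTree.leaf 1 228672507690644208227108687839433536635553) (CTree.cons (CTree.leaf 1 224248764228521264539657287859679673778713) (CTree.cons CTree.nil (CTree.cons CTree.nil (CTree.cons CTree.nil (CTree.cons (CTree.leaf 1 2700004513081871910951020206015719962) (CTree.cons CTree.nil (CTree.cons CTree.nil (CTree.cons CTree.nil (CTree.cons CTree.nil (CTree.cons CTree.nil (CTree.cons CTree.nil (CTree.cons (CTree.leaf 1 228672508177585624433612822503603629785761) (CTree.cons (CTree.leaf 1 1618385621503601196380020093371905264910873) (CTree.cons CTree.nil (CTree.cons CTree.nil (CTree.cons (CTree.leaf 1 228670415552091547216393804603022949548563) (CTree.cons CTree.nil CTree.nil)))))))))))))))))))))))))))))))))))) (CTree.cons CTree.nil (CTree.cons (CTree.cons CTree.nil (CTree.cons (CTree.leaf 1 1371143180593330545705863254934945920) (CTree.cons (CTree.leaf 1 44581070974334495237587320024489070722) (CTree.cons CTree.nil (CTree.cons CTree.nil (CTree.cons (CTree.leaf 1 15008452253925232317823210189296114424664952962) (CTree.cons CTree.nil (CTree.cons CTree.nil (CTree.cons CTree.nil (CTree.cons CTree.nil (CTree.cons CTree.nil (CTree.cons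 CTree.nil (CTree.cons (CTree.leaf 1 226289144778948966089682206750369118495114) (CTree.cons (CTree.leaf 1 226289129202046157475916467993849279160714) (CTree.cons CTree.nil (CTree.cons CTree.nil (CTree.cons CTree.nil (CTree.cons (CTree.leaf 1 1370776517607649973075658654076182922) (CTree.cons (CTree.leaf 1 226288438668646359638421849971063005716874) (CTree.cons CTree.nil (CTree.cons (CTree.leaf 1 226289144778936733080399353594718064025994) (CTree.cons CTree.nil (CTree.cons CTree.nil (CTree.cons (CTree.leaf 1 3411359952447115757159403053542678922) (CTree.cons CTree.nil (CTree.cons CTree.nil (CTree.cons CTree.nil (CTree.cons CTree.nil (CTree.cons CTree.nil (CTree.cons CTree.nil (CTree.cons (CTree.leaf 1 557742877413843398014514430097000516689724058) (CTree.cons (CTree.leaf 1 226289129202050469527654125138834587525514) (CTree.cons (CTree.leaf 1 226289144778936732884035457965286174105994) (CTree.cons CTree.nil (CTree.cons CTree.nil (CTree.cons CTree.nil CTree.nil)))))))))))))))))))))))))))))))))))) (CTree.cons (CTree.cons CTree.nil (CTree.cons (CTree.leaf 1 89857905052925732384129612881229740376192) (CTree.cons (CTree.leaf 1 5710567991702966708191482396483983744821760130)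 (CTree.cons CTree.nil (CTree.cons (CTree.leaf 1 182733001813061552858673621778757193963786) (CTree.cons CTree.nil (CTree.cons CTree.nil (CTree.cons CTree.nil (CTree.cons CTree.nil (CTree.cons CTree.nil (CTree.cons CTree.nil (CTree.cons CTree.nil (CTree.cons (CTree.leaf 1 180691307611535922077618435287890126832153) (CTree.cons (CTree.leaf 1 180691292034645346548638073190094333936153) (CTree.cons CTree.nil (CTree.cons CTree.nil (CTree.cons (CTree.leaf 1 1370776512507277070078644546995036562) (CTree.cons CTree.nil (CTree.cons (CTree.leaf 1 182733001813061552865738720280028033130898) (CTree.cons (CTree.leaf 1 182732986236170977261256986765618722185618) (CTree.cons (CTree.leaf 1 179670460510767527535134642271360506274194) (CTree.cons CTree.nil (CTree.cons CTree.nil (CTree.cons CTree.nil (CTree.cons CTree.nil (CTree.cons CTree.nil (CTree.cons CTree.nil (CTree.cons CTree.nil (CTree.cons CTree.nil (CTree.cons CTree.nil (CTree.cons (CTree.leaf 1 6266553012892981343040000236052316445020918163) (CTree.cons CTree.nil (CTree.cons (CTree.leaf 1 180691307611530831376121995190815915319698) (CTree.cons CTree.nil (CTree.cons (CTree.leaf 1 180691307611535922077618435287890126832153)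 (CTree.cons CTree.nil CTree.nil)))))))))))))))))))))))))))))))))))) (CTree.cons (CTree.cons CTree.nil (CTree.cons (CTree.leaf 1 89859240111247698606445045396204317114496) (CTree.cons CTree.nil (CTree.cons CTree.nil (CTree.cons (CTree.leaf 1 182776171066215317795018411597217937821826) (CTree.cons (CTree.leaf 1 15008493055232781554894485810102163318361948688) (CTree.cons CTree.nil (CTree.cons CTree.nil (CTree.cons (CTree.leaf 1 921147051682603237712648483847088757088386) (CTree.cons CTree.nil (CTree.cons (CTree.leaf 1 24897157727326663660449861225786060056734410607123) (CTree.cons (CTree.leaf 1 6266599235996790558192810776066104290010337683) (CTree.cons CTree.nil (CTree.cons CTree.nil (CTree.cons CTree.nil (CTree.cons CTree.nil (CTree.cons CTree.nil (CTree.cons CTree.nil (CTree.cons CTree.nil (CTree.cons (CTree.leaf 1 755656717449159177270057623477454694678122412441731) (CTree.cons (CTree.leaf 1 982132066418868942075041427410399972238076426649731) (CTree.cons CTree.nil (CTree.cons CTree.nil (CTree.cons (CTree.leaf 1 89835209664549232624275148984268409012357) (CTree.cons CTree.nil (CTree.cons CTree.nil (CTree.cons CTree.nil (CTree.cons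 CTree.nil (CTree.cons CTree.nil (CTree.cons CTree.nil (CTree.cons CTree.nil (CTree.cons (CTree.leaf 1 12162628155358840581785293299228021195495268419174531) (CTree.cons (CTree.leaf 1 982134989260308634372774804613723268697019945910403) (CTree.cons CTree.nil (CTree.cons (CTree.leaf 1 982232464285619594221558263801338902754812644884611) (CTree.cons CTree.nil CTree.nil)))))))))))))))))))))))))))))))))))) (CTree.cons (CTree.cons CTree.nil (CTree.cons CTree.nil (CTree.cons (CTree.leaf 1 921145031910578848182863927508653638750338) (CTree.cons CTree.nil (CTree.cons (CTree.leaf 1 182733001813061552867989907298049273764106) (CTree.cons (CTree.leaf 1 15009932450454509126064195070704275964373897346) (CTree.cons (CTree.leaf 1 14517872281152169774383492468095467938549928066) (CTree.cons CTree.nil (CTree.cons CTree.nil (CTree.cons CTree.nil (CTree.cons (CTree.leaf 1 921147820142545580947771581138419052781962) (CTree.cons (CTree.leaf 1 877589579488727319721629269210355630998041) (CTree.cons CTree.nil (CTree.cons CTree.nil (CTree.cons CTree.nil (CTree.cons CTree.nil (CTree.cons CTree.nil (CTree.cons CTree.nil (CTree.cons (CTree.leaf 1 60368160811281310800795100697834096769952714882)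 (CTree.cons CTree.nil (CTree.cons (CTree.leaf 1 14517872281152342810699549626945459556645605506) (CTree.cons CTree.nil (CTree.cons CTree.nil (CTree.cons (CTree.leaf 1 179670444933879589922303667205559296272922) (CTree.cons CTree.nil (CTree.cons CTree.nil (CTree.cons CTree.nil (CTree.cons CTree.nil (CTree.cons CTree.nil (CTree.cons CTree.nil (CTree.cons (CTree.leaf 1 60368160811281310800795100697834096769952714882) (CTree.cons CTree.nil (CTree.cons (CTree.leaf 1 14517872281152342810699549626945459556645605506) (CTree.cons CTree.nil (CTree.cons (CTree.leaf 1 60368160811281310800795100697834096769952714882) (CTree.cons CTree.nil CTree.nil)))))))))))))))))))))))))))))))))))) (CTree.cons CTree.nil (CTree.cons CTree.nil (CTree.cons (CTree.cons CTree.nil (CTree.cons (CTree.leaf 1 24653046804448304374778976974402617472) (CTree.cons (CTree.leaf 1 664990180957302213169885785307091074) (CTree.cons CTree.nil (CTree.cons CTree.nil (CTree.cons (CTree.leaf 1 3494923005139550840682332327018369154) (CTree.cons (CTree.leaf 1 228671106095169094650685555369322517438866) (CTree.cons CTree.nil (CTree.cons (CTree.leaf 1 3364618511275352375874452211099050386)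 (CTree.cons CTree.nil (CTree.cons CTree.nil (CTree.cons (CTree.leaf 1 1370776512507277070078644546995036562) (CTree.cons CTree.nil (CTree.cons CTree.nil (CTree.cons CTree.nil (CTree.cons CTree.nil (CTree.cons CTree.nil (CTree.cons CTree.nil (CTree.cons (CTree.leaf 1 90856056958063938725762374675083677532808) (CTree.cons (CTree.leaf 1 228671105781504799256713042853485793583506) (CTree.cons CTree.nil (CTree.cons CTree.nil (CTree.cons CTree.nil (CTree.cons (CTree.leaf 1 2035390515025115850864745165270688146) (CTree.cons CTree.nil (CTree.cons CTree.nil (CTree.cons CTree.nil (CTree.cons CTree.nil (CTree.cons CTree.nil (CTree.cons CTree.nil (CTree.cons (CTree.leaf 1 90856056958063938725762374675083677532808) (CTree.cons (CTree.leaf 1 228671105781504799256713042853485793583506) (CTree.cons (CTree.leaf 1 90856056958063938725762374675083677532808) (CTree.cons CTree.nil (CTree.cons CTree.nil (CTree.cons CTree.nil CTree.nil)))))))))))))))))))))))))))))))))))) (CTree.cons (CTree.cons CTree.nil (CTree.cons (CTree.leaf 1 2035747601468419503335237084492464256) (CTree.cons (CTree.leaf 1 664655593327129475911087905365364866) (CTree.cons CTree.nil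 (CTree.cons (CTree.leaf 1 2788943039950880625932454440302874754) (CTree.cons CTree.nil (CTree.cons (CTree.leaf 1 1577210126202848225275466052915160203526544) (CTree.cons CTree.nil (CTree.cons (CTree.leaf 1 664981230815222500645992029079339400) (CTree.cons CTree.nil (CTree.cons (CTree.leaf 1 1370776517607649973075658654076182922) (CTree.cons CTree.nil (CTree.cons CTree.nil (CTree.cons CTree.nil (CTree.cons CTree.nil (CTree.cons CTree.nil (CTree.cons CTree.nil (CTree.cons CTree.nil (CTree.cons (CTree.leaf 1 133391352468170079120884107316522644537477) (CTree.cons (CTree.leaf 1 1577210125878171383486304532309353543369104) (CTree.cons (CTree.leaf 1 133391352468170079120884107316522644537477) (CTree.cons CTree.nil (CTree.cons CTree.nil (CTree.cons CTree.nil (CTree.cons CTree.nil (CTree.cons CTree.nil (CTree.cons CTree.nil (CTree.cons CTree.nil (CTree.cons CTree.nil (CTree.cons CTree.nil (CTree.cons (CTree.leaf 1 2134932956772462071337383431520433697063045) (CTree.cons (CTree.leaf 1 1577210125878171383486304532309353543369104) (CTree.cons CTree.nil (CTree.cons CTree.nil (CTree.cons (CTree.leaf 1 1577210806069059851548724484545721807274117)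 (CTree.cons CTree.nil CTree.nil)))))))))))))))))))))))))))))))))))) (CTree.cons (CTree.cons CTree.nil (CTree.cons (CTree.leaf 1 877590259722715771663766168015393561575552) (CTree.cons (CTree.leaf 1 43570198890295697974874559895550132031618) (CTree.cons CTree.nil (CTree.cons CTree.nil (CTree.cons (CTree.leaf 1 229011430172865382985883872611288801742978) (CTree.cons CTree.nil (CTree.cons CTree.nil (CTree.cons (CTree.leaf 1 877588888934156441919225043642659360801441) (CTree.cons CTree.nil (CTree.cons (CTree.leaf 1 971899147131490046203366747878073428143246394133011) (CTree.cons (CTree.leaf 1 182733001813058930783425895908181274599826) (CTree.cons CTree.nil (CTree.cons (CTree.leaf 1 6774065909751923536265003583404664237945203501039641) (CTree.cons CTree.nil (CTree.cons CTree.nil (CTree.cons (CTree.leaf 1 787754344412145911898753570695344974594696) (CTree.cons (CTree.leaf 1 133391352630429355950097470708100654825605) (CTree.cons CTree.nil (CTree.cons CTree.nil (CTree.cons CTree.nil (CTree.cons CTree.nil (CTree.cons CTree.nil (CTree.cons CTree.nil (CTree.cons CTree.nil (CTree.cons CTree.nil (CTree.cons CTree.nil (CTree.cons CTree.nil (CTree.cons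 CTree.nil (CTree.cons CTree.nil (CTree.cons CTree.nil (CTree.cons (CTree.leaf 1 982186615485443897379973897087421971287378088755331) (CTree.cons (CTree.leaf 1 982134988560711463704406044221590107164508237660291) (CTree.cons CTree.nil (CTree.cons (CTree.leaf 1 6774063055905434784596730499294021303939177038020739) (CTree.cons CTree.nil CTree.nil)))))))))))))))))))))))))))))))))))) (CTree.cons (CTree.cons CTree.nil (CTree.cons CTree.nil (CTree.cons (CTree.leaf 1 43569534275663989888230586236517950230658) (CTree.cons CTree.nil (CTree.cons (CTree.leaf 1 14342298138039744294117365617208822577793011842) (CTree.cons (CTree.leaf 1 229011429675793175548164531619017006915986) (CTree.cons (CTree.leaf 1 5954478693060342633479827448622996557561663618) (CTree.cons CTree.nil (CTree.cons (CTree.leaf 1 921147051682603237712648483879940970840601) (CTree.cons CTree.nil (CTree.cons CTree.nil (CTree.cons (CTree.leaf 1 182732986236168355178944162393771963654546) (CTree.cons (CTree.leaf 1 139914966275512670652130487166792480783147008673) (CTree.cons CTree.nil (CTree.cons CTree.nil (CTree.cons CTree.nil (CTree.cons (CTree.leaf 1 228671105943764076085926406245063803871634)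 (CTree.cons (CTree.leaf 1 1577210125878173859366383103069903341617552) (CTree.cons CTree.nil (CTree.cons CTree.nil (CTree.cons CTree.nil (CTree.cons CTree.nil (CTree.cons CTree.nil (CTree.cons CTree.nil (CTree.cons CTree.nil (CTree.cons CTree.nil (CTree.cons CTree.nil (CTree.cons CTree.nil (CTree.cons CTree.nil (CTree.cons CTree.nil (CTree.cons (CTree.leaf 1 5954516751464251815956416204133830671032455298) (CTree.cons CTree.nil (CTree.cons (CTree.leaf 1 14272567826991302448907729690158852663817607298) (CTree.cons CTree.nil (CTree.cons (CTree.leaf 1 5954478651075927704049195951462769807035732098) (CTree.cons CTree.nil CTree.nil)))))))))))))))))))))))))))))))))))) (CTree.cons (CTree.cons CTree.nil (CTree.cons (CTree.leaf 1 89859240111247698566194249827370218487936) (CTree.cons CTree.nil (CTree.cons CTree.nil (CTree.cons (CTree.leaf 1 2918975384542452714171661360337886257549442) (CTree.cons (CTree.leaf 1 15008450860218968503657714409671469112640151954) (CTree.cons (CTree.leaf 1 14517961093437438401286885987100208168337801889) (CTree.cons CTree.nil (CTree.cons CTree.nil (CTree.cons CTree.nil (CTree.cons (CTree.leaf 1 921145738031505308481893155126065576092042)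 (CTree.cons (CTree.leaf 1 182733001813058930783425895908181274599826) (CTree.cons (CTree.leaf 1 60368160809255979648524449294488032258035876377) (CTree.cons (CTree.leaf 1 14517961050892407138016150280903562745837388449) (CTree.cons CTree.nil (CTree.cons CTree.nil (CTree.cons CTree.nil (CTree.cons (CTree.leaf 1 133391352630429355950097470708100654825605) (CTree.cons CTree.nil (CTree.cons CTree.nil (CTree.cons CTree.nil (CTree.cons CTree.nil (CTree.cons CTree.nil (CTree.cons CTree.nil (CTree.cons CTree.nil (CTree.cons CTree.nil (CTree.cons CTree.nil (CTree.cons CTree.nil (CTree.cons CTree.nil (CTree.cons CTree.nil (CTree.cons (CTree.leaf 1 60368204386650985666529987882075431859801621017) (CTree.cons (CTree.leaf 1 14517961050892407138016150280903562745837388449) (CTree.cons CTree.nil (CTree.cons CTree.nil (CTree.cons (CTree.leaf 1 60368160809255979648524449294488032258035876377) (CTree.cons CTree.nil CTree.nil)))))))))))))))))))))))))))))))))))) (CTree.cons CTree.nil (CTree.cons CTree.nil (CTree.cons (CTree.cons CTree.nil (CTree.cons (CTree.leaf 1 23360164889303861168852604099845816448) (CTree.cons (CTree.leaf 1 2725966002315541662920799930159861890)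 (CTree.cons CTree.nil (CTree.cons (CTree.leaf 1 3667564103567066191542605322094185458833674) (CTree.cons CTree.nil (CTree.cons (CTree.leaf 1 179670445258553955831386540209320042244634) (CTree.cons CTree.nil (CTree.cons (CTree.leaf 1 2700004513081871910951020206015719962) (CTree.cons CTree.nil (CTree.cons (CTree.leaf 1 3411359952447115757159403053542678922) (CTree.cons CTree.nil (CTree.cons (CTree.leaf 1 89835209502289955795061785592690398724229) (CTree.cons (CTree.leaf 1 179670444933877114042225096445009498024474) (CTree.cons CTree.nil (CTree.cons CTree.nil (CTree.cons (CTree.leaf 1 2035390515025115850864745165270688146) (CTree.cons CTree.nil (CTree.cons CTree.nil (CTree.cons CTree.nil (CTree.cons CTree.nil (CTree.cons CTree.nil (CTree.cons CTree.nil (CTree.cons CTree.nil (CTree.cons CTree.nil (CTree.cons CTree.nil (CTree.cons CTree.nil (CTree.cons CTree.nil (CTree.cons CTree.nil (CTree.cons CTree.nil (CTree.cons (CTree.leaf 1 87113672609850079822367667005066514006149) (CTree.cons (CTree.leaf 1 179670444933877114042225096445009498024474) (CTree.cons (CTree.leaf 1 179669754369169959012090451786460332425349) (CTree.cons CTree.nil (CTree.cons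 CTree.nil (CTree.cons CTree.nil CTree.nil)))))))))))))))))))))))))))))))))))) (CTree.cons CTree.nil (CTree.cons CTree.nil (CTree.cons CTree.nil (CTree.cons CTree.nil (CTree.cons CTree.nil (CTree.cons CTree.nil (CTree.cons (CTree.cons CTree.nil (CTree.cons (CTree.leaf 1 877620801126813742420245957412354035352225) (CTree.cons (CTree.leaf 1 43580837744220330844957791153357149769858) (CTree.cons CTree.nil (CTree.cons (CTree.leaf 1 142947959454876955258305794265223265675234058642) (CTree.cons CTree.nil (CTree.cons CTree.nil (CTree.cons CTree.nil (CTree.cons (CTree.leaf 1 228683142001551903760596052960085872542369) (CTree.cons CTree.nil (CTree.cons (CTree.leaf 1 736014440151978693009999691797751646083686794) (CTree.cons (CTree.leaf 1 182732295854876387470155248525504482976146) (CTree.cons CTree.nil (CTree.cons (CTree.leaf 1 3769227710354382164547489041934385304442904203231265) (CTree.cons CTree.nil (CTree.cons CTree.nil (CTree.cons (CTree.leaf 1 787754344412145911898753570695344974594696) (CTree.cons (CTree.leaf 1 2134943590596428350664366661976915939819653) (CTree.cons CTree.nil (CTree.cons (CTree.leaf 1 381452664845169483480054216572854169466758229920275)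 (CTree.cons (CTree.leaf 1 982129837788170582861763732424128196344492399460485) (CTree.cons CTree.nil (CTree.cons CTree.nil (CTree.cons (CTree.leaf 1 87124306433816359149350897461548756762757) (CTree.cons CTree.nil (CTree.cons CTree.nil (CTree.cons CTree.nil (CTree.cons CTree.nil (CTree.cons CTree.nil (CTree.cons CTree.nil (CTree.cons CTree.nil (CTree.cons CTree.nil (CTree.cons CTree.nil (CTree.cons CTree.nil (CTree.cons CTree.nil (CTree.cons CTree.nil CTree.nil)))))))))))))))))))))))))))))))))))) (CTree.cons (CTree.cons CTree.nil (CTree.cons CTree.nil (CTree.cons (CTree.leaf 1 43570199193736929673365593492585052704898) (CTree.cons CTree.nil (CTree.cons (CTree.leaf 1 231258946513112765695720698330935324663062012306) (CTree.cons (CTree.leaf 1 877591718726206206472833910694330965823618) (CTree.cons (CTree.leaf 1 14986144353621861249578397131639990438488903810) (CTree.cons CTree.nil (CTree.cons (CTree.leaf 1 1618385621503603672260098664132455063159321) (CTree.cons CTree.nil (CTree.cons (CTree.leaf 1 921147820142545580947771581138419598360837) (CTree.cons CTree.nil (CTree.cons (CTree.leaf 1 60371036195230955735410511357476673541598413337)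 (CTree.cons CTree.nil (CTree.cons CTree.nil (CTree.cons CTree.nil (CTree.cons (CTree.leaf 1 228671105943764076085926406245063803871634) (CTree.cons (CTree.leaf 1 1577210125878173859366383103069903341617552) (CTree.cons (CTree.leaf 1 14986144353621861249578397131754277465089577090) (CTree.cons CTree.nil (CTree.cons (CTree.leaf 1 191295835901715498488127974168294896141852017157) (CTree.cons CTree.nil (CTree.cons CTree.nil (CTree.cons (CTree.leaf 1 179670444933879589922303667205559296272922) (CTree.cons CTree.nil (CTree.cons CTree.nil (CTree.cons CTree.nil (CTree.cons CTree.nil (CTree.cons CTree.nil (CTree.cons CTree.nil (CTree.cons CTree.nil (CTree.cons CTree.nil (CTree.cons CTree.nil (CTree.cons CTree.nil (CTree.cons CTree.nil (CTree.cons CTree.nil CTree.nil)))))))))))))))))))))))))))))))))))) (CTree.cons (CTree.cons CTree.nil (CTree.cons (CTree.leaf 1 921145738398170594663021172459548064678016) (CTree.cons CTree.nil (CTree.cons CTree.nil (CTree.cons (CTree.leaf 1 11975543731144856531245827918423542162867230986) (CTree.cons (CTree.leaf 1 15008580167663751318268213278661265966786814354) (CTree.cons (CTree.leaf 1 240357607718957058948028189024818250230386000545)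 (CTree.cons CTree.nil (CTree.cons CTree.nil (CTree.cons CTree.nil (CTree.cons (CTree.leaf 1 921145738031498028361116735704600502993029) (CTree.cons (CTree.leaf 1 877589595065612804549113191211077212381586) (CTree.cons (CTree.leaf 1 60368160809255979648524449294488034014668587272) (CTree.cons (CTree.leaf 1 240357607676411724790859698755121609938507006625) (CTree.cons CTree.nil (CTree.cons CTree.nil (CTree.cons (CTree.leaf 1 787754344412145911898753570695344974594696) (CTree.cons CTree.nil (CTree.cons (CTree.leaf 1 60368160809255979648524449294488032258035876377) (CTree.cons (CTree.leaf 1 240357607676411724790859698755121609938507006625) (CTree.cons CTree.nil (CTree.cons CTree.nil (CTree.cons CTree.nil (CTree.cons (CTree.leaf 1 179669754369172434892169022547010130673797) (CTree.cons CTree.nil (CTree.cons CTree.nil (CTree.cons CTree.nil (CTree.cons CTree.nil (CTree.cons CTree.nil (CTree.cons CTree.nil (CTree.cons CTree.nil (CTree.cons CTree.nil (CTree.cons CTree.nil (CTree.cons CTree.nil (CTree.cons CTree.nil (CTree.cons CTree.nil CTree.nil)))))))))))))))))))))))))))))))))))) (CTree.cons CTree.nil (CTree.cons (CTree.cons CTree.nil (CTree.cons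 (CTree.leaf 1 1577210806739805964969153892942666469146752) (CTree.cons (CTree.leaf 1 43600766072935682864531483461126297161858) (CTree.cons CTree.nil (CTree.cons CTree.nil (CTree.cons (CTree.leaf 1 15008537632954615758654985452403678091809597978) (CTree.cons (CTree.leaf 1 14986189609053001787027326105610799657527609875) (CTree.cons CTree.nil (CTree.cons (CTree.leaf 1 228670415552091547216393804603022949550611) (CTree.cons CTree.nil (CTree.cons CTree.nil (CTree.cons (CTree.leaf 1 877589595065617895250609631308151423894041) (CTree.cons (CTree.leaf 1 14986144353621861734853270096109999414778593413) (CTree.cons (CTree.leaf 1 14986189587775326336799619896917156560771420290) (CTree.cons CTree.nil (CTree.cons CTree.nil (CTree.cons CTree.nil (CTree.cons (CTree.leaf 1 1577210806069062327428803055306271605522565) (CTree.cons (CTree.leaf 1 2855372974326805499330851019043086220795576993) (CTree.cons (CTree.leaf 1 14986189587775293932481078534449707130430751120) (CTree.cons (CTree.leaf 1 14986144342946488767065129539221384889939067280) (CTree.cons CTree.nil (CTree.cons CTree.nil (CTree.cons CTree.nil (CTree.cons CTree.nil (CTree.cons CTree.nil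 (CTree.cons CTree.nil (CTree.cons CTree.nil (CTree.cons CTree.nil (CTree.cons CTree.nil (CTree.cons CTree.nil (CTree.cons CTree.nil (CTree.cons CTree.nil (CTree.cons CTree.nil (CTree.cons CTree.nil (CTree.cons CTree.nil CTree.nil)))))))))))))))))))))))))))))))))))) (CTree.cons CTree.nil CTree.nil)))))))))))))))))))))))))))))))))))

theorem tree6_4_3_ok : chk 6 (pk (goalL 6)) tree6_4_3 (stk [((4 : Fin 6), (3 : Fin 6))]) 1 (om [((4 : Fin 6), (3 : Fin 6))]) (im [((4 : Fin 6), (3 : Fin 6))])
    (cm [((4 : Fin 6), (3 : Fin 6))]) (pk (goalR [((4 : Fin 6), (3 : Fin 6))])) 0 = true := by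
  decide +kernel

def tree6_4_5 : CTree :=
  CTree.cons CTree.nil (CTree.cons (CTree.cons CTree.nil (CTree.cons CTree.nil (CTree.cons CTree.nil (CTree.cons CTree.nil (CTree.cons CTree.nil (CTree.cons CTree.nil (CTree.cons CTree.nil (CTree.cons CTree.nil (CTree.cons (CTree.leaf 1 680887318418567412014133610545280) (CTree.cons (CTree.leaf 1 20926624422091857274076362571904) (CTree.cons (CTree.leaf 1 20916724636966547996955871150208) (CTree.cons CTree.nil (CTree.cons (CTree.leaf 1 182392018507374311122723392167385939640448) (CTree.cons CTree.nil (CTree.cons CTree.nil (CTree.cons (CTree.leaf 1 41209024462748371986874390610048) (CTree.cons (CTree.leaf 1 31065188925057713700473251430528) (CTree.cons CTree.nil (CTree.cons (CTree.leaf 1 43899167059740984011681097338200773951616) (CTree.cons CTree.nil (CTree.cons (CTree.leaf 1 182392018670106473793388853136200367145088) (CTree.cons CTree.nil (CTree.cons (CTree.leaf 1 31065188925057713700472714494080) (CTree.cons CTree.nil (CTree.cons CTree.nil (CTree.cons CTree.nil (CTree.cons CTree.nil (CTree.cons CTree.nil (CTree.cons CTree.nil (CTree.cons CTree.nil (CTree.cons (CTree.leaf 1 43909152333288484507666002246993696063616)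 (CTree.cons CTree.nil (CTree.cons (CTree.leaf 1 182392018670106473793388853136200367145088) (CTree.cons (CTree.leaf 1 179669759734748875537343782035440931504256) (CTree.cons CTree.nil (CTree.cons CTree.nil CTree.nil)))))))))))))))))))))))))))))))))))) (CTree.cons (CTree.cons CTree.nil (CTree.cons CTree.nil (CTree.cons CTree.nil (CTree.cons CTree.nil (CTree.cons CTree.nil (CTree.cons CTree.nil (CTree.cons (CTree.leaf 1 664646093047498003891746006338375810) (CTree.cons CTree.nil (CTree.cons CTree.nil (CTree.cons (CTree.leaf 1 507852676617470783245664105599106) (CTree.cons (CTree.leaf 1 680253158097451248858046351872130) (CTree.cons CTree.nil (CTree.cons CTree.nil (CTree.cons (CTree.leaf 1 2783405934544202718364548092649341465) (CTree.cons CTree.nil (CTree.cons (CTree.leaf 1 10151584757156823707799200010370) (CTree.cons (CTree.leaf 1 10148954023653111817212471152770) (CTree.cons CTree.nil (CTree.cons (CTree.leaf 1 2783081257866673865193908317449687170) (CTree.cons (CTree.leaf 1 664645937221906515968449553926525058) (CTree.cons CTree.nil (CTree.cons CTree.nil (CTree.cons (CTree.leaf 1 10148954023653111817211934216322) (CTree.cons CTree.nil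 (CTree.cons CTree.nil (CTree.cons CTree.nil (CTree.cons CTree.nil (CTree.cons CTree.nil (CTree.cons CTree.nil (CTree.cons CTree.nil (CTree.cons (CTree.leaf 1 2783081257866673865193908317449687170) (CTree.cons (CTree.leaf 1 664645927322012979147347467001467010) (CTree.cons CTree.nil (CTree.cons (CTree.leaf 1 664645937221906515968449553926525058) (CTree.cons CTree.nil (CTree.cons CTree.nil CTree.nil)))))))))))))))))))))))))))))))))))) (CTree.cons (CTree.cons CTree.nil (CTree.cons CTree.nil (CTree.cons CTree.nil (CTree.cons CTree.nil (CTree.cons CTree.nil (CTree.cons CTree.nil (CTree.cons (CTree.leaf 1 43600765739077641610606966749393881465352) (CTree.cons CTree.nil (CTree.cons (CTree.leaf 1 507218851317356668544915753996418) (CTree.cons CTree.nil (CTree.cons (CTree.leaf 1 1370776522247545322627348096547357209) (CTree.cons CTree.nil (CTree.cons (CTree.leaf 1 179669755029142884620211157114795583406617) (CTree.cons (CTree.leaf 1 1370776522247660836714882871110730265) (CTree.cons CTree.nil (CTree.cons CTree.nil (CTree.cons (CTree.leaf 1 680894568193046149095987284086914) (CTree.cons CTree.nil (CTree.cons CTree.nil (CTree.cons (CTree.leaf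 1 179669754369417710106909681689000604140057) (CTree.cons (CTree.leaf 1 43557529990030835726999067548791571808793) (CTree.cons CTree.nil (CTree.cons (CTree.leaf 1 31778232713678431192081698984066) (CTree.cons CTree.nil (CTree.cons CTree.nil (CTree.cons CTree.nil (CTree.cons CTree.nil (CTree.cons CTree.nil (CTree.cons CTree.nil (CTree.cons CTree.nil (CTree.cons (CTree.leaf 1 43557529990030835575938681175876717576337) (CTree.cons (CTree.leaf 1 43557529990030835573651212008095003771417) (CTree.cons (CTree.leaf 1 43557529990030835726999067548791571808793) (CTree.cons CTree.nil (CTree.cons CTree.nil (CTree.cons CTree.nil CTree.nil)))))))))))))))))))))))))))))))))))) (CTree.cons (CTree.cons CTree.nil (CTree.cons CTree.nil (CTree.cons CTree.nil (CTree.cons CTree.nil (CTree.cons CTree.nil (CTree.cons CTree.nil (CTree.cons (CTree.leaf 1 182732295662349498358419346258746518667656) (CTree.cons CTree.nil (CTree.cons (CTree.leaf 1 42555893553936695167218805182594) (CTree.cons (CTree.leaf 1 2788284329422889216308602287537920266) (CTree.cons CTree.nil (CTree.cons CTree.nil (CTree.cons (CTree.leaf 1 182732383929732302037689366437808808526224) (CTree.cons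 (CTree.leaf 1 2788437398387576094374443853418205314) (CTree.cons CTree.nil (CTree.cons (CTree.leaf 1 42555893553936695166634689630338) (CTree.cons CTree.nil (CTree.cons CTree.nil (CTree.cons (CTree.leaf 1 136115735041929946213315126968092536676754) (CTree.cons (CTree.leaf 1 2788770632193886928241824947161337986) (CTree.cons (CTree.leaf 1 2788600132878671221602007368874400010) (CTree.cons CTree.nil (CTree.cons CTree.nil (CTree.cons CTree.nil (CTree.cons CTree.nil (CTree.cons CTree.nil (CTree.cons CTree.nil (CTree.cons CTree.nil (CTree.cons CTree.nil (CTree.cons CTree.nil (CTree.cons CTree.nil (CTree.cons (CTree.leaf 1 182732295671695942063830164058622223581584) (CTree.cons (CTree.leaf 1 182732295671695942063830200087419242551562) (CTree.cons (CTree.leaf 1 182732383929729970022237289180478606221714) (CTree.cons CTree.nil (CTree.cons CTree.nil CTree.nil)))))))))))))))))))))))))))))))))))) (CTree.cons CTree.nil (CTree.cons (CTree.cons CTree.nil (CTree.cons CTree.nil (CTree.cons (CTree.leaf 1 665294885210763185474259578468765826) (CTree.cons (CTree.leaf 1 33241094639934286630221781349541941378) (CTree.cons (CTree.leaf 1 2788943039950795254478858668549935234)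 (CTree.cons CTree.nil (CTree.cons CTree.nil (CTree.cons CTree.nil (CTree.cons CTree.nil (CTree.cons CTree.nil (CTree.cons CTree.nil (CTree.cons CTree.nil (CTree.cons CTree.nil (CTree.cons (CTree.leaf 1 182393368483249776074170227468164118151705) (CTree.cons CTree.nil (CTree.cons (CTree.leaf 1 2741553420011706248274979165520855577) (CTree.cons (CTree.leaf 1 2076928889727658206190654097448313234) (CTree.cons CTree.nil (CTree.cons CTree.nil (CTree.cons (CTree.leaf 1 179669754380192740173156330527262058283545) (CTree.cons (CTree.leaf 1 182393368483242678578984104437028195729945) (CTree.cons CTree.nil (CTree.cons (CTree.leaf 1 2076939422119167735907055939219947921) (CTree.cons CTree.nil (CTree.cons CTree.nil (CTree.cons CTree.nil (CTree.cons CTree.nil (CTree.cons CTree.nil (CTree.cons CTree.nil (CTree.cons CTree.nil (CTree.cons CTree.nil (CTree.cons (CTree.leaf 1 179669754380192740173156330527262058283545) (CTree.cons (CTree.leaf 1 182393368483242678578984104437028195729945) (CTree.cons (CTree.leaf 1 179669754380192740173156330527262058283545) (CTree.cons CTree.nil (CTree.cons CTree.nil CTree.nil)))))))))))))))))))))))))))))))))))) (CTree.cons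 CTree.nil (CTree.cons (CTree.cons CTree.nil (CTree.cons (CTree.leaf 1 680887318418567412014133610545280) (CTree.cons CTree.nil (CTree.cons (CTree.leaf 1 507218851317356668544915753996418) (CTree.cons (CTree.leaf 1 42555893553936695167218805182594) (CTree.cons CTree.nil (CTree.cons CTree.nil (CTree.cons CTree.nil (CTree.cons CTree.nil (CTree.cons CTree.nil (CTree.cons CTree.nil (CTree.cons CTree.nil (CTree.cons (CTree.leaf 1 2783101936084743897616122855546749465) (CTree.cons CTree.nil (CTree.cons CTree.nil (CTree.cons (CTree.leaf 1 41198799408307915093219416801817) (CTree.cons (CTree.leaf 1 31057594566340197960744267489682) (CTree.cons CTree.nil (CTree.cons (CTree.leaf 1 2700004508130111753809499106419212825) (CTree.cons (CTree.leaf 1 2783101936084635598434205695037473305) (CTree.cons CTree.nil (CTree.cons CTree.nil (CTree.cons (CTree.leaf 1 31057594566340197960744267481489) (CTree.cons CTree.nil (CTree.cons CTree.nil (CTree.cons CTree.nil (CTree.cons CTree.nil (CTree.cons CTree.nil (CTree.cons CTree.nil (CTree.cons CTree.nil (CTree.cons (CTree.leaf 1 2659115328825475014763496634914505241) (CTree.cons (CTree.leaf 1 2783101936084635598434205695037473305)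 (CTree.cons CTree.nil (CTree.cons (CTree.leaf 1 2700004508130111753809499106419212825) (CTree.cons CTree.nil (CTree.cons CTree.nil CTree.nil)))))))))))))))))))))))))))))))))))) (CTree.cons (CTree.cons CTree.nil (CTree.cons (CTree.leaf 1 20926624422091857274076362571904) (CTree.cons (CTree.leaf 1 507852676617470783245664105599106) (CTree.cons CTree.nil (CTree.cons (CTree.leaf 1 2788283695622938765621472702782640258) (CTree.cons CTree.nil (CTree.cons CTree.nil (CTree.cons CTree.nil (CTree.cons CTree.nil (CTree.cons CTree.nil (CTree.cons CTree.nil (CTree.cons CTree.nil (CTree.cons (CTree.leaf 1 2757130548271798272801499303118444810) (CTree.cons (CTree.leaf 1 2757130310587310731160563602163308810) (CTree.cons CTree.nil (CTree.cons CTree.nil (CTree.cons (CTree.leaf 1 20916389658685505747810356166789) (CTree.cons CTree.nil (CTree.cons (CTree.leaf 1 2757119778195874341668365736106072330) (CTree.cons CTree.nil (CTree.cons (CTree.leaf 1 2757130548271798272801499303118444810) (CTree.cons CTree.nil (CTree.cons (CTree.leaf 1 20916389658685505712621689110661) (CTree.cons CTree.nil (CTree.cons CTree.nil (CTree.cons CTree.nil (CTree.cons CTree.nil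 (CTree.cons CTree.nil (CTree.cons CTree.nil (CTree.cons CTree.nil (CTree.cons (CTree.leaf 1 2757130548271798272801499303118444810) (CTree.cons (CTree.leaf 1 2757130310587310731160563602163308810) (CTree.cons (CTree.leaf 1 2757130548271798272801499303118444810) (CTree.cons CTree.nil (CTree.cons CTree.nil (CTree.cons CTree.nil CTree.nil)))))))))))))))))))))))))))))))))))) (CTree.cons (CTree.cons CTree.nil (CTree.cons (CTree.leaf 1 20916724636966547996955871150208) (CTree.cons (CTree.leaf 1 50714181127776532515346715504341344129154) (CTree.cons (CTree.leaf 1 1370776522247507543695485139385647641) (CTree.cons CTree.nil (CTree.cons CTree.nil (CTree.cons CTree.nil (CTree.cons CTree.nil (CTree.cons CTree.nil (CTree.cons CTree.nil (CTree.cons CTree.nil (CTree.cons CTree.nil (CTree.cons (CTree.leaf 1 2092505775355242737960695119049523464) (CTree.cons (CTree.leaf 1 2092516312694772219945287457837752714) (CTree.cons CTree.nil (CTree.cons (CTree.leaf 1 20916389648725917016524599140746) (CTree.cons CTree.nil (CTree.cons CTree.nil (CTree.cons (CTree.leaf 1 2092505775355242737960695119049523464) (CTree.cons (CTree.leaf 1 2092516312694772219945287457837752714)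 (CTree.cons (CTree.leaf 1 2082295800502198879547810303703056921) (CTree.cons CTree.nil (CTree.cons CTree.nil (CTree.cons CTree.nil (CTree.cons CTree.nil (CTree.cons CTree.nil (CTree.cons CTree.nil (CTree.cons CTree.nil (CTree.cons CTree.nil (CTree.cons CTree.nil (CTree.cons (CTree.leaf 1 664948816422891100280939505984864659) (CTree.cons CTree.nil (CTree.cons (CTree.leaf 1 2092505775355242737960695119049523464) (CTree.cons (CTree.leaf 1 2092505775355242737960695119049523464) (CTree.cons CTree.nil (CTree.cons CTree.nil CTree.nil)))))))))))))))))))))))))))))))))))) (CTree.cons CTree.nil (CTree.cons (CTree.cons CTree.nil (CTree.cons (CTree.leaf 1 2783092035372766802371874279245283456) (CTree.cons CTree.nil (CTree.cons (CTree.leaf 1 43600765759271226751862230135479445029401) (CTree.cons (CTree.leaf 1 49343731477090798779657863709003971953313) (CTree.cons CTree.nil (CTree.cons CTree.nil (CTree.cons CTree.nil (CTree.cons (CTree.leaf 1 2783101936084743898192583607850172953) (CTree.cons (CTree.leaf 1 11774883299457986082872073124381854754312094233) (CTree.cons (CTree.leaf 1 12726340516658627031890995273560301962) (CTree.cons CTree.nil (CTree.cons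 CTree.nil (CTree.cons CTree.nil (CTree.cons CTree.nil (CTree.cons CTree.nil (CTree.cons CTree.nil (CTree.cons CTree.nil (CTree.cons CTree.nil (CTree.cons (CTree.leaf 1 8675172286303585046288110736762253242293885058) (CTree.cons (CTree.leaf 1 379289627932322505252146535778256906985472133) (CTree.cons CTree.nil (CTree.cons (CTree.leaf 1 2035390512549235772293984614801277329) (CTree.cons CTree.nil (CTree.cons CTree.nil (CTree.cons CTree.nil (CTree.cons CTree.nil (CTree.cons CTree.nil (CTree.cons CTree.nil (CTree.cons CTree.nil (CTree.cons CTree.nil (CTree.cons (CTree.leaf 1 8675172286303585046288110736762253242293885058) (CTree.cons (CTree.leaf 1 379289627932322505252146535778256906985472133) (CTree.cons (CTree.leaf 1 379289627932322505252146535778256906985472133) (CTree.cons CTree.nil (CTree.cons CTree.nil CTree.nil)))))))))))))))))))))))))))))))))))) (CTree.cons (CTree.cons CTree.nil (CTree.cons CTree.nil (CTree.cons (CTree.leaf 1 2783102569909973491519025357147148418) (CTree.cons (CTree.leaf 1 1370776522247660836782436865521287705) (CTree.cons (CTree.leaf 1 182732295673045608576326999640210460512386) (CTree.cons CTree.nil (CTree.cons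 (CTree.leaf 1 134414318025172222400834932970818094301573) (CTree.cons CTree.nil (CTree.cons CTree.nil (CTree.cons (CTree.leaf 1 2783081260342624574616937469327251722) (CTree.cons (CTree.leaf 1 12726329746582703100757861706547929482) (CTree.cons CTree.nil (CTree.cons CTree.nil (CTree.cons CTree.nil (CTree.cons CTree.nil (CTree.cons CTree.nil (CTree.cons CTree.nil (CTree.cons CTree.nil (CTree.cons (CTree.leaf 1 130681077364090634295633183994291330547973) (CTree.cons CTree.nil (CTree.cons (CTree.leaf 1 134414318197886981223644429033143046570373) (CTree.cons CTree.nil (CTree.cons (CTree.leaf 1 2076939422119132484717029760760873361) (CTree.cons CTree.nil (CTree.cons CTree.nil (CTree.cons CTree.nil (CTree.cons CTree.nil (CTree.cons CTree.nil (CTree.cons CTree.nil (CTree.cons CTree.nil (CTree.cons (CTree.leaf 1 130681077364083533105657495362164829520133) (CTree.cons CTree.nil (CTree.cons (CTree.leaf 1 134414318197886981223644429033143046570373) (CTree.cons (CTree.leaf 1 182393342704616975318869638479035607089413) (CTree.cons CTree.nil (CTree.cons CTree.nil CTree.nil)))))))))))))))))))))))))))))))))))) (CTree.cons CTree.nil (CTree.cons (CTree.cons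 CTree.nil (CTree.cons (CTree.leaf 1 41209024462748371986874390610048) (CTree.cons (CTree.leaf 1 10151584757156823707799200010370) (CTree.cons CTree.nil (CTree.cons (CTree.leaf 1 42555893553936695166634689630338) (CTree.cons CTree.nil (CTree.cons (CTree.leaf 1 2741553420011706248274970369427833369) (CTree.cons CTree.nil (CTree.cons (CTree.leaf 1 41198799408307915093219416801817) (CTree.cons CTree.nil (CTree.cons (CTree.leaf 1 20916389648725917016524599140746) (CTree.cons CTree.nil (CTree.cons CTree.nil (CTree.cons CTree.nil (CTree.cons CTree.nil (CTree.cons CTree.nil (CTree.cons CTree.nil (CTree.cons CTree.nil (CTree.cons (CTree.leaf 1 2700004507965853772057048096666878489) (CTree.cons (CTree.leaf 1 2741553420011552643466568292039197209) (CTree.cons CTree.nil (CTree.cons CTree.nil (CTree.cons (CTree.leaf 1 20916389658685505712621286391941) (CTree.cons CTree.nil (CTree.cons CTree.nil (CTree.cons CTree.nil (CTree.cons CTree.nil (CTree.cons CTree.nil (CTree.cons CTree.nil (CTree.cons CTree.nil (CTree.cons (CTree.leaf 1 2659115328661217033011045625162170905) (CTree.cons (CTree.leaf 1 2741553420011552643466568292039197209) (CTree.cons (CTree.leaf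 1 2700004507965853772057048096666878489) (CTree.cons CTree.nil (CTree.cons CTree.nil (CTree.cons CTree.nil CTree.nil)))))))))))))))))))))))))))))))))))) (CTree.cons (CTree.cons CTree.nil (CTree.cons (CTree.leaf 1 31065188925057713700473251430528) (CTree.cons (CTree.leaf 1 10148954023653111817212471152770) (CTree.cons (CTree.leaf 1 680894568193046149095987284086914) (CTree.cons CTree.nil (CTree.cons CTree.nil (CTree.cons (CTree.leaf 1 2076939422119167735330595186916532626) (CTree.cons CTree.nil (CTree.cons (CTree.leaf 1 31057594566340197960744267489682) (CTree.cons (CTree.leaf 1 20916389658685505747810356166789) (CTree.cons CTree.nil (CTree.cons CTree.nil (CTree.cons CTree.nil (CTree.cons CTree.nil (CTree.cons CTree.nil (CTree.cons CTree.nil (CTree.cons CTree.nil (CTree.cons CTree.nil (CTree.cons (CTree.leaf 1 2076939659803579775600114274353619346) (CTree.cons (CTree.leaf 1 2076939422119167735330595186916532626) (CTree.cons (CTree.leaf 1 2035390509911359633932581402471637394) (CTree.cons CTree.nil (CTree.cons CTree.nil (CTree.cons CTree.nil (CTree.cons CTree.nil (CTree.cons CTree.nil (CTree.cons CTree.nil (CTree.cons CTree.nil (CTree.cons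 CTree.nil (CTree.cons CTree.nil (CTree.cons (CTree.leaf 1 1994339071329893681523187352956641682) (CTree.cons (CTree.leaf 1 2076939422119167735330595186916532626) (CTree.cons CTree.nil (CTree.cons (CTree.leaf 1 2035390509911359633932581402471637394) (CTree.cons CTree.nil (CTree.cons CTree.nil CTree.nil)))))))))))))))))))))))))))))))))))) (CTree.cons CTree.nil (CTree.cons (CTree.cons CTree.nil (CTree.cons (CTree.leaf 1 12726340923024534185622147616931905664) (CTree.cons (CTree.leaf 1 2783081257859458199888547941820469378) (CTree.cons CTree.nil (CTree.cons (CTree.leaf 1 2788943039950795255054747683396849794) (CTree.cons CTree.nil (CTree.cons CTree.nil (CTree.cons CTree.nil (CTree.cons (CTree.leaf 1 2700004510605991832380259656217461273) (CTree.cons (CTree.leaf 1 558956675266721581784842326144991231590597136) (CTree.cons (CTree.leaf 1 12726340516658627031890995273560301962) (CTree.cons CTree.nil (CTree.cons CTree.nil (CTree.cons (CTree.leaf 1 2921406150009514602756681067251752117101724176) (CTree.cons CTree.nil (CTree.cons (CTree.leaf 1 2700004510441733850627808646465126937) (CTree.cons (CTree.leaf 1 2076939659803620026357965461716017554)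 (CTree.cons CTree.nil (CTree.cons CTree.nil (CTree.cons CTree.nil (CTree.cons CTree.nil (CTree.cons CTree.nil (CTree.cons CTree.nil (CTree.cons CTree.nil (CTree.cons CTree.nil (CTree.cons CTree.nil (CTree.cons CTree.nil (CTree.cons CTree.nil (CTree.cons CTree.nil (CTree.cons CTree.nil (CTree.cons CTree.nil (CTree.cons (CTree.leaf 1 558352683987418746466254678571462592199393541) (CTree.cons (CTree.leaf 1 557695589520567490384432281959443799033315461) (CTree.cons (CTree.leaf 1 557695589520567490384432281959443799033315461) (CTree.cons CTree.nil (CTree.cons CTree.nil CTree.nil)))))))))))))))))))))))))))))))))))) (CTree.cons (CTree.cons CTree.nil (CTree.cons CTree.nil (CTree.cons (CTree.leaf 1 664808196498735729331841131936813186) (CTree.cons (CTree.leaf 1 136486470422926136738879712342708198117506) (CTree.cons (CTree.leaf 1 182732383929732445940131142890415504558596) (CTree.cons CTree.nil (CTree.cons (CTree.leaf 1 90858050627028257190933167875591240745221) (CTree.cons CTree.nil (CTree.cons (CTree.leaf 1 2783101936084673377366068652199182873) (CTree.cons CTree.nil (CTree.cons (CTree.leaf 1 12726329746582703100757861706547929482) (CTree.cons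 CTree.nil (CTree.cons (CTree.leaf 1 90887968478948936264611072222794064396677) (CTree.cons CTree.nil (CTree.cons CTree.nil (CTree.cons (CTree.leaf 1 2741553420011590422398431249200906777) (CTree.cons (CTree.leaf 1 2076928887417474105669200400793280914) (CTree.cons CTree.nil (CTree.cons CTree.nil (CTree.cons CTree.nil (CTree.cons CTree.nil (CTree.cons CTree.nil (CTree.cons CTree.nil (CTree.cons CTree.nil (CTree.cons CTree.nil (CTree.cons CTree.nil (CTree.cons CTree.nil (CTree.cons CTree.nil (CTree.cons CTree.nil (CTree.cons CTree.nil (CTree.cons (CTree.leaf 1 90858050627028257195969090726533000069381) (CTree.cons CTree.nil (CTree.cons (CTree.leaf 1 90887968478948936264611072222794064396677) (CTree.cons (CTree.leaf 1 90858050627028257195969090726533000069381) (CTree.cons CTree.nil (CTree.cons CTree.nil CTree.nil)))))))))))))))))))))))))))))))))))) (CTree.cons (CTree.cons CTree.nil (CTree.cons (CTree.leaf 1 2783265304720264730980997354782261376) (CTree.cons CTree.nil (CTree.cons (CTree.leaf 1 2082618259123672149414210265037738114) (CTree.cons (CTree.leaf 1 182732295833955523504571103570897986001162) (CTree.cons CTree.nil (CTree.cons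 (CTree.leaf 1 177969698200206432843738612799388178252177) (CTree.cons CTree.nil (CTree.cons CTree.nil (CTree.cons (CTree.leaf 1 2700004510752271854326293071284738314) (CTree.cons (CTree.leaf 1 2082121181951214072994888391084540441) (CTree.cons CTree.nil (CTree.cons (CTree.leaf 1 182392013304540106973498642765745283989637) (CTree.cons (CTree.leaf 1 177969697713273100716570121035541786990722) (CTree.cons CTree.nil (CTree.cons CTree.nil (CTree.cons (CTree.leaf 1 2035390512549235772293984614801285522) (CTree.cons CTree.nil (CTree.cons CTree.nil (CTree.cons CTree.nil (CTree.cons CTree.nil (CTree.cons CTree.nil (CTree.cons CTree.nil (CTree.cons CTree.nil (CTree.cons CTree.nil (CTree.cons CTree.nil (CTree.cons CTree.nil (CTree.cons CTree.nil (CTree.cons CTree.nil (CTree.cons CTree.nil (CTree.cons (CTree.leaf 1 182404075020523518397258593342633757180037) (CTree.cons (CTree.leaf 1 177969697713273100716570121035541786990722) (CTree.cons CTree.nil (CTree.cons (CTree.leaf 1 182392013304540106862543170234367245615237) (CTree.cons CTree.nil (CTree.cons CTree.nil CTree.nil)))))))))))))))))))))))))))))))))))) (CTree.cons CTree.nil (CTree.cons (CTree.cons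 CTree.nil (CTree.cons (CTree.leaf 1 31065188925057713700472714494080) (CTree.cons (CTree.leaf 1 10148954023653111817211934216322) (CTree.cons (CTree.leaf 1 31778232713678431192081698984066) (CTree.cons CTree.nil (CTree.cons CTree.nil (CTree.cons (CTree.leaf 1 2076939422119167735330595186916524433) (CTree.cons CTree.nil (CTree.cons (CTree.leaf 1 31057594566340197960744267481489) (CTree.cons (CTree.leaf 1 20916389658685505712621689110661) (CTree.cons CTree.nil (CTree.cons CTree.nil (CTree.cons (CTree.leaf 1 2035390510073355693723224065003028881) (CTree.cons (CTree.leaf 1 2076939422119094705785166803599163793) (CTree.cons CTree.nil (CTree.cons (CTree.leaf 1 20916389658685505712621286391941) (CTree.cons CTree.nil (CTree.cons CTree.nil (CTree.cons CTree.nil (CTree.cons CTree.nil (CTree.cons CTree.nil (CTree.cons CTree.nil (CTree.cons CTree.nil (CTree.cons CTree.nil (CTree.cons CTree.nil (CTree.cons CTree.nil (CTree.cons CTree.nil (CTree.cons CTree.nil (CTree.cons CTree.nil (CTree.cons CTree.nil (CTree.cons (CTree.leaf 1 1993863155181683953862983049438364049) (CTree.cons (CTree.leaf 1 2076939422119094705785166803599163793) (CTree.cons (CTree.leaf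 1 2035390510073355693723224065003028881) (CTree.cons CTree.nil (CTree.cons CTree.nil (CTree.cons CTree.nil CTree.nil)))))))))))))))))))))))))))))))))))) (CTree.cons CTree.nil (CTree.cons CTree.nil (CTree.cons CTree.nil (CTree.cons CTree.nil (CTree.cons CTree.nil (CTree.cons CTree.nil (CTree.cons CTree.nil (CTree.cons (CTree.cons CTree.nil (CTree.cons (CTree.leaf 1 43210488645278517417547441145980715545) (CTree.cons (CTree.leaf 1 2783081257859458199888547941820469378) (CTree.cons (CTree.leaf 1 2831832516652931254654743481646132257423897) (CTree.cons CTree.nil (CTree.cons CTree.nil (CTree.cons CTree.nil (CTree.cons CTree.nil (CTree.cons (CTree.leaf 1 2659115331301355093334257184712753689) (CTree.cons (CTree.leaf 1 557608476529153855741755116663061464106730000) (CTree.cons (CTree.leaf 1 12726329746582703100757861706547929482) (CTree.cons CTree.nil (CTree.cons CTree.nil (CTree.cons (CTree.leaf 1 557745270040656077307729994463585439385322000) (CTree.cons CTree.nil (CTree.cons (CTree.leaf 1 2659115331137097111581806174960419353) (CTree.cons (CTree.leaf 1 1994025414458513167226374627448660370) (CTree.cons CTree.nil (CTree.cons CTree.nil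 (CTree.cons (CTree.leaf 1 179681110095684273037523666692738986084378) (CTree.cons (CTree.leaf 1 179690492565322548764671607540691105026178) (CTree.cons CTree.nil (CTree.cons (CTree.leaf 1 1994025414458513167226374627448652177) (CTree.cons CTree.nil (CTree.cons CTree.nil (CTree.cons CTree.nil (CTree.cons CTree.nil (CTree.cons CTree.nil (CTree.cons CTree.nil (CTree.cons CTree.nil (CTree.cons CTree.nil (CTree.cons CTree.nil (CTree.cons CTree.nil (CTree.cons CTree.nil (CTree.cons CTree.nil (CTree.cons CTree.nil CTree.nil)))))))))))))))))))))))))))))))))))) (CTree.cons (CTree.cons CTree.nil (CTree.cons CTree.nil (CTree.cons (CTree.leaf 1 664645454436171527049770230584250498) (CTree.cons (CTree.leaf 1 43557529990031143852022570597800560099856) (CTree.cons (CTree.leaf 1 2788943039950795255054747683396849794) (CTree.cons CTree.nil (CTree.cons (CTree.leaf 1 179681816064007371886313599680785135239705) (CTree.cons CTree.nil (CTree.cons (CTree.leaf 1 2783101936084673377366068652199182873) (CTree.cons (CTree.leaf 1 2783081260342624574616937469327251722) (CTree.cons CTree.nil (CTree.cons CTree.nil (CTree.cons (CTree.leaf 1 182393368667289367645018037560613705679385)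 (CTree.cons CTree.nil (CTree.cons CTree.nil (CTree.cons (CTree.leaf 1 2741553420011590422398431249200906777) (CTree.cons (CTree.leaf 1 2076928887417474105669200400793280914) (CTree.cons CTree.nil (CTree.cons (CTree.leaf 1 179681816063997305314730385341019190264345) (CTree.cons CTree.nil (CTree.cons (CTree.leaf 1 182393368667289367534210136730025530032665) (CTree.cons CTree.nil (CTree.cons (CTree.leaf 1 2076939422119132484717029760760873361) (CTree.cons CTree.nil (CTree.cons CTree.nil (CTree.cons CTree.nil (CTree.cons CTree.nil (CTree.cons CTree.nil (CTree.cons CTree.nil (CTree.cons CTree.nil (CTree.cons CTree.nil (CTree.cons CTree.nil (CTree.cons CTree.nil (CTree.cons CTree.nil (CTree.cons CTree.nil (CTree.cons CTree.nil CTree.nil)))))))))))))))))))))))))))))))))))) (CTree.cons (CTree.cons CTree.nil (CTree.cons (CTree.leaf 1 2783102572718267827454519727200206976) (CTree.cons CTree.nil (CTree.cons (CTree.leaf 1 43568163813994639173903727244724016316953) (CTree.cons (CTree.leaf 1 182732295833955232195913052232372138875146) (CTree.cons CTree.nil (CTree.cons (CTree.leaf 1 137135814169693817223392846680044236505625) (CTree.cons CTree.nil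 (CTree.cons CTree.nil (CTree.cons (CTree.leaf 1 2783092032564359092595306986988968202) (CTree.cons (CTree.leaf 1 12726340516658627031890995273560301962) (CTree.cons CTree.nil (CTree.cons (CTree.leaf 1 182392013304540106973498642765745283989637) (CTree.cons (CTree.leaf 1 137135813715082620716544077568877451090050) (CTree.cons CTree.nil (CTree.cons (CTree.leaf 1 2700004510441733850627808646465126937) (CTree.cons CTree.nil (CTree.cons CTree.nil (CTree.cons (CTree.leaf 1 182392013477809454471427251888820820967557) (CTree.cons (CTree.leaf 1 137135813715082620716544077568877451090050) (CTree.cons CTree.nil (CTree.cons CTree.nil (CTree.cons (CTree.leaf 1 2035390512549235772293984614801277329) (CTree.cons CTree.nil (CTree.cons CTree.nil (CTree.cons CTree.nil (CTree.cons CTree.nil (CTree.cons CTree.nil (CTree.cons CTree.nil (CTree.cons CTree.nil (CTree.cons CTree.nil (CTree.cons CTree.nil (CTree.cons CTree.nil (CTree.cons CTree.nil (CTree.cons CTree.nil (CTree.cons CTree.nil CTree.nil)))))))))))))))))))))))))))))))))))) (CTree.cons (CTree.cons CTree.nil (CTree.cons (CTree.leaf 1 12726340923024534185622147616931905664) (CTree.cons (CTree.leaf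 1 664808196498735729331841131936813186) (CTree.cons CTree.nil (CTree.cons (CTree.leaf 1 182732383929732445897666738032736116744594) (CTree.cons CTree.nil (CTree.cons (CTree.leaf 1 179670445258553955984990234252535855122835) (CTree.cons CTree.nil (CTree.cons (CTree.leaf 1 2700004510605991832380259656217461273) (CTree.cons CTree.nil (CTree.cons (CTree.leaf 1 12726340516658627031890995273560301962) (CTree.cons CTree.nil (CTree.cons (CTree.leaf 1 176947495434042776085769250235994523369605) (CTree.cons (CTree.leaf 1 179670444933887180613918413084355508899970) (CTree.cons CTree.nil (CTree.cons CTree.nil (CTree.cons (CTree.leaf 1 2035390512549235772293984614801285522) (CTree.cons CTree.nil (CTree.cons (CTree.leaf 1 176947495607074442722932525190176952615045) (CTree.cons (CTree.leaf 1 179670444933879754336213943577765589094530) (CTree.cons (CTree.leaf 1 176947495607074442722932525190176952615045) (CTree.cons CTree.nil (CTree.cons CTree.nil (CTree.cons CTree.nil (CTree.cons CTree.nil (CTree.cons CTree.nil (CTree.cons CTree.nil (CTree.cons CTree.nil (CTree.cons CTree.nil (CTree.cons CTree.nil (CTree.cons CTree.nil (CTree.cons CTree.nil (CTree.cons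 CTree.nil (CTree.cons CTree.nil (CTree.cons CTree.nil (CTree.cons CTree.nil CTree.nil)))))))))))))))))))))))))))))))))))) (CTree.cons CTree.nil (CTree.cons CTree.nil CTree.nil)))))))))))))))))))))))))))))))))))

theorem tree6_4_5_ok : chk 6 (pk (goalL 6)) tree6_4_5 (stk [((4 : Fin 6), (5 : Fin 6))]) 1 (om [((4 : Fin 6), (5 : Fin 6))]) (im [((4 : Fin 6), (5 : Fin 6))])
    (cm [((4 : Fin 6), (5 : Fin 6))]) (pk (goalR [((4 : Fin 6), (5 : Fin 6))])) 0 = true := by
  decide +kernel

end Vale.Agent.Lib.P333
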