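import Vale.Agent.Lib.P333.CertSound

namespace Vale.Agent.Lib.P333

def tree6_5_0 : CTree :=
  CTree.cons CTree.nil (CTree.cons (CTree.cons CTree.nil (CTree.cons CTree.nil (CTree.cons CTree.nil (CTree.cons CTree.nil (CTree.cons CTree.nil (CTree.cons CTree.nil (CTree.cons CTree.nil (CTree.cons CTree.nil (CTree.cons (CTree.leaf 1 24066328039735033946820880431212200064) (CTree.cons (CTree.leaf 1 3489244405814750897089996063513378944) (CTree.cons (CTree.leaf 1 217836677772169547359179311089607707919009) (CTree.cons CTree.nil (CTree.cons CTree.nil (CTree.cons CTree.nil (CTree.cons CTree.nil (CTree.cons (CTree.leaf 1 24066317264695260451587176581554045056) (CTree.cons (CTree.leaf 1 2878327064479689696796849426430005518028242977) (CTree.cons (CTree.leaf 1 24066630767913224557268384291673473421) (CTree.cons CTree.nil (CTree.cons CTree.nil (CTree.cons (CTree.leaf 1 2878327116941834687877609140326798461833511586) (CTree.cons CTree.nil (CTree.cons (CTree.leaf 1 23360164891934523894107029080780112000) (CTree.cons (CTree.leaf 1 43210650904555346630910832723991013914) (CTree.cons CTree.nil (CTree.cons CTree.nil (CTree.cons (CTree.leaf 1 1530954435126654267392203114625557630419608)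 (CTree.cons (CTree.leaf 1 2102267910879125000937558976846740590827786) (CTree.cons CTree.nil (CTree.cons (CTree.leaf 1 43210650904555346630910832723991003673) (CTree.cons CTree.nil (CTree.cons CTree.nil (CTree.cons CTree.nil (CTree.cons CTree.nil (CTree.cons CTree.nil (CTree.cons CTree.nil CTree.nil)))))))))))))))))))))))))))))))))))) (CTree.cons (CTree.cons CTree.nil (CTree.cons CTree.nil (CTree.cons CTree.nil (CTree.cons CTree.nil (CTree.cons CTree.nil (CTree.cons CTree.nil (CTree.cons CTree.nil (CTree.cons CTree.nil (CTree.cons CTree.nil (CTree.cons (CTree.leaf 1 2181234744423338220247320105421958924079234) (CTree.cons (CTree.leaf 1 106400522929606625588471448746820910797556420738) (CTree.cons (CTree.leaf 1 55879508938359995411342341226646016130) (CTree.cons CTree.nil (CTree.cons (CTree.leaf 1 223907859143058648442416265473903400456322) (CTree.cons CTree.nil (CTree.cons (CTree.leaf 1 3489233635743586853078922109961441410) (CTree.cons (CTree.leaf 1 664667244821046021162227370921431170) (CTree.cons CTree.nil (CTree.cons CTree.nil (CTree.cons (CTree.leaf 1 2878164222045615158171388597678649683153026) (CTree.cons CTree.nil (CTree.cons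 CTree.nil (CTree.cons (CTree.leaf 1 3447695268301737179609715494908661890) (CTree.cons (CTree.leaf 1 664656469626530169744725081327276162) (CTree.cons CTree.nil (CTree.cons (CTree.leaf 1 225980774625589696253216364213634850754690) (CTree.cons CTree.nil (CTree.cons (CTree.leaf 1 43558235828737280956902298842041419829378) (CTree.cons CTree.nil (CTree.cons (CTree.leaf 1 2783081257859495978820410898982178946) (CTree.cons CTree.nil (CTree.cons CTree.nil (CTree.cons CTree.nil (CTree.cons CTree.nil (CTree.cons CTree.nil (CTree.cons CTree.nil CTree.nil)))))))))))))))))))))))))))))))))))) (CTree.cons (CTree.cons CTree.nil (CTree.cons CTree.nil (CTree.cons CTree.nil (CTree.cons CTree.nil (CTree.cons CTree.nil (CTree.cons CTree.nil (CTree.cons CTree.nil (CTree.cons CTree.nil (CTree.cons (CTree.leaf 1 3489730713235194021908878134771519618) (CTree.cons CTree.nil (CTree.cons (CTree.leaf 1 228671121347385160330310454961054560158369) (CTree.cons (CTree.leaf 1 89835209655123711983200443731505695097505) (CTree.cons CTree.nil (CTree.cons (CTree.leaf 1 228670415226468928601357437731933396796065) (CTree.cons CTree.nil (CTree.cons CTree.nil (CTree.cons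 (CTree.leaf 1 210471047138049261546065047421720529353727719571601) (CTree.cons (CTree.leaf 1 55921544385271337887551170617446305922) (CTree.cons CTree.nil (CTree.cons (CTree.leaf 1 2178512486330082053561468902169528419291266) (CTree.cons (CTree.leaf 1 48972485797581433175638292793014015219057361568) (CTree.cons CTree.nil (CTree.cons (CTree.leaf 1 43559508427542153761730780291566781924001) (CTree.cons CTree.nil (CTree.cons CTree.nil (CTree.cons (CTree.leaf 1 91569197838829101562419874341104046444674) (CTree.cons (CTree.leaf 1 11708120603610858693407313339202872009960722562) (CTree.cons CTree.nil (CTree.cons CTree.nil (CTree.cons (CTree.leaf 1 2831832516652933730534822628867434359095833) (CTree.cons CTree.nil (CTree.cons CTree.nil (CTree.cons CTree.nil (CTree.cons CTree.nil (CTree.cons CTree.nil (CTree.cons CTree.nil CTree.nil)))))))))))))))))))))))))))))))))))) (CTree.cons (CTree.cons CTree.nil (CTree.cons CTree.nil (CTree.cons CTree.nil (CTree.cons CTree.nil (CTree.cons CTree.nil (CTree.cons CTree.nil (CTree.cons CTree.nil (CTree.cons CTree.nil (CTree.cons (CTree.leaf 1 87168248874536933668462860822050175651970) (CTree.cons (CTree.leaf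 1 5888973941957268580873203190746335366087316131) (CTree.cons CTree.nil (CTree.cons (CTree.leaf 1 3323039704996614939484804665014882556747847946) (CTree.cons CTree.nil (CTree.cons (CTree.leaf 1 2181213461207623375994764035511631331065984) (CTree.cons CTree.nil (CTree.cons (CTree.leaf 1 87168248874536933673092884653735286083714) (CTree.cons CTree.nil (CTree.cons (CTree.leaf 1 2178542969818252133791329694983400701759618) (CTree.cons CTree.nil (CTree.cons (CTree.leaf 1 220526333918488907158733845704886884309258) (CTree.cons (CTree.leaf 1 8854798511093291541409188101497857371474694274) (CTree.cons CTree.nil (CTree.cons CTree.nil (CTree.cons (CTree.leaf 1 136113612236294588796754932094483474489746) (CTree.cons CTree.nil (CTree.cons (CTree.leaf 1 2918975384888746797608483644387980042309762) (CTree.cons (CTree.leaf 1 14809225745693573077518380636763297369794220162) (CTree.cons (CTree.leaf 1 142770901694809565181137338249565641948056981634) (CTree.cons CTree.nil (CTree.cons CTree.nil (CTree.cons CTree.nil (CTree.cons CTree.nil (CTree.cons CTree.nil (CTree.cons CTree.nil (CTree.cons CTree.nil (CTree.cons CTree.nil CTree.nil))))))))))))))))))))))))))))))))))))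 (CTree.cons CTree.nil (CTree.cons CTree.nil (CTree.cons CTree.nil (CTree.cons (CTree.cons CTree.nil (CTree.cons (CTree.leaf 1 24066328039735033946820880431212200064) (CTree.cons CTree.nil (CTree.cons (CTree.leaf 1 3489730713235194021908878134771519618) (CTree.cons (CTree.leaf 1 87168248874536933668462860822050041434242) (CTree.cons CTree.nil (CTree.cons CTree.nil (CTree.cons CTree.nil (CTree.cons CTree.nil (CTree.cons CTree.nil (CTree.cons CTree.nil (CTree.cons CTree.nil (CTree.cons CTree.nil (CTree.cons CTree.nil (CTree.cons CTree.nil (CTree.cons (CTree.leaf 1 3364618511138743759483012199463125665) (CTree.cons (CTree.leaf 1 737455525420263171161899601006280858611090056) (CTree.cons (CTree.leaf 1 665111085773588102261790717259158043) (CTree.cons CTree.nil (CTree.cons (CTree.leaf 1 737455554497612277871245354080278486418916002) (CTree.cons CTree.nil (CTree.cons CTree.nil (CTree.cons (CTree.leaf 1 3364618510974329848015422631703085729) (CTree.cons (CTree.leaf 1 2659115333777235171905017734511012378) (CTree.cons CTree.nil (CTree.cons (CTree.leaf 1 225970852276152782927286005150448865122570) (CTree.cons CTree.nil (CTree.cons (CTree.leaf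 1 2102287823348347723734665753512149628093080) (CTree.cons CTree.nil (CTree.cons (CTree.leaf 1 2659115333777235171905017734511002137) (CTree.cons CTree.nil (CTree.cons CTree.nil (CTree.cons CTree.nil (CTree.cons CTree.nil (CTree.cons CTree.nil (CTree.cons CTree.nil CTree.nil)))))))))))))))))))))))))))))))))))) (CTree.cons (CTree.cons CTree.nil (CTree.cons (CTree.leaf 1 3489244405814750897089996063513378944) (CTree.cons (CTree.leaf 1 1623520455214471217213332285324774417240194) (CTree.cons CTree.nil (CTree.cons (CTree.leaf 1 5887441334175452754181737450011005509363177738) (CTree.cons CTree.nil (CTree.cons CTree.nil (CTree.cons CTree.nil (CTree.cons CTree.nil (CTree.cons CTree.nil (CTree.cons CTree.nil (CTree.cons CTree.nil (CTree.cons CTree.nil (CTree.cons (CTree.leaf 1 14807706065208791509069279196399154880701470986) (CTree.cons CTree.nil (CTree.cons CTree.nil (CTree.cons (CTree.leaf 1 736014429596839700816459188257532031682609816) (CTree.cons (CTree.leaf 1 24066316855698730860290656238908348682) (CTree.cons CTree.nil (CTree.cons CTree.nil (CTree.cons (CTree.leaf 1 735969169912710812825645452697560418934200586) (CTree.cons CTree.nil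 (CTree.cons (CTree.leaf 1 664634927157247177982528152457976074) (CTree.cons (CTree.leaf 1 2783081262488472940394036377809459466) (CTree.cons CTree.nil (CTree.cons (CTree.leaf 1 225971557984855260007652737932286599764234) (CTree.cons (CTree.leaf 1 225971557984855260005291554690851911375114) (CTree.cons CTree.nil (CTree.cons CTree.nil (CTree.cons (CTree.leaf 1 557608487162977822021082100469987494745932304) (CTree.cons CTree.nil (CTree.cons CTree.nil (CTree.cons CTree.nil (CTree.cons CTree.nil (CTree.cons CTree.nil (CTree.cons CTree.nil CTree.nil)))))))))))))))))))))))))))))))))))) (CTree.cons (CTree.cons CTree.nil (CTree.cons (CTree.leaf 1 5887407965230654909726343962279595794919785104) (CTree.cons (CTree.leaf 1 6268132911319840284754970222812375316102779010) (CTree.cons (CTree.leaf 1 142770994260274412376768009743624381212570816642) (CTree.cons CTree.nil (CTree.cons CTree.nil (CTree.cons CTree.nil (CTree.cons CTree.nil (CTree.cons CTree.nil (CTree.cons CTree.nil (CTree.cons CTree.nil (CTree.cons CTree.nil (CTree.cons CTree.nil (CTree.cons (CTree.leaf 1 106396944166615508604558056725126232297218705675) (CTree.cons CTree.nil (CTree.cons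 (CTree.leaf 1 736014448750422298023908578796572399167144592) (CTree.cons CTree.nil (CTree.cons (CTree.leaf 1 103363999275399073086541639388344354523182662024) (CTree.cons CTree.nil (CTree.cons (CTree.leaf 1 970537419771320038437999624803516912808494315929633) (CTree.cons (CTree.leaf 1 43559507930704986888795101456651629757089) (CTree.cons CTree.nil (CTree.cons CTree.nil (CTree.cons (CTree.leaf 1 23360164482937954015121451756474212746) (CTree.cons CTree.nil (CTree.cons CTree.nil (CTree.cons (CTree.leaf 1 14809225765553439395565026243208719022935314466) (CTree.cons (CTree.leaf 1 14809797099647368303166562966070444995893662235) (CTree.cons CTree.nil (CTree.cons (CTree.leaf 1 23360153712862030083988318188790686090) (CTree.cons CTree.nil (CTree.cons CTree.nil (CTree.cons CTree.nil (CTree.cons CTree.nil (CTree.cons CTree.nil (CTree.cons CTree.nil CTree.nil)))))))))))))))))))))))))))))))))))) (CTree.cons (CTree.cons CTree.nil (CTree.cons CTree.nil (CTree.cons (CTree.leaf 1 43557602043766485940003713914912961138818) (CTree.cons (CTree.leaf 1 142770947994537029511659273608349657300273401986) (CTree.cons (CTree.leaf 1 378635320974804080696215828202031910429981189804162)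 (CTree.cons CTree.nil (CTree.cons CTree.nil (CTree.cons CTree.nil (CTree.cons CTree.nil (CTree.cons CTree.nil (CTree.cons CTree.nil (CTree.cons CTree.nil (CTree.cons CTree.nil (CTree.cons (CTree.leaf 1 106397558369059300577124962377825088541327233563) (CTree.cons CTree.nil (CTree.cons (CTree.leaf 1 24066306085622806783314357943825148426) (CTree.cons (CTree.leaf 1 97298380675571044237051999620439120089661440672) (CTree.cons CTree.nil (CTree.cons CTree.nil (CTree.cons (CTree.leaf 1 100332583589327209319547156830768553264598876696) (CTree.cons (CTree.leaf 1 182414708997957224396903833437823052098074) (CTree.cons CTree.nil (CTree.cons (CTree.leaf 1 23360153712862070225834210443051215370) (CTree.cons CTree.nil (CTree.cons CTree.nil (CTree.cons (CTree.leaf 1 11954730380141388277448954362992667285098998298) (CTree.cons (CTree.leaf 1 11954730356911184122188746712639681025939214467) (CTree.cons (CTree.leaf 1 143483790891445102674223116334598872420675293315) (CTree.cons CTree.nil (CTree.cons CTree.nil (CTree.cons CTree.nil (CTree.cons CTree.nil (CTree.cons CTree.nil (CTree.cons CTree.nil (CTree.cons CTree.nil (CTree.cons CTree.nil CTree.nil))))))))))))))))))))))))))))))))))))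 (CTree.cons CTree.nil (CTree.cons (CTree.cons CTree.nil (CTree.cons CTree.nil (CTree.cons (CTree.leaf 1 2181212033672291386652868999312063590371458) (CTree.cons (CTree.leaf 1 228670415226468928601357505285927807353505) (CTree.cons (CTree.leaf 1 2918954792250180543744339893257420757074048) (CTree.cons CTree.nil (CTree.cons CTree.nil (CTree.cons CTree.nil (CTree.cons CTree.nil (CTree.cons (CTree.leaf 1 225971558124455282357786500755678384101642) (CTree.cons (CTree.leaf 1 228693817201628635431179870553602253259013) (CTree.cons (CTree.leaf 1 89835209511951005446428774730867597715978) (CTree.cons CTree.nil (CTree.cons CTree.nil (CTree.cons CTree.nil (CTree.cons CTree.nil (CTree.cons CTree.nil (CTree.cons CTree.nil (CTree.cons CTree.nil (CTree.cons CTree.nil (CTree.cons (CTree.leaf 1 25388333981560403180959124702371579474436536168305983875) (CTree.cons CTree.nil (CTree.cons (CTree.leaf 1 737409247018329524493184445428733156887036560) (CTree.cons (CTree.leaf 1 11776278138733745007586175227481018055272300805) (CTree.cons CTree.nil (CTree.cons CTree.nil (CTree.cons (CTree.leaf 1 14809179476439698380698070339369333809871978885) (CTree.cons (CTree.leaf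 1 14809797077663322991937622553582726077467525381) (CTree.cons CTree.nil (CTree.cons (CTree.leaf 1 557745280674480043587094756625904878924005904) (CTree.cons CTree.nil (CTree.cons CTree.nil (CTree.cons CTree.nil (CTree.cons CTree.nil (CTree.cons CTree.nil (CTree.cons CTree.nil CTree.nil)))))))))))))))))))))))))))))))))))) (CTree.cons CTree.nil (CTree.cons (CTree.cons CTree.nil (CTree.cons (CTree.leaf 1 24066317264695260451587176581554045056) (CTree.cons (CTree.leaf 1 3489233635743586853078922109961441410) (CTree.cons CTree.nil (CTree.cons (CTree.leaf 1 87168248874536933673092884653735151865986) (CTree.cons CTree.nil (CTree.cons CTree.nil (CTree.cons CTree.nil (CTree.cons (CTree.leaf 1 3364618511138743759483012199463125665) (CTree.cons CTree.nil (CTree.cons (CTree.leaf 1 736014448750422298023908578796563603074122384) (CTree.cons (CTree.leaf 1 24066306085622806783314357943825148426) (CTree.cons CTree.nil (CTree.cons CTree.nil (CTree.cons CTree.nil (CTree.cons CTree.nil (CTree.cons CTree.nil (CTree.cons CTree.nil (CTree.cons CTree.nil (CTree.cons (CTree.leaf 1 15030713515781760266305807421164202479765881488) (CTree.cons CTree.nil (CTree.cons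 CTree.nil (CTree.cons (CTree.leaf 1 3364618510810112006378093627184579233) (CTree.cons (CTree.leaf 1 2659115333612977190152566724758678042) (CTree.cons CTree.nil (CTree.cons (CTree.leaf 1 90178275275611078109837602593508432150789) (CTree.cons (CTree.leaf 1 90178275275611078109837602593508566368389) (CTree.cons CTree.nil (CTree.cons CTree.nil (CTree.cons (CTree.leaf 1 2659115333612977190152566724758667801) (CTree.cons CTree.nil (CTree.cons CTree.nil (CTree.cons CTree.nil (CTree.cons CTree.nil (CTree.cons CTree.nil (CTree.cons CTree.nil CTree.nil)))))))))))))))))))))))))))))))))))) (CTree.cons (CTree.cons CTree.nil (CTree.cons (CTree.leaf 1 14452413822516596405682248926012977759086313505) (CTree.cons (CTree.leaf 1 14807706044642904166340517953489424554723512450) (CTree.cons (CTree.leaf 1 14809873299708760823165881368258942833630449794) (CTree.cons CTree.nil (CTree.cons CTree.nil (CTree.cons CTree.nil (CTree.cons CTree.nil (CTree.cons (CTree.leaf 1 737455525420263173637779679577041408409338504) (CTree.cons (CTree.leaf 1 736014429596839700816496967189394988844319384) (CTree.cons CTree.nil (CTree.cons (CTree.leaf 1 103364183367447745945253814679231439026640257285)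 (CTree.cons CTree.nil (CTree.cons CTree.nil (CTree.cons CTree.nil (CTree.cons CTree.nil (CTree.cons CTree.nil (CTree.cons CTree.nil (CTree.cons CTree.nil (CTree.cons (CTree.leaf 1 14986330146381877277556642037597940079958032784) (CTree.cons (CTree.leaf 1 736060727152291054681794352378801780582122144) (CTree.cons CTree.nil (CTree.cons CTree.nil (CTree.cons (CTree.leaf 1 1994187673735342380589766206130102674) (CTree.cons CTree.nil (CTree.cons (CTree.leaf 1 228692404615469819884075106023314182766992) (CTree.cons CTree.nil (CTree.cons (CTree.leaf 1 228701829077945441782756640459182188077458) (CTree.cons CTree.nil (CTree.cons (CTree.leaf 1 1994187673735342380589766205458948498) (CTree.cons CTree.nil (CTree.cons CTree.nil (CTree.cons CTree.nil (CTree.cons CTree.nil (CTree.cons CTree.nil (CTree.cons CTree.nil CTree.nil)))))))))))))))))))))))))))))))))))) (CTree.cons (CTree.cons CTree.nil (CTree.cons (CTree.leaf 1 24066630767913224557268384291673473421) (CTree.cons CTree.nil (CTree.cons (CTree.leaf 1 55921544385271337887551170617446305922) (CTree.cons (CTree.leaf 1 2918975384727833909843916468997323199877250) (CTree.cons CTree.nil (CTree.cons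 CTree.nil (CTree.cons CTree.nil (CTree.cons (CTree.leaf 1 665111085773588102261790717259158043) (CTree.cons (CTree.leaf 1 24066316855698730860290656238908348682) (CTree.cons (CTree.leaf 1 141558835415627862213785886392251843215493) (CTree.cons CTree.nil (CTree.cons CTree.nil (CTree.cons CTree.nil (CTree.cons CTree.nil (CTree.cons CTree.nil (CTree.cons CTree.nil (CTree.cons CTree.nil (CTree.cons CTree.nil (CTree.cons (CTree.leaf 1 103364086375799339870739436709386988232697256202) (CTree.cons (CTree.leaf 1 8921700745983023377777783092696491575677616261) (CTree.cons CTree.nil (CTree.cons (CTree.leaf 1 1994187673735382670045639296659040786) (CTree.cons CTree.nil (CTree.cons CTree.nil (CTree.cons (CTree.leaf 1 1577210790827701036224959613561008380062226) (CTree.cons (CTree.leaf 1 1577230214896272066552339374562793759058450) (CTree.cons (CTree.leaf 1 11596396032949283786767524162991413528449323139) (CTree.cons CTree.nil (CTree.cons CTree.nil (CTree.cons CTree.nil (CTree.cons CTree.nil (CTree.cons CTree.nil (CTree.cons CTree.nil (CTree.cons CTree.nil (CTree.cons CTree.nil CTree.nil)))))))))))))))))))))))))))))))))))) (CTree.cons CTree.nil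 (CTree.cons (CTree.cons CTree.nil (CTree.cons CTree.nil (CTree.cons (CTree.leaf 1 188619790014771032249532336145462885409232064642) (CTree.cons (CTree.leaf 1 57179154246572252285490758051063241070023344776) (CTree.cons (CTree.leaf 1 220526333918488907123042313367610462574858) (CTree.cons CTree.nil (CTree.cons CTree.nil (CTree.cons CTree.nil (CTree.cons (CTree.leaf 1 737455554497612277871245354080278486553133730) (CTree.cons CTree.nil (CTree.cons (CTree.leaf 1 228693110917578823371437913125113808626058) (CTree.cons (CTree.leaf 1 174246514866495264470668264499472931356933) (CTree.cons CTree.nil (CTree.cons CTree.nil (CTree.cons CTree.nil (CTree.cons (CTree.leaf 1 15030713515781760266305807421164202479900099216) (CTree.cons (CTree.leaf 1 228683063965689022843138249920862626120080) (CTree.cons (CTree.leaf 1 174247226351794872205018451622405014104594) (CTree.cons CTree.nil (CTree.cons CTree.nil (CTree.cons CTree.nil (CTree.cons CTree.nil (CTree.cons CTree.nil (CTree.cons CTree.nil (CTree.cons CTree.nil (CTree.cons CTree.nil (CTree.cons (CTree.leaf 1 985060780035595338831377046087082988439587581395608) (CTree.cons (CTree.leaf 1 985052840358126761197135198359437894494645583479440)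 (CTree.cons CTree.nil (CTree.cons (CTree.leaf 1 179691744081909829193720260540799239129114) (CTree.cons CTree.nil (CTree.cons CTree.nil (CTree.cons CTree.nil (CTree.cons CTree.nil (CTree.cons CTree.nil (CTree.cons CTree.nil CTree.nil)))))))))))))))))))))))))))))))))))) (CTree.cons (CTree.cons CTree.nil (CTree.cons (CTree.leaf 1 5888927718743468811984931107311944482347417633) (CTree.cons CTree.nil (CTree.cons (CTree.leaf 1 875209695912986646321857608905792778473602) (CTree.cons (CTree.leaf 1 225960805538574997691967433870136303489154) (CTree.cons CTree.nil (CTree.cons CTree.nil (CTree.cons CTree.nil (CTree.cons CTree.nil (CTree.cons (CTree.leaf 1 872487437324322042077390450019912193743114) (CTree.cons (CTree.leaf 1 217804075826901165775830248823366548062881) (CTree.cons (CTree.leaf 1 182392013314446103165352111327128112409098) (CTree.cons CTree.nil (CTree.cons (CTree.leaf 1 106398990297826814213195406409777079715650797957) (CTree.cons CTree.nil (CTree.cons CTree.nil (CTree.cons (CTree.leaf 1 43559507605940993488117014417369840296338) (CTree.cons (CTree.leaf 1 174246514866495264470814223673486815592581) (CTree.cons CTree.nil (CTree.cons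 CTree.nil (CTree.cons CTree.nil (CTree.cons CTree.nil (CTree.cons CTree.nil (CTree.cons CTree.nil (CTree.cons CTree.nil (CTree.cons (CTree.leaf 1 14809829766755393224381956067448127666251760005) (CTree.cons CTree.nil (CTree.cons (CTree.leaf 1 14809797100353477803260280384102194336011780770) (CTree.cons CTree.nil (CTree.cons (CTree.leaf 1 179690492727584301473963541692818913562754) (CTree.cons CTree.nil (CTree.cons CTree.nil (CTree.cons CTree.nil (CTree.cons CTree.nil (CTree.cons CTree.nil (CTree.cons CTree.nil CTree.nil)))))))))))))))))))))))))))))))))))) (CTree.cons CTree.nil (CTree.cons (CTree.cons CTree.nil (CTree.cons (CTree.leaf 1 23360164891934523894107029080780112000) (CTree.cons (CTree.leaf 1 3447695268301737179609715494908661890) (CTree.cons (CTree.leaf 1 43559508427542153761730780282770688901793) (CTree.cons CTree.nil (CTree.cons CTree.nil (CTree.cons CTree.nil (CTree.cons CTree.nil (CTree.cons (CTree.leaf 1 3364618510974329848015422631703085729) (CTree.cons (CTree.leaf 1 664634927157247177982528152457976074) (CTree.cons CTree.nil (CTree.cons (CTree.leaf 1 23360153712862070225834210443051215370) (CTree.cons CTree.nil (CTree.cons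 (CTree.leaf 1 737409247018329524493184445428733156752818832) (CTree.cons CTree.nil (CTree.cons (CTree.leaf 1 3364618510810112006378093627184579233) (CTree.cons CTree.nil (CTree.cons (CTree.leaf 1 1994187673735382670045639296659040786) (CTree.cons CTree.nil (CTree.cons CTree.nil (CTree.cons CTree.nil (CTree.cons CTree.nil (CTree.cons CTree.nil (CTree.cons CTree.nil (CTree.cons CTree.nil (CTree.cons (CTree.leaf 1 223247887047777737530553668102049023461410) (CTree.cons (CTree.leaf 1 1484675327073025954934005878559104022217360) (CTree.cons CTree.nil (CTree.cons CTree.nil (CTree.cons (CTree.leaf 1 1994187673735342380589766205458940305) (CTree.cons CTree.nil (CTree.cons CTree.nil (CTree.cons CTree.nil (CTree.cons CTree.nil (CTree.cons CTree.nil (CTree.cons CTree.nil CTree.nil)))))))))))))))))))))))))))))))))))) (CTree.cons (CTree.cons CTree.nil (CTree.cons (CTree.leaf 1 43210650904555346630910832723991013914) (CTree.cons (CTree.leaf 1 664656469626530169744725081327276162) (CTree.cons CTree.nil (CTree.cons (CTree.leaf 1 55963255168205964999412021343243276418) (CTree.cons CTree.nil (CTree.cons CTree.nil (CTree.cons CTree.nil (CTree.cons (CTree.leaf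 1 2659115333777235171905017734511012378) (CTree.cons (CTree.leaf 1 2783081262488472940394036377809459466) (CTree.cons (CTree.leaf 1 23360164482937954015121451756474212746) (CTree.cons CTree.nil (CTree.cons CTree.nil (CTree.cons (CTree.leaf 1 737409265461086552526077064449666530149400837) (CTree.cons CTree.nil (CTree.cons (CTree.leaf 1 2659115333612977190152566724758678042) (CTree.cons (CTree.leaf 1 1994187673735342380589766206130102674) (CTree.cons CTree.nil (CTree.cons CTree.nil (CTree.cons CTree.nil (CTree.cons CTree.nil (CTree.cons CTree.nil (CTree.cons CTree.nil (CTree.cons CTree.nil (CTree.cons CTree.nil (CTree.cons (CTree.leaf 1 179691032726452964838952008366847154072090) (CTree.cons (CTree.leaf 1 182412792887345304815965706059946230163994) (CTree.cons (CTree.leaf 1 182423427176697810751737655567864878672410) (CTree.cons CTree.nil (CTree.cons CTree.nil (CTree.cons CTree.nil (CTree.cons CTree.nil (CTree.cons CTree.nil (CTree.cons CTree.nil (CTree.cons CTree.nil (CTree.cons CTree.nil CTree.nil)))))))))))))))))))))))))))))))))))) (CTree.cons CTree.nil (CTree.cons (CTree.cons CTree.nil (CTree.cons CTree.nil (CTree.cons (CTree.leaf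 1 2181213419679788801827549572980360968540290) (CTree.cons (CTree.leaf 1 2878373342880758330387432424903247183711699600) (CTree.cons (CTree.leaf 1 14630819784105328092385981574066230178548416641) (CTree.cons CTree.nil (CTree.cons CTree.nil (CTree.cons CTree.nil (CTree.cons (CTree.leaf 1 225970852276152782927286005150448865122570) (CTree.cons (CTree.leaf 1 225971557984855260007652737932286599764234) (CTree.cons CTree.nil (CTree.cons (CTree.leaf 1 1577232130875521216802186936085090859624970) (CTree.cons CTree.nil (CTree.cons CTree.nil (CTree.cons CTree.nil (CTree.cons (CTree.leaf 1 90178275275611078109837602593508432150789) (CTree.cons (CTree.leaf 1 1530933868752612441774488070796046081589513) (CTree.cons (CTree.leaf 1 1577231425166821872194712886414445247605266) (CTree.cons CTree.nil (CTree.cons CTree.nil (CTree.cons (CTree.leaf 1 568538946751487990574460586592392382869898738663457) (CTree.cons CTree.nil (CTree.cons (CTree.leaf 1 223247887047777737530553668102049023461410) (CTree.cons (CTree.leaf 1 182414002995640457624288784005477873353104) (CTree.cons CTree.nil (CTree.cons CTree.nil (CTree.cons CTree.nil (CTree.cons CTree.nil (CTree.cons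 CTree.nil (CTree.cons CTree.nil (CTree.cons CTree.nil (CTree.cons CTree.nil (CTree.cons CTree.nil (CTree.cons CTree.nil (CTree.cons CTree.nil (CTree.cons CTree.nil CTree.nil)))))))))))))))))))))))))))))))))))) (CTree.cons (CTree.cons CTree.nil (CTree.cons (CTree.leaf 1 225970852146293036197618242433977319299338) (CTree.cons CTree.nil (CTree.cons (CTree.leaf 1 2921441191170359921976151539783879119937274393) (CTree.cons (CTree.leaf 1 142947997226220029554027997606579547130620871329) (CTree.cons CTree.nil (CTree.cons CTree.nil (CTree.cons CTree.nil (CTree.cons CTree.nil (CTree.cons (CTree.leaf 1 220516992976432812120405627219786759477514) (CTree.cons (CTree.leaf 1 43559507930692117880232514348429187031434) (CTree.cons (CTree.leaf 1 11954730356911052127905689847309652061732868227) (CTree.cons CTree.nil (CTree.cons (CTree.leaf 1 105863772413062079257798586837865892145693589893) (CTree.cons CTree.nil (CTree.cons (CTree.leaf 1 90178275275611078109837602593508566368389) (CTree.cons CTree.nil (CTree.cons (CTree.leaf 1 1405368252647892556059057622097969648118290) (CTree.cons CTree.nil (CTree.cons (CTree.leaf 1 106398990276543092552894345563446032793446515077)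 (CTree.cons CTree.nil (CTree.cons CTree.nil (CTree.cons (CTree.leaf 1 1484675327073025954934005878559104022217360) (CTree.cons (CTree.leaf 1 2831853217873532640719326315673928102183424) (CTree.cons CTree.nil (CTree.cons CTree.nil (CTree.cons CTree.nil (CTree.cons CTree.nil (CTree.cons CTree.nil (CTree.cons CTree.nil (CTree.cons CTree.nil (CTree.cons CTree.nil (CTree.cons CTree.nil (CTree.cons CTree.nil (CTree.cons CTree.nil (CTree.cons CTree.nil CTree.nil)))))))))))))))))))))))))))))))))))) (CTree.cons (CTree.cons CTree.nil (CTree.cons (CTree.leaf 1 225979570001948274440055108624729992468746) (CTree.cons (CTree.leaf 1 14986842248861812495703617987662836768522768514) (CTree.cons CTree.nil (CTree.cons (CTree.leaf 1 6575298787978759514757498814963296140588218958545160) (CTree.cons CTree.nil (CTree.cons CTree.nil (CTree.cons CTree.nil (CTree.cons (CTree.leaf 1 2102287823348347723734665753512149628093080) (CTree.cons CTree.nil (CTree.cons (CTree.leaf 1 14987585436189870270482512968705798635591958661) (CTree.cons (CTree.leaf 1 182732296006994459419845777184112433496325) (CTree.cons CTree.nil (CTree.cons (CTree.leaf 1 105863214688139046424516225866815338478943994117)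 (CTree.cons CTree.nil (CTree.cons CTree.nil (CTree.cons (CTree.leaf 1 217803369642193713560380834607179190837650) (CTree.cons (CTree.leaf 1 2102288529630579902373067520782094771235346) (CTree.cons CTree.nil (CTree.cons (CTree.leaf 1 106398293398833208384695951902044050087006437637) (CTree.cons (CTree.leaf 1 48244006492040575150046995755650667474551618797701) (CTree.cons CTree.nil (CTree.cons CTree.nil (CTree.cons (CTree.leaf 1 2102297039653721395831678715298434643208730) (CTree.cons CTree.nil (CTree.cons CTree.nil (CTree.cons CTree.nil (CTree.cons CTree.nil (CTree.cons CTree.nil (CTree.cons CTree.nil (CTree.cons CTree.nil (CTree.cons CTree.nil (CTree.cons CTree.nil (CTree.cons CTree.nil (CTree.cons CTree.nil (CTree.cons CTree.nil CTree.nil)))))))))))))))))))))))))))))))))))) (CTree.cons CTree.nil (CTree.cons (CTree.cons CTree.nil (CTree.cons (CTree.leaf 1 43210650904555346630910832723991003673) (CTree.cons (CTree.leaf 1 2783081257859495978820410898982178946) (CTree.cons (CTree.leaf 1 2831832516652933730534822052406682055672345) (CTree.cons CTree.nil (CTree.cons CTree.nil (CTree.cons CTree.nil (CTree.cons CTree.nil (CTree.cons (CTree.leaf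 1 2659115333777235171905017734511002137) (CTree.cons (CTree.leaf 1 557608487162977822021082100469978698652910096) (CTree.cons (CTree.leaf 1 23360153712862030083988318188790686090) (CTree.cons CTree.nil (CTree.cons CTree.nil (CTree.cons (CTree.leaf 1 557745280674480043587094756625904878789788176) (CTree.cons CTree.nil (CTree.cons (CTree.leaf 1 2659115333612977190152566724758667801) (CTree.cons (CTree.leaf 1 1994187673735342380589766205458948498) (CTree.cons CTree.nil (CTree.cons CTree.nil (CTree.cons (CTree.leaf 1 179691744081909829193720260540799239129114) (CTree.cons (CTree.leaf 1 179690492727584301473963541692818913562754) (CTree.cons CTree.nil (CTree.cons (CTree.leaf 1 1994187673735342380589766205458940305) (CTree.cons CTree.nil (CTree.cons CTree.nil (CTree.cons CTree.nil (CTree.cons CTree.nil (CTree.cons CTree.nil (CTree.cons CTree.nil (CTree.cons CTree.nil (CTree.cons CTree.nil (CTree.cons CTree.nil (CTree.cons CTree.nil (CTree.cons CTree.nil (CTree.cons CTree.nil (CTree.cons CTree.nil CTree.nil)))))))))))))))))))))))))))))))))))) (CTree.cons CTree.nil (CTree.cons CTree.nil (CTree.cons CTree.nil (CTree.cons CTree.nil (CTree.cons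 CTree.nil (CTree.cons CTree.nil CTree.nil)))))))))))))))))))))))))))))))))))

theorem tree6_5_0_ok : chk 6 (pk (goalL 6)) tree6_5_0 (stk [((5 : Fin 6), (0 : Fin 6))]) 1 (om [((5 : Fin 6), (0 : Fin 6))]) (im [((5 : Fin 6), (0 : Fin 6))])
    (cm [((5 : Fin 6), (0 : Fin 6))]) (pk (goalR [((5 : Fin 6), (0 : Fin 6))])) 0 = true := by
  decide +kernel

def tree6_5_1 : CTree :=
  CTree.cons CTree.nil (CTree.cons CTree.nil (CTree.cons (CTree.cons CTree.nil (CTree.cons CTree.nil (CTree.cons CTree.nil (CTree.cons CTree.nil (CTree.cons CTree.nil (CTree.cons CTree.nil (CTree.cons (CTree.leaf 1 225948157103422657476815935738047042228354) (CTree.cons CTree.nil (CTree.cons CTree.nil (CTree.cons (CTree.leaf 1 3489731341611872939106405399557902466) (CTree.cons (CTree.leaf 1 44581070969397315495951890801835970690) (CTree.cons CTree.nil (CTree.cons CTree.nil (CTree.cons CTree.nil (CTree.cons CTree.nil (CTree.cons (CTree.leaf 1 664655598281307484691820722664837250) (CTree.cons (CTree.leaf 1 664981220905773345862323942359961730) (CTree.cons (CTree.leaf 1 664981230815227370586427488400969858) (CTree.cons (CTree.leaf 1 137134459337062832195841805409223192940674)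 (CTree.cons CTree.nil (CTree.cons CTree.nil (CTree.cons CTree.nil (CTree.cons (CTree.leaf 1 665467919508063221575339601085665410) (CTree.cons (CTree.leaf 1 664970455775564942695232710618255490) (CTree.cons (CTree.leaf 1 137134458850371656302025872239102926065794) (CTree.cons CTree.nil (CTree.cons CTree.nil (CTree.cons (CTree.leaf 1 43580209315061244814446677033897034846338) (CTree.cons CTree.nil (CTree.cons (CTree.leaf 1 664645456912051605620530780382498946) (CTree.cons CTree.nil (CTree.cons CTree.nil (CTree.cons CTree.nil (CTree.cons CTree.nil (CTree.cons CTree.nil (CTree.cons CTree.nil CTree.nil)))))))))))))))))))))))))))))))))))) (CTree.cons (CTree.cons CTree.nil (CTree.cons CTree.nil (CTree.cons CTree.nil (CTree.cons CTree.nil (CTree.cons CTree.nil (CTree.cons CTree.nil (CTree.cons (CTree.leaf 1 228702991665500836658656356019712072683650) (CTree.cons CTree.nil (CTree.cons (CTree.leaf 1 33241094630189211268619827303296340098) (CTree.cons CTree.nil (CTree.cons (CTree.leaf 1 2178488378495143635342507957994394060394626) (CTree.cons CTree.nil (CTree.cons (CTree.leaf 1 2854539337800195327802718633341424053952512269) (CTree.cons CTree.nil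 (CTree.cons CTree.nil (CTree.cons CTree.nil (CTree.cons (CTree.leaf 1 44623106421099552965638965839561560194) (CTree.cons (CTree.leaf 1 2856072606909598799148342238889400046551302817) (CTree.cons CTree.nil (CTree.cons CTree.nil (CTree.cons (CTree.leaf 1 103363997554058554190488148988910670920978268427) (CTree.cons CTree.nil (CTree.cons (CTree.leaf 1 43556812955601090826207806197094128026273) (CTree.cons (CTree.leaf 1 43897090130212788936599059242022227487258) (CTree.cons (CTree.leaf 1 14630122882982036224950178333691077971891913377) (CTree.cons CTree.nil (CTree.cons (CTree.leaf 1 94266827163624278165018153101398988024778457760) (CTree.cons CTree.nil (CTree.cons CTree.nil (CTree.cons (CTree.leaf 1 43568163813999899059084371814832601104912) (CTree.cons CTree.nil (CTree.cons CTree.nil (CTree.cons CTree.nil (CTree.cons CTree.nil (CTree.cons CTree.nil (CTree.cons CTree.nil CTree.nil)))))))))))))))))))))))))))))))))))) (CTree.cons (CTree.cons CTree.nil (CTree.cons CTree.nil (CTree.cons CTree.nil (CTree.cons CTree.nil (CTree.cons CTree.nil (CTree.cons CTree.nil (CTree.cons (CTree.leaf 1 2854539337800195329798844092502081952268944033) (CTree.cons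 CTree.nil (CTree.cons (CTree.leaf 1 43556813626101613308698182563813531845281) (CTree.cons (CTree.leaf 1 43580210115107541640379177915394260865154) (CTree.cons CTree.nil (CTree.cons CTree.nil (CTree.cons (CTree.leaf 1 14629332407776636442655618261791351879340458113) (CTree.cons CTree.nil (CTree.cons CTree.nil (CTree.cons (CTree.leaf 1 43556813626101613308698182563229416293025) (CTree.cons CTree.nil (CTree.cons (CTree.leaf 1 3621340911358310101337347039415525547053186) (CTree.cons (CTree.leaf 1 2854586924775622160501236736869112590877000353) (CTree.cons CTree.nil (CTree.cons (CTree.leaf 1 11954645627136473456835688133155176434645539082) (CTree.cons CTree.nil (CTree.cons CTree.nil (CTree.cons (CTree.leaf 1 55963255168205964998221400359468863618) (CTree.cons CTree.nil (CTree.cons CTree.nil (CTree.cons (CTree.leaf 1 2854630501578098986083704482349931718977788170) (CTree.cons (CTree.leaf 1 2854586945435133105960381170985366796084189450) (CTree.cons CTree.nil (CTree.cons (CTree.leaf 1 2788943039950795255631208435700273282) (CTree.cons CTree.nil (CTree.cons CTree.nil (CTree.cons CTree.nil (CTree.cons CTree.nil (CTree.cons CTree.nil (CTree.cons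 CTree.nil CTree.nil)))))))))))))))))))))))))))))))))))) (CTree.cons (CTree.cons CTree.nil (CTree.cons CTree.nil (CTree.cons CTree.nil (CTree.cons CTree.nil (CTree.cons CTree.nil (CTree.cons CTree.nil (CTree.cons CTree.nil (CTree.cons CTree.nil (CTree.cons (CTree.leaf 1 3495267815823901169433402654604988546) (CTree.cons (CTree.leaf 1 229010697605031448021336360346648211755138) (CTree.cons (CTree.leaf 1 229010698221906880293080364388475412287618) (CTree.cons CTree.nil (CTree.cons (CTree.leaf 1 15008445076815611301044884293479139222433170072) (CTree.cons CTree.nil (CTree.cons CTree.nil (CTree.cons (CTree.leaf 1 3495267815823901169433402654596075650) (CTree.cons (CTree.leaf 1 229013522192977389694258391106868196020354) (CTree.cons CTree.nil (CTree.cons (CTree.leaf 1 14629517860933661888305083796380977878584131713) (CTree.cons CTree.nil (CTree.cons (CTree.leaf 1 2854630491645061892876600237661667821537073418) (CTree.cons CTree.nil (CTree.cons (CTree.leaf 1 3495267815823901169433402070480523394) (CTree.cons CTree.nil (CTree.cons (CTree.leaf 1 15008445076151646258391286706287562915057373723) (CTree.cons CTree.nil (CTree.cons (CTree.leaf 1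 94956616613548068295444733194765490493436074250) (CTree.cons (CTree.leaf 1 2854586945435133093733376543016217369646864650) (CTree.cons CTree.nil (CTree.cons CTree.nil (CTree.cons CTree.nil (CTree.cons CTree.nil (CTree.cons CTree.nil (CTree.cons CTree.nil (CTree.cons CTree.nil (CTree.cons CTree.nil CTree.nil)))))))))))))))))))))))))))))))))))) (CTree.cons (CTree.cons CTree.nil (CTree.cons CTree.nil (CTree.cons (CTree.leaf 1 223225897346226533878035017590124765581442) (CTree.cons (CTree.leaf 1 228702991665500836658656356028508165705858) (CTree.cons (CTree.leaf 1 2858162972828942184174273381405699882588770434) (CTree.cons CTree.nil (CTree.cons CTree.nil (CTree.cons CTree.nil (CTree.cons CTree.nil (CTree.cons CTree.nil (CTree.cons CTree.nil (CTree.cons CTree.nil (CTree.cons CTree.nil (CTree.cons CTree.nil (CTree.cons CTree.nil (CTree.cons (CTree.leaf 1 223225897334817678475980952976654669578913) (CTree.cons (CTree.leaf 1 228670415552093871827027590428501836112274) (CTree.cons (CTree.leaf 1 1577210790492171751824320131458825350883858) (CTree.cons CTree.nil (CTree.cons CTree.nil (CTree.cons (CTree.leaf 1 14807738369987600214594512606089669683368821409)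 (CTree.cons CTree.nil (CTree.cons (CTree.leaf 1 223248592853856405312908977990782253400737) (CTree.cons (CTree.leaf 1 182392013640071210694068693905059382110746) (CTree.cons CTree.nil (CTree.cons CTree.nil (CTree.cons (CTree.leaf 1 14807738369987600207168272679975565298307302049) (CTree.cons (CTree.leaf 1 14629332428321721869292922127735551785888186771) (CTree.cons CTree.nil (CTree.cons (CTree.leaf 1 179692449887973651213297406598019681419801) (CTree.cons CTree.nil (CTree.cons CTree.nil (CTree.cons CTree.nil (CTree.cons CTree.nil (CTree.cons CTree.nil (CTree.cons CTree.nil CTree.nil)))))))))))))))))))))))))))))))))))) (CTree.cons CTree.nil (CTree.cons (CTree.cons CTree.nil (CTree.cons CTree.nil (CTree.cons CTree.nil (CTree.cons (CTree.leaf 1 33241094630189211268619827303296340098) (CTree.cons (CTree.leaf 1 225948156269875699851767704690808902979714) (CTree.cons (CTree.leaf 1 3495267815823901169433402654604988546) (CTree.cons CTree.nil (CTree.cons CTree.nil (CTree.cons CTree.nil (CTree.cons CTree.nil (CTree.cons CTree.nil (CTree.cons CTree.nil (CTree.cons (CTree.leaf 1 225948157103427771154709685048073882567329) (CTree.cons CTree.nil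 (CTree.cons CTree.nil (CTree.cons (CTree.leaf 1 3489264450050252048946955206787728033) (CTree.cons (CTree.leaf 1 664981228010519321506535213263618720) (CTree.cons CTree.nil (CTree.cons (CTree.leaf 1 228672434998497775521271430170040569233811) (CTree.cons CTree.nil (CTree.cons CTree.nil (CTree.cons CTree.nil (CTree.cons (CTree.leaf 1 3447715933977169094017597850866287265) (CTree.cons (CTree.leaf 1 2783081262818542432155614413542468122) (CTree.cons (CTree.leaf 1 225948156616736595260893751903753108259219) (CTree.cons CTree.nil (CTree.cons CTree.nil (CTree.cons (CTree.leaf 1 228672434998493318279787656432040544371091) (CTree.cons CTree.nil (CTree.cons (CTree.leaf 1 2783101936084711156297931609360892441) (CTree.cons CTree.nil (CTree.cons CTree.nil (CTree.cons CTree.nil (CTree.cons CTree.nil (CTree.cons CTree.nil (CTree.cons CTree.nil CTree.nil)))))))))))))))))))))))))))))))))))) (CTree.cons (CTree.cons CTree.nil (CTree.cons CTree.nil (CTree.cons (CTree.leaf 1 3489731341611872939106405399557902466) (CTree.cons CTree.nil (CTree.cons (CTree.leaf 1 43612064055421962222388595852826211127426) (CTree.cons (CTree.leaf 1 229010697605036406959379298904413972336770)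 (CTree.cons CTree.nil (CTree.cons CTree.nil (CTree.cons CTree.nil (CTree.cons CTree.nil (CTree.cons CTree.nil (CTree.cons CTree.nil (CTree.cons (CTree.leaf 1 12020277631202008599203821869088306307609002657) (CTree.cons CTree.nil (CTree.cons CTree.nil (CTree.cons CTree.nil (CTree.cons (CTree.leaf 1 3489233635743655122135435088187496714) (CTree.cons (CTree.leaf 1 24066306090903314333856108943691094282) (CTree.cons (CTree.leaf 1 228693816876951476714708369792062596389130) (CTree.cons CTree.nil (CTree.cons (CTree.leaf 1 12020277631202008606794591552145940487262505227) (CTree.cons CTree.nil (CTree.cons (CTree.leaf 1 3447695268301812848077036773093480714) (CTree.cons CTree.nil (CTree.cons (CTree.leaf 1 228693816876951476714708369792062596389130) (CTree.cons CTree.nil (CTree.cons (CTree.leaf 1 12020277631202008599203821869088339747714106017) (CTree.cons CTree.nil (CTree.cons CTree.nil (CTree.cons (CTree.leaf 1 2783081262818504653187698019125500170) (CTree.cons CTree.nil (CTree.cons CTree.nil (CTree.cons CTree.nil (CTree.cons CTree.nil (CTree.cons CTree.nil (CTree.cons CTree.nil CTree.nil)))))))))))))))))))))))))))))))))))) (CTree.cons (CTree.cons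 CTree.nil (CTree.cons CTree.nil (CTree.cons (CTree.leaf 1 43559549966546061316461574586025268809858) (CTree.cons (CTree.leaf 1 2178488378009081489093685113170868014485634) (CTree.cons CTree.nil (CTree.cons (CTree.leaf 1 15012060938545130864303300690649866690843379996) (CTree.cons CTree.nil (CTree.cons CTree.nil (CTree.cons CTree.nil (CTree.cons CTree.nil (CTree.cons CTree.nil (CTree.cons CTree.nil (CTree.cons (CTree.leaf 1 97655006782529222018833082763589331077530976920) (CTree.cons CTree.nil (CTree.cons CTree.nil (CTree.cons (CTree.leaf 1 3489233635743655123866222949935686026) (CTree.cons CTree.nil (CTree.cons (CTree.leaf 1 136113611749608676684293497748124753592993) (CTree.cons (CTree.leaf 1 14809225742857745757599558316568468712087683745) (CTree.cons CTree.nil (CTree.cons (CTree.leaf 1 225980068462441245149581122366540501090977) (CTree.cons CTree.nil (CTree.cons CTree.nil (CTree.cons (CTree.leaf 1 23360153712862030083988318189461840266) (CTree.cons (CTree.leaf 1 14809225742857745757599558316568468712087683745) (CTree.cons CTree.nil (CTree.cons (CTree.leaf 1 97655006782528552867983183058602811162686980760) (CTree.cons (CTree.leaf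 1 14629332407734611376611408045898083627603985057) (CTree.cons CTree.nil (CTree.cons CTree.nil (CTree.cons CTree.nil (CTree.cons CTree.nil (CTree.cons CTree.nil (CTree.cons CTree.nil (CTree.cons CTree.nil (CTree.cons CTree.nil CTree.nil)))))))))))))))))))))))))))))))))))) (CTree.cons CTree.nil (CTree.cons (CTree.cons CTree.nil (CTree.cons CTree.nil (CTree.cons CTree.nil (CTree.cons (CTree.leaf 1 1577242011773184432040378381841376116540056) (CTree.cons (CTree.leaf 1 2918975384542440009643677895029391271985824) (CTree.cons (CTree.leaf 1 15008445076815784332711521456754093404862415512) (CTree.cons CTree.nil (CTree.cons CTree.nil (CTree.cons (CTree.leaf 1 225971557941596683315261699116357839356577) (CTree.cons (CTree.leaf 1 14987677994909587052734101179560734878339242250) (CTree.cons (CTree.leaf 1 14807738369987600214594590671481124511550735009) (CTree.cons CTree.nil (CTree.cons CTree.nil (CTree.cons CTree.nil (CTree.cons CTree.nil (CTree.cons CTree.nil (CTree.cons CTree.nil (CTree.cons CTree.nil (CTree.cons CTree.nil (CTree.cons CTree.nil (CTree.cons (CTree.leaf 1 14987677994909587042686612497109167433031221921) (CTree.cons CTree.nil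 (CTree.cons (CTree.leaf 1 225949511795428767880629176814043453325985) (CTree.cons (CTree.leaf 1 182393368829548644474231977412944019401242) (CTree.cons CTree.nil (CTree.cons CTree.nil (CTree.cons (CTree.leaf 1 15009978740108160131955321370662932113525440779) (CTree.cons (CTree.leaf 1 54659170061807840293880713212397425777124180641) (CTree.cons CTree.nil (CTree.cons (CTree.leaf 1 182393368829548644474231977412944019391001) (CTree.cons CTree.nil (CTree.cons CTree.nil (CTree.cons CTree.nil (CTree.cons CTree.nil (CTree.cons CTree.nil (CTree.cons CTree.nil CTree.nil)))))))))))))))))))))))))))))))))))) (CTree.cons CTree.nil (CTree.cons CTree.nil (CTree.cons (CTree.cons CTree.nil (CTree.cons CTree.nil (CTree.cons (CTree.leaf 1 664655598281307484691820722664837250) (CTree.cons CTree.nil (CTree.cons (CTree.leaf 1 43556813626101613270919250700272254583457) (CTree.cons (CTree.leaf 1 3495267815823901169433402654596075650) (CTree.cons (CTree.leaf 1 223225897334817678475980952967858576556705) (CTree.cons CTree.nil (CTree.cons (CTree.leaf 1 3489264450050252048946955206787728033) (CTree.cons CTree.nil (CTree.cons (CTree.leaf 1 3489233635743655123866222949935686026)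 (CTree.cons CTree.nil (CTree.cons CTree.nil (CTree.cons CTree.nil (CTree.cons CTree.nil (CTree.cons CTree.nil (CTree.cons CTree.nil (CTree.cons CTree.nil (CTree.cons (CTree.leaf 1 228672435667965842858872261966822770344609) (CTree.cons CTree.nil (CTree.cons CTree.nil (CTree.cons CTree.nil (CTree.cons (CTree.leaf 1 3406167417904086138394706046475174561) (CTree.cons (CTree.leaf 1 2783081262654090741759231703610632730) (CTree.cons (CTree.leaf 1 223225897681356373471838171214009650512545) (CTree.cons CTree.nil (CTree.cons (CTree.leaf 1 228672435667965842828638509767499644011169) (CTree.cons CTree.nil (CTree.cons CTree.nil (CTree.cons (CTree.leaf 1 2741553420011628201330294206362616345) (CTree.cons CTree.nil (CTree.cons CTree.nil (CTree.cons CTree.nil (CTree.cons CTree.nil (CTree.cons CTree.nil (CTree.cons CTree.nil CTree.nil)))))))))))))))))))))))))))))))))))) (CTree.cons (CTree.cons CTree.nil (CTree.cons CTree.nil (CTree.cons (CTree.leaf 1 664981220905773345862323942359961730) (CTree.cons (CTree.leaf 1 44623106421099552965525533154818986114) (CTree.cons CTree.nil (CTree.cons (CTree.leaf 1 229034099286972545249901756682713938661506) (CTree.cons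 (CTree.leaf 1 228670415552096182084378438401014299173266) (CTree.cons CTree.nil (CTree.cons (CTree.leaf 1 2019813624778336683923957215973737120) (CTree.cons (CTree.leaf 1 3489233635743655122135435088187496714) (CTree.cons CTree.nil (CTree.cons CTree.nil (CTree.cons CTree.nil (CTree.cons CTree.nil (CTree.cons CTree.nil (CTree.cons CTree.nil (CTree.cons CTree.nil (CTree.cons CTree.nil (CTree.cons (CTree.leaf 1 228670415552096182084378438402187344347536) (CTree.cons CTree.nil (CTree.cons (CTree.leaf 1 228671770871426263937835333254642749481362) (CTree.cons CTree.nil (CTree.cons CTree.nil (CTree.cons (CTree.leaf 1 2076928889727733874156694852536508818) (CTree.cons (CTree.leaf 1 228671770384497561925760090921212550652306) (CTree.cons CTree.nil (CTree.cons CTree.nil (CTree.cons (CTree.leaf 1 88817186999995402038628665648974438465936) (CTree.cons CTree.nil (CTree.cons (CTree.leaf 1 2076928889893354184239960950591529362) (CTree.cons CTree.nil (CTree.cons CTree.nil (CTree.cons CTree.nil (CTree.cons CTree.nil (CTree.cons CTree.nil (CTree.cons CTree.nil CTree.nil)))))))))))))))))))))))))))))))))))) (CTree.cons (CTree.cons CTree.nil (CTree.cons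 CTree.nil (CTree.cons (CTree.leaf 1 664981230815227370586427488400969858) (CTree.cons (CTree.leaf 1 2854674078277822569359743139734244751460012162) (CTree.cons (CTree.leaf 1 135147356944702387956607493302597360160898) (CTree.cons CTree.nil (CTree.cons (CTree.leaf 1 183414215584010281358416310178852555008530) (CTree.cons CTree.nil (CTree.cons CTree.nil (CTree.cons (CTree.leaf 1 24066306085622806929157522671895976202) (CTree.cons (CTree.leaf 1 1577209435313226723985570077794093913678218) (CTree.cons CTree.nil (CTree.cons CTree.nil (CTree.cons CTree.nil (CTree.cons CTree.nil (CTree.cons CTree.nil (CTree.cons CTree.nil (CTree.cons CTree.nil (CTree.cons (CTree.leaf 1 1577210125878176169623625001366410678577682) (CTree.cons CTree.nil (CTree.cons (CTree.leaf 1 94245127720063594954724704792240318249403285893) (CTree.cons CTree.nil (CTree.cons (CTree.leaf 1 2076928889893354186585490162003814930) (CTree.cons CTree.nil (CTree.cons (CTree.leaf 1 1577210125878171538148235294375262422116882) (CTree.cons CTree.nil (CTree.cons (CTree.leaf 1 183414216070941448292191339920299648952850) (CTree.cons (CTree.leaf 1 182734414128338834786652798413329196450192)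 (CTree.cons CTree.nil (CTree.cons CTree.nil (CTree.cons CTree.nil (CTree.cons CTree.nil (CTree.cons CTree.nil (CTree.cons CTree.nil (CTree.cons CTree.nil (CTree.cons CTree.nil CTree.nil)))))))))))))))))))))))))))))))))))) (CTree.cons (CTree.cons CTree.nil (CTree.cons CTree.nil (CTree.cons (CTree.leaf 1 43612105735610440862942108274202089951362) (CTree.cons CTree.nil (CTree.cons (CTree.leaf 1 2918975384542440009643677895014131486032544) (CTree.cons (CTree.leaf 1 229065871577835187039986247468855164342811) (CTree.cons CTree.nil (CTree.cons CTree.nil (CTree.cons (CTree.leaf 1 228672434998490677917784472682156370559649) (CTree.cons (CTree.leaf 1 225948156270192612461538264202713927588106) (CTree.cons (CTree.leaf 1 228670415205552693737935868013231514657162) (CTree.cons CTree.nil (CTree.cons CTree.nil (CTree.cons CTree.nil (CTree.cons CTree.nil (CTree.cons (CTree.leaf 1 228672434998497775521269665049807841526433) (CTree.cons (CTree.leaf 1 43580209445232944077487179158593100448144) (CTree.cons (CTree.leaf 1 43580209445243017983201687973314927133072) (CTree.cons CTree.nil (CTree.cons CTree.nil (CTree.cons CTree.nil (CTree.cons CTree.nil (CTree.cons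 CTree.nil (CTree.cons CTree.nil (CTree.cons CTree.nil (CTree.cons CTree.nil (CTree.cons (CTree.leaf 1 15009235551357087558883341041380847536310452896) (CTree.cons (CTree.leaf 1 15009235551357067746554943971576599685115154971) (CTree.cons CTree.nil (CTree.cons (CTree.leaf 1 179692449887966060521792186558051231269401) (CTree.cons CTree.nil (CTree.cons CTree.nil (CTree.cons CTree.nil (CTree.cons CTree.nil (CTree.cons CTree.nil (CTree.cons CTree.nil CTree.nil)))))))))))))))))))))))))))))))))))) (CTree.cons CTree.nil (CTree.cons (CTree.cons CTree.nil (CTree.cons CTree.nil (CTree.cons CTree.nil (CTree.cons (CTree.leaf 1 2178488377845621572462711944506204697464962) (CTree.cons (CTree.leaf 1 135092765135537037001148475362431004708994) (CTree.cons (CTree.leaf 1 229065870940674719344617641544395392684162) (CTree.cons (CTree.leaf 1 11663515709683305126945829883331089730479194785) (CTree.cons CTree.nil (CTree.cons CTree.nil (CTree.cons (CTree.leaf 1 43558827587131622741449350502756418394378) (CTree.cons (CTree.leaf 1 225970851789211363201971936951894345908897) (CTree.cons CTree.nil (CTree.cons (CTree.leaf 1 14809225742858578987632448478457660760444174853)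 (CTree.cons CTree.nil (CTree.cons CTree.nil (CTree.cons CTree.nil (CTree.cons (CTree.leaf 1 228671770578123606309735298398348793422226) (CTree.cons (CTree.leaf 1 1571766272621437047102841778699614958987794) (CTree.cons CTree.nil (CTree.cons CTree.nil (CTree.cons CTree.nil (CTree.cons CTree.nil (CTree.cons CTree.nil (CTree.cons CTree.nil (CTree.cons (CTree.leaf 1 11663515709683305117025467692750771074443641505) (CTree.cons CTree.nil (CTree.cons CTree.nil (CTree.cons (CTree.leaf 1 14809225742857766030088872493679449783494902433) (CTree.cons CTree.nil (CTree.cons (CTree.leaf 1 182393368829548644401202431984560702030361) (CTree.cons CTree.nil (CTree.cons CTree.nil (CTree.cons CTree.nil (CTree.cons CTree.nil (CTree.cons CTree.nil (CTree.cons CTree.nil CTree.nil)))))))))))))))))))))))))))))))))))) (CTree.cons CTree.nil (CTree.cons (CTree.cons CTree.nil (CTree.cons CTree.nil (CTree.cons (CTree.leaf 1 665467919508063221575339601085665410) (CTree.cons (CTree.leaf 1 43556812793341813996994442805516117738145) (CTree.cons CTree.nil (CTree.cons (CTree.leaf 1 3495267815823901169433402070480523394) (CTree.cons (CTree.leaf 1 223248592853856405312908977981986160378529)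 (CTree.cons CTree.nil (CTree.cons (CTree.leaf 1 3447715933977169094017597850866287265) (CTree.cons (CTree.leaf 1 3447695268301812848077036773093480714) (CTree.cons CTree.nil (CTree.cons CTree.nil (CTree.cons (CTree.leaf 1 225949511795428767880629176805247360303777) (CTree.cons CTree.nil (CTree.cons CTree.nil (CTree.cons (CTree.leaf 1 3406167417904086138394706046475174561) (CTree.cons CTree.nil (CTree.cons (CTree.leaf 1 2076928889893354186585490162003814930) (CTree.cons CTree.nil (CTree.cons CTree.nil (CTree.cons CTree.nil (CTree.cons CTree.nil (CTree.cons CTree.nil (CTree.cons CTree.nil (CTree.cons (CTree.leaf 1 223248592853843708005168026167111365821089) (CTree.cons CTree.nil (CTree.cons (CTree.leaf 1 225949511795428767686736717635581236609697) (CTree.cons CTree.nil (CTree.cons CTree.nil (CTree.cons (CTree.leaf 1 2076939422119170263648892717922582929) (CTree.cons CTree.nil (CTree.cons CTree.nil (CTree.cons CTree.nil (CTree.cons CTree.nil (CTree.cons CTree.nil (CTree.cons CTree.nil CTree.nil)))))))))))))))))))))))))))))))))))) (CTree.cons (CTree.cons CTree.nil (CTree.cons CTree.nil (CTree.cons (CTree.leaf 1 664970455775564942695232710618255490)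 (CTree.cons (CTree.leaf 1 33241094630192835534978197990162436226) (CTree.cons (CTree.leaf 1 55963255168205964998221400359468863618) (CTree.cons CTree.nil (CTree.cons (CTree.leaf 1 182392703869249407811711339420991707228698) (CTree.cons CTree.nil (CTree.cons (CTree.leaf 1 2783101936084711156297931609360902682) (CTree.cons CTree.nil (CTree.cons (CTree.leaf 1 23360153712862030083988318189461840266) (CTree.cons CTree.nil (CTree.cons (CTree.leaf 1 182414708823331092198066808330596594559514) (CTree.cons CTree.nil (CTree.cons CTree.nil (CTree.cons (CTree.leaf 1 2783081262654090741759231703610632730) (CTree.cons (CTree.leaf 1 2076928889727733874156694852536508818) (CTree.cons CTree.nil (CTree.cons CTree.nil (CTree.cons CTree.nil (CTree.cons CTree.nil (CTree.cons CTree.nil (CTree.cons CTree.nil (CTree.cons CTree.nil (CTree.cons (CTree.leaf 1 182392704215550751978516017161064848949648) (CTree.cons CTree.nil (CTree.cons (CTree.leaf 1 182393368970183917038434446647835964287514) (CTree.cons (CTree.leaf 1 179670444933877114042225096445009498024474) (CTree.cons CTree.nil (CTree.cons CTree.nil (CTree.cons CTree.nil (CTree.cons CTree.nil (CTree.cons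 CTree.nil (CTree.cons CTree.nil (CTree.cons CTree.nil (CTree.cons CTree.nil CTree.nil)))))))))))))))))))))))))))))))))))) (CTree.cons (CTree.cons CTree.nil (CTree.cons CTree.nil (CTree.cons (CTree.leaf 1 225948157103425130971785838555499331653762) (CTree.cons (CTree.leaf 1 2178488378009081498651772856526233692930721) (CTree.cons CTree.nil (CTree.cons (CTree.leaf 1 229065871577835187039986247468855164342811) (CTree.cons CTree.nil (CTree.cons CTree.nil (CTree.cons (CTree.leaf 1 225949511449127918159447684265105164468897) (CTree.cons (CTree.leaf 1 225948156270185186183833794696124007782666) (CTree.cons (CTree.leaf 1 228670415205552693737935868013231514657162) (CTree.cons CTree.nil (CTree.cons CTree.nil (CTree.cons CTree.nil (CTree.cons CTree.nil (CTree.cons (CTree.leaf 1 223225897681356373471838171222805743534753) (CTree.cons (CTree.leaf 1 228671770384495425711040962107590972613010) (CTree.cons (CTree.leaf 1 43580209445243017983201687973314927133072) (CTree.cons CTree.nil (CTree.cons CTree.nil (CTree.cons (CTree.leaf 1 15009235551357077425105051098586571780590272779) (CTree.cons CTree.nil (CTree.cons (CTree.leaf 1 223248592853846183885246596927661164069537)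 (CTree.cons (CTree.leaf 1 43558926393446599810684294516573461938576) (CTree.cons CTree.nil (CTree.cons CTree.nil (CTree.cons CTree.nil (CTree.cons CTree.nil (CTree.cons CTree.nil (CTree.cons CTree.nil (CTree.cons CTree.nil (CTree.cons CTree.nil (CTree.cons CTree.nil (CTree.cons CTree.nil (CTree.cons CTree.nil (CTree.cons CTree.nil CTree.nil)))))))))))))))))))))))))))))))))))) (CTree.cons CTree.nil (CTree.cons (CTree.cons CTree.nil (CTree.cons CTree.nil (CTree.cons CTree.nil (CTree.cons (CTree.leaf 1 2855414192425561946354225443225021907167946882) (CTree.cons (CTree.leaf 1 11979028900420579705910717665525002365731346698) (CTree.cons (CTree.leaf 1 226290557104993988214413518349877788676226) (CTree.cons (CTree.leaf 1 8988815636068725899573134424591934063078605337) (CTree.cons CTree.nil (CTree.cons CTree.nil (CTree.cons (CTree.leaf 1 14986144332240329330118441129290198977123256587) (CTree.cons (CTree.leaf 1 8988815636068259646157481488693435070104535577) (CTree.cons CTree.nil (CTree.cons (CTree.leaf 1 8987243903727491413118905219734645323614192152) (CTree.cons CTree.nil (CTree.cons CTree.nil (CTree.cons (CTree.leaf 1 228672434998493318279785891311807816663713)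 (CTree.cons CTree.nil (CTree.cons (CTree.leaf 1 132370505529666540589941560439631304010258) (CTree.cons (CTree.leaf 1 105861681027587067390047744854153731975704805893) (CTree.cons CTree.nil (CTree.cons CTree.nil (CTree.cons CTree.nil (CTree.cons (CTree.leaf 1 225949511795428767724515649498538398319265) (CTree.cons (CTree.leaf 1 182393368483247630266110547907302735817242) (CTree.cons CTree.nil (CTree.cons CTree.nil (CTree.cons CTree.nil (CTree.cons CTree.nil (CTree.cons CTree.nil (CTree.cons CTree.nil (CTree.cons CTree.nil (CTree.cons CTree.nil (CTree.cons CTree.nil (CTree.cons CTree.nil (CTree.cons CTree.nil (CTree.cons CTree.nil CTree.nil)))))))))))))))))))))))))))))))))))) (CTree.cons (CTree.cons CTree.nil (CTree.cons CTree.nil (CTree.cons (CTree.leaf 1 43568869652713305394775671239666747641986) (CTree.cons CTree.nil (CTree.cons (CTree.leaf 1 2918975384542440009643677895014126958219394) (CTree.cons (CTree.leaf 1 834035576591035997849900596199166914466331) (CTree.cons (CTree.leaf 1 14630122882982046677787122774991565900738593441) (CTree.cons CTree.nil (CTree.cons (CTree.leaf 1 228682476931432031157787838902324708377249) (CTree.cons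 CTree.nil (CTree.cons (CTree.leaf 1 1618043319343742110531870037797928414290314) (CTree.cons CTree.nil (CTree.cons (CTree.leaf 1 14986934806158883192034455695259727580562006146) (CTree.cons CTree.nil (CTree.cons CTree.nil (CTree.cons CTree.nil (CTree.cons (CTree.leaf 1 1615321750973319432670433921677511311827346) (CTree.cons (CTree.leaf 1 88814362431785173151880861882415213318683) (CTree.cons (CTree.leaf 1 14630122882982046677787122774991565900738593441) (CTree.cons CTree.nil (CTree.cons (CTree.leaf 1 14986934848704206569842608336174620979136955041) (CTree.cons CTree.nil (CTree.cons CTree.nil (CTree.cons (CTree.leaf 1 179670444933879589922303667205559296272922) (CTree.cons CTree.nil (CTree.cons CTree.nil (CTree.cons CTree.nil (CTree.cons CTree.nil (CTree.cons CTree.nil (CTree.cons CTree.nil (CTree.cons CTree.nil (CTree.cons CTree.nil (CTree.cons CTree.nil (CTree.cons CTree.nil (CTree.cons CTree.nil (CTree.cons CTree.nil CTree.nil)))))))))))))))))))))))))))))))))))) (CTree.cons CTree.nil (CTree.cons (CTree.cons CTree.nil (CTree.cons CTree.nil (CTree.cons (CTree.leaf 1 664645456912051605620530780382498946) (CTree.cons (CTree.leaf 1 43557529990033619732101141358350358348304)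 (CTree.cons (CTree.leaf 1 2788943039950795255631208435700273282) (CTree.cons CTree.nil (CTree.cons (CTree.leaf 1 179692449887973651213296830137267377996313) (CTree.cons CTree.nil (CTree.cons (CTree.leaf 1 2783101936084711156297931609360892441) (CTree.cons (CTree.leaf 1 2783081262818504653187698019125500170) (CTree.cons CTree.nil (CTree.cons CTree.nil (CTree.cons (CTree.leaf 1 182393368829548644474231400952191715967513) (CTree.cons CTree.nil (CTree.cons CTree.nil (CTree.cons (CTree.leaf 1 2741553420011628201330294206362616345) (CTree.cons (CTree.leaf 1 2076928889893354184239960950591529362) (CTree.cons CTree.nil (CTree.cons (CTree.leaf 1 179692449887963584641713615797501433020953) (CTree.cons CTree.nil (CTree.cons (CTree.leaf 1 182393368829548644363423500121603540320793) (CTree.cons CTree.nil (CTree.cons (CTree.leaf 1 2076939422119170263648892717922582929) (CTree.cons CTree.nil (CTree.cons CTree.nil (CTree.cons CTree.nil (CTree.cons CTree.nil (CTree.cons CTree.nil (CTree.cons CTree.nil (CTree.cons CTree.nil (CTree.cons CTree.nil (CTree.cons CTree.nil (CTree.cons CTree.nil (CTree.cons CTree.nil (CTree.cons CTree.nil (CTree.cons CTree.nil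 CTree.nil)))))))))))))))))))))))))))))))))))) (CTree.cons CTree.nil (CTree.cons CTree.nil (CTree.cons CTree.nil (CTree.cons CTree.nil (CTree.cons CTree.nil (CTree.cons CTree.nil CTree.nil)))))))))))))))))))))))))))))))))))

theorem tree6_5_1_ok : chk 6 (pk (goalL 6)) tree6_5_1 (stk [((5 : Fin 6), (1 : Fin 6))]) 1 (om [((5 : Fin 6), (1 : Fin 6))]) (im [((5 : Fin 6), (1 : Fin 6))])
    (cm [((5 : Fin 6), (1 : Fin 6))]) (pk (goalR [((5 : Fin 6), (1 : Fin 6))])) 0 = true := by
  decide +kernel

def tree6_5_2 : CTree :=
  CTree.cons CTree.nil (CTree.cons (CTree.cons CTree.nil (CTree.cons CTree.nil (CTree.cons CTree.nil (CTree.cons CTree.nil (CTree.cons CTree.nil (CTree.cons CTree.nil (CTree.cons CTree.nil (CTree.cons CTree.nil (CTree.cons CTree.nil (CTree.cons (CTree.leaf 1 1370808604867344302245518149771985024) (CTree.cons (CTree.leaf 1 89835920878415795881108556359612472819840) (CTree.cons (CTree.leaf 1 1371133593676221451629596285023682688) (CTree.cons (CTree.leaf 1 226003454242503612006067950752397858504832) (CTree.cons CTree.nil (CTree.cons CTree.nil (CTree.cons (CTree.leaf 1 3489265089324100201420743508716748928) (CTree.cons (CTree.leaf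 1 3489254948119298374973017346060451968) (CTree.cons CTree.nil (CTree.cons (CTree.leaf 1 228672476893944230800309846587260875767936) (CTree.cons CTree.nil (CTree.cons CTree.nil (CTree.cons CTree.nil (CTree.cons (CTree.leaf 1 3447716573086799789814454222736916608) (CTree.cons (CTree.leaf 1 2783102575194147906025280277669609600) (CTree.cons (CTree.leaf 1 225971558785364064192902140469129658957952) (CTree.cons CTree.nil (CTree.cons CTree.nil (CTree.cons (CTree.leaf 1 228693816908405061008236679417708334481536) (CTree.cons CTree.nil (CTree.cons (CTree.leaf 1 2783102575194147906025280276998455424) (CTree.cons CTree.nil (CTree.cons CTree.nil (CTree.cons CTree.nil (CTree.cons CTree.nil (CTree.cons CTree.nil (CTree.cons CTree.nil CTree.nil)))))))))))))))))))))))))))))))))))) (CTree.cons CTree.nil (CTree.cons (CTree.cons CTree.nil (CTree.cons CTree.nil (CTree.cons CTree.nil (CTree.cons CTree.nil (CTree.cons CTree.nil (CTree.cons CTree.nil (CTree.cons (CTree.leaf 1 5887440312622027218281283704362091227438383777) (CTree.cons CTree.nil (CTree.cons CTree.nil (CTree.cons CTree.nil (CTree.cons (CTree.leaf 1 970442974715121142790961407895497274840640981107361)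 (CTree.cons (CTree.leaf 1 5887440289318339033545957203873200303446360737) (CTree.cons (CTree.leaf 1 5887440312621357985727117596224222042326565537) (CTree.cons (CTree.leaf 1 89835209522726035661963738602596982588065) (CTree.cons CTree.nil (CTree.cons CTree.nil (CTree.cons (CTree.leaf 1 3946060308233782396787529020345792401381381430647050) (CTree.cons CTree.nil (CTree.cons CTree.nil (CTree.cons (CTree.leaf 1 14986144353621861486957026442613500704190431757) (CTree.cons CTree.nil (CTree.cons CTree.nil (CTree.cons (CTree.leaf 1 43578797810371610603887919477122608988833) (CTree.cons (CTree.leaf 1 43578797637963394380965528461756057332250) (CTree.cons (CTree.leaf 1 14986190608622071528902234249276121760301646497) (CTree.cons (CTree.leaf 1 2856072594946719247799136332841024705739686541) (CTree.cons CTree.nil (CTree.cons CTree.nil (CTree.cons CTree.nil (CTree.cons (CTree.leaf 1 43578797637963394380965528461756057322009) (CTree.cons CTree.nil (CTree.cons CTree.nil (CTree.cons CTree.nil (CTree.cons CTree.nil (CTree.cons CTree.nil (CTree.cons CTree.nil CTree.nil)))))))))))))))))))))))))))))))))))) (CTree.cons (CTree.cons CTree.nil (CTree.cons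 CTree.nil (CTree.cons CTree.nil (CTree.cons CTree.nil (CTree.cons CTree.nil (CTree.cons CTree.nil (CTree.cons (CTree.leaf 1 5887440289329069846598504254311497591526922506) (CTree.cons CTree.nil (CTree.cons CTree.nil (CTree.cons (CTree.leaf 1 89835209848348360236338914731281790146826) (CTree.cons CTree.nil (CTree.cons (CTree.leaf 1 89835210335047272091468974769454291425546) (CTree.cons (CTree.leaf 1 935458346093112008692777023848457368829183587385741) (CTree.cons (CTree.leaf 1 89838034264607338018319061446118108961034) (CTree.cons CTree.nil (CTree.cons (CTree.leaf 1 89835210335059638120221189334917517089034) (CTree.cons CTree.nil (CTree.cons CTree.nil (CTree.cons (CTree.leaf 1 935364326153407907956678996232761754401564864938381) (CTree.cons (CTree.leaf 1 1530931739553827034961185549717937556887818) (CTree.cons CTree.nil (CTree.cons CTree.nil (CTree.cons CTree.nil (CTree.cons (CTree.leaf 1 3667564015633547779524346547663453224573194) (CTree.cons CTree.nil (CTree.cons (CTree.leaf 1 982226399187652945322836429499956861198083785103626) (CTree.cons CTree.nil (CTree.cons (CTree.leaf 1 5887440312622200262788982335207622773796635277) (CTree.cons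 CTree.nil (CTree.cons (CTree.leaf 1 182732295996216975195927192954714971052298) (CTree.cons CTree.nil (CTree.cons CTree.nil (CTree.cons CTree.nil (CTree.cons CTree.nil (CTree.cons CTree.nil (CTree.cons CTree.nil CTree.nil)))))))))))))))))))))))))))))))))))) (CTree.cons (CTree.cons CTree.nil (CTree.cons CTree.nil (CTree.cons CTree.nil (CTree.cons CTree.nil (CTree.cons CTree.nil (CTree.cons CTree.nil (CTree.cons (CTree.leaf 1 15009151501612762793177492468327524107766339850) (CTree.cons CTree.nil (CTree.cons CTree.nil (CTree.cons (CTree.leaf 1 229011403714309047281093977119164078889226) (CTree.cons (CTree.leaf 1 15008491353820602307561156040976684817556646426) (CTree.cons CTree.nil (CTree.cons CTree.nil (CTree.cons (CTree.leaf 1 229021477127293291800141084310250853112074) (CTree.cons CTree.nil (CTree.cons (CTree.leaf 1 229021476770214276172143915005008473104786) (CTree.cons (CTree.leaf 1 229012094625317082293462003381063283513610) (CTree.cons CTree.nil (CTree.cons (CTree.leaf 1 15009151501612784343230440192897222449534992781) (CTree.cons (CTree.leaf 1 229021477116515618988722946465546957889938) (CTree.cons CTree.nil (CTree.cons CTree.nil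 (CTree.cons (CTree.leaf 1 229021476770214276061315840581330108291338) (CTree.cons CTree.nil (CTree.cons (CTree.leaf 1 103364183016666208470338728574895048847130231181) (CTree.cons (CTree.leaf 1 229033393112814388772333772716415155572866) (CTree.cons CTree.nil (CTree.cons (CTree.leaf 1 15008445097408098379778436430283834342052594189) (CTree.cons CTree.nil (CTree.cons CTree.nil (CTree.cons CTree.nil (CTree.cons CTree.nil (CTree.cons CTree.nil (CTree.cons CTree.nil (CTree.cons CTree.nil (CTree.cons CTree.nil CTree.nil)))))))))))))))))))))))))))))))))))) (CTree.cons (CTree.cons CTree.nil (CTree.cons CTree.nil (CTree.cons CTree.nil (CTree.cons (CTree.leaf 1 181403742663495020385357477755217715990658) (CTree.cons (CTree.leaf 1 2918975384542444958907953169130197654114434) (CTree.cons (CTree.leaf 1 229065871577835187039987399820370232283266) (CTree.cons CTree.nil (CTree.cons CTree.nil (CTree.cons CTree.nil (CTree.cons CTree.nil (CTree.cons CTree.nil (CTree.cons CTree.nil (CTree.cons CTree.nil (CTree.cons (CTree.leaf 1 57692160231015934949142242961472302763576263329) (CTree.cons CTree.nil (CTree.cons (CTree.leaf 1 228672435647683433219968287192994095432353)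 (CTree.cons (CTree.leaf 1 2134932234729212412027808883596573078061445) (CTree.cons CTree.nil (CTree.cons CTree.nil (CTree.cons (CTree.leaf 1 185586977468820503582538869195380365727935562131) (CTree.cons CTree.nil (CTree.cons CTree.nil (CTree.cons (CTree.leaf 1 834034101623775790434164204071189604729505) (CTree.cons (CTree.leaf 1 2134932235021641248472311699693140321108357) (CTree.cons CTree.nil (CTree.cons (CTree.leaf 1 8677124814463434053372521497824382548894089619) (CTree.cons CTree.nil (CTree.cons (CTree.leaf 1 57692203755247379863516577944100082769399586946) (CTree.cons CTree.nil (CTree.cons (CTree.leaf 1 834034101623775790434162974563262695277081) (CTree.cons CTree.nil (CTree.cons CTree.nil (CTree.cons CTree.nil (CTree.cons CTree.nil (CTree.cons CTree.nil (CTree.cons CTree.nil CTree.nil)))))))))))))))))))))))))))))))))))) (CTree.cons CTree.nil (CTree.cons CTree.nil (CTree.cons (CTree.cons CTree.nil (CTree.cons (CTree.leaf 1 1370808604867344302245518149771985024) (CTree.cons CTree.nil (CTree.cons CTree.nil (CTree.cons (CTree.leaf 1 89835209848348360198559983183819897963168) (CTree.cons (CTree.leaf 1 1577212265104477096052855253970144569465098)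 (CTree.cons CTree.nil (CTree.cons CTree.nil (CTree.cons CTree.nil (CTree.cons CTree.nil (CTree.cons CTree.nil (CTree.cons CTree.nil (CTree.cons (CTree.leaf 1 228671121347383147468820796603409444706570) (CTree.cons (CTree.leaf 1 12020277588656663679228424094504932123600814752) (CTree.cons CTree.nil (CTree.cons CTree.nil (CTree.cons (CTree.leaf 1 3489244405325135937764511469951654154) (CTree.cons CTree.nil (CTree.cons (CTree.leaf 1 12020277588656663679228534904058269447956398752) (CTree.cons CTree.nil (CTree.cons CTree.nil (CTree.cons CTree.nil (CTree.cons (CTree.leaf 1 3447706030456970636314029725610744074) (CTree.cons (CTree.leaf 1 2783092032564396871527169944821831946) (CTree.cons (CTree.leaf 1 228671121347388108824679057363038439020810) (CTree.cons (CTree.leaf 1 12020277588656663679228534904058269447956398752) (CTree.cons CTree.nil (CTree.cons CTree.nil (CTree.cons CTree.nil (CTree.cons (CTree.leaf 1 2783092032564396871527169944150677770) (CTree.cons CTree.nil (CTree.cons CTree.nil (CTree.cons CTree.nil (CTree.cons CTree.nil (CTree.cons CTree.nil (CTree.cons CTree.nil CTree.nil)))))))))))))))))))))))))))))))))))) (CTree.cons (CTree.cons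 CTree.nil (CTree.cons (CTree.leaf 1 1371133593676075464096996947489587328) (CTree.cons CTree.nil (CTree.cons (CTree.leaf 1 5887440344517637741376756128542101613622395145) (CTree.cons CTree.nil (CTree.cons (CTree.leaf 1 15008491694767938641444658505376149314924580994) (CTree.cons CTree.nil (CTree.cons CTree.nil (CTree.cons CTree.nil (CTree.cons CTree.nil (CTree.cons CTree.nil (CTree.cons CTree.nil (CTree.cons (CTree.leaf 1 14807784647034668818365486551173293796692656261) (CTree.cons (CTree.leaf 1 57692160199104413995610508013851688201453901954) (CTree.cons CTree.nil (CTree.cons (CTree.leaf 1 3489244405325135939531327578962993546) (CTree.cons CTree.nil (CTree.cons CTree.nil (CTree.cons (CTree.leaf 1 14807784647034008459057439532742235419943436421) (CTree.cons (CTree.leaf 1 57692160199104413995610512828378426470725392514) (CTree.cons CTree.nil (CTree.cons CTree.nil (CTree.cons CTree.nil (CTree.cons (CTree.leaf 1 23360164482937954015121451756474212746) (CTree.cons (CTree.leaf 1 57692160199104413983383623659165628496152172674) (CTree.cons CTree.nil (CTree.cons CTree.nil (CTree.cons (CTree.leaf 1 14807784647034160569703038103608483834872594565)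 (CTree.cons CTree.nil (CTree.cons (CTree.leaf 1 23360164482937954015121451755803058570) (CTree.cons CTree.nil (CTree.cons CTree.nil (CTree.cons CTree.nil (CTree.cons CTree.nil (CTree.cons CTree.nil (CTree.cons CTree.nil CTree.nil)))))))))))))))))))))))))))))))))))) (CTree.cons (CTree.cons CTree.nil (CTree.cons (CTree.leaf 1 1371133593676221451629596285023682688) (CTree.cons CTree.nil (CTree.cons (CTree.leaf 1 11886387026026324261151946091993341356347163297) (CTree.cons (CTree.leaf 1 5887440299952162989925383547854039252031578514) (CTree.cons CTree.nil (CTree.cons CTree.nil (CTree.cons CTree.nil (CTree.cons CTree.nil (CTree.cons CTree.nil (CTree.cons CTree.nil (CTree.cons CTree.nil (CTree.cons (CTree.leaf 1 14807827182329711943158546445250559993945135234) (CTree.cons CTree.nil (CTree.cons CTree.nil (CTree.cons (CTree.leaf 1 24066316855698730714483519758100670986) (CTree.cons (CTree.leaf 1 43568828114328869563846180223631341256837) (CTree.cons CTree.nil (CTree.cons (CTree.leaf 1 1577210141455062123504551926279169750204549) (CTree.cons (CTree.leaf 1 14807827182330025684535010388702792032049567874) (CTree.cons CTree.nil (CTree.cons CTree.nil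 (CTree.cons (CTree.leaf 1 23360164482937994157003372257326737930) (CTree.cons CTree.nil (CTree.cons (CTree.leaf 1 1577210141455062123504551926279169750204549) (CTree.cons (CTree.leaf 1 14807827182330025684535118687846453235291335194) (CTree.cons CTree.nil (CTree.cons (CTree.leaf 1 14807784647034160569703038101264658810942390405) (CTree.cons CTree.nil (CTree.cons CTree.nil (CTree.cons CTree.nil (CTree.cons CTree.nil (CTree.cons CTree.nil (CTree.cons CTree.nil (CTree.cons CTree.nil (CTree.cons CTree.nil CTree.nil)))))))))))))))))))))))))))))))))))) (CTree.cons (CTree.cons CTree.nil (CTree.cons (CTree.leaf 1 225948863255795408541967437681066535616640) (CTree.cons CTree.nil (CTree.cons (CTree.leaf 1 14986190608622070261251634022809290767901721101) (CTree.cons (CTree.leaf 1 14807784647034009092882739646855220350335129866) (CTree.cons CTree.nil (CTree.cons CTree.nil (CTree.cons CTree.nil (CTree.cons CTree.nil (CTree.cons (CTree.leaf 1 225948862412028027583698587435013713297541) (CTree.cons (CTree.leaf 1 24900008645035867731691952975645497266025089007749) (CTree.cons (CTree.leaf 1 970491748449155360299075377441522972714634841817477) (CTree.cons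 CTree.nil (CTree.cons CTree.nil (CTree.cons CTree.nil (CTree.cons CTree.nil (CTree.cons CTree.nil (CTree.cons CTree.nil (CTree.cons CTree.nil (CTree.cons (CTree.leaf 1 568578797532910763191496145682763992195331264283297) (CTree.cons CTree.nil (CTree.cons CTree.nil (CTree.cons (CTree.leaf 1 225948157103422487015768305936255688966277) (CTree.cons (CTree.leaf 1 182392013477175629171313215481516899106949) (CTree.cons CTree.nil (CTree.cons (CTree.leaf 1 568578797532855481659417444371458128777314590982817) (CTree.cons CTree.nil (CTree.cons (CTree.leaf 1 14807784647034160569703038103608483834872594565) (CTree.cons CTree.nil (CTree.cons (CTree.leaf 1 182392013304542582853577789987047385661573) (CTree.cons CTree.nil (CTree.cons CTree.nil (CTree.cons CTree.nil (CTree.cons CTree.nil (CTree.cons CTree.nil (CTree.cons CTree.nil CTree.nil)))))))))))))))))))))))))))))))))))) (CTree.cons (CTree.cons CTree.nil (CTree.cons CTree.nil (CTree.cons CTree.nil (CTree.cons (CTree.leaf 1 89835209674131054226722887737313941586445) (CTree.cons (CTree.leaf 1 5887440344517993156255329351560890423804369162) (CTree.cons (CTree.leaf 1 229065871577827602241903352419266918486555)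 (CTree.cons (CTree.leaf 1 14807784648389014525938730808224532007038419617) (CTree.cons CTree.nil (CTree.cons CTree.nil (CTree.cons (CTree.leaf 1 175927354474637856049972793572949902825738) (CTree.cons (CTree.leaf 1 89835209848348650350423280820448988832138) (CTree.cons CTree.nil (CTree.cons CTree.nil (CTree.cons CTree.nil (CTree.cons CTree.nil (CTree.cons CTree.nil (CTree.cons CTree.nil (CTree.cons CTree.nil (CTree.cons (CTree.leaf 1 11532404213273034763482158491282055825757112708) (CTree.cons CTree.nil (CTree.cons CTree.nil (CTree.cons CTree.nil (CTree.cons (CTree.leaf 1 834034101179305798729141270171408043939970) (CTree.cons (CTree.leaf 1 182392013629296345116961098439643023147397) (CTree.cons (CTree.leaf 1 8675033494333985119396014650693826517611383172) (CTree.cons CTree.nil (CTree.cons CTree.nil (CTree.cons (CTree.leaf 1 11529575102850158967897287514684614893858199842) (CTree.cons CTree.nil (CTree.cons (CTree.leaf 1 834034101169164593927314205452095909861506) (CTree.cons CTree.nil (CTree.cons CTree.nil (CTree.cons CTree.nil (CTree.cons CTree.nil (CTree.cons CTree.nil (CTree.cons CTree.nil CTree.nil))))))))))))))))))))))))))))))))))))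 (CTree.cons CTree.nil (CTree.cons (CTree.cons CTree.nil (CTree.cons (CTree.leaf 1 3489265089324100201420743508716748928) (CTree.cons CTree.nil (CTree.cons CTree.nil (CTree.cons (CTree.leaf 1 43578797810995235143586979055763007281418) (CTree.cons (CTree.leaf 1 229010697897462149692044205781284547592353) (CTree.cons (CTree.leaf 1 183414880847198617579341152963607985652385) (CTree.cons CTree.nil (CTree.cons CTree.nil (CTree.cons CTree.nil (CTree.cons (CTree.leaf 1 3489244405325135939531327578962993546) (CTree.cons (CTree.leaf 1 24066316855698730714483519758100670986) (CTree.cons CTree.nil (CTree.cons CTree.nil (CTree.cons CTree.nil (CTree.cons CTree.nil (CTree.cons CTree.nil (CTree.cons CTree.nil (CTree.cons (CTree.leaf 1 228670415205790378338649435902315981766789) (CTree.cons (CTree.leaf 1 183414880241103174345218970372996765655170) (CTree.cons CTree.nil (CTree.cons CTree.nil (CTree.cons (CTree.leaf 1 3364618510810112006378093627184579233) (CTree.cons CTree.nil (CTree.cons (CTree.leaf 1 228670415552091392473741319979573947990149) (CTree.cons (CTree.leaf 1 183414880241103174345218970372996765655170) (CTree.cons CTree.nil (CTree.cons CTree.nil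 (CTree.cons CTree.nil (CTree.cons (CTree.leaf 1 2700004512917613929198569196263375385) (CTree.cons CTree.nil (CTree.cons CTree.nil (CTree.cons CTree.nil (CTree.cons CTree.nil (CTree.cons CTree.nil (CTree.cons CTree.nil CTree.nil)))))))))))))))))))))))))))))))))))) (CTree.cons (CTree.cons CTree.nil (CTree.cons (CTree.leaf 1 2061395099766912199819969080111267968) (CTree.cons CTree.nil (CTree.cons (CTree.leaf 1 14562476449850831961168488537501293989569692321) (CTree.cons CTree.nil (CTree.cons (CTree.leaf 1 229032686939126766765371484960415122856202) (CTree.cons (CTree.leaf 1 226970359036821571615503904412915116089746) (CTree.cons CTree.nil (CTree.cons CTree.nil (CTree.cons (CTree.leaf 1 3489244405325135937764511469951654154) (CTree.cons CTree.nil (CTree.cons (CTree.leaf 1 1577210141455064599384630497039719548452997) (CTree.cons CTree.nil (CTree.cons CTree.nil (CTree.cons CTree.nil (CTree.cons CTree.nil (CTree.cons CTree.nil (CTree.cons CTree.nil (CTree.cons (CTree.leaf 1 228670415552091392322644039272463774908549) (CTree.cons (CTree.leaf 1 226970358549890404722015987243057671182466) (CTree.cons CTree.nil (CTree.cons CTree.nil (CTree.cons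 CTree.nil (CTree.cons (CTree.leaf 1 2035390515025115850864745165270688146) (CTree.cons (CTree.leaf 1 228670415552091392322644039272463774908549) (CTree.cons (CTree.leaf 1 226970358549890404722015987243057671182466) (CTree.cons CTree.nil (CTree.cons (CTree.leaf 1 89835209826803886523662911188015007275298) (CTree.cons CTree.nil (CTree.cons CTree.nil (CTree.cons CTree.nil (CTree.cons CTree.nil (CTree.cons CTree.nil (CTree.cons CTree.nil (CTree.cons CTree.nil (CTree.cons CTree.nil CTree.nil)))))))))))))))))))))))))))))))))))) (CTree.cons CTree.nil (CTree.cons (CTree.cons CTree.nil (CTree.cons (CTree.leaf 1 228671121378841689491429908162376088354944) (CTree.cons CTree.nil (CTree.cons CTree.nil (CTree.cons (CTree.leaf 1 5887440301282223916496572691948385133367263896) (CTree.cons (CTree.leaf 1 15008491353820784693730051624040177587676906136) (CTree.cons CTree.nil (CTree.cons CTree.nil (CTree.cons CTree.nil (CTree.cons (CTree.leaf 1 755596905503359419238025197047376836209968655966338) (CTree.cons (CTree.leaf 1 36543429161370770370220937193952930237373950787717) (CTree.cons (CTree.leaf 1 1577210141455064599384630497039719548452997) (CTree.cons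 CTree.nil (CTree.cons (CTree.leaf 1 3781002034155059999407987675406302684562393796902937) (CTree.cons CTree.nil (CTree.cons (CTree.leaf 1 225948157103427771152403880328218378567813) (CTree.cons (CTree.leaf 1 228670415552091392433600088264594116706437) (CTree.cons CTree.nil (CTree.cons CTree.nil (CTree.cons CTree.nil (CTree.cons CTree.nil (CTree.cons CTree.nil (CTree.cons CTree.nil (CTree.cons CTree.nil (CTree.cons CTree.nil (CTree.cons (CTree.leaf 1 755693644880048428786804011468485219324548748478867) (CTree.cons CTree.nil (CTree.cons (CTree.leaf 1 14807784647034160569866353914951020869582979205) (CTree.cons CTree.nil (CTree.cons (CTree.leaf 1 182392013640068731300641191741151134679173) (CTree.cons CTree.nil (CTree.cons CTree.nil (CTree.cons CTree.nil (CTree.cons CTree.nil (CTree.cons CTree.nil (CTree.cons CTree.nil CTree.nil)))))))))))))))))))))))))))))))))))) (CTree.cons (CTree.cons CTree.nil (CTree.cons CTree.nil (CTree.cons CTree.nil (CTree.cons (CTree.leaf 1 14986190608622263028157093008379983285918564877) (CTree.cons (CTree.leaf 1 89835210335052221544433685351268492777738) (CTree.cons (CTree.leaf 1 229065870919124659140737741753572783890834)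 (CTree.cons (CTree.leaf 1 14986278741755113321494760288691207301641863841) (CTree.cons CTree.nil (CTree.cons CTree.nil (CTree.cons CTree.nil (CTree.cons (CTree.leaf 1 8675127038677126655800219151234898910857205890) (CTree.cons (CTree.leaf 1 8675215852374071031033884325871692763985746050) (CTree.cons (CTree.leaf 1 14807869059050220422239806155706657295669729410) (CTree.cons CTree.nil (CTree.cons CTree.nil (CTree.cons (CTree.leaf 1 228672434998492989346172643990180745781378) (CTree.cons (CTree.leaf 1 228670415530548597803375286377931141677445) (CTree.cons CTree.nil (CTree.cons CTree.nil (CTree.cons CTree.nil (CTree.cons CTree.nil (CTree.cons CTree.nil (CTree.cons CTree.nil (CTree.cons CTree.nil (CTree.cons (CTree.leaf 1 14807869059050220422239877100189605167725025410) (CTree.cons CTree.nil (CTree.cons CTree.nil (CTree.cons (CTree.leaf 1 14807784647034160567199352731186578507462547746) (CTree.cons CTree.nil (CTree.cons (CTree.leaf 1 834034101169164593927314205452095909861506) (CTree.cons CTree.nil (CTree.cons CTree.nil (CTree.cons CTree.nil (CTree.cons CTree.nil (CTree.cons CTree.nil (CTree.cons CTree.nil CTree.nil))))))))))))))))))))))))))))))))))))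 (CTree.cons CTree.nil (CTree.cons CTree.nil (CTree.cons (CTree.cons CTree.nil (CTree.cons (CTree.leaf 1 3447716573086799789814454222736916608) (CTree.cons CTree.nil (CTree.cons (CTree.leaf 1 43578797810371610566108987614165447279265) (CTree.cons CTree.nil (CTree.cons (CTree.leaf 1 229010697897462149689681367465303039154442) (CTree.cons (CTree.leaf 1 137135814169693817261173008050928307667617) (CTree.cons CTree.nil (CTree.cons CTree.nil (CTree.cons (CTree.leaf 1 3447706030456970636314029725610744074) (CTree.cons CTree.nil (CTree.cons (CTree.leaf 1 23360164482937994157003372257326737930) (CTree.cons (CTree.leaf 1 225948157103422487015768305927459595944069) (CTree.cons (CTree.leaf 1 137135813725223825556150074151146746878082) (CTree.cons CTree.nil (CTree.cons (CTree.leaf 1 3364618510810112006378093627184579233) (CTree.cons CTree.nil (CTree.cons CTree.nil (CTree.cons CTree.nil (CTree.cons CTree.nil (CTree.cons CTree.nil (CTree.cons CTree.nil (CTree.cons CTree.nil (CTree.cons CTree.nil (CTree.cons (CTree.leaf 1 225948156605961565156646304190429355114629) (CTree.cons (CTree.leaf 1 137135813725223825556150074151146746878082) (CTree.cons CTree.nil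 (CTree.cons CTree.nil (CTree.cons CTree.nil (CTree.cons (CTree.leaf 1 2035390515025115850864745164599525777) (CTree.cons CTree.nil (CTree.cons CTree.nil (CTree.cons CTree.nil (CTree.cons CTree.nil (CTree.cons CTree.nil (CTree.cons CTree.nil CTree.nil)))))))))))))))))))))))))))))))))))) (CTree.cons (CTree.cons CTree.nil (CTree.cons (CTree.leaf 1 2783102575194147906025280277669609600) (CTree.cons CTree.nil (CTree.cons (CTree.leaf 1 1530931698686194985782181951705971781406850) (CTree.cons (CTree.leaf 1 3667564015633545303644267976902903426324746) (CTree.cons CTree.nil (CTree.cons (CTree.leaf 1 180691957135573940584484343060845503261210) (CTree.cons CTree.nil (CTree.cons CTree.nil (CTree.cons (CTree.leaf 1 2783092032564396871527169944821831946) (CTree.cons (CTree.leaf 1 23360164482937954015121451756474212746) (CTree.cons CTree.nil (CTree.cons (CTree.leaf 1 182392013304537621386763480235288720703621) (CTree.cons (CTree.leaf 1 180691956648642773650709351575355676825730) (CTree.cons CTree.nil (CTree.cons CTree.nil (CTree.cons (CTree.leaf 1 2035390515025115850864745165270688146) (CTree.cons CTree.nil (CTree.cons CTree.nil (CTree.cons CTree.nil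 (CTree.cons CTree.nil (CTree.cons CTree.nil (CTree.cons CTree.nil (CTree.cons CTree.nil (CTree.cons (CTree.leaf 1 182392013640068731189685142749021464035461) (CTree.cons (CTree.leaf 1 2924388681132169604407162713831382651115650) (CTree.cons CTree.nil (CTree.cons (CTree.leaf 1 182392719446140149044031771061608263588130) (CTree.cons CTree.nil (CTree.cons CTree.nil (CTree.cons CTree.nil (CTree.cons CTree.nil (CTree.cons CTree.nil (CTree.cons CTree.nil (CTree.cons CTree.nil (CTree.cons CTree.nil CTree.nil)))))))))))))))))))))))))))))))))))) (CTree.cons (CTree.cons CTree.nil (CTree.cons (CTree.leaf 1 89858612016988678814930995125906329239680) (CTree.cons CTree.nil (CTree.cons (CTree.leaf 1 14986190608622427099450596377841522286977417741) (CTree.cons CTree.nil (CTree.cons (CTree.leaf 1 15008491353820784693730051624040177587676906136) (CTree.cons CTree.nil (CTree.cons CTree.nil (CTree.cons CTree.nil (CTree.cons (CTree.leaf 1 225948862412028027583697320234668561928731) (CTree.cons (CTree.leaf 1 3582149188099177253081838868843626036364775184734338) (CTree.cons (CTree.leaf 1 1577210141455064599384630497039719548452997) (CTree.cons CTree.nil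 (CTree.cons (CTree.leaf 1 6376589335834983834649607960215212009126209903462803) (CTree.cons CTree.nil (CTree.cons (CTree.leaf 1 225948156616736595258587947158098111692933) (CTree.cons (CTree.leaf 1 228670415552091392433600088264594116706437) (CTree.cons CTree.nil (CTree.cons CTree.nil (CTree.cons (CTree.leaf 1 568621435299025878695232733184799638013902411858593) (CTree.cons CTree.nil (CTree.cons CTree.nil (CTree.cons (CTree.leaf 1 225948156605961565156646880651181658538117) (CTree.cons (CTree.leaf 1 182392013640071365436629559552337197531269) (CTree.cons CTree.nil (CTree.cons CTree.nil (CTree.cons CTree.nil (CTree.cons CTree.nil (CTree.cons CTree.nil (CTree.cons CTree.nil (CTree.cons CTree.nil (CTree.cons CTree.nil (CTree.cons CTree.nil (CTree.cons CTree.nil (CTree.cons CTree.nil (CTree.cons CTree.nil CTree.nil)))))))))))))))))))))))))))))))))))) (CTree.cons (CTree.cons CTree.nil (CTree.cons CTree.nil (CTree.cons CTree.nil (CTree.cons (CTree.leaf 1 61587351718057215362347161709386419466687019560120418957) (CTree.cons (CTree.leaf 1 14339561895657003741259307587237408453908103704) (CTree.cons (CTree.leaf 1 15008445088181700605984055698465929952273635594)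 (CTree.cons (CTree.leaf 1 8675172276900497687496465544106175900029622402) (CTree.cons CTree.nil (CTree.cons CTree.nil (CTree.cons (CTree.leaf 1 11529622424088243212575866169333636035576924804) (CTree.cons CTree.nil (CTree.cons (CTree.leaf 1 8987418097742516476195219874447312069551265922) (CTree.cons (CTree.leaf 1 8675172276900497687496465544106175900029622402) (CTree.cons CTree.nil (CTree.cons CTree.nil (CTree.cons (CTree.leaf 1 228672434998492989346172643990180745781378) (CTree.cons (CTree.leaf 1 228670415530548597803375286377931141677445) (CTree.cons CTree.nil (CTree.cons (CTree.leaf 1 185586938678650183109222131230103231121871405593) (CTree.cons CTree.nil (CTree.cons CTree.nil (CTree.cons CTree.nil (CTree.cons (CTree.leaf 1 834034101179305798729141270171408043939970) (CTree.cons (CTree.leaf 1 182392013629300966769847582573186309030277) (CTree.cons CTree.nil (CTree.cons CTree.nil (CTree.cons CTree.nil (CTree.cons CTree.nil (CTree.cons CTree.nil (CTree.cons CTree.nil (CTree.cons CTree.nil (CTree.cons CTree.nil (CTree.cons CTree.nil (CTree.cons CTree.nil (CTree.cons CTree.nil (CTree.cons CTree.nil CTree.nil))))))))))))))))))))))))))))))))))))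 (CTree.cons CTree.nil (CTree.cons (CTree.cons CTree.nil (CTree.cons (CTree.leaf 1 228693816908405061008236679417708468699264) (CTree.cons CTree.nil (CTree.cons CTree.nil (CTree.cons (CTree.leaf 1 11975543750407953437084502478523225525672089866) (CTree.cons (CTree.leaf 1 15008445097408078808392508956506270214961897874) (CTree.cons (CTree.leaf 1 14874772974068583443985403193640671117632020610) (CTree.cons CTree.nil (CTree.cons CTree.nil (CTree.cons CTree.nil (CTree.cons (CTree.leaf 1 1618044025485577525654029360964312001806469) (CTree.cons (CTree.leaf 1 182733001813061251843302592503997295296645) (CTree.cons (CTree.leaf 1 14986190608622070414736783048732029137382408865) (CTree.cons (CTree.leaf 1 14874772974068583441016321814815825989428970145) (CTree.cons CTree.nil (CTree.cons CTree.nil (CTree.cons (CTree.leaf 1 220503638724441754049895128890260579754386) (CTree.cons CTree.nil (CTree.cons (CTree.leaf 1 14986190608622070414736783050458868773277469075) (CTree.cons (CTree.leaf 1 14874772974068583441016321816542665625324030355) (CTree.cons CTree.nil (CTree.cons CTree.nil (CTree.cons CTree.nil (CTree.cons (CTree.leaf 1 182392719446140149044031771061608263588130)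 (CTree.cons CTree.nil (CTree.cons CTree.nil (CTree.cons CTree.nil (CTree.cons CTree.nil (CTree.cons CTree.nil (CTree.cons CTree.nil (CTree.cons CTree.nil (CTree.cons CTree.nil (CTree.cons CTree.nil (CTree.cons CTree.nil (CTree.cons CTree.nil (CTree.cons CTree.nil CTree.nil)))))))))))))))))))))))))))))))))))) (CTree.cons CTree.nil (CTree.cons (CTree.cons CTree.nil (CTree.cons (CTree.leaf 1 2783102575194147906025280276998455424) (CTree.cons CTree.nil (CTree.cons (CTree.leaf 1 43578797637960918500886957701206259073561) (CTree.cons (CTree.leaf 1 182732295996214509025126415623950149163274) (CTree.cons CTree.nil (CTree.cons (CTree.leaf 1 137135814169693817261171778543001398215193) (CTree.cons CTree.nil (CTree.cons CTree.nil (CTree.cons (CTree.leaf 1 2783092032564396871527169944150677770) (CTree.cons (CTree.leaf 1 23360164482937954015121451755803058570) (CTree.cons CTree.nil (CTree.cons (CTree.leaf 1 182392013304542582853577213526295082238085) (CTree.cons (CTree.leaf 1 137135813715082620754323009431834612799618) (CTree.cons CTree.nil (CTree.cons (CTree.leaf 1 2700004512917613929198569196263375385) (CTree.cons CTree.nil (CTree.cons CTree.nil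 (CTree.cons (CTree.leaf 1 182392013640068731300640615280398831255685) (CTree.cons (CTree.leaf 1 137135813715082620754323009431834612799618) (CTree.cons CTree.nil (CTree.cons CTree.nil (CTree.cons (CTree.leaf 1 2035390515025115850864745164599525777) (CTree.cons CTree.nil (CTree.cons CTree.nil (CTree.cons CTree.nil (CTree.cons CTree.nil (CTree.cons CTree.nil (CTree.cons CTree.nil (CTree.cons CTree.nil (CTree.cons CTree.nil (CTree.cons CTree.nil (CTree.cons CTree.nil (CTree.cons CTree.nil (CTree.cons CTree.nil (CTree.cons CTree.nil CTree.nil)))))))))))))))))))))))))))))))))))) (CTree.cons CTree.nil (CTree.cons CTree.nil (CTree.cons CTree.nil (CTree.cons CTree.nil (CTree.cons CTree.nil (CTree.cons CTree.nil CTree.nil)))))))))))))))))))))))))))))))))))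

theorem tree6_5_2_ok : chk 6 (pk (goalL 6)) tree6_5_2 (stk [((5 : Fin 6), (2 : Fin 6))]) 1 (om [((5 : Fin 6), (2 : Fin 6))]) (im [((5 : Fin 6), (2 : Fin 6))])
    (cm [((5 : Fin 6), (2 : Fin 6))]) (pk (goalR [((5 : Fin 6), (2 : Fin 6))])) 0 = true := by
  decide +kernel

def tree6_5_3 : CTree :=
  CTree.cons CTree.nil (CTree.cons (CTree.cons CTree.nil (CTree.cons CTree.nil (CTree.cons CTree.nil (CTree.cons CTree.nil (CTree.cons CTree.nil (CTree.cons CTree.nil (CTree.cons CTree.nil (CTree.cons CTree.nil (CTree.cons (CTree.leaf 1 2035747591723422040566124938541400192) (CTree.cons CTree.nil (CTree.cons (CTree.leaf 1 89857905864615781653815892691457866268800) (CTree.cons (CTree.leaf 1 89857905033834528170077129522529113866368) (CTree.cons (CTree.leaf 1 2878327062365624200339193273551876768442155136) (CTree.cons CTree.nil (CTree.cons CTree.nil (CTree.cons CTree.nil (CTree.cons (CTree.leaf 1 3489590711793863697183479887064727680) (CTree.cons (CTree.leaf 1 2036061255699619308511720612257988736) (CTree.cons (CTree.leaf 1 57513665765513095859419102286339370777535643776) (CTree.cons CTree.nil (CTree.cons (CTree.leaf 1 11708119922339301807257794901120816842463182976)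 (CTree.cons CTree.nil (CTree.cons (CTree.leaf 1 23360164891934523894107029080780112000) (CTree.cons CTree.nil (CTree.cons (CTree.leaf 1 57513665787502137524045849383696314073153077376) (CTree.cons CTree.nil (CTree.cons (CTree.leaf 1 11708119922339301807257794901120816842463182976) (CTree.cons CTree.nil (CTree.cons CTree.nil (CTree.cons (CTree.leaf 1 23360164889303861168852604099174662272) (CTree.cons CTree.nil (CTree.cons CTree.nil (CTree.cons CTree.nil (CTree.cons CTree.nil (CTree.cons CTree.nil (CTree.cons CTree.nil CTree.nil)))))))))))))))))))))))))))))))))))) (CTree.cons (CTree.cons CTree.nil (CTree.cons CTree.nil (CTree.cons CTree.nil (CTree.cons CTree.nil (CTree.cons CTree.nil (CTree.cons CTree.nil (CTree.cons (CTree.leaf 1 43558219927337906370443048131592388415618) (CTree.cons CTree.nil (CTree.cons CTree.nil (CTree.cons CTree.nil (CTree.cons (CTree.leaf 1 43579503963380672485014651157953080529026) (CTree.cons (CTree.leaf 1 43579503151675602510654162003778056884354) (CTree.cons CTree.nil (CTree.cons (CTree.leaf 1 43558869278179009028894504254680053321858) (CTree.cons CTree.nil (CTree.cons CTree.nil (CTree.cons (CTree.leaf 1 43579503152163661726057427930625452609666)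 (CTree.cons (CTree.leaf 1 43579503151042108602203806850344420446338) (CTree.cons (CTree.leaf 1 2856026318579517719560039666057250542184366605) (CTree.cons (CTree.leaf 1 43579503152161031063332216289818831556738) (CTree.cons CTree.nil (CTree.cons CTree.nil (CTree.cons (CTree.leaf 1 664970458406227667948250338143834242) (CTree.cons CTree.nil (CTree.cons (CTree.leaf 1 2856026318579517719560039666057250542184366605) (CTree.cons (CTree.leaf 1 43579503962110536446656502072446741713026) (CTree.cons CTree.nil (CTree.cons CTree.nil (CTree.cons CTree.nil (CTree.cons (CTree.leaf 1 664970455775564942695232709947101314) (CTree.cons CTree.nil (CTree.cons CTree.nil (CTree.cons CTree.nil (CTree.cons CTree.nil (CTree.cons CTree.nil (CTree.cons CTree.nil CTree.nil)))))))))))))))))))))))))))))))))))) (CTree.cons CTree.nil (CTree.cons (CTree.cons CTree.nil (CTree.cons CTree.nil (CTree.cons CTree.nil (CTree.cons CTree.nil (CTree.cons CTree.nil (CTree.cons CTree.nil (CTree.cons (CTree.leaf 1 6376543062406255493588202408685127814192740107944608) (CTree.cons CTree.nil (CTree.cons (CTree.leaf 1 43579503963370471760370494704112291349153) (CTree.cons CTree.nil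 (CTree.cons CTree.nil (CTree.cons (CTree.leaf 1 217767156204992319199171105323896990678099487302034) (CTree.cons (CTree.leaf 1 982140519017891539858786322986734668847415638696338) (CTree.cons (CTree.leaf 1 14566054201351488971923382579466654088427542794) (CTree.cons CTree.nil (CTree.cons CTree.nil (CTree.cons CTree.nil (CTree.cons (CTree.leaf 1 43611399734734153851810619216681022063265) (CTree.cons (CTree.leaf 1 223621169243154207950689400840463991946574591820448) (CTree.cons (CTree.leaf 1 14987585426132378415418461529194973261020135693) (CTree.cons (CTree.leaf 1 222226452871175824346307036951703105640714) (CTree.cons CTree.nil (CTree.cons CTree.nil (CTree.cons CTree.nil (CTree.cons CTree.nil (CTree.cons (CTree.leaf 1 6575310853937193009573732981397743013114211713482905) (CTree.cons (CTree.leaf 1 2854724396832054741505858429921378261739051274) (CTree.cons CTree.nil (CTree.cons CTree.nil (CTree.cons (CTree.leaf 1 182732295996214803998340892569949532397970) (CTree.cons CTree.nil (CTree.cons CTree.nil (CTree.cons CTree.nil (CTree.cons CTree.nil (CTree.cons CTree.nil (CTree.cons CTree.nil CTree.nil)))))))))))))))))))))))))))))))))))) (CTree.cons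 (CTree.cons CTree.nil (CTree.cons CTree.nil (CTree.cons CTree.nil (CTree.cons CTree.nil (CTree.cons CTree.nil (CTree.cons CTree.nil (CTree.cons (CTree.leaf 1 14272301596192422662382309695870562649435813788241236507) (CTree.cons CTree.nil (CTree.cons (CTree.leaf 1 229010697908239655712079159864337722843538) (CTree.cons CTree.nil (CTree.cons (CTree.leaf 1 15008452253925232317823210189329609435792412802) (CTree.cons CTree.nil (CTree.cons (CTree.leaf 1 15008493055232437860965186415377589165231907218) (CTree.cons (CTree.leaf 1 15008580178339308407493119461155323996964200850) (CTree.cons CTree.nil (CTree.cons CTree.nil (CTree.cons (CTree.leaf 1 229010697897464625610139247951235792839058) (CTree.cons CTree.nil (CTree.cons CTree.nil (CTree.cons (CTree.leaf 1 229023460227611636076860021180374631715219) (CTree.cons (CTree.leaf 1 229032100209587002728165572661271990182290) (CTree.cons CTree.nil (CTree.cons (CTree.leaf 1 229010697897474816814474522259107657886234) (CTree.cons CTree.nil (CTree.cons (CTree.leaf 1 15008493057350892364728913449432860671366332577) (CTree.cons (CTree.leaf 1 229054572967463413058494554666771843125378) (CTree.cons (CTree.leaf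 1 229010697594340440637016536834186802962834) (CTree.cons CTree.nil (CTree.cons CTree.nil (CTree.cons CTree.nil (CTree.cons CTree.nil (CTree.cons CTree.nil (CTree.cons CTree.nil (CTree.cons CTree.nil (CTree.cons CTree.nil (CTree.cons CTree.nil CTree.nil)))))))))))))))))))))))))))))))))))) (CTree.cons (CTree.cons CTree.nil (CTree.cons CTree.nil (CTree.cons (CTree.leaf 1 228670415216565408440735807128242241212546) (CTree.cons CTree.nil (CTree.cons (CTree.leaf 1 14740836188334305831630353078069486508394483842) (CTree.cons (CTree.leaf 1 15008445077521592620201546432916340620842373250) (CTree.cons CTree.nil (CTree.cons CTree.nil (CTree.cons CTree.nil (CTree.cons CTree.nil (CTree.cons CTree.nil (CTree.cons CTree.nil (CTree.cons CTree.nil (CTree.cons (CTree.leaf 1 12022236638117600437722856100840836343724839315) (CTree.cons CTree.nil (CTree.cons CTree.nil (CTree.cons (CTree.leaf 1 228691693227541623844650057090041824411909) (CTree.cons (CTree.leaf 1 1438033947902773466450518516316198677774597) (CTree.cons CTree.nil (CTree.cons (CTree.leaf 1 5821932530764081756702681440078686451806699920) (CTree.cons (CTree.leaf 1 12022933494549949543046823720182733499244024211)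 (CTree.cons CTree.nil (CTree.cons (CTree.leaf 1 223226588224434079348444642957377585353107) (CTree.cons CTree.nil (CTree.cons CTree.nil (CTree.cons (CTree.leaf 1 5821932530764081756702681440078686451806699920) (CTree.cons (CTree.leaf 1 12022933494549949543046823720182733499244024211) (CTree.cons CTree.nil (CTree.cons CTree.nil (CTree.cons (CTree.leaf 1 179670445258553955984990810713288158548371) (CTree.cons CTree.nil (CTree.cons CTree.nil (CTree.cons CTree.nil (CTree.cons CTree.nil (CTree.cons CTree.nil (CTree.cons CTree.nil CTree.nil)))))))))))))))))))))))))))))))))))) (CTree.cons CTree.nil (CTree.cons (CTree.cons CTree.nil (CTree.cons (CTree.leaf 1 2035747591723422040566124938541400192) (CTree.cons CTree.nil (CTree.cons CTree.nil (CTree.cons (CTree.leaf 1 43579503963367995880291923943562493100705) (CTree.cons (CTree.leaf 1 229010697908237179832000589103787924595090) (CTree.cons CTree.nil (CTree.cons CTree.nil (CTree.cons CTree.nil (CTree.cons CTree.nil (CTree.cons CTree.nil (CTree.cons CTree.nil (CTree.cons (CTree.leaf 1 183414880198008338230116693975317885354656) (CTree.cons CTree.nil (CTree.cons CTree.nil (CTree.cons CTree.nil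 (CTree.cons (CTree.leaf 1 3489233635743579621342731026786550152) (CTree.cons (CTree.leaf 1 24066306090903238833063404882290147720) (CTree.cons (CTree.leaf 1 228672507690644208227108687839433536635553) (CTree.cons (CTree.leaf 1 183414880198008338230116694008169588916896) (CTree.cons CTree.nil (CTree.cons CTree.nil (CTree.cons (CTree.leaf 1 3364618510974329848015422631703085729) (CTree.cons CTree.nil (CTree.cons (CTree.leaf 1 228672507690649337621091777606272187433633) (CTree.cons (CTree.leaf 1 183414880198008338230116694008169588916896) (CTree.cons CTree.nil (CTree.cons CTree.nil (CTree.cons CTree.nil (CTree.cons (CTree.leaf 1 2700004513081871910951020206015709721) (CTree.cons CTree.nil (CTree.cons CTree.nil (CTree.cons CTree.nil (CTree.cons CTree.nil (CTree.cons CTree.nil (CTree.cons CTree.nil CTree.nil)))))))))))))))))))))))))))))))))))) (CTree.cons CTree.nil (CTree.cons (CTree.cons CTree.nil (CTree.cons (CTree.leaf 1 224928015657571510540964411507828676690048) (CTree.cons (CTree.leaf 1 982135366839347051432188544842857639265066693034657) (CTree.cons CTree.nil (CTree.cons CTree.nil (CTree.cons (CTree.leaf 1 15008497139285626926687062064041539105428476034)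 (CTree.cons CTree.nil (CTree.cons CTree.nil (CTree.cons CTree.nil (CTree.cons CTree.nil (CTree.cons CTree.nil (CTree.cons CTree.nil (CTree.cons (CTree.leaf 1 963135470065372895134032979092809891594605275709573) (CTree.cons (CTree.leaf 1 14696279900194083289246972231787706400848810114) (CTree.cons CTree.nil (CTree.cons CTree.nil (CTree.cons CTree.nil (CTree.cons (CTree.leaf 1 89835209837586179809444295892182379856005) (CTree.cons (CTree.leaf 1 14696280921041184052062362620182454298203979909) (CTree.cons (CTree.leaf 1 14696279900194083289246972230058632002899349634) (CTree.cons (CTree.leaf 1 220503638563531530921552079862992109371525) (CTree.cons CTree.nil (CTree.cons CTree.nil (CTree.cons CTree.nil (CTree.cons (CTree.leaf 1 14696279900194417473636457398763657853059272834) (CTree.cons CTree.nil (CTree.cons (CTree.leaf 1 982229432869945984237867968101512173677828672655778) (CTree.cons CTree.nil (CTree.cons CTree.nil (CTree.cons (CTree.leaf 1 23360164482937954015121451755803058570) (CTree.cons CTree.nil (CTree.cons CTree.nil (CTree.cons CTree.nil (CTree.cons CTree.nil (CTree.cons CTree.nil (CTree.cons CTree.nil CTree.nil))))))))))))))))))))))))))))))))))))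 (CTree.cons (CTree.cons CTree.nil (CTree.cons (CTree.leaf 1 181371872691681186344048042012716009914496) (CTree.cons (CTree.leaf 1 103364087386542070666290638277401358645240398497) (CTree.cons CTree.nil (CTree.cons (CTree.leaf 1 5709787055623549967863258043770014618223186050) (CTree.cons CTree.nil (CTree.cons CTree.nil (CTree.cons CTree.nil (CTree.cons CTree.nil (CTree.cons CTree.nil (CTree.cons CTree.nil (CTree.cons CTree.nil (CTree.cons (CTree.leaf 1 776063256827961071165482090776379399349584570482821) (CTree.cons (CTree.leaf 1 11841784514782163516929526689656215617341100162) (CTree.cons CTree.nil (CTree.cons CTree.nil (CTree.cons (CTree.leaf 1 89835209837575978935842792466069587099781) (CTree.cons CTree.nil (CTree.cons (CTree.leaf 1 11841784514782326650489416898625568648555794562) (CTree.cons CTree.nil (CTree.cons (CTree.leaf 1 1530933068781815392239328542702714854441633) (CTree.cons CTree.nil (CTree.cons (CTree.leaf 1 23360164482937994157003372257326737930) (CTree.cons CTree.nil (CTree.cons (CTree.leaf 1 11841785535629264279744914589507621103629041797) (CTree.cons (CTree.leaf 1 11841784514782163516929524199383798808324411522) (CTree.cons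 (CTree.leaf 1 1530933068781810439270247960865617993597061) (CTree.cons CTree.nil (CTree.cons CTree.nil (CTree.cons CTree.nil (CTree.cons CTree.nil (CTree.cons CTree.nil (CTree.cons CTree.nil (CTree.cons CTree.nil (CTree.cons CTree.nil (CTree.cons CTree.nil CTree.nil)))))))))))))))))))))))))))))))))))) (CTree.cons (CTree.cons CTree.nil (CTree.cons (CTree.leaf 1 1530931739596924505481133494646645183021184) (CTree.cons CTree.nil (CTree.cons CTree.nil (CTree.cons (CTree.leaf 1 2854586977331249009715013863137488682069590169) (CTree.cons (CTree.leaf 1 15008445076150816103379743217556500124922356114) (CTree.cons CTree.nil (CTree.cons CTree.nil (CTree.cons (CTree.leaf 1 880313167652090311403107889995579182416544) (CTree.cons CTree.nil (CTree.cons (CTree.leaf 1 982129657894832733597626381696234159512696032198789) (CTree.cons (CTree.leaf 1 6267386990382170715279897020299887218311430277) (CTree.cons CTree.nil (CTree.cons CTree.nil (CTree.cons CTree.nil (CTree.cons CTree.nil (CTree.cons CTree.nil (CTree.cons CTree.nil (CTree.cons CTree.nil (CTree.cons (CTree.leaf 1 755611333481203914810330379841281501042415063072899) (CTree.cons (CTree.leaf 1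 982132066418868942075041427410399972238076426649731) (CTree.cons CTree.nil (CTree.cons (CTree.leaf 1 220503638562184652158513861757970205966469) (CTree.cons CTree.nil (CTree.cons CTree.nil (CTree.cons (CTree.leaf 1 755611333481203914810330379841281501042415063072899) (CTree.cons (CTree.leaf 1 982132066418892919736058486753515815063138802401411) (CTree.cons CTree.nil (CTree.cons CTree.nil (CTree.cons (CTree.leaf 1 176947495596304528795061184388122331906181) (CTree.cons CTree.nil (CTree.cons CTree.nil (CTree.cons CTree.nil (CTree.cons CTree.nil (CTree.cons CTree.nil (CTree.cons CTree.nil CTree.nil)))))))))))))))))))))))))))))))))))) (CTree.cons (CTree.cons CTree.nil (CTree.cons CTree.nil (CTree.cons (CTree.leaf 1 880311147880065921727336413571995721076866) (CTree.cons CTree.nil (CTree.cons (CTree.leaf 1 2854717645760117182458893179670026766244253826) (CTree.cons (CTree.leaf 1 15008445077480054245333345621983691027541790850) (CTree.cons (CTree.leaf 1 12021586315304790813517104510884139250035462274) (CTree.cons CTree.nil (CTree.cons CTree.nil (CTree.cons CTree.nil (CTree.cons (CTree.leaf 1 880313972458103384220962508061136583786757) (CTree.cons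 (CTree.leaf 1 880311148194918309668261056460123187839237) (CTree.cons CTree.nil (CTree.cons CTree.nil (CTree.cons CTree.nil (CTree.cons CTree.nil (CTree.cons CTree.nil (CTree.cons CTree.nil (CTree.cons (CTree.leaf 1 5821374807964384354712767239405521754587730050) (CTree.cons CTree.nil (CTree.cons (CTree.leaf 1 5709166700296803847608455679807119443899715714) (CTree.cons CTree.nil (CTree.cons (CTree.leaf 1 223226587899769934713419843906321158049922) (CTree.cons CTree.nil (CTree.cons (CTree.leaf 1 5821374807964384357188722856242875915183394946) (CTree.cons CTree.nil (CTree.cons (CTree.leaf 1 5709166700296803847608455679807119443899715714) (CTree.cons CTree.nil (CTree.cons CTree.nil (CTree.cons (CTree.leaf 1 179670444933887180651697921408064974033026) (CTree.cons CTree.nil (CTree.cons CTree.nil (CTree.cons CTree.nil (CTree.cons CTree.nil (CTree.cons CTree.nil (CTree.cons CTree.nil CTree.nil)))))))))))))))))))))))))))))))))))) (CTree.cons CTree.nil (CTree.cons CTree.nil (CTree.cons (CTree.cons CTree.nil (CTree.cons (CTree.leaf 1 2035747591404225334883702438911672448) (CTree.cons (CTree.leaf 1 222205050569831222869251566911589252665474)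 (CTree.cons CTree.nil (CTree.cons CTree.nil (CTree.cons (CTree.leaf 1 229011429677768638990992675439136663937426) (CTree.cons (CTree.leaf 1 228671106095169094650685517934894890746256) (CTree.cons CTree.nil (CTree.cons (CTree.leaf 1 3489233635743579621342731026786550152) (CTree.cons CTree.nil (CTree.cons CTree.nil (CTree.cons (CTree.leaf 1 95620715881295919318860565368602847477893) (CTree.cons CTree.nil (CTree.cons CTree.nil (CTree.cons CTree.nil (CTree.cons CTree.nil (CTree.cons CTree.nil (CTree.cons CTree.nil (CTree.cons (CTree.leaf 1 228671785961386001277744954092079922937989) (CTree.cons (CTree.leaf 1 228671105770497533215324001809139305025666) (CTree.cons (CTree.leaf 1 228671785961386001277744954092079922937989) (CTree.cons CTree.nil (CTree.cons CTree.nil (CTree.cons CTree.nil (CTree.cons (CTree.leaf 1 228671785961386001277744954092079922937989) (CTree.cons (CTree.leaf 1 228671105770497533215324001809139305025666) (CTree.cons CTree.nil (CTree.cons CTree.nil (CTree.cons CTree.nil (CTree.cons (CTree.leaf 1 2035390515025115850864745164599533970) (CTree.cons CTree.nil (CTree.cons CTree.nil (CTree.cons CTree.nil (CTree.cons CTree.nil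 (CTree.cons CTree.nil (CTree.cons CTree.nil CTree.nil)))))))))))))))))))))))))))))))))))) (CTree.cons (CTree.cons CTree.nil (CTree.cons (CTree.leaf 1 2036061255699619308511720612257988736) (CTree.cons (CTree.leaf 1 178648907603941216577364267558594836238466) (CTree.cons CTree.nil (CTree.cons (CTree.leaf 1 3621286346354403398300025482111598326776073) (CTree.cons CTree.nil (CTree.cons (CTree.leaf 1 1577210126202848225429069746974808570200464) (CTree.cons CTree.nil (CTree.cons (CTree.leaf 1 24066306090903238833063404882290147720) (CTree.cons CTree.nil (CTree.cons (CTree.leaf 1 95620715881308596037253709217535159763077) (CTree.cons CTree.nil (CTree.cons CTree.nil (CTree.cons CTree.nil (CTree.cons CTree.nil (CTree.cons CTree.nil (CTree.cons CTree.nil (CTree.cons CTree.nil (CTree.cons (CTree.leaf 1 1577210806069069918120418377661080149295237) (CTree.cons (CTree.leaf 1 1577210125878181450057997425387485237612674) (CTree.cons CTree.nil (CTree.cons CTree.nil (CTree.cons (CTree.leaf 1 2035390515025156140320618255799626258) (CTree.cons CTree.nil (CTree.cons (CTree.leaf 1 1577210806069069918120418377661080149295237) (CTree.cons (CTree.leaf 1 136114301968002271306892032176617486946434)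 (CTree.cons (CTree.leaf 1 1577210806069069918120418377661080149295237) (CTree.cons CTree.nil (CTree.cons CTree.nil (CTree.cons CTree.nil (CTree.cons CTree.nil (CTree.cons CTree.nil (CTree.cons CTree.nil (CTree.cons CTree.nil (CTree.cons CTree.nil (CTree.cons CTree.nil CTree.nil)))))))))))))))))))))))))))))))))))) (CTree.cons (CTree.cons CTree.nil (CTree.cons (CTree.leaf 1 877590259722715771663766168015393561575552) (CTree.cons (CTree.leaf 1 43579503314410740493750879713280921768066) (CTree.cons CTree.nil (CTree.cons (CTree.leaf 1 142769599432140715300702513105584871020845731970) (CTree.cons CTree.nil (CTree.cons CTree.nil (CTree.cons CTree.nil (CTree.cons (CTree.leaf 1 877588888934156441919225043642659360801441) (CTree.cons CTree.nil (CTree.cons (CTree.leaf 1 982129658592774470047427155349768194669312201588869) (CTree.cons (CTree.leaf 1 584704019115038127459818919699842266574346490347781) (CTree.cons CTree.nil (CTree.cons (CTree.leaf 1 3769213281772238715234158011999634372277822763893136) (CTree.cons CTree.nil (CTree.cons CTree.nil (CTree.cons (CTree.leaf 1 133391352814231102170710729295952585293957) (CTree.cons (CTree.leaf 1 1577210806069069918158197309524037311004805)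 (CTree.cons CTree.nil (CTree.cons CTree.nil (CTree.cons CTree.nil (CTree.cons CTree.nil (CTree.cons CTree.nil (CTree.cons CTree.nil (CTree.cons CTree.nil (CTree.cons (CTree.leaf 1 3769213281772238715191291279476480844524424234336656) (CTree.cons (CTree.leaf 1 982186615485443232774369111158629338112773174853896) (CTree.cons CTree.nil (CTree.cons CTree.nil (CTree.cons (CTree.leaf 1 176947495769336195432224459342304761151621) (CTree.cons CTree.nil (CTree.cons CTree.nil (CTree.cons CTree.nil (CTree.cons CTree.nil (CTree.cons CTree.nil (CTree.cons CTree.nil CTree.nil)))))))))))))))))))))))))))))))))))) (CTree.cons (CTree.cons CTree.nil (CTree.cons CTree.nil (CTree.cons (CTree.leaf 1 14986276020161127480808598052341949636934701186) (CTree.cons CTree.nil (CTree.cons (CTree.leaf 1 43557540547661643924110360133155552499978) (CTree.cons (CTree.leaf 1 229065871577835187084922516033584031076482) (CTree.cons (CTree.leaf 1 5954522195899188966515341782891863869625536642) (CTree.cons CTree.nil (CTree.cons (CTree.leaf 1 880313167652090311403107890028430885978784) (CTree.cons CTree.nil (CTree.cons (CTree.leaf 1 228670415389837235364946220381821936992517)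 (CTree.cons CTree.nil (CTree.cons (CTree.leaf 1 5954519471646411595409854985017867339223597729) (CTree.cons CTree.nil (CTree.cons CTree.nil (CTree.cons CTree.nil (CTree.cons (CTree.leaf 1 228670415552096182122157486266854809796869) (CTree.cons (CTree.leaf 1 1577209435627376274947157018152773721522437) (CTree.cons CTree.nil (CTree.cons CTree.nil (CTree.cons CTree.nil (CTree.cons CTree.nil (CTree.cons CTree.nil (CTree.cons CTree.nil (CTree.cons (CTree.leaf 1 14629463088121022605982569719085547857358426242) (CTree.cons CTree.nil (CTree.cons (CTree.leaf 1 982140519752595776871104788836437588245359493124258) (CTree.cons CTree.nil (CTree.cons CTree.nil (CTree.cons (CTree.leaf 1 179670444933882230216293090799067690766466) (CTree.cons CTree.nil (CTree.cons CTree.nil (CTree.cons CTree.nil (CTree.cons CTree.nil (CTree.cons CTree.nil (CTree.cons CTree.nil CTree.nil)))))))))))))))))))))))))))))))))))) (CTree.cons (CTree.cons CTree.nil (CTree.cons (CTree.leaf 1 228693110735363810495985268517654710911104) (CTree.cons CTree.nil (CTree.cons CTree.nil (CTree.cons (CTree.leaf 1 43612105897881770576379201564505103011970) (CTree.cons (CTree.leaf 1 229065870908352574017789937185509724000386)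 (CTree.cons (CTree.leaf 1 94243125148287170813242771498266513524375224843) (CTree.cons CTree.nil (CTree.cons CTree.nil (CTree.cons CTree.nil (CTree.cons (CTree.leaf 1 220503639232692591514519881938758711443589) (CTree.cons (CTree.leaf 1 176947495616666166561227119149663797248133) (CTree.cons (CTree.leaf 1 57692256499013917473670774090663119194134413985) (CTree.cons (CTree.leaf 1 94243125148287213908078815763895289279781929633) (CTree.cons CTree.nil (CTree.cons CTree.nil (CTree.cons (CTree.leaf 1 220503638724441599387670600457018036715653) (CTree.cons CTree.nil (CTree.cons CTree.nil (CTree.cons CTree.nil (CTree.cons CTree.nil (CTree.cons CTree.nil (CTree.cons CTree.nil (CTree.cons CTree.nil (CTree.cons (CTree.leaf 1 57692114944373887858789498521375173462849094305) (CTree.cons (CTree.leaf 1 94243125148287213908078815763895289279781929633) (CTree.cons CTree.nil (CTree.cons CTree.nil (CTree.cons CTree.nil (CTree.cons (CTree.leaf 1 176947495769336195432224459342304761151621) (CTree.cons CTree.nil (CTree.cons CTree.nil (CTree.cons CTree.nil (CTree.cons CTree.nil (CTree.cons CTree.nil (CTree.cons CTree.nil CTree.nil))))))))))))))))))))))))))))))))))))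 (CTree.cons CTree.nil (CTree.cons (CTree.cons CTree.nil (CTree.cons (CTree.leaf 1 23360164891934523894107029080780112000) (CTree.cons (CTree.leaf 1 664970458406227667948250338143834242) (CTree.cons CTree.nil (CTree.cons CTree.nil (CTree.cons (CTree.leaf 1 229010785830982553002344353654479585815066) (CTree.cons (CTree.leaf 1 223226588224434079348444642948581492330899) (CTree.cons CTree.nil (CTree.cons (CTree.leaf 1 3364618510974329848015422631703085729) (CTree.cons CTree.nil (CTree.cons CTree.nil (CTree.cons (CTree.leaf 1 23360164482937994157003372257326737930) (CTree.cons (CTree.leaf 1 220503638399925375329300498366392195678341) (CTree.cons (CTree.leaf 1 223226587899769934713419267445568854626434) (CTree.cons CTree.nil (CTree.cons CTree.nil (CTree.cons CTree.nil (CTree.cons (CTree.leaf 1 2035390515025156140320618255799626258) (CTree.cons CTree.nil (CTree.cons CTree.nil (CTree.cons CTree.nil (CTree.cons CTree.nil (CTree.cons CTree.nil (CTree.cons CTree.nil (CTree.cons (CTree.leaf 1 220503638735213842915598565951602836963461) (CTree.cons (CTree.leaf 1 223226587899762353579746923034361024548994) (CTree.cons (CTree.leaf 1 220503638735213842915598565951602836963461)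 (CTree.cons CTree.nil (CTree.cons CTree.nil (CTree.cons CTree.nil (CTree.cons CTree.nil (CTree.cons CTree.nil (CTree.cons CTree.nil (CTree.cons CTree.nil (CTree.cons CTree.nil (CTree.cons CTree.nil CTree.nil)))))))))))))))))))))))))))))))))))) (CTree.cons CTree.nil (CTree.cons (CTree.cons CTree.nil (CTree.cons (CTree.leaf 1 877612290616097858460376875609706775773312) (CTree.cons (CTree.leaf 1 43569575794301468630598542883155485986946) (CTree.cons CTree.nil (CTree.cons CTree.nil (CTree.cons (CTree.leaf 1 15010580009813382024072064441325155445172736130) (CTree.cons CTree.nil (CTree.cons CTree.nil (CTree.cons (CTree.leaf 1 877588889270321196894914689191786471293601) (CTree.cons CTree.nil (CTree.cons (CTree.leaf 1 982129836998736058596173062715202154525241723977989) (CTree.cons (CTree.leaf 1 48281181834265200956542168084424124843064219009157) (CTree.cons CTree.nil (CTree.cons (CTree.leaf 1 3769316086719211002810246680334073886081649245945889) (CTree.cons CTree.nil (CTree.cons CTree.nil (CTree.cons (CTree.leaf 1 133391352814231102170710729295952585293957) (CTree.cons (CTree.leaf 1 1577210806069069918158197309524037311004805) (CTree.cons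 CTree.nil (CTree.cons (CTree.leaf 1 982134921658473744471529892701979251045241296261659) (CTree.cons (CTree.leaf 1 982132067163067070766632424481805573459796132631067) (CTree.cons CTree.nil (CTree.cons (CTree.leaf 1 220503638735216318795677136712152635211909) (CTree.cons CTree.nil (CTree.cons CTree.nil (CTree.cons CTree.nil (CTree.cons CTree.nil (CTree.cons CTree.nil (CTree.cons CTree.nil (CTree.cons CTree.nil (CTree.cons CTree.nil (CTree.cons CTree.nil (CTree.cons CTree.nil (CTree.cons CTree.nil (CTree.cons CTree.nil (CTree.cons CTree.nil CTree.nil)))))))))))))))))))))))))))))))))))) (CTree.cons (CTree.cons CTree.nil (CTree.cons CTree.nil (CTree.cons (CTree.leaf 1 151332987609018063133196601734586838951830294658) (CTree.cons CTree.nil (CTree.cons (CTree.leaf 1 182776171066215488331587546131983002505346) (CTree.cons (CTree.leaf 1 15008445088181376248362609296907477534579630482) (CTree.cons (CTree.leaf 1 5954478660457604917260502223001236762009342082) (CTree.cons CTree.nil (CTree.cons (CTree.leaf 1 880313167652090311403107890028430885978784) (CTree.cons CTree.nil (CTree.cons CTree.nil (CTree.cons (CTree.leaf 1 880311148194918309668261056460123187839237)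 (CTree.cons (CTree.leaf 1 649970061681978123801165265130070417583687329646859583888) (CTree.cons CTree.nil (CTree.cons CTree.nil (CTree.cons CTree.nil (CTree.cons (CTree.leaf 1 228670415552096182122157486266854809796869) (CTree.cons (CTree.leaf 1 1577209435627376274947157018152773721522437) (CTree.cons (CTree.leaf 1 5954478660457604917260457379082360680519831682) (CTree.cons CTree.nil (CTree.cons (CTree.leaf 1 9917941406937603598218842789485080141891271855247514) (CTree.cons CTree.nil (CTree.cons (CTree.leaf 1 223226587899762353579746923043157117571202) (CTree.cons CTree.nil (CTree.cons CTree.nil (CTree.cons CTree.nil (CTree.cons CTree.nil (CTree.cons CTree.nil (CTree.cons CTree.nil (CTree.cons CTree.nil (CTree.cons CTree.nil (CTree.cons CTree.nil (CTree.cons CTree.nil (CTree.cons CTree.nil (CTree.cons CTree.nil (CTree.cons CTree.nil CTree.nil)))))))))))))))))))))))))))))))))))) (CTree.cons (CTree.cons CTree.nil (CTree.cons (CTree.leaf 1 228693110735363810495985268517654710911104) (CTree.cons CTree.nil (CTree.cons CTree.nil (CTree.cons (CTree.leaf 1 182776171066215317873046984128444066697346) (CTree.cons (CTree.leaf 1 229012758903788960610467083279843971960962)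 (CTree.cons (CTree.leaf 1 14517961093437438393696007581704115343568470553) (CTree.cons CTree.nil (CTree.cons CTree.nil (CTree.cons CTree.nil (CTree.cons (CTree.leaf 1 220503638735216784151835230798886392692869) (CTree.cons (CTree.leaf 1 182732296006992614747542379300877081510021) (CTree.cons (CTree.leaf 1 57692256499013917478477389805196447723588944545) (CTree.cons (CTree.leaf 1 14517961050892407130425271875507469921068057113) (CTree.cons CTree.nil (CTree.cons CTree.nil (CTree.cons CTree.nil (CTree.cons (CTree.leaf 1 133391352660932198444560019210365368926341) (CTree.cons (CTree.leaf 1 57692256499013917478477389805196447723588944545) (CTree.cons (CTree.leaf 1 14517961050892407130425271875507469921068057113) (CTree.cons CTree.nil (CTree.cons CTree.nil (CTree.cons (CTree.leaf 1 220503638735216318795677136712152635211909) (CTree.cons CTree.nil (CTree.cons CTree.nil (CTree.cons CTree.nil (CTree.cons CTree.nil (CTree.cons CTree.nil (CTree.cons CTree.nil (CTree.cons CTree.nil (CTree.cons CTree.nil (CTree.cons CTree.nil (CTree.cons CTree.nil (CTree.cons CTree.nil (CTree.cons CTree.nil (CTree.cons CTree.nil CTree.nil))))))))))))))))))))))))))))))))))))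 (CTree.cons CTree.nil (CTree.cons CTree.nil (CTree.cons (CTree.cons CTree.nil (CTree.cons (CTree.leaf 1 23360164889303861168852604099174662272) (CTree.cons (CTree.leaf 1 664970455775564942695232709947101314) (CTree.cons CTree.nil (CTree.cons (CTree.leaf 1 182732383929734921777745308793285914993042) (CTree.cons CTree.nil (CTree.cons (CTree.leaf 1 179670445258553955984990234252535855124883) (CTree.cons CTree.nil (CTree.cons (CTree.leaf 1 2700004513081871910951020206015709721) (CTree.cons CTree.nil (CTree.cons (CTree.leaf 1 23360164482937954015121451755803058570) (CTree.cons CTree.nil (CTree.cons (CTree.leaf 1 176947495434045251965847820996544321618053) (CTree.cons (CTree.leaf 1 179670444933887180613918989545107812323458) (CTree.cons CTree.nil (CTree.cons CTree.nil (CTree.cons (CTree.leaf 1 2035390515025115850864745164599533970) (CTree.cons CTree.nil (CTree.cons (CTree.leaf 1 176947495769333719552145888581754962903173) (CTree.cons (CTree.leaf 1 179670444933882230216292514338315387342978) (CTree.cons (CTree.leaf 1 176947495769333719552145888581754962903173) (CTree.cons CTree.nil (CTree.cons CTree.nil (CTree.cons CTree.nil (CTree.cons CTree.nil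 (CTree.cons CTree.nil (CTree.cons CTree.nil (CTree.cons CTree.nil (CTree.cons CTree.nil (CTree.cons CTree.nil (CTree.cons CTree.nil (CTree.cons CTree.nil (CTree.cons CTree.nil (CTree.cons CTree.nil (CTree.cons CTree.nil (CTree.cons CTree.nil CTree.nil)))))))))))))))))))))))))))))))))))) (CTree.cons CTree.nil (CTree.cons CTree.nil (CTree.cons CTree.nil (CTree.cons CTree.nil (CTree.cons CTree.nil (CTree.cons CTree.nil CTree.nil)))))))))))))))))))))))))))))))))))

theorem tree6_5_3_ok : chk 6 (pk (goalL 6)) tree6_5_3 (stk [((5 : Fin 6), (3 : Fin 6))]) 1 (om [((5 : Fin 6), (3 : Fin 6))]) (im [((5 : Fin 6), (3 : Fin 6))])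
    (cm [((5 : Fin 6), (3 : Fin 6))]) (pk (goalR [((5 : Fin 6), (3 : Fin 6))])) 0 = true := by
  decide +kernel

def tree6_5_4 : CTree :=
  CTree.cons CTree.nil (CTree.cons (CTree.cons CTree.nil (CTree.cons CTree.nil (CTree.cons CTree.nil (CTree.cons CTree.nil (CTree.cons CTree.nil (CTree.cons CTree.nil (CTree.cons CTree.nil (CTree.cons CTree.nil (CTree.cons (CTree.leaf 1 24066328039735033946820880538584744064) (CTree.cons (CTree.leaf 1 1371619668353067115464273769175580800) (CTree.cons CTree.nil (CTree.cons (CTree.leaf 1 89857905033195440413509120875667648020608) (CTree.cons (CTree.leaf 1 14807738764212436296879067046856147075299344512) (CTree.cons CTree.nil (CTree.cons CTree.nil (CTree.cons (CTree.leaf 1 24066317264695260451587176581554045056) (CTree.cons CTree.nil (CTree.cons (CTree.leaf 1 2036061255699619308511720612257988736) (CTree.cons (CTree.leaf 1 2877630166098287580184446536498486211980099712) (CTree.cons CTree.nil (CTree.cons (CTree.leaf 1 14807738720976840094049321067920431854153171072) (CTree.cons CTree.nil (CTree.cons CTree.nil (CTree.cons (CTree.leaf 1 23360164889303861168852604099845816448) (CTree.cons (CTree.leaf 1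 2877019379909640661445677759687686782019764352) (CTree.cons CTree.nil (CTree.cons (CTree.leaf 1 14807829916650331204855108743382072537915654272) (CTree.cons (CTree.leaf 1 14629332770727911722464756090955256753824006272) (CTree.cons CTree.nil (CTree.cons CTree.nil (CTree.cons CTree.nil (CTree.cons CTree.nil (CTree.cons CTree.nil (CTree.cons CTree.nil (CTree.cons CTree.nil (CTree.cons CTree.nil CTree.nil)))))))))))))))))))))))))))))))))))) (CTree.cons (CTree.cons CTree.nil (CTree.cons CTree.nil (CTree.cons CTree.nil (CTree.cons CTree.nil (CTree.cons CTree.nil (CTree.cons CTree.nil (CTree.cons (CTree.leaf 1 225949542602916495686406113605097769734274) (CTree.cons CTree.nil (CTree.cons CTree.nil (CTree.cons (CTree.leaf 1 33282633017433336534588458523008766082) (CTree.cons CTree.nil (CTree.cons (CTree.leaf 1 55879508933246317224099891609042227330) (CTree.cons CTree.nil (CTree.cons (CTree.leaf 1 225948156616736595261152044576741629169794) (CTree.cons CTree.nil (CTree.cons (CTree.leaf 1 3390580002838662323507156632937238658) (CTree.cons CTree.nil (CTree.cons (CTree.leaf 1 664645461862602838096203181011898498) (CTree.cons (CTree.leaf 1 43580210115741047779095830981371590938754)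 (CTree.cons (CTree.leaf 1 43580209293761392360674958165404249297026) (CTree.cons CTree.nil (CTree.cons CTree.nil (CTree.cons CTree.nil (CTree.cons (CTree.leaf 1 664970445875671405874130623693197442) (CTree.cons (CTree.leaf 1 43580209293761411552426067449373473706114) (CTree.cons (CTree.leaf 1 43580209293761411552427684779910771052674) (CTree.cons CTree.nil (CTree.cons (CTree.leaf 1 43580209293761392360674958165404249297026) (CTree.cons CTree.nil (CTree.cons CTree.nil (CTree.cons CTree.nil (CTree.cons CTree.nil (CTree.cons CTree.nil (CTree.cons CTree.nil (CTree.cons CTree.nil (CTree.cons CTree.nil CTree.nil)))))))))))))))))))))))))))))))))))) (CTree.cons (CTree.cons CTree.nil (CTree.cons CTree.nil (CTree.cons CTree.nil (CTree.cons CTree.nil (CTree.cons CTree.nil (CTree.cons CTree.nil (CTree.cons (CTree.leaf 1 103363997607254122197044931708986693912526651541) (CTree.cons CTree.nil (CTree.cons (CTree.leaf 1 3432615442342878561511294185286733954) (CTree.cons CTree.nil (CTree.cons CTree.nil (CTree.cons (CTree.leaf 1 561313930553932735169765878029866963189605584666777) (CTree.cons (CTree.leaf 1 14629338191844273550370634537018298236356199073)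 (CTree.cons (CTree.leaf 1 89835210334423346793190143631359041274529) (CTree.cons CTree.nil (CTree.cons CTree.nil (CTree.cons CTree.nil (CTree.cons (CTree.leaf 1 2855980040120340927921952858305808151666043418) (CTree.cons CTree.nil (CTree.cons (CTree.leaf 1 14629338191843927632796377497500604406027715233) (CTree.cons (CTree.leaf 1 3233651633997055472654756152413782884699931297) (CTree.cons CTree.nil (CTree.cons CTree.nil (CTree.cons (CTree.leaf 1 49341608163216832258864041630705479920154) (CTree.cons (CTree.leaf 1 14629338191843927632796377497500604406027715233) (CTree.cons (CTree.leaf 1 3233651611327001326145414317949459140596204193) (CTree.cons (CTree.leaf 1 3233651633997055472654756152413782884699931297) (CTree.cons CTree.nil (CTree.cons CTree.nil (CTree.cons CTree.nil (CTree.cons CTree.nil (CTree.cons CTree.nil (CTree.cons CTree.nil (CTree.cons CTree.nil (CTree.cons CTree.nil (CTree.cons CTree.nil CTree.nil)))))))))))))))))))))))))))))))))))) (CTree.cons CTree.nil (CTree.cons (CTree.cons CTree.nil (CTree.cons CTree.nil (CTree.cons CTree.nil (CTree.cons CTree.nil (CTree.cons CTree.nil (CTree.cons CTree.nil (CTree.cons (CTree.leaf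 1 983593924778290465741700278777270769001801683964443) (CTree.cons CTree.nil (CTree.cons (CTree.leaf 1 229010697593624612656296538031465858474386) (CTree.cons (CTree.leaf 1 229011403714316464078758482243819874162954) (CTree.cons CTree.nil (CTree.cons CTree.nil (CTree.cons (CTree.leaf 1 15008493055232466939726950843332742406817325458) (CTree.cons (CTree.leaf 1 229021435253159374384559375565362532323458) (CTree.cons CTree.nil (CTree.cons (CTree.leaf 1 229010697897462589772012323805829069939090) (CTree.cons CTree.nil (CTree.cons CTree.nil (CTree.cons (CTree.leaf 1 11775022476253844806652446865270385728615489938) (CTree.cons (CTree.leaf 1 229054572967465458560520174017493268566146) (CTree.cons (CTree.leaf 1 229012816345627606047246238888790500972810) (CTree.cons CTree.nil (CTree.cons CTree.nil (CTree.cons CTree.nil (CTree.cons CTree.nil (CTree.cons (CTree.leaf 1 15008493055232466937247481821575233147785322898) (CTree.cons (CTree.leaf 1 15008536611375403109289411474514439489785043210) (CTree.cons (CTree.leaf 1 15008493055232437229166088162564688189094240658) (CTree.cons CTree.nil (CTree.cons CTree.nil (CTree.cons CTree.nil (CTree.cons CTree.nil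 (CTree.cons CTree.nil (CTree.cons CTree.nil (CTree.cons CTree.nil (CTree.cons CTree.nil CTree.nil)))))))))))))))))))))))))))))))))))) (CTree.cons (CTree.cons CTree.nil (CTree.cons CTree.nil (CTree.cons (CTree.leaf 1 43558246213343383471725929091415974940802) (CTree.cons (CTree.leaf 1 224959885629382889407204175734003499864194) (CTree.cons CTree.nil (CTree.cons (CTree.leaf 1 15008498159467951182272911285662007450612142210) (CTree.cons CTree.nil (CTree.cons CTree.nil (CTree.cons CTree.nil (CTree.cons CTree.nil (CTree.cons CTree.nil (CTree.cons CTree.nil (CTree.cons CTree.nil (CTree.cons (CTree.leaf 1 14807738423930242412723336748744684554879631749) (CTree.cons CTree.nil (CTree.cons (CTree.leaf 1 223226588224434079192478034330680748479003) (CTree.cons CTree.nil (CTree.cons (CTree.leaf 1 1438033947902773466450518516316198677774597) (CTree.cons CTree.nil (CTree.cons (CTree.leaf 1 14630726884183331348840471415158833214874780051) (CTree.cons (CTree.leaf 1 14807827182330533937654926956815896932390076819) (CTree.cons CTree.nil (CTree.cons CTree.nil (CTree.cons (CTree.leaf 1 179691032390926320807840214217013719597317) (CTree.cons CTree.nil (CTree.cons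 (CTree.leaf 1 14630726884183677887535467272377079365948735891) (CTree.cons (CTree.leaf 1 14807827182330047244497633956747886404734878099) (CTree.cons (CTree.leaf 1 14630726884183677887535467272377079365948735891) (CTree.cons CTree.nil (CTree.cons CTree.nil (CTree.cons CTree.nil (CTree.cons CTree.nil (CTree.cons CTree.nil (CTree.cons CTree.nil (CTree.cons CTree.nil (CTree.cons CTree.nil CTree.nil)))))))))))))))))))))))))))))))))))) (CTree.cons CTree.nil (CTree.cons (CTree.cons CTree.nil (CTree.cons (CTree.leaf 1 24066328039735033946820880538584744064) (CTree.cons CTree.nil (CTree.cons (CTree.leaf 1 3432615442342878561511294185286733954) (CTree.cons CTree.nil (CTree.cons (CTree.leaf 1 229010697593622136776217967270916060225938) (CTree.cons CTree.nil (CTree.cons CTree.nil (CTree.cons CTree.nil (CTree.cons CTree.nil (CTree.cons CTree.nil (CTree.cons CTree.nil (CTree.cons (CTree.leaf 1 225949511449135344399373721519197649967234) (CTree.cons CTree.nil (CTree.cons CTree.nil (CTree.cons (CTree.leaf 1 3364618511138743759483012199463125665) (CTree.cons CTree.nil (CTree.cons (CTree.leaf 1 24066306090903238833063404882290147720) (CTree.cons (CTree.leaf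 1 220503638410700569845151915868681897575073) (CTree.cons (CTree.leaf 1 225949511449135344399373221908737922564769) (CTree.cons CTree.nil (CTree.cons CTree.nil (CTree.cons CTree.nil (CTree.cons (CTree.leaf 1 2700004513081871910951020206015719962) (CTree.cons (CTree.leaf 1 220503638745989037431449983453892538860193) (CTree.cons (CTree.leaf 1 225949511449127918159447107804352861045409) (CTree.cons CTree.nil (CTree.cons (CTree.leaf 1 220503638745989037431449983453892538860193) (CTree.cons CTree.nil (CTree.cons CTree.nil (CTree.cons CTree.nil (CTree.cons CTree.nil (CTree.cons CTree.nil (CTree.cons CTree.nil (CTree.cons CTree.nil (CTree.cons CTree.nil CTree.nil)))))))))))))))))))))))))))))))))))) (CTree.cons (CTree.cons CTree.nil (CTree.cons (CTree.leaf 1 1371619668353067115464273769175580800) (CTree.cons (CTree.leaf 1 33282633017433336534588458523008766082) (CTree.cons CTree.nil (CTree.cons CTree.nil (CTree.cons (CTree.leaf 1 229011403714309047477016267485068928358666) (CTree.cons CTree.nil (CTree.cons CTree.nil (CTree.cons CTree.nil (CTree.cons CTree.nil (CTree.cons CTree.nil (CTree.cons CTree.nil (CTree.cons (CTree.leaf 1 224247450577415908988531400039456798218506)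 (CTree.cons (CTree.leaf 1 224247435000525333384048514447968078797066) (CTree.cons CTree.nil (CTree.cons CTree.nil (CTree.cons CTree.nil (CTree.cons (CTree.leaf 1 24066316855698730860290656238908348682) (CTree.cons (CTree.leaf 1 224246744435579999302540692039926609418506) (CTree.cons CTree.nil (CTree.cons (CTree.leaf 1 224247450577410466291321332610273965578506) (CTree.cons CTree.nil (CTree.cons CTree.nil (CTree.cons (CTree.leaf 1 2783092032564396871527169944821831946) (CTree.cons (CTree.leaf 1 224247450577410466291321332610273965578506) (CTree.cons (CTree.leaf 1 224247435000524838820218129695997050296586) (CTree.cons (CTree.leaf 1 224247450577410466291321332610273965578506) (CTree.cons CTree.nil (CTree.cons CTree.nil (CTree.cons CTree.nil (CTree.cons CTree.nil (CTree.cons CTree.nil (CTree.cons CTree.nil (CTree.cons CTree.nil (CTree.cons CTree.nil (CTree.cons CTree.nil CTree.nil)))))))))))))))))))))))))))))))))))) (CTree.cons CTree.nil (CTree.cons (CTree.cons CTree.nil (CTree.cons (CTree.leaf 1 89857905195454717242722484267245658308736) (CTree.cons (CTree.leaf 1 3323604573725530583664914424919401137608196360) (CTree.cons (CTree.leaf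 1 217772308933168700207994086036580877951422557126809) (CTree.cons CTree.nil (CTree.cons CTree.nil (CTree.cons CTree.nil (CTree.cons CTree.nil (CTree.cons CTree.nil (CTree.cons CTree.nil (CTree.cons CTree.nil (CTree.cons CTree.nil (CTree.cons (CTree.leaf 1 783370765799636320160961427836460012614142534484101) (CTree.cons (CTree.leaf 1 11953288241569225930074419771009878652649869442) (CTree.cons CTree.nil (CTree.cons (CTree.leaf 1 182392719446137693632884699602871595903514) (CTree.cons CTree.nil (CTree.cons CTree.nil (CTree.cons (CTree.leaf 1 11953289261622079895023905222486231150273101957) (CTree.cons (CTree.leaf 1 11953288240774979132208514832362408854968471682) (CTree.cons (CTree.leaf 1 1530933068781809950979434587532757072685594) (CTree.cons CTree.nil (CTree.cons CTree.nil (CTree.cons CTree.nil (CTree.cons (CTree.leaf 1 11953243004498382858477021734503821129685795077) (CTree.cons CTree.nil (CTree.cons (CTree.leaf 1 11953289261621917398062624050133484924514730117) (CTree.cons (CTree.leaf 1 11953289261622251577352860109974948633986596997) (CTree.cons CTree.nil (CTree.cons CTree.nil (CTree.cons CTree.nil (CTree.cons CTree.nil (CTree.cons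 CTree.nil (CTree.cons CTree.nil (CTree.cons CTree.nil (CTree.cons CTree.nil CTree.nil)))))))))))))))))))))))))))))))))))) (CTree.cons (CTree.cons CTree.nil (CTree.cons (CTree.leaf 1 225960218809024863422858139465650856067200) (CTree.cons CTree.nil (CTree.cons (CTree.leaf 1 91569198153443474833065434579717255663746) (CTree.cons CTree.nil (CTree.cons (CTree.leaf 1 15008453583210017968052870721797720884284891538) (CTree.cons CTree.nil (CTree.cons CTree.nil (CTree.cons (CTree.leaf 1 225949511449135344437152653382154811676802) (CTree.cons (CTree.leaf 1 225948862412028027583697472228836703343131) (CTree.cons CTree.nil (CTree.cons (CTree.leaf 1 36543428512397808343877631544145280485192495661189) (CTree.cons CTree.nil (CTree.cons CTree.nil (CTree.cons CTree.nil (CTree.cons CTree.nil (CTree.cons CTree.nil (CTree.cons CTree.nil (CTree.cons CTree.nil (CTree.cons (CTree.leaf 1 568538946751520592153861069961582146215628169609347) (CTree.cons (CTree.leaf 1 947056026995345362285887065494195449196180945305731) (CTree.cons CTree.nil (CTree.cons CTree.nil (CTree.cons (CTree.leaf 1 176947495596304528795061184388123003060357) (CTree.cons CTree.nil (CTree.cons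 (CTree.leaf 1 970445764312557403311477171186475377626813709746307) (CTree.cons (CTree.leaf 1 947056028566745354699888175934070832484038207406211) (CTree.cons (CTree.leaf 1 947056028566745354699888175934070832484038207406211) (CTree.cons CTree.nil (CTree.cons CTree.nil (CTree.cons CTree.nil (CTree.cons CTree.nil (CTree.cons CTree.nil (CTree.cons CTree.nil (CTree.cons CTree.nil (CTree.cons CTree.nil CTree.nil)))))))))))))))))))))))))))))))))))) (CTree.cons (CTree.cons CTree.nil (CTree.cons CTree.nil (CTree.cons (CTree.leaf 1 225948156280967642563478713735276207870082) (CTree.cons (CTree.leaf 1 828929216595930975282709062940746397188769) (CTree.cons CTree.nil (CTree.cons (CTree.leaf 1 15008583911434401446778636403209161311473242242) (CTree.cons (CTree.leaf 1 8809020356873827470689385771922939427942633602) (CTree.cons CTree.nil (CTree.cons CTree.nil (CTree.cons (CTree.leaf 1 88817145461633240739008917649945103307291) (CTree.cons CTree.nil (CTree.cons (CTree.leaf 1 1577209435486741006012038889088806474612997) (CTree.cons CTree.nil (CTree.cons CTree.nil (CTree.cons CTree.nil (CTree.cons CTree.nil (CTree.cons CTree.nil (CTree.cons CTree.nil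 (CTree.cons (CTree.leaf 1 14807825536215838248365741601219591287741878402) (CTree.cons CTree.nil (CTree.cons (CTree.leaf 1 8809020356873827473347813648060366232142221442) (CTree.cons CTree.nil (CTree.cons CTree.nil (CTree.cons (CTree.leaf 1 179669754683082005503078582310396967387397) (CTree.cons (CTree.leaf 1 14807825504320381267271835610607958403424981122) (CTree.cons CTree.nil (CTree.cons (CTree.leaf 1 8809020324978381504800456451265225395150262402) (CTree.cons (CTree.leaf 1 14807825504320381267271835610607958403424981122) (CTree.cons CTree.nil (CTree.cons CTree.nil (CTree.cons CTree.nil (CTree.cons CTree.nil (CTree.cons CTree.nil (CTree.cons CTree.nil (CTree.cons CTree.nil (CTree.cons CTree.nil CTree.nil)))))))))))))))))))))))))))))))))))) (CTree.cons CTree.nil (CTree.cons (CTree.cons CTree.nil (CTree.cons (CTree.leaf 1 24066317264695260451587176581554045056) (CTree.cons (CTree.leaf 1 3390580002838662323507156632937238658) (CTree.cons CTree.nil (CTree.cons CTree.nil (CTree.cons (CTree.leaf 1 229010697897462589734233391942871908229522) (CTree.cons (CTree.leaf 1 223226588224434079154699102467723586769435) (CTree.cons CTree.nil (CTree.cons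 (CTree.leaf 1 3364618511138743759483012199463125665) (CTree.cons CTree.nil (CTree.cons CTree.nil (CTree.cons (CTree.leaf 1 182392719446135217752806128842321797655066) (CTree.cons CTree.nil (CTree.cons CTree.nil (CTree.cons CTree.nil (CTree.cons CTree.nil (CTree.cons CTree.nil (CTree.cons CTree.nil (CTree.cons (CTree.leaf 1 220503638399925539743211965955959955718277) (CTree.cons (CTree.leaf 1 223226587899757237292508151556799083909250) (CTree.cons CTree.nil (CTree.cons CTree.nil (CTree.cons CTree.nil (CTree.cons (CTree.leaf 1 2700004512917613929198569196263385626) (CTree.cons (CTree.leaf 1 220503638745988873017538515864324814209157) (CTree.cons (CTree.leaf 1 223226587899762517799912850143070879027330) (CTree.cons (CTree.leaf 1 220503638745988873017538515864324814209157) (CTree.cons CTree.nil (CTree.cons CTree.nil (CTree.cons CTree.nil (CTree.cons CTree.nil (CTree.cons CTree.nil (CTree.cons CTree.nil (CTree.cons CTree.nil (CTree.cons CTree.nil (CTree.cons CTree.nil CTree.nil)))))))))))))))))))))))))))))))))))) (CTree.cons CTree.nil (CTree.cons (CTree.cons CTree.nil (CTree.cons (CTree.leaf 1 2036061255699619308511720612257988736) (CTree.cons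 (CTree.leaf 1 665294885201167319490342115706278018) (CTree.cons (CTree.leaf 1 55921544385271410915867698004272156802) (CTree.cons CTree.nil (CTree.cons CTree.nil (CTree.cons (CTree.leaf 1 1577210126202848225429069746974808570200464) (CTree.cons CTree.nil (CTree.cons (CTree.leaf 1 24066306090903238833063404882290147720) (CTree.cons (CTree.leaf 1 24066316855698730860290656238908348682) (CTree.cons CTree.nil (CTree.cons CTree.nil (CTree.cons CTree.nil (CTree.cons CTree.nil (CTree.cons CTree.nil (CTree.cons CTree.nil (CTree.cons CTree.nil (CTree.cons CTree.nil (CTree.cons (CTree.leaf 1 1577210806069069918120418377661080149295237) (CTree.cons (CTree.leaf 1 1577210125878181450057997425387485237612674) (CTree.cons (CTree.leaf 1 1577210806069069918120418377661080149295237) (CTree.cons CTree.nil (CTree.cons CTree.nil (CTree.cons CTree.nil (CTree.cons (CTree.leaf 1 1577210806069069918120418377661080149295237) (CTree.cons (CTree.leaf 1 1577210125878181450057997425387485237612674) (CTree.cons CTree.nil (CTree.cons (CTree.leaf 1 1577210806069069918120418377661080149295237) (CTree.cons CTree.nil (CTree.cons CTree.nil (CTree.cons CTree.nil (CTree.cons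 CTree.nil (CTree.cons CTree.nil (CTree.cons CTree.nil (CTree.cons CTree.nil (CTree.cons CTree.nil CTree.nil)))))))))))))))))))))))))))))))))))) (CTree.cons (CTree.cons CTree.nil (CTree.cons (CTree.leaf 1 834056147670512342802088933938170804895872) (CTree.cons (CTree.leaf 1 225948157103425130939044560315497767309442) (CTree.cons CTree.nil (CTree.cons CTree.nil (CTree.cons (CTree.leaf 1 229065871577835187039986247461231740522626) (CTree.cons CTree.nil (CTree.cons CTree.nil (CTree.cons (CTree.leaf 1 220503638572959846674365279260259907863201) (CTree.cons (CTree.leaf 1 225948157103425130931499342372452686233861) (CTree.cons CTree.nil (CTree.cons (CTree.leaf 1 1577210141455064599384630497039719548452997) (CTree.cons CTree.nil (CTree.cons (CTree.leaf 1 6774065909531760844380468016842654603573463350248097) (CTree.cons CTree.nil (CTree.cons (CTree.leaf 1 220503638562184816572425329347537966006405) (CTree.cons CTree.nil (CTree.cons (CTree.leaf 1 1577210806069069918158197309524037311004805) (CTree.cons CTree.nil (CTree.cons CTree.nil (CTree.cons CTree.nil (CTree.cons CTree.nil (CTree.cons CTree.nil (CTree.cons CTree.nil (CTree.cons CTree.nil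 (CTree.cons (CTree.leaf 1 36543363005000103626103707804501298471776174473347) (CTree.cons (CTree.leaf 1 947056028566745396238263044212691860728008841166979) (CTree.cons (CTree.leaf 1 36551991861442842078738167368612996318795663474819) (CTree.cons CTree.nil (CTree.cons CTree.nil (CTree.cons CTree.nil (CTree.cons CTree.nil (CTree.cons CTree.nil (CTree.cons CTree.nil (CTree.cons CTree.nil (CTree.cons CTree.nil CTree.nil)))))))))))))))))))))))))))))))))))) (CTree.cons (CTree.cons CTree.nil (CTree.cons CTree.nil (CTree.cons (CTree.leaf 1 43559534388392611499598326705069285904514) (CTree.cons (CTree.leaf 1 14339470731853830825184195014420157904768274562) (CTree.cons CTree.nil (CTree.cons (CTree.leaf 1 229054572967463413053552017886408724844674) (CTree.cons (CTree.leaf 1 5954478693060342633479827448622996557561663618) (CTree.cons CTree.nil (CTree.cons (CTree.leaf 1 225949511449135344437152153771695084274337) (CTree.cons CTree.nil (CTree.cons CTree.nil (CTree.cons (CTree.leaf 1 1577209435486741006012038889088806474612997) (CTree.cons (CTree.leaf 1 5954481362680269917843328493762316171873425538) (CTree.cons CTree.nil (CTree.cons CTree.nil (CTree.cons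 (CTree.leaf 1 223226587899759713172586722317348882157698) (CTree.cons CTree.nil (CTree.cons (CTree.leaf 1 1577209435627376274947157018152773721522437) (CTree.cons CTree.nil (CTree.cons CTree.nil (CTree.cons CTree.nil (CTree.cons CTree.nil (CTree.cons CTree.nil (CTree.cons CTree.nil (CTree.cons (CTree.leaf 1 5954478640420693919004409000573213901865422978) (CTree.cons CTree.nil (CTree.cons (CTree.leaf 1 5956433902901021619033767132527910037047542433) (CTree.cons (CTree.leaf 1 5954478651075124496528396023897050417238970498) (CTree.cons CTree.nil (CTree.cons CTree.nil (CTree.cons CTree.nil (CTree.cons CTree.nil (CTree.cons CTree.nil (CTree.cons CTree.nil (CTree.cons CTree.nil (CTree.cons CTree.nil CTree.nil)))))))))))))))))))))))))))))))))))) (CTree.cons (CTree.cons CTree.nil (CTree.cons (CTree.leaf 1 225960218809024863422858139465650856067200) (CTree.cons CTree.nil (CTree.cons (CTree.leaf 1 2178488378495767860640753980087581255209090) (CTree.cons CTree.nil (CTree.cons (CTree.leaf 1 15008445130010529876660312469819543750675405066) (CTree.cons (CTree.leaf 1 14517917526660648554884235691919991073539162648) (CTree.cons CTree.nil (CTree.cons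 CTree.nil (CTree.cons (CTree.leaf 1 225948862412028027583697472228836703343131) (CTree.cons CTree.nil (CTree.cons (CTree.leaf 1 1577210141455064599384630497039719548452997) (CTree.cons (CTree.leaf 1 14807738368658729049742992979454711408385262241) (CTree.cons (CTree.leaf 1 14517917494749278998615997755590410555271217688) (CTree.cons CTree.nil (CTree.cons CTree.nil (CTree.cons CTree.nil (CTree.cons (CTree.leaf 1 1577210806069069918158197309524037311004805) (CTree.cons CTree.nil (CTree.cons CTree.nil (CTree.cons CTree.nil (CTree.cons CTree.nil (CTree.cons CTree.nil (CTree.cons CTree.nil (CTree.cons (CTree.leaf 1 14807738368658242363851233290338739226308969121) (CTree.cons (CTree.leaf 1 14517917494749278991189682272803782357325775249) (CTree.cons CTree.nil (CTree.cons (CTree.leaf 1 14807738368658242363851233290338739226327187851) (CTree.cons CTree.nil (CTree.cons CTree.nil (CTree.cons CTree.nil (CTree.cons CTree.nil (CTree.cons CTree.nil (CTree.cons CTree.nil (CTree.cons CTree.nil (CTree.cons CTree.nil CTree.nil)))))))))))))))))))))))))))))))))))) (CTree.cons CTree.nil (CTree.cons CTree.nil (CTree.cons (CTree.cons CTree.nil (CTree.cons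 (CTree.leaf 1 23360164889303861168852604099845816448) (CTree.cons (CTree.leaf 1 664970445875671405874130623693197442) (CTree.cons (CTree.leaf 1 43578797637960918354604170236730940664346) (CTree.cons CTree.nil (CTree.cons CTree.nil (CTree.cons (CTree.leaf 1 179670445258553955984990234252536526279059) (CTree.cons CTree.nil (CTree.cons (CTree.leaf 1 2700004513081871910951020206015719962) (CTree.cons (CTree.leaf 1 2783092032564396871527169944821831946) (CTree.cons CTree.nil (CTree.cons CTree.nil (CTree.cons (CTree.leaf 1 176947495434045251965847820996544992772229) (CTree.cons (CTree.leaf 1 179670444933887180613918989545108483477634) (CTree.cons CTree.nil (CTree.cons (CTree.leaf 1 2700004512917613929198569196263385626) (CTree.cons CTree.nil (CTree.cons CTree.nil (CTree.cons CTree.nil (CTree.cons CTree.nil (CTree.cons CTree.nil (CTree.cons CTree.nil (CTree.cons CTree.nil (CTree.cons CTree.nil (CTree.cons (CTree.leaf 1 182393384060138205832814539891791829270661) (CTree.cons (CTree.leaf 1 182392703869249737770393587618231276802178) (CTree.cons (CTree.leaf 1 176947495769333719552145888581755634057349) (CTree.cons CTree.nil (CTree.cons CTree.nil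 (CTree.cons CTree.nil (CTree.cons CTree.nil (CTree.cons CTree.nil (CTree.cons CTree.nil (CTree.cons CTree.nil (CTree.cons CTree.nil (CTree.cons CTree.nil CTree.nil)))))))))))))))))))))))))))))))))))) (CTree.cons (CTree.cons CTree.nil (CTree.cons (CTree.leaf 1 1577221497049502906942558365965169562026112) (CTree.cons (CTree.leaf 1 43559591504918289190284663078102467940482) (CTree.cons (CTree.leaf 1 103363997552729326184472136555863283481910444705) (CTree.cons CTree.nil (CTree.cons CTree.nil (CTree.cons CTree.nil (CTree.cons CTree.nil (CTree.cons (CTree.leaf 1 220503638745991513311528554214442337108641) (CTree.cons (CTree.leaf 1 225948862412020601305994117928423793492101) (CTree.cons CTree.nil (CTree.cons (CTree.leaf 1 1577209435627368848631528272350561882996997) (CTree.cons CTree.nil (CTree.cons (CTree.leaf 1 48332918074741410159779060435179676001542389891745) (CTree.cons CTree.nil (CTree.cons (CTree.leaf 1 220503638745991348897617086624874612457605) (CTree.cons CTree.nil (CTree.cons (CTree.leaf 1 1577210806069069918158197309524037311004805) (CTree.cons CTree.nil (CTree.cons (CTree.leaf 1 48235375360470636773497792011373681531564362633755)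 (CTree.cons (CTree.leaf 1 48232520865063962571134272579896285233495624716827) (CTree.cons CTree.nil (CTree.cons CTree.nil (CTree.cons (CTree.leaf 1 182393384060138205870593471754748990980229) (CTree.cons CTree.nil (CTree.cons CTree.nil (CTree.cons CTree.nil (CTree.cons CTree.nil (CTree.cons CTree.nil (CTree.cons CTree.nil (CTree.cons CTree.nil (CTree.cons CTree.nil (CTree.cons CTree.nil (CTree.cons CTree.nil (CTree.cons CTree.nil (CTree.cons CTree.nil CTree.nil)))))))))))))))))))))))))))))))))))) (CTree.cons (CTree.cons CTree.nil (CTree.cons CTree.nil (CTree.cons (CTree.leaf 1 43612105735615241507371797949599533043842) (CTree.cons (CTree.leaf 1 2178488377663171341114494758611572400132226) (CTree.cons CTree.nil (CTree.cons (CTree.leaf 1 229065871577835187039986247461231740522626) (CTree.cons (CTree.leaf 1 14629332407734438334878236819511454905688723586) (CTree.cons CTree.nil (CTree.cons (CTree.leaf 1 225949511449127918159447684265105164468897) (CTree.cons (CTree.leaf 1 225948156584332276830596362745856047841541) (CTree.cons CTree.nil (CTree.cons CTree.nil (CTree.cons (CTree.leaf 1 14807738392034449509510629403991779139087631009) (CTree.cons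 CTree.nil (CTree.cons CTree.nil (CTree.cons (CTree.leaf 1 223226587899762517837691782006028040736898) (CTree.cons CTree.nil (CTree.cons (CTree.leaf 1 1577209435627376274947157018152773721522437) (CTree.cons (CTree.leaf 1 14629332407734438334878236819511456649418838146) (CTree.cons CTree.nil (CTree.cons (CTree.leaf 1 54659352429754837648276460563624687397207347739) (CTree.cons CTree.nil (CTree.cons CTree.nil (CTree.cons (CTree.leaf 1 182392013640073520989198589752792564367621) (CTree.cons CTree.nil (CTree.cons CTree.nil (CTree.cons CTree.nil (CTree.cons CTree.nil (CTree.cons CTree.nil (CTree.cons CTree.nil (CTree.cons CTree.nil (CTree.cons CTree.nil (CTree.cons CTree.nil (CTree.cons CTree.nil (CTree.cons CTree.nil (CTree.cons CTree.nil CTree.nil)))))))))))))))))))))))))))))))))))) (CTree.cons (CTree.cons CTree.nil (CTree.cons (CTree.leaf 1 225960218322338971663169023492283386888320) (CTree.cons CTree.nil (CTree.cons (CTree.leaf 1 2854717613864668371941929434515808256307298977) (CTree.cons CTree.nil (CTree.cons (CTree.leaf 1 15008445076815773555366327070880716555784159385) (CTree.cons (CTree.leaf 1 8987332717425054008357062077408201356076384929)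 (CTree.cons CTree.nil (CTree.cons CTree.nil (CTree.cons (CTree.leaf 1 225948862412028027583698587435013713297541) (CTree.cons CTree.nil (CTree.cons (CTree.leaf 1 1577210141455064599384630497039719548452997) (CTree.cons (CTree.leaf 1 14807738368658729049742992979454711408385262241) (CTree.cons (CTree.leaf 1 8987332688296268633958108499700486543304688289) (CTree.cons CTree.nil (CTree.cons (CTree.leaf 1 220503638745991348897617086624874612457605) (CTree.cons CTree.nil (CTree.cons CTree.nil (CTree.cons (CTree.leaf 1 14807738368658729049742992979454711408385262241) (CTree.cons (CTree.leaf 1 8987332688296268633958108500353498524949283489) (CTree.cons CTree.nil (CTree.cons CTree.nil (CTree.cons CTree.nil (CTree.cons (CTree.leaf 1 176947495769336195432224459342305432305797) (CTree.cons CTree.nil (CTree.cons CTree.nil (CTree.cons CTree.nil (CTree.cons CTree.nil (CTree.cons CTree.nil (CTree.cons CTree.nil (CTree.cons CTree.nil (CTree.cons CTree.nil (CTree.cons CTree.nil (CTree.cons CTree.nil (CTree.cons CTree.nil (CTree.cons CTree.nil CTree.nil)))))))))))))))))))))))))))))))))))) (CTree.cons (CTree.cons CTree.nil (CTree.cons (CTree.leaf 1 1577221497049502906942558365965169562026112)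 (CTree.cons (CTree.leaf 1 43580210114483297183214014315731313823874) (CTree.cons CTree.nil (CTree.cons CTree.nil (CTree.cons (CTree.leaf 1 15008450860218948233464310811447322494128302618) (CTree.cons (CTree.leaf 1 14629377685876511816762754613860950615832855201) (CTree.cons CTree.nil (CTree.cons (CTree.leaf 1 220503638745991513311528554214442337108641) (CTree.cons CTree.nil (CTree.cons CTree.nil (CTree.cons (CTree.leaf 1 1577210141455064599384630497039719548452997) (CTree.cons (CTree.leaf 1 14450926468857126782077404175684398660498555013) (CTree.cons (CTree.leaf 1 14629377664598836366535088546976300764154105986) (CTree.cons CTree.nil (CTree.cons CTree.nil (CTree.cons CTree.nil (CTree.cons (CTree.leaf 1 1577210806069069918158197309524037311004805) (CTree.cons (CTree.leaf 1 14450926445481406317546561835988882178123694753) (CTree.cons (CTree.leaf 1 14629377664598803962216507042699848730002260641) (CTree.cons (CTree.leaf 1 14450926445481406317546561835988882178123694753) (CTree.cons CTree.nil (CTree.cons CTree.nil (CTree.cons CTree.nil (CTree.cons CTree.nil (CTree.cons CTree.nil (CTree.cons CTree.nil (CTree.cons CTree.nil (CTree.cons CTree.nil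 (CTree.cons CTree.nil (CTree.cons CTree.nil (CTree.cons CTree.nil (CTree.cons CTree.nil (CTree.cons CTree.nil (CTree.cons CTree.nil (CTree.cons CTree.nil CTree.nil)))))))))))))))))))))))))))))))))))) (CTree.cons CTree.nil (CTree.cons CTree.nil (CTree.cons CTree.nil (CTree.cons CTree.nil (CTree.cons CTree.nil (CTree.cons CTree.nil (CTree.cons CTree.nil (CTree.cons CTree.nil CTree.nil)))))))))))))))))))))))))))))))))))

theorem tree6_5_4_ok : chk 6 (pk (goalL 6)) tree6_5_4 (stk [((5 : Fin 6), (4 : Fin 6))]) 1 (om [((5 : Fin 6), (4 : Fin 6))]) (im [((5 : Fin 6), (4 : Fin 6))])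
    (cm [((5 : Fin 6), (4 : Fin 6))]) (pk (goalR [((5 : Fin 6), (4 : Fin 6))])) 0 = true := by
  decide +kernel

end Vale.Agent.Lib.P333
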